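import Vale.Agent.P031.Pins

/-!
# P031: Mertens in cells

Legendre's formula gives `∑_{p ≤ N} log p / p = log N + O(1)`.  Telescoping over the unit ranges of
`log p` gives `∑ 1 / p` over a range of `log log p` with error `O(1)`.
-/

namespace Vale.Agent.P031

open Finset Filter

/-- `∑_{p ≤ N} log p / p`. -/
noncomputable def mertSum (N : ℕ) : ℝ :=
  ∑ p ∈ (Finset.range (N + 1)).filter Nat.Prime, Real.log p / p

theorem log_factorial_eq (N : ℕ) :
    Real.log (N.factorial : ℝ)
      = ∑ p ∈ (Finset.range (N + 1)).filter Nat.Prime,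
          (padicValNat p N.factorial : ℝ) * Real.log p := by
  rw [Real.log_nat_eq_sum_factorization, Finsupp.sum_of_support_subset _
    (s := (Finset.range (N + 1)).filter Nat.Prime) ?_ _ (by simp)]
  · refine sum_congr rfl fun p hp => ?_
    rw [Nat.factorization_def _ (mem_filter.1 hp).2]
  · intro p hp
    rw [Nat.support_factorization, Nat.mem_primeFactors] at hp
    rw [mem_filter, mem_range]
    exact ⟨Nat.lt_succ_of_le ((hp.1.dvd_factorial).1 hp.2.1), hp.1⟩

theorem padicVal_factorial_bounds {p N : ℕ} (hp : p.Prime) :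
    (N : ℝ) / p - 1 ≤ padicValNat p N.factorial ∧
      (padicValNat p N.factorial : ℝ) ≤ (N : ℝ) / p + (N : ℝ) / (p * ((p : ℝ) - 1)) := by
  have := Fact.mk hp
  have hp2 : (2 : ℝ) ≤ p := by exact_mod_cast hp.two_le
  constructor
  · have h1 : N / p ≤ padicValNat p N.factorial := by
      rw [padicValNat_factorial (Nat.lt_succ_self (Nat.log p N))]
      rcases Nat.eq_zero_or_pos (Nat.log p N) with h0 | h0
      · have : N < p := by
          rcases Nat.log_eq_zero_iff.1 h0 with h | h
          · exact h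
          · exact absurd h (not_le.2 hp.one_lt)
        rw [Nat.div_eq_of_lt this]
        exact Nat.zero_le _
      · have hmem : 1 ∈ Finset.Ico 1 (Nat.log p N).succ := mem_Ico.2 ⟨le_rfl, by omega⟩
        simpa using single_le_sum (f := fun i => N / p ^ i) (fun i _ => Nat.zero_le _) hmem
    have h2 : (N : ℝ) / p - 1 ≤ ((N / p : ℕ) : ℝ) := by
      rw [sub_le_iff_le_add, div_le_iff₀ (by linarith)]
      have := Nat.lt_mul_div_succ N hp.pos
      have h3 : (N : ℝ) < p * (((N / p : ℕ) : ℝ) + 1) := by exact_mod_cast this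
      linarith
    exact h2.trans (by exact_mod_cast h1)
  · have h1 : (p - 1) * padicValNat p N.factorial ≤ N := by
      rw [sub_one_mul_padicValNat_factorial]
      exact Nat.sub_le _ _
    have h2 : ((p : ℝ) - 1) * (padicValNat p N.factorial : ℝ) ≤ N := by
      have : (((p - 1) * padicValNat p N.factorial : ℕ) : ℝ) ≤ (N : ℝ) := by exact_mod_cast h1
      rwa [Nat.cast_mul, Nat.cast_sub hp.one_le, Nat.cast_one] at this
    have e : (N : ℝ) / p + (N : ℝ) / (p * ((p : ℝ) - 1)) = (N : ℝ) / ((p : ℝ) - 1) := by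
      field_simp [show (p : ℝ) - 1 ≠ 0 by linarith]
      ring
    rw [e, le_div_iff₀ (by linarith)]
    linarith

/-- Mertens' first theorem. -/
theorem exists_mertSum_bound :
    ∃ A : ℝ, ∀ N : ℕ, 1 ≤ N → |mertSum N - Real.log N| ≤ A := by
  have hs : Summable fun n : ℕ => 4 * ((n : ℝ) ^ (3 / 2 : ℝ))⁻¹ :=
    ((Real.summable_nat_rpow_inv).2 (by norm_num)).mul_left 4
  refine ⟨Real.log 4 + 1 + ∑' n : ℕ, 4 * ((n : ℝ) ^ (3 / 2 : ℝ))⁻¹, fun N hN => ?_⟩
  set P := (Finset.range (N + 1)).filter Nat.Prime with hP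
  have hN0 : (0 : ℝ) < N := by exact_mod_cast hN
  have hlow : (N : ℝ) * Real.log N - N ≤ Real.log (N.factorial : ℝ) := by
    have h := Real.pow_div_factorial_le_exp (N : ℝ) hN0.le N
    rw [div_le_iff₀ (by positivity)] at h
    have h' := Real.log_le_log (by positivity) h
    rw [Real.log_pow, Real.log_mul (Real.exp_pos _).ne' (by positivity), Real.log_exp] at h'
    linarith
  have hup : Real.log (N.factorial : ℝ) ≤ N * Real.log N := by
    rw [← Real.log_pow]
    exact Real.log_le_log (by positivity) (by exact_mod_cast Nat.factorial_le_pow N)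
  have hθ : ∑ p ∈ P, Real.log p ≤ Real.log 4 * N := by
    have h := Chebyshev.theta_le_log4_mul_x (x := (N : ℝ)) hN0.le
    rw [Chebyshev.theta_eq_sum_primesLE_log] at h
    refine le_trans (le_of_eq ?_) h
    refine sum_congr ?_ fun _ _ => rfl
    ext p
    simp [hP, Nat.primesLE, Nat.mem_primesBelow]
  have hlogp : ∀ p ∈ P, 0 ≤ Real.log (p : ℝ) := fun p hp =>
    Real.log_nonneg (by exact_mod_cast (mem_filter.1 hp).2.one_le)
  have hM : mertSum N = ∑ p ∈ P, Real.log p / p := rfl
  have hA : (N : ℝ) * mertSum N - Real.log 4 * N ≤ Real.log (N.factorial : ℝ) := by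
    rw [log_factorial_eq, ← hP, hM, mul_sum]
    refine le_trans (sub_le_sub_left hθ _) ?_
    rw [← sum_sub_distrib]
    refine sum_le_sum fun p hp => ?_
    have := mul_le_mul_of_nonneg_right (padicVal_factorial_bounds (N := N) (mem_filter.1 hp).2).1
      (hlogp p hp)
    calc (N : ℝ) * (Real.log p / p) - Real.log p = ((N : ℝ) / p - 1) * Real.log p := by ring
      _ ≤ _ := this
  have hB : Real.log (N.factorial : ℝ)
      ≤ N * mertSum N + N * ∑' n : ℕ, 4 * ((n : ℝ) ^ (3 / 2 : ℝ))⁻¹ := by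
    refine le_trans ?_ (add_le_add le_rfl
      (mul_le_mul_of_nonneg_left (hs.sum_le_tsum P fun n _ => by positivity) hN0.le))
    rw [log_factorial_eq, ← hP, hM, mul_sum, mul_sum, ← sum_add_distrib]
    refine sum_le_sum fun p hp => ?_
    have hpr := (mem_filter.1 hp).2
    refine (mul_le_mul_of_nonneg_right (padicVal_factorial_bounds (N := N) hpr).2 (hlogp p hp)).trans ?_
    have hp2 : (2 : ℝ) ≤ p := by exact_mod_cast hpr.two_le
    have hsq : (p : ℝ) ^ (3 / 2 : ℝ) = (p : ℝ) * (p : ℝ) ^ (1 / 2 : ℝ) := by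
      rw [← Real.rpow_one_add' (by linarith) (by norm_num)]
      norm_num
    have hlog : Real.log p ≤ 2 * (p : ℝ) ^ (1 / 2 : ℝ) := by
      have := Real.log_le_rpow_div (show (0 : ℝ) ≤ p by linarith) (show (0 : ℝ) < 1 / 2 by norm_num)
      linarith
    have hr : 0 < (p : ℝ) ^ (1 / 2 : ℝ) := by positivity
    have hkey : Real.log p / ((p : ℝ) * ((p : ℝ) - 1)) ≤ 4 * ((p : ℝ) ^ (3 / 2 : ℝ))⁻¹ := by
      rw [hsq, ← div_eq_mul_inv, div_le_div_iff₀ (by nlinarith) (by positivity)]
      have h5 := mul_le_mul_of_nonneg_right hlog (show 0 ≤ (p : ℝ) * (p : ℝ) ^ (1 / 2 : ℝ) by positivity)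
      have h6 : (p : ℝ) ^ (1 / 2 : ℝ) * (p : ℝ) ^ (1 / 2 : ℝ) = p := by
        rw [← Real.rpow_add (by linarith)]
        norm_num
      nlinarith
    have := mul_le_mul_of_nonneg_left hkey hN0.le
    calc ((N : ℝ) / p + N / (p * ((p : ℝ) - 1))) * Real.log p
        = N * (Real.log p / p) + N * (Real.log p / ((p : ℝ) * ((p : ℝ) - 1))) := by ring
      _ ≤ _ := by linarith
  have hpos : 0 ≤ ∑' n : ℕ, 4 * ((n : ℝ) ^ (3 / 2 : ℝ))⁻¹ := tsum_nonneg fun n => by positivity
  have h4 : 0 ≤ Real.log 4 := Real.log_nonneg (by norm_num)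
  rw [abs_le]
  constructor <;> nlinarith

/-- The bucket of primes with `log p` in `(k, k + 1]`. -/
noncomputable def bucket (k : ℕ) : Finset ℕ :=
  (Finset.range (⌊Real.exp ((k : ℝ) + 1)⌋₊ + 1)).filter
    (fun p => p.Prime ∧ (k : ℝ) < Real.log p)

theorem mem_bucket {k p : ℕ} :
    p ∈ bucket k ↔ p.Prime ∧ (k : ℝ) < Real.log p ∧ Real.log p ≤ (k : ℝ) + 1 := by
  simp only [bucket, mem_filter, mem_range, Nat.lt_succ_iff]
  constructor
  · rintro ⟨h1, h2, h3⟩
    refine ⟨h2, h3, ?_⟩
    rw [Nat.le_floor_iff (Real.exp_pos _).le] at h1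
    exact (Real.log_le_iff_le_exp (by exact_mod_cast h2.pos)).2 h1
  · rintro ⟨h2, h3, h4⟩
    refine ⟨?_, h2, h3⟩
    rw [Nat.le_floor_iff (Real.exp_pos _).le]
    exact (Real.log_le_iff_le_exp (by exact_mod_cast h2.pos)).1 h4

/-- `mertSum` at `exp k`. -/
noncomputable def mertAt (k : ℕ) : ℝ := mertSum ⌊Real.exp k⌋₊

theorem exists_mertAt_bound : ∃ B : ℝ, 0 ≤ B ∧ ∀ k : ℕ, |mertAt k - k| ≤ B := by
  obtain ⟨A, hA⟩ := exists_mertSum_bound
  refine ⟨|A| + 1, by positivity, fun k => ?_⟩
  set N := ⌊Real.exp (k : ℝ)⌋₊ with hN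
  have h1 : 1 ≤ N := Nat.le_floor (by simp)
  have h2 := hA N h1
  have hN0 : (0 : ℝ) < N := by exact_mod_cast h1
  have h3 : Real.log N ≤ k :=
    (Real.log_le_iff_le_exp hN0).2 (Nat.floor_le (Real.exp_pos _).le)
  have h4 : (k : ℝ) - 1 ≤ Real.log N := by
    rw [Real.le_log_iff_exp_le hN0, Real.exp_sub]
    have h5 := Nat.lt_floor_add_one (Real.exp (k : ℝ))
    have h6 : (1 : ℝ) ≤ N := by exact_mod_cast h1
    have h7 : (2 : ℝ) ≤ Real.exp 1 := by have := Real.add_one_le_exp (1 : ℝ); linarith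
    rw [div_le_iff₀ (Real.exp_pos _)]
    rw [← hN] at h5
    nlinarith
  have h8 := abs_le.1 h2
  have h9 := le_abs_self A
  rw [abs_le, mertAt, ← hN]
  constructor <;> linarith

theorem sum_bucket_log (k : ℕ) :
    ∑ p ∈ bucket k, Real.log p / p = mertAt (k + 1) - mertAt k := by
  rw [mertAt, mertAt, mertSum, mertSum, eq_sub_iff_add_eq']
  have hd : Disjoint ((Finset.range (⌊Real.exp (k : ℝ)⌋₊ + 1)).filter Nat.Prime) (bucket k) := by
    rw [disjoint_left]
    intro p hp hb
    simp only [mem_filter, mem_range, Nat.lt_succ_iff] at hp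
    rw [Nat.le_floor_iff (Real.exp_pos _).le] at hp
    have := (mem_bucket.1 hb).2.1
    have h2 := (Real.log_le_iff_le_exp (by exact_mod_cast hp.2.pos)).2 hp.1
    linarith
  rw [← sum_union hd]
  refine sum_congr ?_ fun _ _ => rfl
  ext p
  simp only [mem_union, mem_filter, mem_range, Nat.lt_succ_iff, mem_bucket, Nat.cast_add,
    Nat.cast_one, Nat.le_floor_iff (Real.exp_pos _).le]
  constructor
  · rintro (⟨h1, h2⟩ | ⟨h2, -, h3⟩)
    · exact ⟨h1.trans (Real.exp_le_exp.2 (by linarith)), h2⟩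
    · exact ⟨(Real.log_le_iff_le_exp (by exact_mod_cast h2.pos)).1 h3, h2⟩
  · rintro ⟨h1, h2⟩
    have hp : (0 : ℝ) < p := by exact_mod_cast h2.pos
    by_cases h : (k : ℝ) < Real.log p
    · exact Or.inr ⟨h2, h, (Real.log_le_iff_le_exp hp).2 h1⟩
    · exact Or.inl ⟨(Real.log_le_iff_le_exp hp).1 (not_lt.1 h), h2⟩

theorem sum_bucket_le {k : ℕ} (hk : 1 ≤ k) :
    ∑ p ∈ bucket k, (1 : ℝ) / p ≤ (mertAt (k + 1) - mertAt k) / k := by
  rw [← sum_bucket_log, sum_div]
  refine sum_le_sum fun p hp => ?_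
  obtain ⟨h1, h2, -⟩ := mem_bucket.1 hp
  have hk0 : (0 : ℝ) < k := by exact_mod_cast hk
  have hp0 : (0 : ℝ) < p := by exact_mod_cast h1.pos
  rw [le_div_iff₀ hk0, div_mul_eq_mul_div, div_le_div_iff_of_pos_right hp0]
  linarith

theorem le_sum_bucket (k : ℕ) :
    (mertAt (k + 1) - mertAt k) / ((k : ℝ) + 1) ≤ ∑ p ∈ bucket k, (1 : ℝ) / p := by
  rw [← sum_bucket_log, sum_div]
  refine sum_le_sum fun p hp => ?_
  obtain ⟨h1, -, h3⟩ := mem_bucket.1 hp
  have hp0 : (0 : ℝ) < p := by exact_mod_cast h1.pos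
  rw [div_le_iff₀ (by positivity), div_mul_eq_mul_div, div_le_div_iff_of_pos_right hp0]
  linarith

/-- The two-sided bound on a range of buckets. -/
theorem exists_range_bound :
    ∃ C : ℝ, 0 ≤ C ∧ ∀ m n : ℕ, 1 ≤ m → m ≤ n →
      |(∑ k ∈ Finset.Ico m n, ∑ p ∈ bucket k, (1 : ℝ) / p) - (Real.log n - Real.log m)| ≤ C := by
  obtain ⟨B, hB0, hB⟩ := exists_mertAt_bound
  refine ⟨3 * B + 1, by positivity, fun m n hm hmn => ?_⟩
  have hup : ∀ n, m ≤ n →
      ∑ k ∈ Finset.Ico m n, ∑ p ∈ bucket k, (1 : ℝ) / p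
        ≤ (Real.log n - Real.log m) + (mertAt n - n - B) / n - (mertAt m - m - B) / m
          + (1 / (m : ℝ) - 1 / n) := by
    intro n hn
    induction n, hn using Nat.le_induction with
    | base => simp
    | succ k hk ih =>
      rw [sum_Ico_succ_top hk]
      have hk0 : (0 : ℝ) < k := by exact_mod_cast lt_of_lt_of_le hm hk
      refine (add_le_add ih (sum_bucket_le (hm.trans hk))).trans ?_
      have hl : 1 / ((k : ℝ) + 1) ≤ Real.log ((k : ℝ) + 1) - Real.log k := by
        have := Real.log_le_sub_one_of_pos (show 0 < (k : ℝ) / ((k : ℝ) + 1) by positivity)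
        rw [Real.log_div hk0.ne' (by positivity)] at this
        have e : (k : ℝ) / ((k : ℝ) + 1) - 1 = -(1 / ((k : ℝ) + 1)) := by field_simp; ring
        linarith
      have hE := (abs_le.1 (hB (k + 1))).2
      push_cast at hE ⊢
      generalize mertAt (k + 1) = u at hE ⊢
      generalize mertAt k = v
      generalize Real.log ((k : ℝ) + 1) = lk at hl ⊢
      have e : (u - v) / (k : ℝ) = 1 / ((k : ℝ) + 1) + (1 / (k : ℝ) - 1 / ((k : ℝ) + 1))
          + ((u - ((k : ℝ) + 1) - B) / ((k : ℝ) + 1) - (v - k - B) / k)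
          + ((u - ((k : ℝ) + 1) - B) * (1 / (k : ℝ) - 1 / ((k : ℝ) + 1))) := by
        field_simp
        ring
      have h0 : 0 ≤ 1 / (k : ℝ) - 1 / ((k : ℝ) + 1) := by
        rw [sub_nonneg]
        exact one_div_le_one_div_of_le hk0 (by linarith)
      have h1 := mul_nonpos_of_nonpos_of_nonneg (show u - ((k : ℝ) + 1) - B ≤ 0 by linarith) h0
      linarith
  have hlo : ∀ n, m ≤ n →
      (Real.log n - Real.log m) + (mertAt n - n + B) / n - (mertAt m - m + B) / m
          - (1 / (m : ℝ) - 1 / n)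
        ≤ ∑ k ∈ Finset.Ico m n, ∑ p ∈ bucket k, (1 : ℝ) / p := by
    intro n hn
    induction n, hn using Nat.le_induction with
    | base => simp
    | succ k hk ih =>
      rw [sum_Ico_succ_top hk]
      have hk0 : (0 : ℝ) < k := by exact_mod_cast lt_of_lt_of_le hm hk
      refine le_trans ?_ (add_le_add ih (le_sum_bucket k))
      have hl : Real.log ((k : ℝ) + 1) - Real.log k ≤ 1 / (k : ℝ) := by
        have := Real.log_le_sub_one_of_pos (show 0 < ((k : ℝ) + 1) / k by positivity)
        rw [Real.log_div (by positivity) hk0.ne'] at this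
        have e : ((k : ℝ) + 1) / k - 1 = 1 / (k : ℝ) := by field_simp; ring
        linarith
      have hE := (abs_le.1 (hB k)).1
      push_cast
      generalize mertAt (k + 1) = u
      generalize mertAt k = v at hE ⊢
      generalize Real.log ((k : ℝ) + 1) = lk at hl ⊢
      have e : (u - v) / ((k : ℝ) + 1) = 1 / (k : ℝ) - (1 / (k : ℝ) - 1 / ((k : ℝ) + 1))
          + ((u - ((k : ℝ) + 1) + B) / ((k : ℝ) + 1) - (v - k + B) / k)
          + ((v - k + B) * (1 / (k : ℝ) - 1 / ((k : ℝ) + 1))) := by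
        field_simp
        ring
      have h0 : 0 ≤ 1 / (k : ℝ) - 1 / ((k : ℝ) + 1) := by
        rw [sub_nonneg]
        exact one_div_le_one_div_of_le hk0 (by linarith)
      have h1 := mul_nonneg (show 0 ≤ v - k + B by linarith) h0
      linarith
  have hm0 : (1 : ℝ) ≤ m := by exact_mod_cast hm
  have hn0 : (1 : ℝ) ≤ n := by exact_mod_cast hm.trans hmn
  have hEm := abs_le.1 (hB m)
  have hEn := abs_le.1 (hB n)
  have bm : 1 / (m : ℝ) ≤ 1 := by rw [div_le_one (by linarith)]; exact hm0
  have bn : 0 ≤ 1 / (n : ℝ) := by positivity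
  rw [abs_le]
  constructor
  · refine le_trans ?_ (sub_le_sub_right (hlo n hmn) _)
    have q1 : 0 ≤ (mertAt n - n + B) / n := div_nonneg (by linarith) (by linarith)
    have q2 : (mertAt m - m + B) / m ≤ 2 * B := by
      rw [div_le_iff₀ (by linarith)]; nlinarith
    linarith
  · refine (sub_le_sub_right (hup n hmn) _).trans ?_
    have q1 : (mertAt n - n - B) / n ≤ 0 := div_nonpos_of_nonpos_of_nonneg (by linarith) (by linarith)
    have q2 : -(2 * B) ≤ (mertAt m - m - B) / m := by
      rw [le_div_iff₀ (by linarith)]; nlinarith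
    linarith

theorem bucket_disjoint (s : Set ℕ) : s.PairwiseDisjoint bucket := by
  intro i _ j _ hij
  rw [Function.onFun, disjoint_left]
  intro p hi hj
  obtain ⟨-, a1, a2⟩ := mem_bucket.1 hi
  obtain ⟨-, b1, b2⟩ := mem_bucket.1 hj
  rcases lt_or_gt_of_ne hij with h | h
  · have : (i : ℝ) + 1 ≤ j := by exact_mod_cast h
    linarith
  · have : (j : ℝ) + 1 ≤ i := by exact_mod_cast h
    linarith

theorem cellMassPin : CellMassPin := by
  obtain ⟨C, hC0, hC⟩ := exists_range_bound
  refine ⟨C + 4, ?_⟩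
  have hll : Tendsto llx atTop atTop := Real.tendsto_log_atTop.comp Real.tendsto_log_atTop
  filter_upwards [hll.eventually_ge_atTop 1] with x hL
  set J := numCells x with hJ
  set w := width x with hw
  have hJpos : 0 < J := Nat.ceil_pos.2 (Real.rpow_pos_of_pos (by linarith) _)
  have hJr : (0 : ℝ) < J := by exact_mod_cast hJpos
  have hwpos : 0 < w := div_pos (by linarith) hJr
  have hJw : (J : ℝ) * w = llx x := by rw [hw, width, ← hJ]; field_simp
  have hlogpos : ∀ r : ℕ, r.Prime → 0 < Real.log (r : ℝ) := fun r hr =>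
    Real.log_pos (by exact_mod_cast hr.one_lt)
  have hmem : ∀ {j r : ℕ}, r ∈ cellPrimes x j ↔ r.Prime ∧ cell x r = j ∧ ll r ≤ llx x + 1 := by
    intro j r
    simp only [cellPrimes, mem_filter, mem_range]
    refine ⟨fun h => h.2, fun h => ⟨?_, h⟩⟩
    refine Nat.lt_succ_of_le (Nat.cast_le (α := ℝ).1 (le_trans ?_ (Nat.le_ceil _)))
    have h1 := hlogpos r h.1
    have h2 : (0 : ℝ) < r := by exact_mod_cast h.1.pos
    exact (Real.log_le_iff_le_exp h2).1 ((Real.log_le_iff_le_exp h1).1 h.2.2)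
  have hlow : ∀ {j r : ℕ}, r.Prime → cell x r = j → 0 < j → (j : ℝ) * w ≤ ll r := by
    intro j r hr he hj
    have h1 : j ≤ ⌊ll r / w⌋₊ := by
      rw [← he, cell, ← hw]; exact min_le_right _ _
    have h2 := (Nat.le_floor_iff' hj.ne').1 h1
    rwa [← le_div_iff₀ hwpos]
  have hhigh : ∀ {j r : ℕ}, cell x r = j → j < J → ll r < ((j : ℝ) + 1) * w := by
    intro j r he hj
    rw [cell, ← hJ, ← hw] at he
    have h1 : ⌊ll r / w⌋₊ = j := by omega
    have h2 := Nat.lt_floor_add_one (ll r / w)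
    rw [h1] at h2
    rwa [div_lt_iff₀ hwpos] at h2
  have hcover : ∀ {j : ℕ} {n : ℕ} (m : ℕ), 1 ≤ m → m ≤ n →
      (∀ r ∈ cellPrimes x j, r = 2 ∨ ((m : ℝ) < Real.log r ∧ Real.log r ≤ n)) →
      ∑ r ∈ cellPrimes x j, (1 : ℝ) / r ≤ Real.log n - Real.log m + C + 1 := by
    intro j n m hm hmn hr
    have hsub : cellPrimes x j ⊆ insert 2 ((Finset.Ico m n).biUnion bucket) := by
      intro r hrm
      rcases hr r hrm with h | ⟨h1, h2⟩
      · exact mem_insert.2 (Or.inl h)
      · refine mem_insert.2 (Or.inr (mem_biUnion.2 ⟨⌈Real.log r⌉₊ - 1, ?_, ?_⟩))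
        · have a : m < ⌈Real.log r⌉₊ := Nat.lt_ceil.2 h1
          have b : ⌈Real.log r⌉₊ ≤ n := Nat.ceil_le.2 h2
          rw [mem_Ico]; omega
        · have a : m < ⌈Real.log r⌉₊ := Nat.lt_ceil.2 h1
          refine mem_bucket.2 ⟨(hmem.1 hrm).1, ?_, ?_⟩
          · have := Nat.ceil_lt_add_one (hlogpos r (hmem.1 hrm).1).le
            rw [Nat.cast_sub (by omega), Nat.cast_one]
            linarith
          · have := Nat.le_ceil (Real.log (r : ℝ))
            rw [Nat.cast_sub (by omega), Nat.cast_one]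
            linarith
    refine (sum_le_sum_of_subset_of_nonneg hsub fun i _ _ => by positivity).trans ?_
    have h2 : ∑ r ∈ insert 2 ((Finset.Ico m n).biUnion bucket), (1 : ℝ) / r
        ≤ 1 + ∑ r ∈ (Finset.Ico m n).biUnion bucket, (1 : ℝ) / r := by
      by_cases h : 2 ∈ (Finset.Ico m n).biUnion bucket
      · rw [insert_eq_of_mem h]; linarith
      · rw [sum_insert h]; norm_num
    rw [sum_biUnion (bucket_disjoint _)] at h2
    have := (abs_le.1 (hC m n hm hmn)).2
    linarith
  have hupper : ∀ {j : ℕ} {b : ℝ}, (∀ r ∈ cellPrimes x j, ll r ≤ b) → (j : ℝ) * w ≤ b →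
      ∑ r ∈ cellPrimes x j, (1 : ℝ) / r ≤ b - (j : ℝ) * w + C + 3 := by
    intro j b hb hab
    set A := Real.exp ((j : ℝ) * w)
    have hA1 : 1 ≤ A := Real.one_le_exp (by positivity)
    set m := max 1 (⌈A⌉₊ - 1) with hmdef
    set n := max m ⌈Real.exp b⌉₊ with hndef
    have hm : 1 ≤ m := le_max_left _ _
    have hceil : 1 ≤ ⌈A⌉₊ := Nat.ceil_pos.2 (by linarith)
    refine (hcover (n := n) m hm (le_max_left m _) fun r hr => ?_).trans ?_
    · obtain ⟨hp, he, -⟩ := hmem.1 hr
      by_cases h2 : r = 2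
      · exact Or.inl h2
      refine Or.inr ⟨?_, ?_⟩
      · have hm1 : (m : ℝ) = max 1 ((⌈A⌉₊ : ℝ) - 1) := by
          rw [hmdef, Nat.cast_max, Nat.cast_one, Nat.cast_sub hceil, Nat.cast_one]
        rw [hm1, max_lt_iff]
        constructor
        · have h3 : (3 : ℝ) ≤ r := by
            have := hp.two_le
            exact_mod_cast (by omega : 3 ≤ r)
          rw [Real.lt_log_iff_exp_lt (by linarith)]
          have := Real.exp_one_lt_d9
          linarith
        · have hc := Nat.ceil_lt_add_one (show 0 ≤ A by linarith)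
          rcases Nat.eq_zero_or_pos j with h0 | h0
          · have : A = 1 := by simp [A, h0]
            rw [this, Nat.ceil_one, Nat.cast_one, sub_self]
            exact hlogpos r hp
          · have := (Real.le_log_iff_exp_le (hlogpos r hp)).1 (hlow hp he h0)
            linarith
      · have h4 := (Real.log_le_iff_le_exp (hlogpos r hp)).1 (hb r hr)
        refine h4.trans ((Nat.le_ceil _).trans ?_)
        exact_mod_cast le_max_right m _
    · have hmr : A / 2 ≤ (m : ℝ) := by
        rcases le_or_gt ⌈A⌉₊ 2 with h | h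
        · have h' : (⌈A⌉₊ : ℝ) ≤ 2 := by exact_mod_cast h
          have := Nat.le_ceil A
          have : (1 : ℝ) ≤ m := by exact_mod_cast hm
          linarith
        · have h' : (3 : ℝ) ≤ ⌈A⌉₊ := by exact_mod_cast h
          have := Nat.ceil_lt_add_one (show 0 ≤ A by linarith)
          have := Nat.le_ceil A
          have h5 : (⌈A⌉₊ : ℝ) - 1 ≤ (m : ℝ) := by
            rw [hmdef, Nat.cast_max, Nat.cast_sub hceil, Nat.cast_one]
            exact le_max_right _ _
          linarith
      have hb1 : 1 ≤ Real.exp b := Real.one_le_exp (le_trans (by positivity) hab)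
      have hnr : (n : ℝ) ≤ 2 * Real.exp b := by
        rw [hndef, Nat.cast_max, max_le_iff]
        have hc := Nat.ceil_lt_add_one (Real.exp_pos b).le
        refine ⟨?_, by linarith⟩
        have : A ≤ Real.exp b := Real.exp_le_exp.2 hab
        have := Nat.ceil_lt_add_one (show 0 ≤ A by linarith)
        rw [hmdef, Nat.cast_max, Nat.cast_sub hceil, Nat.cast_one, max_le_iff]
        constructor <;> linarith
      have hn0 : (0 : ℝ) < n := by exact_mod_cast lt_of_lt_of_le hm (le_max_left m _)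
      have h6 := Real.log_le_log hn0 hnr
      have h7 := Real.log_le_log (show (0 : ℝ) < A / 2 by positivity) hmr
      rw [Real.log_mul (by norm_num) (Real.exp_pos _).ne', Real.log_exp] at h6
      rw [Real.log_div (Real.exp_pos _).ne' (by norm_num), Real.log_exp] at h7
      have := Real.log_two_lt_d9
      linarith
  refine ⟨fun j hj => ?_, ?_⟩
  · rw [abs_le]
    constructor
    swap
    · have := hupper (j := j) (b := ((j : ℝ) + 1) * w)
        (fun r hr => (hhigh (hmem.1 hr).2.1 hj).le) (by nlinarith)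
      linarith
    · set A := Real.exp ((j : ℝ) * w)
      set Bd := Real.exp (((j : ℝ) + 1) * w)
      have hA1 : 1 ≤ A := Real.one_le_exp (by positivity)
      set m := ⌈A⌉₊ with hmdef
      set n := ⌈Bd⌉₊ - 1 with hndef
      have hm : 1 ≤ m := Nat.ceil_pos.2 (by linarith)
      have hBd : 1 ≤ Bd := Real.one_le_exp (by positivity)
      have hn1 : 1 ≤ ⌈Bd⌉₊ := Nat.ceil_pos.2 (by linarith)
      rcases le_or_gt m n with hmn | hmn
      · have hsub : (Finset.Ico m n).biUnion bucket ⊆ cellPrimes x j := by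
          intro r hr
          obtain ⟨k, hk, hrk⟩ := mem_biUnion.1 hr
          obtain ⟨hp, h1, h2⟩ := mem_bucket.1 hrk
          rw [mem_Ico] at hk
          have hkm : (m : ℝ) ≤ k := by exact_mod_cast hk.1
          have hkn : (k : ℝ) + 1 ≤ n := by exact_mod_cast hk.2
          have hA := Nat.le_ceil A
          have hnB : (n : ℝ) < Bd := by
            have := Nat.ceil_lt_add_one (show 0 ≤ Bd by linarith)
            rw [hndef, Nat.cast_sub hn1, Nat.cast_one]
            linarith
          have e1 : (j : ℝ) * w ≤ ll r :=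
            (Real.le_log_iff_exp_le (hlogpos r hp)).2 (by rw [← hmdef] at hA; linarith)
          have e2 : ll r < ((j : ℝ) + 1) * w :=
            (Real.log_lt_iff_lt_exp (hlogpos r hp)).2 (by linarith)
          refine hmem.2 ⟨hp, ?_, ?_⟩
          · have hfl : ⌊ll r / w⌋₊ = j := by
              rw [Nat.floor_eq_iff (div_nonneg (le_trans (by positivity) e1) hwpos.le)]
              exact ⟨(le_div_iff₀ hwpos).2 e1, (div_lt_iff₀ hwpos).2 e2⟩
            rw [cell, ← hJ, ← hw, hfl]
            omega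
          · have : ((j : ℝ) + 1) * w ≤ (J : ℝ) * w := by
              gcongr
              exact_mod_cast hj
            linarith
        have hs := sum_le_sum_of_subset_of_nonneg (f := fun r : ℕ => (1 : ℝ) / r) hsub
          fun i _ _ => by positivity
        rw [sum_biUnion (bucket_disjoint _)] at hs
        have h3 := (abs_le.1 (hC m n hm hmn)).1
        have hm2 : (m : ℝ) ≤ 2 * A := by
          have := Nat.ceil_lt_add_one (show 0 ≤ A by linarith)
          rw [← hmdef] at this
          linarith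
        have hn2 : Bd / 2 ≤ (n : ℝ) := by
          have h5 := Nat.le_ceil Bd
          have h6 : (1 : ℝ) ≤ n := by exact_mod_cast hm.trans hmn
          rw [hndef, Nat.cast_sub hn1, Nat.cast_one] at h6 ⊢
          linarith
        have h7 := Real.log_le_log (show (0 : ℝ) < m by exact_mod_cast hm) hm2
        have h8 := Real.log_le_log (show (0 : ℝ) < Bd / 2 by positivity) hn2
        rw [Real.log_mul (by norm_num) (Real.exp_pos _).ne', Real.log_exp] at h7
        rw [Real.log_div (Real.exp_pos _).ne' (by norm_num), Real.log_exp] at h8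
        have := Real.log_two_lt_d9
        linarith
      · have h5 : (⌈Bd⌉₊ : ℝ) ≤ (m : ℝ) := by exact_mod_cast (by omega : ⌈Bd⌉₊ ≤ m)
        have h6 := Nat.le_ceil Bd
        have h7 := Nat.ceil_lt_add_one (show 0 ≤ A by linarith)
        rw [← hmdef] at h7
        have h8 : Bd ≤ 2 * A := by linarith
        have h9 := Real.log_le_log (Real.exp_pos _) h8
        rw [Real.log_mul (by norm_num) (Real.exp_pos _).ne', Real.log_exp, Real.log_exp] at h9
        have h10 : 0 ≤ ∑ r ∈ cellPrimes x j, (1 : ℝ) / r := sum_nonneg fun r _ => by positivity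
        have := Real.log_two_lt_d9
        linarith
  · have := hupper (j := J) (b := llx x + 1) (fun r hr => (hmem.1 hr).2.2) (by linarith)
    linarith

end Vale.Agent.P031
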