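import Vale.Agent.P031.NormalTools
import Vale.Agent.P031.CellMass

/-!
# P031: Mertens' second theorem in the form used by normality
-/

namespace Vale.Agent.P031

open Finset

theorem normalMertens : NormalMertens := by
  classical
  obtain ⟨C, hC0, hC⟩ := exists_range_bound
  obtain ⟨B, hB0, hB⟩ := exists_mertAt_bound
  set b0 := ∑ p ∈ bucket 0, (1 : ℝ) / p with hb0
  have hb00 : 0 ≤ b0 := sum_nonneg fun p _ => by positivity
  refine ⟨C + b0 + 2 * B + 3, by positivity, fun t ht => ?_⟩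
  have ht0 : (0 : ℝ) < t := by linarith
  have hlogt : 1 ≤ Real.log t := by
    rw [Real.le_log_iff_exp_le ht0]
    linarith [Real.exp_one_lt_d9]
  set K := ⌊Real.log t⌋₊ with hK
  have hK1 : 1 ≤ K := (Nat.one_le_floor_iff _).mpr hlogt
  have hKle : (K : ℝ) ≤ Real.log t := Nat.floor_le (by linarith)
  have hKlt : Real.log t < K + 1 := Nat.lt_floor_add_one _
  have hKR : (1 : ℝ) ≤ K := by exact_mod_cast hK1
  set U := (Ico 0 K).biUnion bucket with hU
  have hUsum : ∑ p ∈ U, (1 : ℝ) / p = b0 + ∑ k ∈ Ico 1 K, ∑ p ∈ bucket k, (1 : ℝ) / p := by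
    rw [hU, sum_biUnion (bucket_disjoint _), sum_eq_sum_Ico_succ_bot (by omega)]
  have h1 := abs_le.mp (hC 1 K le_rfl hK1)
  have hUsub : U ⊆ primeSet t := fun p hp => by
    obtain ⟨k, hk, hpk⟩ := mem_biUnion.mp hp
    obtain ⟨hpp, -, h3⟩ := mem_bucket.1 hpk
    rw [mem_primeSet ht0.le]
    refine ⟨hpp, (Real.log_le_log_iff (by exact_mod_cast hpp.pos) ht0).mp ?_⟩
    have : (k : ℝ) + 1 ≤ K := by exact_mod_cast (mem_Ico.mp hk).2
    linarith
  have hsplit := sum_sdiff (f := fun r : ℕ => (1 : ℝ) / r) hUsub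
  have hrest : ∑ p ∈ primeSet t \ U, (1 : ℝ) / p ≤ 1 + 2 * B := by
    refine le_trans (sum_le_sum_of_subset_of_nonneg (t := bucket K) (fun p hp => ?_)
      fun p _ _ => by positivity) (le_trans (sum_bucket_le hK1) ?_)
    · rw [mem_sdiff, mem_primeSet ht0.le] at hp
      obtain ⟨⟨hpp, hple⟩, hnot⟩ := hp
      have hppos : (0 : ℝ) < p := by exact_mod_cast hpp.pos
      refine mem_bucket.2 ⟨hpp, ?_, ((Real.log_le_log hppos hple).trans hKlt.le)⟩
      by_contra hc
      rw [not_lt] at hc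
      -- then `p` lies in an earlier bucket
      have hlp : 0 < Real.log p := Real.log_pos (by exact_mod_cast hpp.one_lt)
      set k := ⌈Real.log p⌉₊ - 1 with hk
      have hceil : 1 ≤ ⌈Real.log p⌉₊ := Nat.one_le_ceil_iff.mpr hlp
      have hceilK : ⌈Real.log p⌉₊ ≤ K := Nat.ceil_le.mpr hc
      refine hnot (mem_biUnion.mpr ⟨k, mem_Ico.mpr ⟨Nat.zero_le _, by omega⟩,
        mem_bucket.2 ⟨hpp, ?_, ?_⟩⟩)
      · exact Nat.lt_ceil.mp (by omega)
      · have e : (⌈Real.log p⌉₊ : ℝ) = (k : ℝ) + 1 := by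
          exact_mod_cast (by omega : ⌈Real.log p⌉₊ = k + 1)
        rw [← e]
        exact Nat.le_ceil _
    · have e1 := abs_le.mp (hB (K + 1))
      have e2 := abs_le.mp (hB K)
      push_cast at e1
      rw [div_le_iff₀ (by linarith)]
      nlinarith
  have hrest0 : 0 ≤ ∑ p ∈ primeSet t \ U, (1 : ℝ) / p := sum_nonneg fun p _ => by positivity
  have hl1 : Real.log K ≤ Real.log (Real.log t) := Real.log_le_log (by linarith) hKle
  have hl2 : Real.log (Real.log t) ≤ Real.log K + 1 := by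
    have h := Real.log_le_log (by linarith : (0 : ℝ) < Real.log t)
      (show Real.log t ≤ 2 * (K : ℝ) by linarith)
    rw [Real.log_mul (by norm_num) (by linarith)] at h
    linarith [Real.log_two_lt_d9]
  simp only [Nat.cast_one, Real.log_one, sub_zero] at h1
  rw [abs_le]
  constructor <;> linarith

end Vale.Agent.P031
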