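import Vale.Agent.P031.Defs

/-!
# P031: geometry of lists

Levels, the telescoped form of the slack, sublists, decay and the length of good lists.
The indices of `inc` are zero-based: `inc d` is `a (d + 1)` of the note.
-/

namespace Vale.Agent.P031

open Finset Filter

/-- The level of a prime, in cells above `j₁`. -/
noncomputable def lvl (x : ℝ) (q : ℕ) : ℝ := (cell x q : ℝ) - halfCell x

/-- The level of the `i`-th prime of a list, and `0` beyond its end. -/
noncomputable def lvlAt (x : ℝ) : List ℕ → ℕ → ℝ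
  | [], _ => 0
  | q :: _, 0 => lvl x q
  | _ :: qs, i + 1 => lvlAt x qs i

/-- The sum of the levels of a list. -/
noncomputable def lvlSum (x : ℝ) (qs : List ℕ) : ℝ := (qs.map (lvl x)).sum

/-- The cells decrease along the list and are `≥ j₁`. -/
structure Shape (x : ℝ) (qs : List ℕ) : Prop where
  anti : qs.Pairwise (fun a b => cell x b ≤ cell x a)
  above_half : ∀ q ∈ qs, halfCell x ≤ cell x q

theorem halfCell_le_cutCell (x : ℝ) : halfCell x ≤ cutCell x := by
  unfold halfCell
  omega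

theorem cell_le_numCells (x : ℝ) (q : ℕ) : cell x q ≤ numCells x := min_le_left _ _

theorem ll_le_ll {a b : ℕ} (ha : 2 ≤ a) (hab : a ≤ b) : ll a ≤ ll b := by
  have h1 : (1 : ℝ) < (a : ℝ) := by exact_mod_cast ha
  have h2 : (a : ℝ) ≤ (b : ℝ) := by exact_mod_cast hab
  unfold ll
  exact Real.log_le_log (Real.log_pos h1) (Real.log_le_log (by linarith) h2)

theorem width_nonneg_of_llx {x : ℝ} (hx : 0 ≤ llx x) : 0 ≤ width x :=
  div_nonneg hx (Nat.cast_nonneg _)

theorem cell_le_cell {x : ℝ} (hx : 0 ≤ llx x) {a b : ℕ} (ha : 2 ≤ a) (hab : a ≤ b) :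
    cell x a ≤ cell x b := by
  unfold cell
  exact min_le_min_left _ (Nat.floor_mono
    (div_le_div_of_nonneg_right (ll_le_ll ha hab) (width_nonneg_of_llx hx)))

theorem IsConf.shape {x : ℝ} (hx : 0 ≤ llx x) {qs : List ℕ} {m : ℕ} (h : IsConf x qs m) :
    Shape x qs := by
  refine ⟨List.Pairwise.imp_of_mem ?_ h.desc, fun q hq => ?_⟩
  · intro a b _ hb hab
    exact cell_le_cell hx (h.normal b hb).prime.two_le hab.le
  · exact (halfCell_le_cutCell x).trans (h.big q hq).le

theorem Shape.tail {x : ℝ} {q : ℕ} {qs : List ℕ} (h : Shape x (q :: qs)) : Shape x qs :=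
  ⟨(List.pairwise_cons.1 h.anti).2, fun a ha => h.above_half a (List.mem_cons_of_mem _ ha)⟩

theorem Shape.head_ge {x : ℝ} {q : ℕ} {qs : List ℕ} (h : Shape x (q :: qs)) :
    ∀ a ∈ qs, cell x a ≤ cell x q := (List.pairwise_cons.1 h.anti).1

theorem Shape.sublist {x : ℝ} {qs qs' : List ℕ} (h : Shape x qs) (hs : List.Sublist qs' qs) :
    Shape x qs' :=
  ⟨h.anti.sublist hs, fun a ha => h.above_half a (hs.subset ha)⟩

theorem Shape.drop {x : ℝ} {qs : List ℕ} (h : Shape x qs) (i : ℕ) : Shape x (qs.drop i) :=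
  h.sublist (List.drop_sublist i qs)

theorem lvl_nonneg {x : ℝ} {qs : List ℕ} (h : Shape x qs) {q : ℕ} (hq : q ∈ qs) : 0 ≤ lvl x q :=
  sub_nonneg.2 (by exact_mod_cast h.above_half q hq)

theorem lvlAt_nonneg {x : ℝ} : ∀ {qs : List ℕ}, Shape x qs → ∀ i, 0 ≤ lvlAt x qs i
  | [], _, i => by cases i <;> simp [lvlAt]
  | q :: qs, h, 0 => by
      simpa [lvlAt] using lvl_nonneg h (List.mem_cons_self)
  | q :: qs, h, i + 1 => by
      simpa [lvlAt] using lvlAt_nonneg h.tail i

theorem lvlAt_of_lt {x : ℝ} : ∀ {qs : List ℕ} {i : ℕ}, i < qs.length →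
    lvlAt x qs i = lvl x (qs.getD i 0)
  | [], i, h => by simp at h
  | q :: qs, 0, _ => by simp [lvlAt]
  | q :: qs, i + 1, h => by
      simp only [List.length_cons, Nat.succ_lt_succ_iff] at h
      simp [lvlAt, lvlAt_of_lt h]

theorem lvlAt_of_le {x : ℝ} : ∀ {qs : List ℕ} {i : ℕ}, qs.length ≤ i → lvlAt x qs i = 0
  | [], i, _ => by cases i <;> simp [lvlAt]
  | q :: qs, 0, h => by simp at h
  | q :: qs, i + 1, h => by
      simp only [List.length_cons, Nat.succ_le_succ_iff] at h
      simp [lvlAt, lvlAt_of_le h]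

theorem lvlAt_drop (x : ℝ) : ∀ (qs : List ℕ) (i l : ℕ),
    lvlAt x (qs.drop i) l = lvlAt x qs (i + l)
  | [], i, l => by simp [lvlAt]
  | q :: qs, 0, l => by simp
  | q :: qs, i + 1, l => by
      rw [List.drop_succ_cons, lvlAt_drop x qs i l, Nat.succ_add]
      rfl

theorem lvlAt_succ_le {x : ℝ} : ∀ {qs : List ℕ}, Shape x qs → ∀ i,
    lvlAt x qs (i + 1) ≤ lvlAt x qs i
  | [], _, i => by cases i <;> simp [lvlAt]
  | [q], h, i => by
      cases i with
      | zero => simpa [lvlAt] using lvl_nonneg h List.mem_cons_self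
      | succ i => cases i <;> simp [lvlAt]
  | q :: q' :: qs, h, 0 => by
      have := h.head_ge q' List.mem_cons_self
      have h2 : (cell x q' : ℝ) ≤ cell x q := by exact_mod_cast this
      simp only [lvlAt, lvl]
      linarith
  | q :: q' :: qs, h, i + 1 => by
      have := lvlAt_succ_le h.tail i
      simpa only [lvlAt] using this

theorem lvlAt_anti {x : ℝ} {qs : List ℕ} (h : Shape x qs) : Antitone (lvlAt x qs) :=
  antitone_nat_of_succ_le (lvlAt_succ_le h)

theorem lvlSum_nil (x : ℝ) : lvlSum x [] = 0 := by simp [lvlSum]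

theorem lvlSum_cons (x : ℝ) (q : ℕ) (qs : List ℕ) :
    lvlSum x (q :: qs) = lvl x q + lvlSum x qs := by simp [lvlSum]

theorem lvlSum_nonneg {x : ℝ} {qs : List ℕ} (h : Shape x qs) : 0 ≤ lvlSum x qs := by
  refine List.sum_nonneg ?_
  intro a ha
  rcases List.mem_map.1 ha with ⟨q, hq, rfl⟩
  exact lvl_nonneg h hq

theorem above_nil (x : ℝ) (j : ℕ) : above x [] j = 0 := by simp [above]

theorem above_cons (x : ℝ) (q : ℕ) (qs : List ℕ) (j : ℕ) :
    above x (q :: qs) j = above x qs j + if j < cell x q then 1 else 0 := by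
  simp [above, List.countP_cons]

theorem above_le_length (x : ℝ) (qs : List ℕ) (j : ℕ) : above x qs j ≤ qs.length :=
  List.countP_le_length

theorem above_eq_zero {x : ℝ} {qs : List ℕ} {j : ℕ} (h : ∀ q ∈ qs, cell x q ≤ j) :
    above x qs j = 0 := by
  simp only [above, List.countP_eq_zero, decide_eq_true_eq, not_lt]
  exact h

theorem above_le_of_sublist {x : ℝ} {qs qs' : List ℕ} (hs : List.Sublist qs' qs) (j : ℕ) :
    above x qs' j ≤ above x qs j := List.Sublist.countP_le hs

theorem tailPhi_nil (x : ℝ) (d : ℕ) : tailPhi x d [] = 0 := by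
  simp [tailPhi, above_nil]

theorem tailPhi_nonneg (x : ℝ) (d : ℕ) (qs : List ℕ) : 0 ≤ tailPhi x d qs :=
  Finset.sum_nonneg fun _ _ => sub_nonneg.2 (ent_mono (Nat.le_add_right _ _))

theorem tailPhi_le_of_sublist {x : ℝ} {qs qs' : List ℕ} (hs : List.Sublist qs' qs) (d : ℕ) :
    tailPhi x d qs' ≤ tailPhi x d qs :=
  Finset.sum_le_sum fun j _ => sub_le_sub_right
    (ent_mono (Nat.add_le_add_left (above_le_of_sublist hs j) d)) _

theorem tailPhi_cons {x : ℝ} {q : ℕ} {qs : List ℕ} (h : Shape x (q :: qs)) (d : ℕ) :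
    tailPhi x d (q :: qs) = inc d * lvl x q + tailPhi x (d + 1) qs := by
  have hc : halfCell x ≤ cell x q := h.above_half q List.mem_cons_self
  have hJ : cell x q ≤ numCells x := cell_le_numCells x q
  have key : ∀ j ∈ Finset.Ico (halfCell x) (numCells x),
      ent (d + above x (q :: qs) j) - ent d
        = (if j < cell x q then inc d else 0) + (ent (d + 1 + above x qs j) - ent (d + 1)) := by
    intro j _
    rw [above_cons]
    by_cases hj : j < cell x q
    · rw [if_pos hj, if_pos hj, show d + (above x qs j + 1) = d + 1 + above x qs j by omega]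
      simp only [inc]
      ring
    · have h0 : above x qs j = 0 :=
        above_eq_zero fun a ha => (h.head_ge a ha).trans (not_lt.1 hj)
      simp [hj, h0]
  unfold tailPhi
  rw [Finset.sum_congr rfl key, Finset.sum_add_distrib, ← Finset.sum_filter]
  have hf : (Finset.Ico (halfCell x) (numCells x)).filter (fun j => j < cell x q)
      = Finset.Ico (halfCell x) (cell x q) := by
    ext j
    simp only [Finset.mem_filter, Finset.mem_Ico]
    omega
  rw [hf, Finset.sum_const, Nat.card_Ico, nsmul_eq_mul, Nat.cast_sub hc, lvl]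
  ring

/-- The slack in telescoped form. -/
theorem slack_eq {x : ℝ} {ℓ : ℕ} {qs : List ℕ} (hℓ : halfCell x ≤ ℓ) (hJ : ℓ ≤ numCells x)
    (hc : ∀ q ∈ qs, cell x q ≤ ℓ) :
    slack x ℓ qs = (ℓ : ℝ) - halfCell x - tailPhi x 0 qs := by
  have h : tailPhi x 0 qs = ∑ j ∈ Finset.Ico (halfCell x) ℓ, ent (above x qs j) := by
    unfold tailPhi
    rw [← Finset.sum_subset (Finset.Ico_subset_Ico le_rfl hJ)]
    · simp [ent_zero]
    · intro j hj hj'
      simp only [Finset.mem_Ico] at hj hj'
      rw [above_eq_zero fun q hq => (hc q hq).trans (by omega)]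
      simp
  unfold slack
  rw [Finset.sum_sub_distrib, h, Finset.sum_const, Nat.card_Ico, nsmul_eq_mul, mul_one,
    Nat.cast_sub hℓ]

/-- The slack at the top level. -/
theorem slack_top_eq {x : ℝ} (qs : List ℕ) (hJ : halfCell x ≤ numCells x) :
    slack x (numCells x) qs = (numCells x : ℝ) - halfCell x - tailPhi x 0 qs :=
  slack_eq hJ le_rfl fun q _ => cell_le_numCells x q

theorem slack_cons {x : ℝ} {q : ℕ} {qs : List ℕ} (h : Shape x (q :: qs)) :
    slack x (cell x q) qs = lvl x q - tailPhi x 0 qs :=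
  slack_eq (h.above_half q List.mem_cons_self) (cell_le_numCells x q) h.head_ge

theorem slackAt_cons_zero (x : ℝ) (q : ℕ) (qs : List ℕ) :
    slackAt x (q :: qs) 0 = slack x (cell x q) qs := by simp [slackAt]

theorem slackAt_cons_succ (x : ℝ) (q : ℕ) (qs : List ℕ) (i : ℕ) :
    slackAt x (q :: qs) (i + 1) = slackAt x qs i := by simp [slackAt]

theorem slackAt_drop (x : ℝ) (qs : List ℕ) (i l : ℕ) :
    slackAt x (qs.drop i) l = slackAt x qs (i + l) := by
  simp [slackAt, List.drop_drop, List.getD_eq_getElem?_getD, List.getElem?_drop, add_assoc]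

theorem slackAt_eq {x : ℝ} {qs : List ℕ} (h : Shape x qs) {i : ℕ} (hi : i < qs.length) :
    slackAt x qs i = lvlAt x qs i - tailPhi x 0 (qs.drop (i + 1)) := by
  induction qs generalizing i with
  | nil => simp at hi
  | cons q qs ih =>
    cases i with
    | zero => simp [slackAt_cons_zero, slack_cons h, lvlAt]
    | succ i =>
      simp only [List.length_cons, Nat.succ_lt_succ_iff] at hi
      rw [slackAt_cons_succ, ih h.tail hi]
      rfl

/-- Expansion of `tailPhi` along the first `i` primes. -/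
theorem tailPhi_eq_sum_add {x : ℝ} {qs : List ℕ} (h : Shape x qs) (d i : ℕ) :
    tailPhi x d qs = (∑ l ∈ Finset.range i, inc (d + l) * lvlAt x qs l)
      + tailPhi x (d + i) (qs.drop i) := by
  induction qs generalizing d i with
  | nil =>
    have hz : ∀ l : ℕ, lvlAt x [] l = 0 := fun l => lvlAt_of_le (Nat.zero_le l)
    simp [tailPhi_nil, hz]
  | cons q qs ih =>
    cases i with
    | zero => simp
    | succ i =>
      rw [tailPhi_cons h, ih h.tail (d + 1) i, Finset.sum_range_succ', List.drop_succ_cons]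
      have e : ∀ l : ℕ, d + 1 + l = d + (l + 1) := fun l => by omega
      simp only [e, lvlAt, add_zero]
      ring

theorem inc_mul_lvlSum_le {x : ℝ} {qs : List ℕ} (h : Shape x qs) (d : ℕ) :
    inc d * lvlSum x qs ≤ tailPhi x d qs := by
  induction qs generalizing d with
  | nil => simp [tailPhi_nil, lvlSum_nil]
  | cons q qs ih =>
    rw [tailPhi_cons h, lvlSum_cons, mul_add]
    have h1 := ih h.tail (d + 1)
    have h2 := mul_le_mul_of_nonneg_right (inc_mono (Nat.le_add_right d 1)) (lvlSum_nonneg h.tail)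
    linarith

/-- `a (d + l) ≤ a (d + 1) + a l`, summed against the levels. -/
theorem tailPhi_add_le {x : ℝ} {qs : List ℕ} (h : Shape x qs) (d e : ℕ) :
    tailPhi x (d + e) qs ≤ inc d * lvlSum x qs + tailPhi x e qs := by
  induction qs generalizing e with
  | nil => simp [tailPhi_nil, lvlSum_nil]
  | cons q qs ih =>
    rw [tailPhi_cons h, tailPhi_cons h, lvlSum_cons, add_assoc d e 1]
    have h1 := ih h.tail (e + 1)
    have h2 := mul_le_mul_of_nonneg_right (inc_add_le d e) (lvl_nonneg h List.mem_cons_self)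
    nlinarith

theorem tailPhi_le {x : ℝ} {qs : List ℕ} (h : Shape x qs) (d : ℕ) :
    tailPhi x d qs ≤ (inc d / inc 0 + 1) * tailPhi x 0 qs := by
  have h1 := tailPhi_add_le h d 0
  rw [Nat.add_zero] at h1
  have h2 := inc_mul_lvlSum_le h 0
  have h3 : lvlSum x qs ≤ tailPhi x 0 qs / inc 0 := by
    rw [le_div_iff₀ (inc_pos 0)]
    linarith
  calc tailPhi x d qs ≤ inc d * lvlSum x qs + tailPhi x 0 qs := h1
    _ ≤ inc d * (tailPhi x 0 qs / inc 0) + tailPhi x 0 qs := by
        gcongr
        exact (inc_pos d).le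
    _ = (inc d / inc 0 + 1) * tailPhi x 0 qs := by ring

theorem isGood_nil (x : ℝ) : IsGood x [] := fun i hi => by simp at hi

theorem isGood_cons {x : ℝ} {q : ℕ} {qs : List ℕ} :
    IsGood x (q :: qs) ↔ -eta1 x ≤ slack x (cell x q) qs ∧ IsGood x qs := by
  constructor
  · intro h
    refine ⟨?_, fun i hi => ?_⟩
    · simpa [slackAt_cons_zero] using h 0 (by simp)
    · simpa [slackAt_cons_succ] using h (i + 1) (by simpa using hi)
  · rintro ⟨h0, h1⟩ i hi
    cases i with
    | zero => simpa [slackAt_cons_zero] using h0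
    | succ i =>
      simp only [List.length_cons, Nat.succ_lt_succ_iff] at hi
      simpa [slackAt_cons_succ] using h1 i hi

theorem IsGood.drop {x : ℝ} {qs : List ℕ} (h : IsGood x qs) (i : ℕ) : IsGood x (qs.drop i) := by
  intro l hl
  rw [slackAt_drop]
  exact h _ (by simp only [List.length_drop] at hl; omega)

theorem slack_le_of_sublist {x : ℝ} {qs qs' : List ℕ} (hs : List.Sublist qs' qs) (ℓ : ℕ) :
    slack x ℓ qs ≤ slack x ℓ qs' :=
  Finset.sum_le_sum fun j _ => sub_le_sub_left (ent_mono (above_le_of_sublist hs j)) _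

/-- Sublists of good lists are good. -/
theorem IsGood.sublist {x : ℝ} {qs qs' : List ℕ} (h : IsGood x qs)
    (hs : List.Sublist qs' qs) : IsGood x qs' := by
  induction hs with
  | slnil => exact isGood_nil x
  | cons a _ ih => exact ih (isGood_cons.1 h).2
  | cons_cons a hsub ih =>
    rw [isGood_cons] at h ⊢
    exact ⟨h.1.trans (slack_le_of_sublist hsub _), ih h.2⟩

/-- The slack at the first prime of a sublist with the same first prime only rises. -/
theorem slackAt_zero_le_of_sublist {x : ℝ} {q : ℕ} {qs qs' : List ℕ}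
    (hs : List.Sublist qs' qs) : slackAt x (q :: qs) 0 ≤ slackAt x (q :: qs') 0 := by
  simpa [slackAt_cons_zero] using slack_le_of_sublist hs (cell x q)

theorem IsGood.tailPhi_le_lvl {x : ℝ} {qs : List ℕ} (h : IsGood x qs) (hsh : Shape x qs)
    {i : ℕ} (hi : i < qs.length) :
    tailPhi x 0 (qs.drop (i + 1)) ≤ lvlAt x qs i + eta1 x := by
  have := h i hi
  rw [slackAt_eq hsh hi] at this
  linarith

theorem IsGood.inc_mul_lvlSum_le_lvl {x : ℝ} {qs : List ℕ} (h : IsGood x qs) (hsh : Shape x qs)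
    {i : ℕ} (hi : i < qs.length) :
    inc 0 * lvlSum x (qs.drop (i + 1)) ≤ lvlAt x qs i + eta1 x :=
  (inc_mul_lvlSum_le (hsh.drop _) 0).trans (h.tailPhi_le_lvl hsh hi)

theorem eta1_nonneg {x : ℝ} (hx : 0 ≤ llx x) : 0 ≤ eta1 x :=
  mul_nonneg (Nat.cast_nonneg _) (Real.rpow_nonneg hx _)

/-- Three steps down the levels lose the factor `5 / 2`. -/
theorem IsGood.decay {x : ℝ} (hx : 0 ≤ llx x) {qs : List ℕ} (h : IsGood x qs) (hsh : Shape x qs)
    (i : ℕ) : (5 / 2 : ℝ) * lvlAt x qs (i + 3) ≤ lvlAt x qs i + eta1 x := by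
  by_cases hi : i + 3 < qs.length
  · have h1 := h.tailPhi_le_lvl hsh (show i < qs.length by omega)
    rw [tailPhi_eq_sum_add (hsh.drop _) 0 3] at h1
    simp only [Finset.sum_range_succ, Finset.sum_range_zero, zero_add, lvlAt_drop,
      Nat.add_zero] at h1
    have h2 := tailPhi_nonneg x 3 ((qs.drop (i + 1)).drop 3)
    rw [show i + 1 + 1 = i + 2 from rfl, show i + 1 + 2 = i + 3 from rfl] at h1
    have ha := lvlAt_anti hsh (show i + 1 ≤ i + 3 by omega)
    have hb := lvlAt_anti hsh (show i + 2 ≤ i + 3 by omega)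
    have hc := lvlAt_nonneg hsh (i + 3)
    nlinarith [inc_three, mul_le_mul_of_nonneg_left ha (inc_pos 0).le,
      mul_le_mul_of_nonneg_left hb (inc_pos 1).le]
  · rw [lvlAt_of_le (not_lt.1 hi)]
    linarith [lvlAt_nonneg hsh i, eta1_nonneg hx]

theorem IsGood.decay_pow {x : ℝ} (hx : 0 ≤ llx x) {qs : List ℕ} (h : IsGood x qs)
    (hsh : Shape x qs) (i t : ℕ) :
    lvlAt x qs (i + 3 * t) ≤ (2 / 5 : ℝ) ^ t * lvlAt x qs i + eta1 x := by
  induction t with
  | zero => simp [eta1_nonneg hx]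
  | succ t ih =>
    have h1 := h.decay hx hsh (i + 3 * t)
    rw [show i + 3 * t + 3 = i + 3 * (t + 1) by ring] at h1
    have he := eta1_nonneg hx
    rw [pow_succ]
    nlinarith

theorem lvlAt_zero_le {x : ℝ} {qs : List ℕ} : lvlAt x qs 0 ≤ numCells x := by
  cases qs with
  | nil => simp [lvlAt]
  | cons q qs =>
    simp only [lvlAt, lvl]
    have h1 : (cell x q : ℝ) ≤ numCells x := by exact_mod_cast cell_le_numCells x q
    have h2 : (0 : ℝ) ≤ halfCell x := Nat.cast_nonneg _
    linarith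

/-- A quantitative bound on the length of a good list. -/
theorem length_le_aux {x : ℝ} (hx : 0 ≤ llx x) {qs : List ℕ} {m : ℕ} (hc : IsConf x qs m)
    (hg : IsGood x qs) (t : ℕ) (hcut : 1 ≤ cutCell x) :
    (qs.length : ℝ) ≤ 3 * t + 1 + 6 * ((2 / 5 : ℝ) ^ t * numCells x + 2 * eta1 x) / cutCell x := by
  have hsh := hc.shape hx
  have hk : (0 : ℝ) < cutCell x := by exact_mod_cast hcut
  have he := eta1_nonneg hx
  by_cases ht : qs.length ≤ 3 * t + 1
  · have h1 : (qs.length : ℝ) ≤ 3 * t + 1 := by exact_mod_cast ht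
    have h2 : (0 : ℝ) ≤ 6 * ((2 / 5 : ℝ) ^ t * numCells x + 2 * eta1 x) / cutCell x := by
      positivity
    linarith
  · have hi : 3 * t < qs.length := by omega
    have h1 := hg.inc_mul_lvlSum_le_lvl hsh hi
    have h2 := hg.decay_pow hx hsh 0 t
    rw [Nat.zero_add] at h2
    have h3 := mul_le_mul_of_nonneg_left (lvlAt_zero_le (x := x) (qs := qs))
      (show (0 : ℝ) ≤ (2 / 5 : ℝ) ^ t by positivity)
    have h4 : ((qs.drop (3 * t + 1)).length : ℝ) * ((cutCell x : ℝ) / 2)
        ≤ lvlSum x (qs.drop (3 * t + 1)) := by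
      have := List.card_nsmul_le_sum ((qs.drop (3 * t + 1)).map (lvl x)) ((cutCell x : ℝ) / 2) ?_
      · simpa [lvlSum, nsmul_eq_mul] using this
      intro a ha
      rcases List.mem_map.1 ha with ⟨q, hq, rfl⟩
      have hb : cutCell x < cell x q := hc.big q ((List.drop_sublist _ _).subset hq)
      have hb' : cutCell x + 2 * halfCell x ≤ 2 * cell x q := by
        unfold halfCell
        omega
      have hb'' : (cutCell x : ℝ) + 2 * halfCell x ≤ 2 * cell x q := by exact_mod_cast hb'
      simp only [lvl]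
      linarith
    rw [List.length_drop, Nat.cast_sub (by omega : 3 * t + 1 ≤ qs.length)] at h4
    push_cast at h4
    have h5 : inc 0 * ((qs.length : ℝ) - (3 * t + 1)) * ((cutCell x : ℝ) / 2)
        ≤ (2 / 5 : ℝ) ^ t * numCells x + 2 * eta1 x := by
      have := mul_le_mul_of_nonneg_left h4 (inc_pos 0).le
      linarith
    have h6 : (1 / 3 : ℝ) ≤ inc 0 := le_trans (by norm_num) inc_zero_ge
    have h7 : (0 : ℝ) ≤ (qs.length : ℝ) - (3 * t + 1) := by
      have : ((3 * t + 1 : ℕ) : ℝ) ≤ qs.length := by exact_mod_cast (by omega : 3 * t + 1 ≤ qs.length)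
      push_cast at this
      linarith
    rw [← sub_le_iff_le_add', le_div_iff₀ hk]
    nlinarith [mul_le_mul_of_nonneg_right (mul_le_mul_of_nonneg_right h6 h7)
      (show (0 : ℝ) ≤ (cutCell x : ℝ) / 2 by positivity)]

theorem tendsto_llx : Tendsto llx atTop atTop :=
  Real.tendsto_log_atTop.comp Real.tendsto_log_atTop

/-- Good configurations have at most `N₁` primes. -/
theorem eventually_length_le_goodLen : ∀ᶠ x : ℝ in atTop, ∀ (qs : List ℕ) (m : ℕ),
    IsConf x qs m → IsGood x qs → (qs.length : ℝ) ≤ goodLen x := by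
  have hlog := (isLittleO_log_rpow_atTop (by norm_num : (0 : ℝ) < 1 / 40)).bound
    (show (0 : ℝ) < 1 / 100 by norm_num)
  have hpow := (tendsto_rpow_atTop (by norm_num : (0 : ℝ) < 1 / 200)).eventually_ge_atTop 40
  filter_upwards [tendsto_llx.eventually hlog, tendsto_llx.eventually hpow,
    tendsto_llx.eventually_ge_atTop 3] with x hl hp h3 qs m hc hg
  have hx : 0 ≤ llx x := by linarith
  have hL : (0 : ℝ) < llx x := by linarith
  have hJ1 : (llx x) ^ (1 / 5 : ℝ) ≤ numCells x := Nat.le_ceil _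
  have hJpos : (0 : ℝ) < numCells x := lt_of_lt_of_le (by positivity) hJ1
  have hJL : (numCells x : ℝ) ≤ 2 * llx x := by
    have h1 := (Nat.ceil_lt_add_one (Real.rpow_nonneg hx (1 / 5 : ℝ))).le
    have h2 : llx x ^ (1 / 5 : ℝ) ≤ llx x := by
      have := Real.rpow_le_rpow_of_exponent_le (show (1 : ℝ) ≤ llx x by linarith)
        (show (1 / 5 : ℝ) ≤ 1 by norm_num)
      simpa using this
    unfold numCells
    linarith
  have hcutR : (numCells x : ℝ) * llx x ^ (-(3 / 50) : ℝ) ≤ cutCell x := Nat.le_ceil _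
  have hcutpos : (0 : ℝ) < cutCell x := lt_of_lt_of_le (by positivity) hcutR
  have hcut : 1 ≤ cutCell x := by exact_mod_cast hcutpos
  set t : ℕ := ⌈2 * Real.log (numCells x)⌉₊ + 1 with ht
  have hJone : (1 : ℝ) ≤ numCells x := by
    have : 0 < numCells x := by exact_mod_cast hJpos
    exact_mod_cast this
  have hlogJ : 0 ≤ Real.log (numCells x) := Real.log_nonneg hJone
  have hdec : (2 / 5 : ℝ) ^ t * numCells x ≤ 1 := by
    have h25 : (2 / 5 : ℝ) ≤ Real.exp (-(1 / 2)) := by
      have := Real.add_one_le_exp (-(1 / 2) : ℝ)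
      linarith
    have h1 : (2 / 5 : ℝ) ^ t ≤ Real.exp (-(1 / 2)) ^ t := pow_le_pow_left₀ (by norm_num) h25 t
    rw [← Real.exp_nat_mul] at h1
    have h2 : (2 : ℝ) * Real.log (numCells x) ≤ t := by
      rw [ht]
      push_cast
      linarith [Nat.le_ceil (2 * Real.log (numCells x))]
    have h3 : Real.exp ((t : ℝ) * -(1 / 2)) ≤ Real.exp (-Real.log (numCells x)) :=
      Real.exp_le_exp.2 (by linarith)
    rw [Real.exp_neg, Real.exp_log hJpos] at h3
    calc (2 / 5 : ℝ) ^ t * numCells x ≤ (numCells x : ℝ)⁻¹ * numCells x :=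
          mul_le_mul_of_nonneg_right (h1.trans h3) hJpos.le
      _ = 1 := inv_mul_cancel₀ hJpos.ne'
  have hB := length_le_aux hx hc hg t hcut
  have hcut1 : (1 : ℝ) ≤ cutCell x := by exact_mod_cast hcut
  have heta : eta1 x / cutCell x ≤ llx x ^ (1 / 50 : ℝ) := by
    rw [div_le_iff₀ hcutpos]
    calc eta1 x = llx x ^ (1 / 50 : ℝ) * ((numCells x : ℝ) * llx x ^ (-(3 / 50) : ℝ)) := by
          unfold eta1
          rw [mul_left_comm, ← Real.rpow_add hL]
          norm_num
      _ ≤ llx x ^ (1 / 50 : ℝ) * cutCell x := by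
          exact mul_le_mul_of_nonneg_left hcutR (Real.rpow_nonneg hx _)
  have ht' : (t : ℝ) ≤ 2 * Real.log (numCells x) + 2 := by
    rw [ht]
    push_cast
    linarith [(Nat.ceil_lt_add_one (show (0 : ℝ) ≤ 2 * Real.log (numCells x) by linarith)).le]
  have hlog2 : Real.log (numCells x) ≤ 1 + Real.log (llx x) := by
    have h := Real.log_le_log hJpos hJL
    rw [Real.log_mul (by norm_num) hL.ne'] at h
    have := Real.log_two_lt_d9
    linarith
  have hfrac : ((2 / 5 : ℝ) ^ t * numCells x + 2 * eta1 x) / cutCell x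
      ≤ 1 + 2 * llx x ^ (1 / 50 : ℝ) := by
    rw [add_div, mul_div_assoc 2]
    refine add_le_add ?_ (by linarith)
    rw [div_le_one hcutpos]
    linarith
  have hl1 : Real.log (llx x) ≤ 1 / 100 * llx x ^ (1 / 40 : ℝ) := by
    simpa [abs_of_nonneg (Real.log_nonneg (show (1 : ℝ) ≤ llx x by linarith)),
      abs_of_nonneg (Real.rpow_nonneg hx _)] using hl
  have hp1 : 40 * llx x ^ (1 / 50 : ℝ) ≤ llx x ^ (1 / 40 : ℝ) := by
    calc 40 * llx x ^ (1 / 50 : ℝ) ≤ llx x ^ (1 / 200 : ℝ) * llx x ^ (1 / 50 : ℝ) :=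
          mul_le_mul_of_nonneg_right hp (Real.rpow_nonneg hx _)
      _ = llx x ^ (1 / 40 : ℝ) := by
          rw [← Real.rpow_add hL]
          norm_num
  have hp2 : (40 : ℝ) ≤ llx x ^ (1 / 40 : ℝ) := by
    have : (1 : ℝ) ≤ llx x ^ (1 / 50 : ℝ) := Real.one_le_rpow (by linarith) (by norm_num)
    linarith
  rw [mul_div_assoc] at hB
  unfold goodLen
  linarith

end Vale.Agent.P031
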