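import Mathlib

/-!
# P031: tools for the majorant lemma

A common refinement of two factorisations, an iterated sum bound, and finite Euler products for
completely multiplicative weights.
-/

namespace Vale.Agent.P031

open Finset

/-- A divisor of a product splits as a product of divisors. -/
theorem exists_split {κ : Type*} [DecidableEq κ] (t : Finset κ) (b : κ → ℕ) :
    ∀ a : ℕ, a ∣ ∏ l ∈ t, b l → ∃ d : κ → ℕ, (∀ l ∈ t, d l ∣ b l) ∧ ∏ l ∈ t, d l = a := by
  induction t using Finset.induction with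
  | empty =>
    intro a ha
    exact ⟨fun _ => 1, by simp, by simpa [eq_comm] using ha⟩
  | insert l t hl ih =>
    intro a ha
    rw [prod_insert hl] at ha
    obtain ⟨a₁, a₂, h₁, h₂, rfl⟩ := exists_dvd_and_dvd_of_dvd_mul ha
    obtain ⟨d, hd, hd'⟩ := ih a₂ h₂
    refine ⟨Function.update d l a₁, fun i hi => ?_, ?_⟩
    · rcases mem_insert.mp hi with rfl | hi
      · simpa using h₁
      · rw [Function.update_of_ne (fun h => hl (by rwa [h] at hi))]
        exact hd i hi
    · rw [prod_insert hl, Function.update_self]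
      congr 1
      rw [← hd']
      exact prod_congr rfl fun i hi =>
        Function.update_of_ne (fun h => hl (by rwa [h] at hi)) _ _

/-- Two factorisations of one number have a common refinement. -/
theorem exists_refine {ι κ : Type*} [DecidableEq ι] [DecidableEq κ] [Fintype κ] (s : Finset ι)
    (a : ι → ℕ) : ∀ b : κ → ℕ, (∀ l, 0 < b l) → ∏ i ∈ s, a i = ∏ l, b l →
    ∃ M : ι → κ → ℕ, (∀ i ∈ s, ∏ l, M i l = a i) ∧ ∀ l, ∏ i ∈ s, M i l = b l := by
  induction s using Finset.induction with
  | empty =>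
    intro b _ h
    refine ⟨fun _ _ => 1, by simp, fun l => ?_⟩
    simp only [prod_empty] at h ⊢
    exact (Nat.dvd_one.mp (h ▸ dvd_prod_of_mem b (mem_univ l))).symm
  | insert i s hi ih =>
    intro b hb h
    rw [prod_insert hi] at h
    obtain ⟨d, hd, hd'⟩ := exists_split univ b (a i) (h ▸ dvd_mul_right _ _)
    have hd0 : ∀ l, 0 < d l := fun l => Nat.pos_of_dvd_of_pos (hd l (mem_univ l)) (hb l)
    have hrest : ∏ j ∈ s, a j = ∏ l, b l / d l := by
      have e : (∏ l, d l) * ∏ l, b l / d l = ∏ l, b l := by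
        rw [← prod_mul_distrib]
        exact prod_congr rfl fun l _ => Nat.mul_div_cancel' (hd l (mem_univ l))
      rw [hd'] at e
      have hpos : 0 < a i := hd' ▸ prod_pos (fun l _ => hd0 l)
      exact Nat.eq_of_mul_eq_mul_left hpos (by rw [e, h])
    obtain ⟨M, hM, hM'⟩ := ih (fun l => b l / d l)
      (fun l => Nat.div_pos (Nat.le_of_dvd (hb l) (hd l (mem_univ l))) (hd0 l)) hrest
    refine ⟨Function.update M i d, fun j hj => ?_, fun l => ?_⟩
    · rcases mem_insert.mp hj with rfl | hj
      · simpa using hd'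
      · rw [Function.update_of_ne (fun h => hi (by rwa [h] at hj))]
        exact hM j hj
    · rw [prod_insert hi, Function.update_self]
      have : ∏ j ∈ s, Function.update M i d j l = ∏ j ∈ s, M j l := prod_congr rfl fun j hj => by
        rw [Function.update_of_ne (fun h => hi (by rwa [h] at hj))]
      rw [this, hM' l, Nat.mul_div_cancel' (hd l (mem_univ l))]

/-- Summing the innermost coordinate first. -/
theorem iter_sum {α : Type*} [DecidableEq α] (f : α → ℝ) (hf : ∀ a, 0 ≤ f a) :
    ∀ (r : ℕ) (g : Fin r → ℝ), (∀ s, 0 ≤ g s) → ∀ T : Finset (Fin r → α),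
    (∀ (s : Fin r) (u : Fin r → α), u ∈ T →
      ∑ y ∈ (T.filter (fun R => ∀ t < s, R t = u t)).image (fun R => R s), f y ≤ g s) →
    ∑ R ∈ T, ∏ s, f (R s) ≤ ∏ s, g s := by
  intro r
  induction r with
  | zero =>
    intro g _ T _
    simp only [Finset.univ_eq_empty, prod_empty, sum_const, nsmul_eq_mul, mul_one]
    have : T.card ≤ 1 := card_le_one.mpr fun a _ b _ => Subsingleton.elim a b
    exact_mod_cast this
  | succ r ih =>
    intro g hg T hT
    classical
    rw [← sum_fiberwise_of_maps_to (g := fun R : Fin (r + 1) → α => Fin.init R)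
      (t := T.image Fin.init) (fun R hR => mem_image_of_mem _ hR)]
    calc ∑ w ∈ T.image Fin.init, ∑ R ∈ T.filter (fun R => Fin.init R = w), ∏ s, f (R s)
        ≤ ∑ w ∈ T.image Fin.init, (∏ s, f (w s)) * g (Fin.last r) := by
          refine sum_le_sum fun w hw => ?_
          obtain ⟨u, hu, rfl⟩ := mem_image.mp hw
          have e : ∀ R ∈ T.filter (fun R => Fin.init R = Fin.init u),
              ∏ s, f (R s) = (∏ s, f (Fin.init u s)) * f (R (Fin.last r)) := by
            intro R hR
            rw [Fin.prod_univ_castSucc]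
            congr 1
            refine prod_congr rfl fun s _ => ?_
            rw [← (mem_filter.mp hR).2]
            rfl
          rw [sum_congr rfl e, ← mul_sum]
          refine mul_le_mul_of_nonneg_left ?_ (prod_nonneg fun s _ => hf _)
          have inj : Set.InjOn (fun R : Fin (r + 1) → α => R (Fin.last r))
              (T.filter (fun R => Fin.init R = Fin.init u) : Set (Fin (r + 1) → α)) := by
            intro R hR R' hR' h
            simp only [coe_filter, Set.mem_ofPred_eq] at hR hR'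
            rw [← Fin.snoc_init_self R, ← Fin.snoc_init_self R', hR.2, hR'.2]
            simp only at h
            rw [h]
          rw [← sum_image inj]
          refine le_trans ?_ (hT (Fin.last r) u hu)
          refine sum_le_sum_of_subset_of_nonneg (image_subset_image ?_) fun y _ _ => hf y
          intro R hR
          rw [mem_filter] at hR ⊢
          refine ⟨hR.1, fun t ht => ?_⟩
          have := congrFun hR.2 ⟨t.1, ht⟩
          simpa [Fin.init] using this
      _ = (∑ w ∈ T.image Fin.init, ∏ s, f (w s)) * g (Fin.last r) := by rw [sum_mul]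
      _ ≤ (∏ s : Fin r, g s.castSucc) * g (Fin.last r) := by
          refine mul_le_mul_of_nonneg_right ?_ (hg _)
          refine ih (fun s => g s.castSucc) (fun s => hg _) _ fun s u hu => ?_
          obtain ⟨u', hu', rfl⟩ := mem_image.mp hu
          refine le_trans ?_ (hT s.castSucc u' hu')
          refine sum_le_sum_of_subset_of_nonneg ?_ fun y _ _ => hf y
          intro y hy
          obtain ⟨w, hw, rfl⟩ := mem_image.mp hy
          rw [mem_filter] at hw
          obtain ⟨R, hR, rfl⟩ := mem_image.mp hw.1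
          refine mem_image.mpr ⟨R, mem_filter.mpr ⟨hR, fun t ht => ?_⟩, rfl⟩
          have ht' : t.1 < s.1 := ht
          have := hw.2 ⟨t.1, by omega⟩ ht'
          simpa [Fin.init] using this
      _ = ∏ s, g s := (Fin.prod_univ_castSucc g).symm

/-- The completely multiplicative function `n ↦ (∏ w r) / n`, over prime factors with
multiplicity. -/
noncomputable def wdiv (w : ℕ → ℝ) (n : ℕ) : ℝ := (n.primeFactorsList.map w).prod / n

/-- `∏ w r` over prime factors with multiplicity. -/
noncomputable def wprod (w : ℕ → ℝ) (n : ℕ) : ℝ := (n.primeFactorsList.map w).prod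

theorem wprod_mul (w : ℕ → ℝ) {a b : ℕ} (ha : a ≠ 0) (hb : b ≠ 0) :
    wprod w (a * b) = wprod w a * wprod w b := by
  simp only [wprod]
  rw [((Nat.perm_primeFactorsList_mul ha hb).map w).prod_eq, List.map_append, List.prod_append]

theorem wprod_one (w : ℕ → ℝ) : wprod w 1 = 1 := by simp [wprod]

theorem wprod_prod (w : ℕ → ℝ) {ι : Type*} (s : Finset ι) (a : ι → ℕ) (ha : ∀ i ∈ s, a i ≠ 0) :
    wprod w (∏ i ∈ s, a i) = ∏ i ∈ s, wprod w (a i) := by
  classical
  induction s using Finset.induction with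
  | empty => simp [wprod_one]
  | insert i s hi ih =>
    rw [prod_insert hi, prod_insert hi,
      wprod_mul w (ha i (mem_insert_self i s))
        (prod_ne_zero_iff.mpr fun j hj => ha j (mem_insert_of_mem hj)),
      ih fun j hj => ha j (mem_insert_of_mem hj)]

theorem wprod_pos {w : ℕ → ℝ} (hw : ∀ r, 0 < w r) (n : ℕ) : 0 < wprod w n := by
  simp only [wprod]
  refine List.prod_pos fun y hy => ?_
  obtain ⟨r, _, rfl⟩ := List.mem_map.mp hy
  exact hw r

theorem wprod_le_of_dvd {w : ℕ → ℝ} (hw : ∀ r, 0 < w r) (hw1 : ∀ r, w r ≤ 1) {a b : ℕ}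
    (hb : b ≠ 0) (h : a ∣ b) : wprod w b ≤ wprod w a := by
  obtain ⟨c, rfl⟩ := h
  have ha : a ≠ 0 := fun h => hb (by simp [h])
  have hc : c ≠ 0 := fun h => hb (by simp [h])
  rw [wprod_mul w ha hc]
  refine mul_le_of_le_one_right (wprod_pos hw a).le ?_
  have : ∀ l : List ℝ, (∀ y ∈ l, 0 < y ∧ y ≤ 1) → l.prod ≤ 1 := by
    intro l
    induction l with
    | nil => simp
    | cons y l ih =>
      intro hl
      rw [List.prod_cons]
      have h1 := hl y (by simp)
      have hl' : ∀ z ∈ l, 0 < z ∧ z ≤ 1 := fun z hz => hl z (by simp [hz])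
      have h2 := ih hl'
      have h3 : 0 ≤ l.prod := (List.prod_pos fun z hz => (hl' z hz).1).le
      exact mul_le_one₀ h1.2 h3 h2
  exact this _ (by
    intro y hy
    obtain ⟨r, _, rfl⟩ := List.mem_map.mp hy
    exact ⟨hw r, hw1 r⟩)

/-- A finite Euler product bound. -/
theorem euler_le (w : ℕ → ℝ) (hw : ∀ r, 0 ≤ w r) (hw1 : ∀ r, w r ≤ 1) (P T : Finset ℕ)
    (hP : ∀ r ∈ P, r.Prime) (hT : ∀ n ∈ T, 0 < n ∧ n.primeFactors ⊆ P) :
    ∑ n ∈ T, wdiv w n ≤ Real.exp ((∑ r ∈ P, w r / r) + 2) := by
  have hmul : ∀ a b : ℕ, wdiv w (a * b) = wdiv w a * wdiv w b := by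
    intro a b
    rcases eq_or_ne a 0 with rfl | ha
    · simp [wdiv]
    rcases eq_or_ne b 0 with rfl | hb
    · simp [wdiv]
    have e := wprod_mul w ha hb
    simp only [wprod] at e
    simp only [wdiv, e, Nat.cast_mul]
    rw [mul_div_mul_comm]
  let f : ℕ →* ℝ :=
    { toFun := wdiv w
      map_one' := by simp [wdiv]
      map_mul' := hmul }
  have hfp : ∀ p : ℕ, p.Prime → f p = w p / p := fun p hp => by
    show wdiv w p = _
    simp [wdiv, Nat.primeFactorsList_prime hp]
  have hlt : ∀ {p : ℕ}, p.Prime → ‖f p‖ < 1 := fun {p} hp => by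
    rw [hfp p hp, Real.norm_eq_abs, abs_of_nonneg (div_nonneg (hw p) (Nat.cast_nonneg p)),
      div_lt_one (by exact_mod_cast hp.pos)]
    exact lt_of_le_of_lt (hw1 p) (by exact_mod_cast hp.one_lt)
  obtain ⟨-, hs⟩ := EulerProduct.summable_and_hasSum_factoredNumbers_prod_filter_prime_geometric
    (f := f) hlt P
  have hnn : ∀ n, 0 ≤ wdiv w n := fun n =>
    div_nonneg (List.prod_nonneg fun y hy => by
      obtain ⟨r, _, rfl⟩ := List.mem_map.mp hy
      exact hw r) (Nat.cast_nonneg n)
  have hmem : ∀ n ∈ T, n ∈ Nat.factoredNumbers P := fun n hn =>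
    Nat.mem_factoredNumbers_of_primeFactors_subset (hT n hn).1.ne' (hT n hn).2
  have h1 : ∑ n ∈ T, wdiv w n ≤ ∏ p ∈ P with p.Prime, (1 - f p)⁻¹ := by
    have h := sum_le_hasSum (T.subtype (· ∈ Nat.factoredNumbers P)) (fun m _ => hnn m) hs
    rw [sum_subtype_eq_sum_filter, filter_true_of_mem hmem] at h
    exact h
  refine h1.trans ?_
  rw [filter_true_of_mem hP]
  have hstep : ∀ p ∈ P, (1 - f p)⁻¹ ≤ Real.exp (w p / p + 2 / (p : ℝ) ^ 2) := by
    intro p hp
    rw [hfp p (hP p hp)]
    have h2 : (2 : ℝ) ≤ p := by exact_mod_cast (hP p hp).two_le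
    set y := w p / p with hy
    have hy0 : 0 ≤ y := div_nonneg (hw p) (by linarith)
    have hyp : y ≤ 1 / p := div_le_div_of_nonneg_right (hw1 p) (by linarith)
    have hy2 : y ≤ 1 / 2 := hyp.trans (one_div_le_one_div_of_le (by norm_num) h2)
    have hsq : 2 * y ^ 2 ≤ 2 / (p : ℝ) ^ 2 := by
      have : y ^ 2 ≤ (1 / (p : ℝ)) ^ 2 := by gcongr
      calc 2 * y ^ 2 ≤ 2 * (1 / (p : ℝ)) ^ 2 := by linarith
        _ = 2 / (p : ℝ) ^ 2 := by ring
    rw [inv_le_iff_one_le_mul₀ (by linarith)]
    calc (1 : ℝ) ≤ (y + 2 * y ^ 2 + 1) * (1 - y) := by nlinarith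
      _ ≤ Real.exp (y + 2 / (p : ℝ) ^ 2) * (1 - y) := by
          refine mul_le_mul_of_nonneg_right ?_ (by linarith)
          exact le_trans (Real.add_one_le_exp _) (Real.exp_le_exp.mpr (by linarith))
  calc ∏ p ∈ P, (1 - f p)⁻¹ ≤ ∏ p ∈ P, Real.exp (w p / p + 2 / (p : ℝ) ^ 2) :=
        prod_le_prod (fun p hp => inv_nonneg.mpr (by
          have := hlt (hP p hp)
          rw [Real.norm_eq_abs] at this
          linarith [le_abs_self (f p)])) hstep
    _ = Real.exp (∑ p ∈ P, (w p / p + 2 / (p : ℝ) ^ 2)) := (Real.exp_sum _ _).symm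
    _ ≤ Real.exp ((∑ r ∈ P, w r / r) + 2) := by
        rw [sum_add_distrib]
        refine Real.exp_le_exp.mpr (by
          have h3 := sum_inv_sq_le P hP
          linarith)
where
  sum_inv_sq_le (P : Finset ℕ) (hP : ∀ r ∈ P, r.Prime) : ∑ p ∈ P, 2 / (p : ℝ) ^ 2 ≤ 2 := by
    have hsub : P ⊆ Finset.Icc 2 (P.sup id + 2) := fun p hp => by
      simp only [mem_Icc]
      exact ⟨(hP p hp).two_le, le_trans (le_sup (f := id) hp) (by omega)⟩
    refine le_trans (sum_le_sum_of_subset_of_nonneg hsub fun p _ _ => by positivity) ?_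
    have key : ∀ N : ℕ, ∑ p ∈ Finset.Icc 2 (N + 1), 2 / (p : ℝ) ^ 2 ≤ 2 - 2 / ((N : ℝ) + 1) := by
      intro N
      induction N with
      | zero => simp
      | succ N ih =>
        rw [Finset.sum_Icc_succ_top (by omega)]
        push_cast
        have h1 : (0 : ℝ) < (N : ℝ) + 1 := by positivity
        have h2 : 2 / ((N : ℝ) + 1 + 1) ^ 2 ≤ 2 / ((N : ℝ) + 1) - 2 / ((N : ℝ) + 1 + 1) := by
          rw [div_sub_div _ _ (by positivity) (by positivity)]
          rw [div_le_div_iff₀ (by positivity) (by positivity)]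
          nlinarith
        linarith
    refine (key (P.sup id + 1)).trans ?_
    have : 0 ≤ 2 / (((P.sup id + 1 : ℕ) : ℝ) + 1) := by positivity
    linarith

/-- The sum over a set of tuples is at most the product of the coordinate sums. -/
theorem sum_prod_le {E : Type*} [Fintype E] [DecidableEq E] {α : Type*} [DecidableEq α]
    (f : α → ℝ) (hf : ∀ a, 0 ≤ f a) (T : Finset (E → α)) :
    ∑ M ∈ T, ∏ e, f (M e) ≤ ∏ e, ∑ a ∈ T.image (fun M => M e), f a := by
  rw [prod_univ_sum]
  exact sum_le_sum_of_subset_of_nonneg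
    (fun M hM => Fintype.mem_piFinset.mpr fun e => mem_image_of_mem _ hM)
    fun M _ _ => prod_nonneg fun e _ => hf _

end Vale.Agent.P031
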