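import Vale.Agent.P031.Defs
import Vale.Agent.P031.Geometry
import Vale.Agent.P031.MajorantTools

/-!
# P031: two factorisations of one value into shifted primes

Two representations of a value as a product of shifted primes and small parts are encoded by a
matrix without the largest prime factors of the shifted primes, and these largest prime factors.
The latter are summed with the sieve, the matrix with tilted Euler products.
-/

namespace Vale.Agent.P031

open Finset

/-- The largest prime factor. -/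
noncomputable def topPrime (a : ℕ) : ℕ := a.primeFactors.sup id

theorem le_topPrime {a r : ℕ} (hr : r.Prime) (h : r ∣ a) (ha : a ≠ 0) : r ≤ topPrime a :=
  le_sup (f := id) (Nat.mem_primeFactors.mpr ⟨hr, h, ha⟩)

theorem topPrime_mem {a : ℕ} (h : a.primeFactors.Nonempty) : topPrime a ∈ a.primeFactors := by
  obtain ⟨r, hr, he⟩ := exists_mem_eq_sup a.primeFactors h id
  rw [topPrime, he]
  exact hr

/-- What a prime of level `ℓ` has to satisfy. -/
structure RowOK (x : ℝ) (ℓ q : ℕ) : Prop where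
  normal : Normal x ℓ q
  gt : cutCell x < ℓ
  le : ℓ ≤ numCells x
  capped : ll q ≤ llx x + 1
  cellLe : ∀ r ∈ (q - 1).primeFactors, cell x r ≤ ℓ
  low : Real.exp (ℓ * width x) ≤ 3 * (maxLen x : ℝ) * Real.log q

/-- Facts on the parameters which hold for large `x`. -/
structure ParamOK (x : ℝ) : Prop where
  L_pos : 1 ≤ llx x
  width_pos : 0 < width x
  len_pos : 1 ≤ maxLen x
  gap : Real.log (6 * (maxLen x : ℝ) * llx x) ≤ width x
  cut : 2 * cutCell x ≤ numCells x

/-- The reciprocal of the lower bound for `log` of the largest prime factor at level `ℓ`. -/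
noncomputable def gain (x : ℝ) (ℓ : ℕ) : ℝ :=
  3 * (maxLen x : ℝ) * llx x * Real.exp (-(ℓ * width x))

theorem gain_pos {x : ℝ} (hx : ParamOK x) (ℓ : ℕ) : 0 < gain x ℓ := by
  have h1 : (1 : ℝ) ≤ maxLen x := by exact_mod_cast hx.len_pos
  have := hx.L_pos
  unfold gain
  positivity

theorem gain_anti {x : ℝ} (hx : ParamOK x) {a b : ℕ} (h : a ≤ b) : gain x b ≤ gain x a := by
  have h1 : (1 : ℝ) ≤ maxLen x := by exact_mod_cast hx.len_pos
  have := hx.L_pos
  unfold gain
  refine mul_le_mul_of_nonneg_left (Real.exp_le_exp.mpr ?_) (by positivity)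
  have h2 : (a : ℝ) ≤ b := by exact_mod_cast h
  nlinarith [hx.width_pos]

theorem gain_le_half {x : ℝ} (hx : ParamOK x) {ℓ : ℕ} (h : 1 ≤ ℓ) : gain x ℓ ≤ 1 / 2 := by
  have h1 : (1 : ℝ) ≤ maxLen x := by exact_mod_cast hx.len_pos
  have hL := hx.L_pos
  refine (gain_anti hx h).trans ?_
  unfold gain
  rw [Real.exp_neg, Nat.cast_one, one_mul, ← div_eq_mul_inv, div_le_iff₀ (Real.exp_pos _)]
  have := (Real.log_le_iff_le_exp (by positivity)).mp hx.gap
  linarith

/-- The upper bound for the mass of each cell. -/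
def CellBd (x C : ℝ) : Prop :=
  0 ≤ C ∧ ∀ j ≤ numCells x, (∑ r ∈ cellPrimes x j, (1 : ℝ) / r) ≤ width x + C

/-- The sieve bound for one or two linear forms, plain and in a dyadic window. -/
def SieveBd (x K : ℝ) : Prop :=
  1 ≤ K ∧ ∀ F : Finset ℕ, F.Nonempty → F.card ≤ 2 → (∀ a ∈ F, 0 < a ∧ ll a ≤ llx x + 1) →
    ∀ T : ℝ, 2 ≤ T → ∀ S : Finset ℕ,
    (∀ R ∈ S, R.Prime ∧ (∀ a ∈ F, (a * R + 1).Prime) ∧ Real.exp T ≤ (R : ℝ)) →
    (∑ R ∈ S, (1 : ℝ) / R) ≤ K / T ^ F.card ∧
      ∀ X : ℝ, (∀ R ∈ S, X / 2 < (R : ℝ) ∧ (R : ℝ) ≤ X) →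
        (∑ R ∈ S, (1 : ℝ) / R) ≤ K / T ^ (F.card + 1)

theorem RowOK.topPrime_props {x : ℝ} (hx : ParamOK x) {ℓ q : ℕ} (h : RowOK x ℓ q) :
    (topPrime (q - 1)).Prime ∧ topPrime (q - 1) ∣ q - 1 ∧
      halfCell x ≤ cell x (topPrime (q - 1)) ∧
      (gain x ℓ)⁻¹ ≤ Real.log (topPrime (q - 1)) := by
  obtain ⟨r, hr, hrq⟩ := h.normal.large
  have hne : (q - 1).primeFactors.Nonempty := ⟨r, hr⟩
  have hR := Nat.mem_primeFactors.mp (topPrime_mem hne)
  set R := topPrime (q - 1) with hRdef
  have hrR : (r : ℝ) ≤ R := by exact_mod_cast le_sup (f := id) hr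
  have hRpos : (0 : ℝ) < R := by exact_mod_cast hR.1.pos
  have hlogR : Real.log q / llx x ≤ Real.log R := by
    rw [Real.le_log_iff_exp_le hRpos]
    exact hrq.trans hrR
  have hN : (1 : ℝ) ≤ maxLen x := by exact_mod_cast hx.len_pos
  have hL := hx.L_pos
  have hgain : (gain x ℓ)⁻¹ ≤ Real.log R := by
    refine le_trans ?_ hlogR
    rw [le_div_iff₀ (by linarith), inv_mul_le_iff₀ (gain_pos hx ℓ)]
    calc llx x = llx x * (Real.exp (ℓ * width x) * Real.exp (-(ℓ * width x))) := by
          rw [← Real.exp_add, add_neg_cancel, Real.exp_zero, mul_one]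
      _ ≤ llx x * ((3 * (maxLen x : ℝ) * Real.log q) * Real.exp (-(ℓ * width x))) := by
          gcongr; exact h.low
      _ = gain x ℓ * Real.log q := by unfold gain; ring
  refine ⟨hR.1, hR.2.1, ?_, hgain⟩
  have hlogpos : 0 < Real.log R := lt_of_lt_of_le (inv_pos.mpr (gain_pos hx ℓ)) hgain
  have hll : (ℓ : ℝ) * width x - width x ≤ ll R := by
    have h1 := Real.log_le_log (inv_pos.mpr (gain_pos hx ℓ)) hgain
    have e : Real.log (gain x ℓ)⁻¹
        = (ℓ : ℝ) * width x - Real.log (3 * (maxLen x : ℝ) * llx x) := by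
      unfold gain
      rw [Real.log_inv, Real.log_mul (by positivity) (Real.exp_pos _).ne', Real.log_exp]
      ring
    rw [e] at h1
    have h2 : Real.log (3 * (maxLen x : ℝ) * llx x) ≤ width x :=
      le_trans (Real.log_le_log (by positivity) (by nlinarith)) hx.gap
    show _ ≤ Real.log (Real.log R)
    linarith
  have h0 := halfCell_le_cutCell x
  have hgt := h.gt
  have hle := h.le
  refine le_min (by omega) (Nat.le_floor ?_)
  rw [le_div_iff₀ hx.width_pos]
  have h3 : (halfCell x : ℝ) + 1 ≤ ℓ := by exact_mod_cast (by omega : halfCell x + 1 ≤ ℓ)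
  nlinarith [hx.width_pos]

theorem mem_cellPrimes {x : ℝ} {j r : ℕ} (hr : r.Prime) (hj : cell x r = j)
    (hll : ll r ≤ llx x + 1) : r ∈ cellPrimes x j := by
  refine mem_filter.mpr ⟨mem_range.mpr ?_, hr, hj, hll⟩
  have h1 : (1 : ℝ) < r := by exact_mod_cast hr.one_lt
  have hlog : 0 < Real.log r := Real.log_pos h1
  have h2 : Real.log r ≤ Real.exp (llx x + 1) := (Real.log_le_iff_le_exp hlog).mp hll
  have h3 : (r : ℝ) ≤ Real.exp (Real.exp (llx x + 1)) :=
    (Real.log_le_iff_le_exp (by linarith)).mp h2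
  have h4 := Nat.le_ceil (Real.exp (Real.exp (llx x + 1)))
  have h5 : (r : ℝ) ≤ ((⌈Real.exp (Real.exp (llx x + 1))⌉₊ : ℕ) : ℝ) := h3.trans h4
  have : r ≤ ⌈Real.exp (Real.exp (llx x + 1))⌉₊ := by exact_mod_cast h5
  omega

theorem ll_mono {a b : ℕ} (hab : a ≤ b) (hb : 3 ≤ b) : ll a ≤ ll b := by
  rcases lt_or_ge a 2 with ha | ha
  · have : ll a = 0 := by interval_cases a <;> simp [ll]
    rw [this]
    refine Real.log_nonneg ?_
    rw [Real.le_log_iff_exp_le (by positivity)]
    have := Real.exp_one_lt_d9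
    have : (3 : ℝ) ≤ b := by exact_mod_cast hb
    linarith
  · exact ll_le_ll ha hab

/-- The prime factors of a small part. -/
theorem SmallPart.prime_props {x : ℝ} (hx : ParamOK x) {m : ℕ} (h : SmallPart x m) :
    0 < m ∧ ∀ r ∈ m.primeFactors, cell x r ≤ cutCell x ∧ ll r ≤ llx x + 1 := by
  obtain ⟨n, hn, rfl, hcells⟩ := h.isTot
  refine ⟨Nat.totient_pos.mpr hn, fun r hr => ⟨?_, ?_⟩⟩
  · obtain ⟨hp, hd, -⟩ := Nat.mem_primeFactors.mp hr
    obtain ⟨p, hpn, hrp⟩ : ∃ p ∈ n.primeFactors, r ≤ p := by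
      have e : n.totient * ∏ p ∈ n.primeFactors, p = n * ∏ p ∈ n.primeFactors, (p - 1) :=
        Nat.totient_mul_prod_primeFactors n
      have h2 : r ∣ n * ∏ p ∈ n.primeFactors, (p - 1) := e ▸ dvd_mul_of_dvd_left hd _
      rcases hp.dvd_mul.mp h2 with h3 | h3
      · exact ⟨r, Nat.mem_primeFactors.mpr ⟨hp, h3, hn.ne'⟩, le_rfl⟩
      · obtain ⟨p, hpn, h4⟩ := hp.prime.exists_mem_finset_dvd h3
        refine ⟨p, hpn, le_trans (Nat.le_of_dvd ?_ h4) (Nat.sub_le p 1)⟩
        have := (Nat.mem_primeFactors.mp hpn).1.two_le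
        omega
    exact le_trans (cell_le_cell (by linarith [hx.L_pos]) hp.two_le hrp) (hcells p hpn)
  · obtain ⟨hp, hd, hm⟩ := Nat.mem_primeFactors.mp hr
    have hle : (r : ℝ) ≤ Real.exp (Real.exp (2 * (cutCell x : ℝ) * width x)) :=
      le_trans (by exact_mod_cast Nat.le_of_dvd (Nat.pos_of_ne_zero hm) hd) h.le
    have h1 : (1 : ℝ) < r := by exact_mod_cast hp.one_lt
    have hlog : 0 < Real.log r := Real.log_pos h1
    have h2 : Real.log r ≤ Real.exp (2 * (cutCell x : ℝ) * width x) :=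
      (Real.log_le_iff_le_exp (by linarith)).mpr hle
    have h3 : ll r ≤ 2 * (cutCell x : ℝ) * width x := (Real.log_le_iff_le_exp hlog).mpr h2
    have h4 : 2 * (cutCell x : ℝ) ≤ numCells x := by exact_mod_cast hx.cut
    have h5 : (numCells x : ℝ) * width x ≤ llx x := by
      unfold width
      rcases Nat.eq_zero_or_pos (numCells x) with h0 | h0
      · simp [h0]; linarith [hx.L_pos]
      · rw [mul_div_cancel₀]
        exact_mod_cast h0.ne'
    nlinarith [hx.width_pos]

/-! ### Representations -/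

/-- The primes of the two sides. -/
abbrev Own (n k : ℕ) := Fin n ⊕ Fin k

/-- The entries of the matrix. -/
abbrev Ent (n k : ℕ) := Option (Fin n) × Option (Fin k)

/-- Two representations: the primes of both sides and the two small parts. -/
abbrev Rep (n k : ℕ) := (Own n k → ℕ) × ℕ × ℕ

variable {n k : ℕ}

/-- The factors of the first representation. -/
def rowVal (a : Rep n k) : Option (Fin n) → ℕ
  | none => a.2.1
  | some i => a.1 (Sum.inl i) - 1

/-- The factors of the second representation. -/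
def colVal (a : Rep n k) : Option (Fin k) → ℕ
  | none => a.2.2
  | some l => a.1 (Sum.inr l) - 1

/-- The common value. -/
def repVal (a : Rep n k) : ℕ := ∏ i, rowVal a i

/-- The entries on the line of a prime. -/
def lineSet : Own n k → Finset (Ent n k)
  | Sum.inl i => univ.filter (fun e => e.1 = some i)
  | Sum.inr l => univ.filter (fun e => e.2 = some l)

/-- The level of a row or column, the small part counting as level `j₀`. -/
noncomputable def levOpt {m : ℕ} (x : ℝ) (lev : Fin m → ℕ) : Option (Fin m) → ℕ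
  | none => cutCell x
  | some i => lev i

/-- The largest cell of a prime in an entry. -/
noncomputable def entCap (x : ℝ) (Λ : Own n k → ℕ) (e : Ent n k) : ℕ :=
  min (levOpt x (fun i => Λ (Sum.inl i)) e.1) (levOpt x (fun l => Λ (Sum.inr l)) e.2)

/-- Valid pairs of representations. -/
structure Valid (x : ℝ) (Λ : Own n k → ℕ) (a : Rep n k) : Prop where
  rows : ∀ o, RowOK x (Λ o) (a.1 o)
  left : SmallPart x a.2.1
  right : SmallPart x a.2.2
  eq : ∏ i, rowVal a i = ∏ l, colVal a l
  sq : SqOK x (repVal a)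
  ne : ∀ i l, a.1 (Sum.inl i) ≠ a.1 (Sum.inr l)

/-- The shapes of the encoding: number of slots, slot of each prime, entry of each slot. -/
abbrev Shp (n k : ℕ) := Σ r : Fin (n + k + 1), (Own n k → Fin r) × (Fin r → Ent n k)

/-- An entry with its slots restored. -/
def fullEnt (st : Shp n k) (M0 : Ent n k → ℕ) (R : Fin st.1 → ℕ) (e : Ent n k) : ℕ :=
  M0 e * ∏ t ∈ univ.filter (fun t => st.2.2 t = e), R t

/-- The encoding of a pair of representations. -/
structure Decomp (x : ℝ) (Λ : Own n k → ℕ) (a : Rep n k) (st : Shp n k) (M0 : Ent n k → ℕ)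
    (R : Fin st.1 → ℕ) : Prop where
  mono : StrictMono R
  prime : ∀ t, (R t).Prime
  line : ∀ o, st.2.2 (st.2.1 o) ∈ lineSet o
  top : ∀ o t, st.2.2 t ∈ lineSet o → t ≤ st.2.1 o
  surj : ∀ t, ∃ o, st.2.1 o = t
  pos : ∀ e, 0 < M0 e
  rowEq : ∀ i, rowVal a i = ∏ l, fullEnt st M0 R (i, l)
  colEq : ∀ l, colVal a l = ∏ i, fullEnt st M0 R (i, l)
  low : ∀ o, (gain x (Λ o))⁻¹ ≤ Real.log (R (st.2.1 o))
  small : ∀ e, ∀ r ∈ (M0 e).primeFactors, ll r ≤ llx x + 1 ∧ cell x r ≤ entCap x Λ e

theorem rowVal_pos {x : ℝ} (hx : ParamOK x) {Λ : Own n k → ℕ} {a : Rep n k} (h : Valid x Λ a) :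
    (∀ i, 0 < rowVal a i) ∧ ∀ l, 0 < colVal a l := by
  have hq : ∀ o, 0 < a.1 o - 1 := fun o => by
    have := (h.rows o).normal.prime.two_le; omega
  constructor
  · rintro (_ | i)
    · exact (h.left.prime_props hx).1
    · exact hq _
  · rintro (_ | l)
    · exact (h.right.prime_props hx).1
    · exact hq _

theorem line_prod {a : Rep n k} {F : Ent n k → ℕ} (hr : ∀ i, rowVal a i = ∏ l, F (i, l))
    (hc : ∀ l, colVal a l = ∏ i, F (i, l)) (o : Own n k) :
    a.1 o - 1 = ∏ e ∈ lineSet o, F e := by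
  rcases o with i | l
  · rw [show a.1 (Sum.inl i) - 1 = rowVal a (some i) from rfl, hr]
    refine prod_bij (fun l _ => (some i, l)) ?_ ?_ ?_ ?_
    · intro l _; simp [lineSet]
    · intro l _ l' _ h; simpa using h
    · intro e he
      exact ⟨e.2, mem_univ _, Prod.ext ((mem_filter.mp he).2).symm rfl⟩
    · intro l _; rfl
  · rw [show a.1 (Sum.inr l) - 1 = colVal a (some l) from rfl, hc]
    refine prod_bij (fun i _ => (i, some l)) ?_ ?_ ?_ ?_
    · intro i _; simp [lineSet]
    · intro i _ i' _ h; simpa using h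
    · intro e he
      exact ⟨e.1, mem_univ _, Prod.ext rfl ((mem_filter.mp he).2).symm⟩
    · intro i _; rfl

/-- Every valid pair of representations has an encoding. -/
theorem exists_decomp {x : ℝ} (hx : ParamOK x) {Λ : Own n k → ℕ} {a : Rep n k}
    (h : Valid x Λ a) : ∃ st : Shp n k, ∃ M0 : Ent n k → ℕ, ∃ R : Fin st.1 → ℕ,
      Decomp x Λ a st M0 R := by
  obtain ⟨hpr, hpc⟩ := rowVal_pos hx h
  obtain ⟨M, hM, hM'⟩ := exists_refine (univ : Finset (Option (Fin n))) (rowVal a) (colVal a) hpc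
    h.eq
  set F : Ent n k → ℕ := fun e => M e.1 e.2 with hF
  have hrow : ∀ i, rowVal a i = ∏ l, F (i, l) := fun i => (hM i (mem_univ i)).symm
  have hcol : ∀ l, colVal a l = ∏ i, F (i, l) := fun l => (hM' l).symm
  have hv : repVal a = ∏ e, F e := by
    rw [repVal, Fintype.prod_prod_type]
    exact prod_congr rfl fun i _ => hrow i
  have hFpos : ∀ e, 0 < F e := by
    intro e
    refine Nat.pos_of_ne_zero fun h0 => (hpr e.1).ne' ?_
    rw [hrow]
    exact prod_eq_zero (mem_univ e.2) h0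
  set P : Own n k → ℕ := fun o => topPrime (a.1 o - 1) with hP
  have hPp := fun o => (h.rows o).topPrime_props hx
  set 𝓡 := univ.image P with h𝓡
  have hcard : 𝓡.card < n + k + 1 := by
    have := card_image_le (s := (univ : Finset (Own n k))) (f := P)
    simp only [card_univ, Fintype.card_sum, Fintype.card_fin] at this
    rw [← h𝓡] at this
    omega
  set r : Fin (n + k + 1) := ⟨𝓡.card, hcard⟩ with hr
  set R : Fin r.1 → ℕ := fun t => 𝓡.orderEmbOfFin rfl t with hRdef
  have hRmem : ∀ t, ∃ o, P o = R t := fun t => by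
    obtain ⟨o, -, ho⟩ := mem_image.mp (orderEmbOfFin_mem 𝓡 rfl t)
    exact ⟨o, ho⟩
  have hτ : ∀ o, ∃ t, R t = P o := fun o => by
    have h1 : P o ∈ Set.range (𝓡.orderEmbOfFin rfl) := by
      rw [range_orderEmbOfFin]
      exact mem_coe.mpr (mem_image_of_mem P (mem_univ o))
    exact h1
  choose τ hτ using hτ
  have hRp : ∀ t, (R t).Prime := fun t => by
    obtain ⟨o, ho⟩ := hRmem t
    exact ho ▸ (hPp o).1
  have huniq : ∀ t e e', R t ∣ F e → R t ∣ F e' → e = e' := by
    intro t e e' he he'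
    by_contra hne
    obtain ⟨o, ho⟩ := hRmem t
    refine h.sq (R t) (hRp t) (ho ▸ (hPp o).2.2.1) ?_
    rw [hv, sq]
    have : (F e * F e') ∣ ∏ e, F e := by
      rw [← prod_pair (f := F) hne]
      exact prod_dvd_prod_of_subset _ _ _ (subset_univ _)
    exact (Nat.mul_dvd_mul he he').trans this
  have hline : ∀ o, ∃ e ∈ lineSet o, P o ∣ F e := fun o => by
    exact (hPp o).1.prime.exists_mem_finset_dvd
      ((hPp o).2.1.trans (line_prod hrow hcol o).dvd)
  have hent : ∀ t, ∃ e, R t ∣ F e := fun t => by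
    obtain ⟨o, ho⟩ := hRmem t
    obtain ⟨e, -, he⟩ := hline o
    exact ⟨e, ho ▸ he⟩
  choose ent hent using hent
  let st : Shp n k := ⟨r, τ, ent⟩
  have hdvd : ∀ e, ∏ t ∈ univ.filter (fun t => ent t = e), R t ∣ F e := by
    intro e
    have hinj : Set.InjOn R (univ.filter (fun t => ent t = e) : Set (Fin r.1)) :=
      fun t _ t' _ h => (𝓡.orderEmbOfFin rfl).injective h
    rw [← prod_image (f := fun y => y) hinj]
    refine prod_primes_dvd _ (fun y hy => ?_) (fun y hy => ?_)
    · obtain ⟨t, -, rfl⟩ := mem_image.mp hy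
      exact (hRp t).prime
    · obtain ⟨t, ht, rfl⟩ := mem_image.mp hy
      exact (mem_filter.mp ht).2 ▸ hent t
  set M0 : Ent n k → ℕ := fun e => F e / ∏ t ∈ univ.filter (fun t => ent t = e), R t with hM0
  have hfull : ∀ e, fullEnt st M0 R e = F e := fun e => Nat.div_mul_cancel (hdvd e)
  refine ⟨st, M0, R, ?_⟩
  constructor
  · exact (𝓡.orderEmbOfFin rfl).strictMono
  · exact hRp
  · intro o
    obtain ⟨e, he, hdv⟩ := hline o
    show ent (τ o) ∈ lineSet o
    rw [huniq (τ o) (ent (τ o)) e (hent _) (by rw [hτ]; exact hdv)]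
    exact he
  · intro o t ht
    have h1 : R t ∣ a.1 o - 1 := by
      rw [line_prod hrow hcol o]
      exact (hent t).trans (dvd_prod_of_mem _ ht)
    have h2 := le_topPrime (hRp t) h1 (by have := (h.rows o).normal.prime.two_le; omega)
    rw [show topPrime (a.1 o - 1) = R (τ o) from (hτ o).symm] at h2
    exact (𝓡.orderEmbOfFin rfl).le_iff_le.mp h2
  · intro t
    obtain ⟨o, ho⟩ := hRmem t
    exact ⟨o, (𝓡.orderEmbOfFin rfl).injective ((hτ o).trans ho)⟩
  · intro e
    exact Nat.div_pos (Nat.le_of_dvd (hFpos e) (hdvd e)) (prod_pos fun t _ => (hRp t).pos)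
  · intro i; rw [hrow]; exact prod_congr rfl fun l _ => (hfull _).symm
  · intro l; rw [hcol]; exact prod_congr rfl fun i _ => (hfull _).symm
  · intro o
    show _ ≤ Real.log (R (τ o))
    rw [hτ]
    exact (hPp o).2.2.2
  · intro e p hp
    obtain ⟨hpp, hpd, -⟩ := Nat.mem_primeFactors.mp hp
    have hd : M0 e ∣ F e := Nat.div_dvd_of_dvd (hdvd e)
    have hq : ∀ o, e ∈ lineSet o → ll p ≤ llx x + 1 ∧ cell x p ≤ Λ o := by
      intro o ho
      have h1 : p ∣ a.1 o - 1 := by
        rw [line_prod hrow hcol o]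
        exact (hpd.trans hd).trans (dvd_prod_of_mem _ ho)
      have hne : a.1 o - 1 ≠ 0 := by have := (h.rows o).normal.prime.two_le; omega
      refine ⟨?_, (h.rows o).cellLe p (Nat.mem_primeFactors.mpr ⟨hpp, h1, hne⟩)⟩
      have h2 := Nat.le_of_dvd (Nat.pos_of_ne_zero hne) h1
      exact le_trans (ll_le_ll hpp.two_le (h2.trans (Nat.sub_le _ _))) (h.rows o).capped
    have hsr : ll p ≤ llx x + 1 ∧ cell x p ≤ levOpt x (fun i => Λ (Sum.inl i)) e.1 := by
      rcases he1 : e.1 with _ | i
      · have h1 : p ∣ rowVal a none := by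
          rw [hrow]
          refine (hpd.trans hd).trans ?_
          rw [show F e = F (none, e.2) by rw [← he1]]
          exact dvd_prod_of_mem (fun l => F (none, l)) (mem_univ e.2)
        obtain ⟨hm, hall⟩ := h.left.prime_props hx
        exact (hall p (Nat.mem_primeFactors.mpr ⟨hpp, h1, hm.ne'⟩)).symm
      · exact hq (Sum.inl i) (mem_filter.mpr ⟨mem_univ _, he1⟩)
    have hsc : cell x p ≤ levOpt x (fun l => Λ (Sum.inr l)) e.2 := by
      rcases he2 : e.2 with _ | l
      · have h1 : p ∣ colVal a none := by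
          rw [hcol]
          refine (hpd.trans hd).trans ?_
          rw [show F e = F (e.1, none) by rw [← he2]]
          exact dvd_prod_of_mem (fun i => F (i, none)) (mem_univ e.1)
        obtain ⟨hm, hall⟩ := h.right.prime_props hx
        exact (hall p (Nat.mem_primeFactors.mpr ⟨hpp, h1, hm.ne'⟩)).1
      · exact (hq (Sum.inr l) (mem_filter.mpr ⟨mem_univ _, he2⟩)).2
    exact ⟨hsr.1, le_min hsr.2 hsc⟩

theorem Decomp.val_eq {x : ℝ} {Λ : Own n k → ℕ} {a : Rep n k} {st : Shp n k} {M0 : Ent n k → ℕ}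
    {R : Fin st.1 → ℕ} (h : Decomp x Λ a st M0 R) :
    repVal a = (∏ e, M0 e) * ∏ t, R t := by
  have e1 : repVal a = ∏ e, fullEnt st M0 R e := by
    rw [repVal, Fintype.prod_prod_type]
    exact prod_congr rfl fun i _ => h.rowEq i
  rw [e1]
  simp only [fullEnt]
  rw [prod_mul_distrib, prod_fiberwise univ st.2.2 R]

theorem Decomp.unique {x : ℝ} {Λ : Own n k → ℕ} {a b : Rep n k} {st : Shp n k}
    {M0 : Ent n k → ℕ} {R : Fin st.1 → ℕ} (ha : Decomp x Λ a st M0 R)
    (hb : Decomp x Λ b st M0 R) (va : Valid x Λ a) (vb : Valid x Λ b) : a = b := by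
  have hr : ∀ i, rowVal a i = rowVal b i := fun i => (ha.rowEq i).trans (hb.rowEq i).symm
  have hc : ∀ l, colVal a l = colVal b l := fun l => (ha.colEq l).trans (hb.colEq l).symm
  have h1 : a.1 = b.1 := funext fun o => by
    have e : a.1 o - 1 = b.1 o - 1 := by
      rcases o with i | l
      · exact hr (some i)
      · exact hc (some l)
    have := (va.rows o).normal.prime.two_le
    have := (vb.rows o).normal.prime.two_le
    omega
  exact Prod.ext h1 (Prod.ext (hr none) (hc none))

theorem Decomp.eq_of_code {x : ℝ} {Λ : Own n k → ℕ} {a : Rep n k} {st st' : Shp n k}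
    {p : (Ent n k → ℕ) × (Fin st.1 → ℕ)} {q : (Ent n k → ℕ) × (Fin st'.1 → ℕ)}
    (h : (⟨st, p⟩ : Σ s : Shp n k, (Ent n k → ℕ) × (Fin s.1 → ℕ)) = ⟨st', q⟩)
    (ha : Decomp x Λ a st p.1 p.2) : Decomp x Λ a st' q.1 q.2 := by
  cases h
  exact ha

/-- An optional dyadic window for the value, with the level of a prime that is then available. -/
def InWindow (win : Option (Own n k × ℝ)) (a : Rep n k) : Prop :=
  ∀ w ∈ win, w.2 / 2 < (repVal a : ℝ) ∧ (repVal a : ℝ) ≤ w.2

/-- The additional gain from the window. -/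
noncomputable def winGain (x : ℝ) (Λ : Own n k → ℕ) : Option (Own n k × ℝ) → ℝ
  | none => 1
  | some w => gain x (Λ w.1)

/-- The sum over the slots, the matrix being fixed. -/
theorem slots_le {x : ℝ} (hx : ParamOK x) {K : ℝ} (hS : SieveBd x K) {Λ : Own n k → ℕ}
    (win : Option (Own n k × ℝ)) (st : Shp n k) (M0 : Ent n k → ℕ)
    (T : Finset (Fin st.1 → ℕ))
    (hT : ∀ R ∈ T, ∃ a, Valid x Λ a ∧ InWindow win a ∧ Decomp x Λ a st M0 R) :
    ∑ R ∈ T, ∏ t, (1 : ℝ) / (R t : ℝ) ≤ K ^ (n + k) * (∏ o, gain x (Λ o)) * winGain x Λ win := by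
  classical
  obtain ⟨hK, hsieve⟩ := hS
  obtain ⟨r, τ, ent⟩ := st
  dsimp only at *
  rcases T.eq_empty_or_nonempty with rfl | ⟨R0, hR0⟩
  · simp only [sum_empty]
    refine mul_nonneg (mul_nonneg (pow_nonneg (by linarith) _)
      (prod_nonneg fun o _ => (gain_pos hx _).le)) ?_
    cases win with
    | none => exact zero_le_one
    | some w => exact (gain_pos hx _).le
  obtain ⟨a0, hv0, -, hd0⟩ := hT R0 hR0
  -- the factor for the last slot
  set ext : Fin r.1 → ℝ := fun s => if s.1 + 1 = r.1 then winGain x Λ win else 1 with hext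
  set g : Fin r.1 → ℝ := fun s => K * (∏ o ∈ univ.filter (fun o => τ o = s), gain x (Λ o)) * ext s
    with hg
  have hwpos : 0 < winGain x Λ win := by
    cases win with
    | none => exact zero_lt_one
    | some w => exact gain_pos hx _
  have hextpos : ∀ s, 0 < ext s := fun s => by
    simp only [hext]; split <;> simp [hwpos]
  have hgpos : ∀ s, 0 ≤ g s := fun s => by
    have : 0 ≤ ∏ o ∈ univ.filter (fun o => τ o = s), gain x (Λ o) :=
      prod_nonneg fun o _ => (gain_pos hx _).le
    have := (hextpos s).le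
    simp only [hg]
    positivity
  have hrle : r.1 ≤ n + k := by omega
  have hprod : ∏ s, g s ≤ K ^ (n + k) * (∏ o, gain x (Λ o)) * winGain x Λ win := by
    simp only [hg]
    rw [prod_mul_distrib, prod_mul_distrib, prod_fiberwise univ τ (fun o => gain x (Λ o))]
    simp only [prod_const, card_univ, Fintype.card_fin]
    refine mul_le_mul (mul_le_mul_of_nonneg_right (pow_le_pow_right₀ hK hrle)
      (prod_nonneg fun o _ => (gain_pos hx _).le)) ?_ (prod_nonneg fun s _ => (hextpos s).le)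
      (mul_nonneg (pow_nonneg (by linarith) _) (prod_nonneg fun o _ => (gain_pos hx _).le))
    cases win with
    | none => simp [hext, winGain]
    | some w =>
      have h1 : 0 < r.1 := Fin.pos (τ w.1)
      let sl : Fin r.1 := ⟨r.1 - 1, by omega⟩
      rw [prod_eq_single sl (fun s _ hs => ?_) (fun h => absurd (mem_univ sl) h)]
      · simp only [hext]; rw [if_pos (by show r.1 - 1 + 1 = r.1; omega)]
      · simp only [hext]
        rw [if_neg]
        intro h
        exact hs (Fin.ext (by show s.1 = r.1 - 1; omega))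
  refine le_trans ?_ hprod
  refine iter_sum (fun y : ℕ => (1 : ℝ) / y) (fun y => by positivity) r.1 g hgpos T ?_
  intro s u hu
  obtain ⟨au, hvu, hwu, hdu⟩ := hT u hu
  set O := univ.filter (fun o => τ o = s) with hO
  have hOne : O.Nonempty := by
    obtain ⟨o, ho⟩ := hdu.surj s
    exact ⟨o, mem_filter.mpr ⟨mem_univ o, ho⟩⟩
  -- the fixed cofactors
  set B : Own n k → ℕ := fun o => (∏ e ∈ lineSet o, M0 e) *
    ∏ t ∈ univ.filter (fun t => t < s ∧ ent t ∈ lineSet o), u t with hB
  have hform : ∀ a R, Valid x Λ a → Decomp x Λ a ⟨r, τ, ent⟩ M0 R → (∀ t < s, R t = u t) →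
      ∀ o ∈ O, B o * R s = a.1 o - 1 := by
    intro a R _ hd hagree o ho
    have hso : τ o = s := (mem_filter.mp ho).2
    rw [line_prod (F := fullEnt ⟨r, τ, ent⟩ M0 R) hd.rowEq hd.colEq o]
    simp only [fullEnt]
    rw [prod_mul_distrib, prod_fiberwise_eq_prod_filter univ (lineSet o) ent R]
    have hsin : ent s ∈ lineSet o := hso ▸ hd.line o
    have hsplit : univ.filter (fun t => ent t ∈ lineSet o)
        = insert s (univ.filter (fun t => t < s ∧ ent t ∈ lineSet o)) := by
      ext t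
      simp only [mem_filter, mem_univ, true_and, mem_insert]
      constructor
      · intro ht
        have := hd.top o t ht
        simp only [hso] at this
        rcases this.eq_or_lt with h | h
        · exact Or.inl h
        · exact Or.inr ⟨h, ht⟩
      · rintro (rfl | ⟨-, ht⟩)
        · exact hsin
        · exact ht
    rw [hsplit, prod_insert (by simp), hB]
    have : ∏ t ∈ univ.filter (fun t => t < s ∧ ent t ∈ lineSet o), u t
        = ∏ t ∈ univ.filter (fun t => t < s ∧ ent t ∈ lineSet o), R t :=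
      prod_congr rfl fun t ht => (hagree t (mem_filter.mp ht).2.1).symm
    simp only [this]
    ring
  have hBu := hform au u hvu hdu (fun t _ => rfl)
  have hBinj : Set.InjOn B (O : Set (Own n k)) := by
    intro o ho o' ho' hbe
    have e1 := hBu o (mem_coe.mp ho)
    have e2 := hBu o' (mem_coe.mp ho')
    rw [hbe] at e1
    have := (hvu.rows o).normal.prime.two_le
    have := (hvu.rows o').normal.prime.two_le
    have heq : au.1 o = au.1 o' := by omega
    have hl : ent s ∈ lineSet o := (mem_filter.mp (mem_coe.mp ho)).2 ▸ hdu.line o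
    have hl' : ent s ∈ lineSet o' := (mem_filter.mp (mem_coe.mp ho')).2 ▸ hdu.line o'
    rcases o with i | l <;> rcases o' with i' | l'
    · simp only [lineSet, mem_filter, mem_univ, true_and] at hl hl'
      rw [hl] at hl'
      rw [Option.some_inj.mp hl']
    · exact absurd heq (hvu.ne i l')
    · exact absurd heq.symm (hvu.ne i' l)
    · simp only [lineSet, mem_filter, mem_univ, true_and] at hl hl'
      rw [hl] at hl'
      rw [Option.some_inj.mp hl']
  set Fs := O.image B with hFs
  have hFcard : Fs.card = O.card := card_image_of_injOn hBinj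
  have hcard2 : O.card ≤ 2 := by
    have hinj : Set.InjOn (fun o : Own n k => o.isLeft) (O : Set (Own n k)) := by
      intro o ho o' ho' hb
      have hl : ent s ∈ lineSet o := (mem_filter.mp (mem_coe.mp ho)).2 ▸ hdu.line o
      have hl' : ent s ∈ lineSet o' := (mem_filter.mp (mem_coe.mp ho')).2 ▸ hdu.line o'
      rcases o with i | l <;> rcases o' with i' | l'
      · simp only [lineSet, mem_filter, mem_univ, true_and] at hl hl'
        rw [hl] at hl'
        rw [Option.some_inj.mp hl']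
      · simp at hb
      · simp at hb
      · simp only [lineSet, mem_filter, mem_univ, true_and] at hl hl'
        rw [hl] at hl'
        rw [Option.some_inj.mp hl']
    have := card_le_card_of_injOn (fun o : Own n k => o.isLeft) (fun o _ => mem_univ _) hinj
      (t := (univ : Finset Bool))
    simpa using this
  have hFll : ∀ b ∈ Fs, 0 < b ∧ ll b ≤ llx x + 1 := by
    intro b hb
    obtain ⟨o, ho, rfl⟩ := mem_image.mp hb
    have e := hBu o ho
    have hq := (hvu.rows o).normal.prime
    have hu2 := (hdu.prime s).two_le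
    have hq2 := hq.two_le
    have hbpos : 0 < B o := Nat.pos_of_ne_zero fun h0 => by rw [h0, zero_mul] at e; omega
    refine ⟨hbpos, le_trans ?_ (hvu.rows o).capped⟩
    have : B o * 2 ≤ au.1 o - 1 := e ▸ Nat.mul_le_mul_left _ hu2
    exact ll_mono (by omega) (by omega)
  -- the sieve on the innermost slot
  set Sy := (T.filter (fun R => ∀ t < s, R t = u t)).image (fun R => R s) with hSy
  obtain ⟨omax, homax, hmax⟩ := exists_max_image O (fun o => Λ o) hOne
  have hpos1 : ∀ o, 1 ≤ Λ o := fun o => by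
    have := (hvu.rows o).gt; omega
  have hmem : ∀ y ∈ Sy, ∃ R a, Valid x Λ a ∧ InWindow win a ∧
      Decomp x Λ a ⟨r, τ, ent⟩ M0 R ∧ (∀ t < s, R t = u t) ∧ R s = y := by
    intro y hy
    obtain ⟨R, hR, rfl⟩ := mem_image.mp hy
    rw [mem_filter] at hR
    obtain ⟨a, h1, h2, h3⟩ := hT R hR.1
    exact ⟨R, a, h1, h2, h3, hR.2, rfl⟩
  have hsieveHyp : ∀ T' : ℝ, (∀ y ∈ Sy, T' ≤ Real.log y) →
      ∀ y ∈ Sy, y.Prime ∧ (∀ b ∈ Fs, (b * y + 1).Prime) ∧ Real.exp T' ≤ (y : ℝ) := by
    intro T' hT' y hy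
    have hlog := hT' y hy
    obtain ⟨R, a, h1, -, h3, h4, rfl⟩ := hmem y hy
    refine ⟨h3.prime s, fun b hb => ?_, ?_⟩
    · obtain ⟨o, ho, rfl⟩ := mem_image.mp hb
      rw [hform a R h1 h3 h4 o ho]
      have := (h1.rows o).normal.prime.two_le
      rw [show a.1 o - 1 + 1 = a.1 o by omega]
      exact (h1.rows o).normal.prime
    · exact (Real.le_log_iff_exp_le (by exact_mod_cast (h3.prime s).pos)).mp hlog
  have hlogY : ∀ y ∈ Sy, (gain x (Λ omax))⁻¹ ≤ Real.log y := by
    intro y hy
    obtain ⟨R, a, -, -, h3, -, rfl⟩ := hmem y hy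
    have := h3.low omax
    simp only [(mem_filter.mp homax).2] at this
    exact this
  have hOg : ∀ (T' : ℝ), 0 < T' → (∀ o ∈ O, T'⁻¹ ≤ gain x (Λ o)) →
      1 / T' ^ O.card ≤ ∏ o ∈ O, gain x (Λ o) := by
    intro T' hT' hle
    rw [one_div, ← inv_pow, ← prod_const]
    exact prod_le_prod (fun o _ => inv_nonneg.mpr hT'.le) hle
  by_cases hlast : s.1 + 1 = r.1 ∧ win.isSome
  · obtain ⟨⟨o0, V⟩, hwin⟩ := Option.isSome_iff_exists.mp hlast.2
    obtain ⟨ℓ, hℓ, hℓO, hℓ1⟩ : ∃ ℓ, gain x ℓ ≤ gain x (Λ o0) ∧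
        (∀ o ∈ O, gain x ℓ ≤ gain x (Λ o)) ∧ 1 ≤ ℓ ∧
        (∀ y ∈ Sy, (gain x ℓ)⁻¹ ≤ Real.log y) := by
      refine ⟨max (Λ o0) (Λ omax), gain_anti hx (le_max_left _ _),
        fun o ho => gain_anti hx (le_trans (hmax o ho) (le_max_right _ _)),
        le_trans (hpos1 o0) (le_max_left _ _), fun y hy => ?_⟩
      rcases max_choice (Λ o0) (Λ omax) with h | h <;> rw [h]
      · obtain ⟨R, a, -, -, h3, -, rfl⟩ := hmem y hy
        refine le_trans (h3.low o0) (Real.log_le_log (by exact_mod_cast (h3.prime _).pos) ?_)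
        have : τ o0 ≤ s := by
          have := (τ o0).2
          show (τ o0).1 ≤ s.1
          omega
        exact_mod_cast h3.mono.monotone this
      · exact hlogY y hy
    set T' := (gain x ℓ)⁻¹ with hT'
    have hgl := gain_pos hx ℓ
    have hT2 : 2 ≤ T' := by
      rw [hT', le_inv_comm₀ two_pos hgl, ← one_div]
      exact gain_le_half hx hℓ1.1
    set X : ℝ := V / (((∏ e, M0 e : ℕ) : ℝ) * ((∏ t ∈ univ.erase s, u t : ℕ) : ℝ)) with hX
    have hwindow : ∀ y ∈ Sy, X / 2 < (y : ℝ) ∧ (y : ℝ) ≤ X := by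
      intro y hy
      obtain ⟨R, a, -, h2, h3, h4, rfl⟩ := hmem y hy
      obtain ⟨hlo, hhi⟩ := h2 (o0, V) (by rw [hwin]; rfl)
      rw [h3.val_eq] at hlo hhi
      have he : ∏ t, R t = (∏ t ∈ univ.erase s, u t) * R s := by
        rw [← prod_erase_mul univ R (mem_univ s)]
        congr 1
        refine prod_congr rfl fun t ht => h4 t ?_
        have h5 := (mem_erase.mp ht).1
        have := t.2
        show t.1 < s.1
        have : t.1 ≠ s.1 := fun h => h5 (Fin.ext h)
        have hl := hlast.1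
        have htr := t.2
        dsimp only at htr hl
        omega
      simp only at hlo hhi he
      rw [he, Nat.cast_mul, Nat.cast_mul, ← mul_assoc] at hlo hhi
      have hposM : (0 : ℝ) < ((∏ e, M0 e : ℕ) : ℝ) * ((∏ t ∈ univ.erase s, u t : ℕ) : ℝ) := by
        have h6 : 0 < ∏ e, M0 e := prod_pos fun e _ => hd0.pos e
        have h7 : 0 < ∏ t ∈ univ.erase s, u t := prod_pos fun t _ => (hdu.prime t).pos
        positivity
      refine ⟨?_, ?_⟩
      · rw [hX, div_div, div_lt_iff₀ (by positivity)]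
        linarith
      · rw [hX, le_div_iff₀ hposM]
        linarith
    have := (hsieve Fs (hOne.image B) (hFcard ▸ hcard2) hFll T' hT2 Sy
      (hsieveHyp T' hℓ1.2)).2 X hwindow
    refine this.trans ?_
    have hTpos : 0 < T' := by linarith
    simp only [hg, hext]
    rw [if_pos hlast.1, hFcard, pow_succ, div_eq_mul_one_div, ← hO, mul_assoc]
    refine mul_le_mul_of_nonneg_left ?_ (by linarith)
    rw [← one_div_mul_one_div]
    refine mul_le_mul (hOg T' hTpos fun o ho => by rw [hT', inv_inv]; exact hℓO o ho) ?_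
      (by positivity) (prod_nonneg fun o _ => (gain_pos hx _).le)
    rw [hwin, one_div, hT', inv_inv]
    exact hℓ
  · set T' := (gain x (Λ omax))⁻¹ with hT'
    have hgl := gain_pos hx (Λ omax)
    have hT2 : 2 ≤ T' := by
      rw [hT', le_inv_comm₀ two_pos hgl, ← one_div]
      exact gain_le_half hx (hpos1 omax)
    have hext1 : ext s = 1 := by
      simp only [hext]
      split
      · rename_i hh
        cases win with
        | none => rfl
        | some w => exact absurd ⟨hh, rfl⟩ hlast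
      · rfl
    have := (hsieve Fs (hOne.image B) (hFcard ▸ hcard2) hFll T' hT2 Sy (hsieveHyp T' hlogY)).1
    refine this.trans ?_
    simp only [hg]
    rw [hext1, mul_one, hFcard, div_eq_mul_one_div, ← hO]
    refine mul_le_mul_of_nonneg_left (hOg T' (by linarith) fun o ho => ?_) (by linarith)
    rw [hT', inv_inv]
    exact gain_anti hx (hmax o ho)

/-- The entries of a tilted matrix. -/
theorem entries_le {x C : ℝ} (hC : CellBd x C) (z : ℕ → ℝ) (hz : ∀ j, 0 < z j)
    (hz1 : ∀ j, z j ≤ 1) (Λ : Own n k → ℕ) (hΛ : ∀ o, Λ o ≤ numCells x)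
    (hcut : cutCell x ≤ numCells x) (T : Finset (Ent n k → ℕ))
    (hT : ∀ M ∈ T, ∀ e, 0 < M e ∧
      ∀ r ∈ (M e).primeFactors, ll r ≤ llx x + 1 ∧ cell x r ≤ entCap x Λ e) :
    ∑ M ∈ T, ∏ e, wdiv (fun r => z (cell x r)) (M e)
      ≤ Real.exp (∑ e : Ent n k, ((∑ j ∈ range (entCap x Λ e + 1), z j) * (width x + C) + 2)) := by
  classical
  set w : ℕ → ℝ := fun r => z (cell x r) with hw
  refine (sum_prod_le (fun a => wdiv w a)
    (fun a => div_nonneg (wprod_pos (fun r => hz _) a).le (Nat.cast_nonneg a)) T).trans ?_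
  rw [Real.exp_sum]
  refine prod_le_prod (fun e _ => sum_nonneg fun a _ =>
    div_nonneg (wprod_pos (fun r => hz _) a).le (Nat.cast_nonneg a)) fun e _ => ?_
  set P := (range (entCap x Λ e + 1)).biUnion (cellPrimes x) with hP
  refine (euler_le w (fun r => (hz _).le) (fun r => hz1 _) P _ ?_ ?_).trans ?_
  · intro r hr
    obtain ⟨j, -, hj⟩ := mem_biUnion.mp hr
    exact (mem_filter.mp hj).2.1
  · intro a ha
    obtain ⟨M, hM, rfl⟩ := mem_image.mp ha
    refine ⟨(hT M hM e).1, fun r hr => ?_⟩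
    obtain ⟨h1, h2⟩ := (hT M hM e).2 r hr
    exact mem_biUnion.mpr ⟨cell x r, mem_range.mpr (by omega),
      mem_cellPrimes (Nat.prime_of_mem_primeFactors hr) rfl h1⟩
  refine Real.exp_le_exp.mpr (add_le_add ?_ le_rfl)
  rw [hP, sum_mul]
  have hdisj : (range (entCap x Λ e + 1) : Set ℕ).PairwiseDisjoint (cellPrimes x) := by
    intro i _ j _ hij
    refine disjoint_left.mpr fun r h1 h2 => hij ?_
    rw [← (mem_filter.mp h1).2.2.1, (mem_filter.mp h2).2.2.1]
  rw [sum_biUnion hdisj]
  refine sum_le_sum fun j hj => ?_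
  have hjJ : j ≤ numCells x := by
    have h1 : entCap x Λ e ≤ numCells x := by
      refine (min_le_left _ _).trans ?_
      rcases e.1 with _ | i
      · exact hcut
      · exact hΛ _
    have := mem_range.mp hj
    omega
  calc ∑ r ∈ cellPrimes x j, w r / r = z j * ∑ r ∈ cellPrimes x j, (1 : ℝ) / r := by
        rw [mul_sum]
        refine sum_congr rfl fun r hr => ?_
        simp only [hw, (mem_filter.mp hr).2.2.1]
        ring
    _ ≤ z j * (width x + C) := mul_le_mul_of_nonneg_left (hC.2 j hjJ) (hz j).le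

/-- The core bound: fixed lengths and levels. -/
theorem core_le {x C K U : ℝ} (hx : ParamOK x) (hC : CellBd x C) (hS : SieveBd x K)
    (z : ℕ → ℝ) (hz : ∀ j, 0 < z j) (hz1 : ∀ j, z j ≤ 1) (Λ : Own n k → ℕ)
    (win : Option (Own n k × ℝ)) (S : Finset (Rep n k))
    (hval : ∀ a ∈ S, Valid x Λ a ∧ InWindow win a ∧
      Real.exp (-U) ≤ wprod (fun r => z (cell x r)) (repVal a)) :
    ∑ a ∈ S, (1 : ℝ) / (repVal a : ℝ)
      ≤ (Fintype.card (Shp n k) : ℝ) * (Real.exp U *
          Real.exp (∑ e : Ent n k, ((∑ j ∈ range (entCap x Λ e + 1), z j) * (width x + C) + 2)) *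
          (K ^ (n + k) * (∏ o, gain x (Λ o)) * winGain x Λ win)) := by
  classical
  set G := K ^ (n + k) * (∏ o, gain x (Λ o)) * winGain x Λ win with hG
  set E := Real.exp (∑ e : Ent n k,
    ((∑ j ∈ range (entCap x Λ e + 1), z j) * (width x + C) + 2)) with hE
  have hG0 : 0 ≤ G := by
    refine mul_nonneg (mul_nonneg (pow_nonneg (by linarith [hS.1]) _)
      (prod_nonneg fun o _ => (gain_pos hx _).le)) ?_
    cases win with
    | none => exact zero_le_one
    | some w => exact (gain_pos hx _).le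
  rcases S.eq_empty_or_nonempty with rfl | ⟨a0, ha0⟩
  · simp only [sum_empty]
    positivity
  have hΛ : ∀ o, Λ o ≤ numCells x := fun o => ((hval a0 ha0).1.rows o).le
  have hcut : cutCell x ≤ numCells x := by have := hx.cut; omega
  choose st M0 R hdec using fun a : S => exists_decomp hx (hval a.1 a.2).1
  set φ : S → Σ s : Shp n k, (Ent n k → ℕ) × (Fin s.1 → ℕ) :=
    fun a => ⟨st a, M0 a, R a⟩ with hφ
  set wt : (Σ s : Shp n k, (Ent n k → ℕ) × (Fin s.1 → ℕ)) → ℝ :=
    fun t => (1 : ℝ) / (((∏ e, t.2.1 e) * ∏ i, t.2.2 i : ℕ) : ℝ) with hwt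
  have hφinj : Function.Injective φ := fun a b hab =>
    Subtype.ext ((Decomp.eq_of_code (p := (M0 a, R a)) (q := (M0 b, R b)) hab (hdec a)).unique
      (hdec b) (hval a.1 a.2).1 (hval b.1 b.2).1)
  set img := univ.image φ with himg
  set P : ∀ s : Shp n k, Finset ((Ent n k → ℕ) × (Fin s.1 → ℕ)) :=
    fun s => img.preimage
      (fun p => (⟨s, p⟩ : Σ t : Shp n k, (Ent n k → ℕ) × (Fin t.1 → ℕ)))
      (fun p _ q _ h => by simpa using h) with hP
  have himgeq : img = (univ : Finset (Shp n k)).sigma P := by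
    ext ⟨s, p⟩
    simp only [hP, mem_sigma, mem_univ, true_and]
    exact mem_preimage.symm
  have hsum : ∑ a ∈ S, (1 : ℝ) / (repVal a : ℝ) = ∑ s : Shp n k, ∑ p ∈ P s, wt ⟨s, p⟩ := by
    rw [← sum_coe_sort S, ← sum_sigma (univ : Finset (Shp n k)) P wt, ← himgeq, himg,
      sum_image hφinj.injOn]
    refine sum_congr rfl fun a _ => ?_
    rw [(hdec a).val_eq]
  rw [hsum, show (Fintype.card (Shp n k) : ℝ) * (Real.exp U * E * G)
    = ∑ _s : Shp n k, Real.exp U * E * G by simp]
  refine sum_le_sum fun s _ => ?_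
  have hwit : ∀ p ∈ P s, ∃ a, Valid x Λ a ∧ InWindow win a ∧
      Real.exp (-U) ≤ wprod (fun r => z (cell x r)) (repVal a) ∧ Decomp x Λ a s p.1 p.2 := by
    intro p hp
    simp only [hP, mem_preimage, himg, mem_image] at hp
    obtain ⟨a, -, ha⟩ := hp
    refine ⟨a.1, (hval a.1 a.2).1, (hval a.1 a.2).2.1, (hval a.1 a.2).2.2, ?_⟩
    exact Decomp.eq_of_code (p := (M0 a, R a)) (q := p) ha (hdec a)
  rw [← sum_fiberwise_of_maps_to (g := fun p : (Ent n k → ℕ) × (Fin s.1 → ℕ) => p.1)
    (t := (P s).image Prod.fst) (fun p hp => mem_image_of_mem _ hp)]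
  calc ∑ M ∈ (P s).image Prod.fst, ∑ p ∈ (P s).filter (fun p => p.1 = M), wt ⟨s, p⟩
      ≤ ∑ M ∈ (P s).image Prod.fst,
          Real.exp U * (∏ e, wdiv (fun r => z (cell x r)) (M e)) * G := by
        refine sum_le_sum fun M hM => ?_
        obtain ⟨p0, hp0, rfl⟩ := mem_image.mp hM
        obtain ⟨a, -, -, haU, had⟩ := hwit p0 hp0
        have e : ∀ p ∈ (P s).filter (fun p => p.1 = p0.1),
            wt ⟨s, p⟩ = (1 / ((∏ e, p0.1 e : ℕ) : ℝ)) * ∏ i, (1 : ℝ) / (p.2 i : ℝ) := by
          intro p hp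
          simp only [hwt, (mem_filter.mp hp).2, Nat.cast_mul, Nat.cast_prod, one_div,
            mul_inv, prod_inv_distrib]
        rw [sum_congr rfl e, ← mul_sum]
        refine mul_le_mul ?_ ?_ (sum_nonneg fun p _ => prod_nonneg fun i _ => by positivity)
          (mul_nonneg (Real.exp_pos _).le (prod_nonneg fun e _ =>
            div_nonneg (wprod_pos (fun r => hz _) _).le (Nat.cast_nonneg _)))
        · have hpos : 0 < ∏ e, p0.1 e := prod_pos fun e _ => had.pos e
          have h1 : wprod (fun r => z (cell x r)) (repVal a)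
              ≤ wprod (fun r => z (cell x r)) (∏ e, p0.1 e) := by
            rw [had.val_eq]
            refine wprod_le_of_dvd (fun r => hz _) (fun r => hz1 _) ?_ (dvd_mul_right _ _)
            exact (Nat.mul_pos hpos (prod_pos fun t _ => (had.prime t).pos)).ne'
          rw [wprod_prod _ _ _ (fun e _ => (had.pos e).ne')] at h1
          have h2 : (1 : ℝ) ≤ Real.exp U * ∏ e, wprod (fun r => z (cell x r)) (p0.1 e) := by
            calc (1 : ℝ) = Real.exp U * Real.exp (-U) := by
                  rw [← Real.exp_add, add_neg_cancel, Real.exp_zero]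
              _ ≤ _ := mul_le_mul_of_nonneg_left (haU.trans h1) (Real.exp_pos _).le
          calc (1 : ℝ) / ((∏ e, p0.1 e : ℕ) : ℝ)
              ≤ (Real.exp U * ∏ e, wprod (fun r => z (cell x r)) (p0.1 e))
                  / ((∏ e, p0.1 e : ℕ) : ℝ) := by gcongr
            _ = _ := by
                rw [Nat.cast_prod, mul_div_assoc, ← prod_div_distrib]
                rfl
        · have hinj : Set.InjOn Prod.snd
              ((P s).filter (fun p => p.1 = p0.1) : Set ((Ent n k → ℕ) × (Fin s.1 → ℕ))) := by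
            intro p hp q hq h
            simp only [coe_filter, Set.mem_ofPred_eq] at hp hq
            exact Prod.ext (hp.2.trans hq.2.symm) h
          rw [← sum_image (f := fun R : Fin s.1 → ℕ => ∏ i, (1 : ℝ) / (R i : ℝ)) hinj]
          refine slots_le hx hS win s p0.1 _ fun R hR => ?_
          obtain ⟨p, hp, rfl⟩ := mem_image.mp hR
          obtain ⟨b, hb1, hb2, -, hb4⟩ := hwit p (mem_filter.mp hp).1
          rw [(mem_filter.mp hp).2] at hb4
          exact ⟨b, hb1, hb2, hb4⟩
    _ = Real.exp U * (∑ M ∈ (P s).image Prod.fst, ∏ e, wdiv (fun r => z (cell x r)) (M e)) * G := by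
        rw [mul_sum, sum_mul]
    _ ≤ Real.exp U * E * G := by
        refine mul_le_mul_of_nonneg_right (mul_le_mul_of_nonneg_left ?_ (Real.exp_pos _).le) hG0
        refine entries_le hC z hz hz1 Λ hΛ hcut _ fun M hM e => ?_
        obtain ⟨p, hp, rfl⟩ := mem_image.mp hM
        obtain ⟨b, -, -, -, hb4⟩ := hwit p hp
        exact ⟨hb4.pos e, hb4.small e⟩

end Vale.Agent.P031
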