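import Vale.Agent.P031.Pins
import Vale.Agent.P031.MajorantCore

/-!
# P031: tools for normality

Windows of primes from Mertens, and finite Euler products with bounded weights.
-/

namespace Vale.Agent.P031

open Finset

/-- The primes up to `t`. -/
noncomputable def primeSet (t : ℝ) : Finset ℕ := (range (⌊t⌋₊ + 1)).filter Nat.Prime

/-- Mertens with a named constant. -/
def MertensWith (C : ℝ) : Prop :=
  0 ≤ C ∧ ∀ t : ℝ, 3 ≤ t → |(∑ p ∈ primeSet t, (1 : ℝ) / p) - Real.log (Real.log t)| ≤ C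

/-- Mertens' second theorem, used as the analytic input of normality. -/
def NormalMertens : Prop := ∃ C : ℝ, MertensWith C

theorem mem_primeSet {t : ℝ} (ht : 0 ≤ t) {r : ℕ} :
    r ∈ primeSet t ↔ r.Prime ∧ (r : ℝ) ≤ t := by
  simp only [primeSet, mem_filter, mem_range, Nat.lt_succ_iff, Nat.le_floor_iff ht]
  exact and_comm

theorem ll_le_iff {r : ℕ} (hr : r.Prime) {b : ℝ} :
    ll r ≤ b ↔ (r : ℝ) ≤ Real.exp (Real.exp b) := by
  have h1 : (1 : ℝ) < r := by exact_mod_cast hr.one_lt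
  unfold ll
  rw [Real.log_le_iff_le_exp (Real.log_pos h1), Real.log_le_iff_le_exp (by linarith)]

theorem three_le_expexp {b : ℝ} (hb : 1 ≤ b) : 3 ≤ Real.exp (Real.exp b) := by
  have h1 : (2 : ℝ) ≤ Real.exp b := by
    have := Real.add_one_le_exp b
    linarith
  have := Real.add_one_le_exp (Real.exp b)
  linarith

theorem mem_primeSet_expexp {r : ℕ} {b : ℝ} :
    r ∈ primeSet (Real.exp (Real.exp b)) ↔ r.Prime ∧ ll r ≤ b := by
  rw [mem_primeSet (Real.exp_pos _).le]
  constructor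
  · rintro ⟨h, h'⟩; exact ⟨h, (ll_le_iff h).mpr h'⟩
  · rintro ⟨h, h'⟩; exact ⟨h, (ll_le_iff h).mp h'⟩

theorem MertensWith.upto {C : ℝ} (hM : MertensWith C) {b : ℝ} (hb : 1 ≤ b) :
    |(∑ p ∈ primeSet (Real.exp (Real.exp b)), (1 : ℝ) / p) - b| ≤ C := by
  have h := hM.2 _ (three_le_expexp hb)
  rwa [Real.log_exp, Real.log_exp] at h

/-- Primes with `log log r ≤ b` have mass at most `b + C`. -/
theorem mass_le_upto {C : ℝ} (hM : MertensWith C) {b : ℝ} (hb : 1 ≤ b) (P : Finset ℕ)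
    (hP : ∀ r ∈ P, r.Prime ∧ ll r ≤ b) : ∑ r ∈ P, (1 : ℝ) / r ≤ b + C := by
  have h := (abs_le.mp (hM.upto hb)).2
  have hsub : P ⊆ primeSet (Real.exp (Real.exp b)) := fun r hr => mem_primeSet_expexp.mpr (hP r hr)
  have h2 : ∑ r ∈ P, (1 : ℝ) / r ≤ ∑ r ∈ primeSet (Real.exp (Real.exp b)), (1 : ℝ) / r :=
    sum_le_sum_of_subset_of_nonneg hsub fun r _ _ => by positivity
  linarith

/-- Primes in a window of `log log`. -/
theorem mass_le_window {C : ℝ} (hM : MertensWith C) {a b : ℝ} (ha : 1 ≤ a) (hab : a ≤ b)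
    (P : Finset ℕ) (hP : ∀ r ∈ P, r.Prime ∧ a ≤ ll r ∧ ll r ≤ b) :
    ∑ r ∈ P, (1 : ℝ) / r ≤ b - a + 2 * C + 1 := by
  classical
  set B := primeSet (Real.exp (Real.exp b)) with hB
  set A := primeSet (Real.exp (Real.exp a)) with hA
  have hAB : A ⊆ B := fun r hr => by
    rw [hA, mem_primeSet_expexp] at hr
    rw [hB, mem_primeSet_expexp]
    exact ⟨hr.1, hr.2.trans hab⟩
  have h1 : ∑ r ∈ P \ A, (1 : ℝ) / r ≤ ∑ r ∈ B \ A, (1 : ℝ) / r := by
    refine sum_le_sum_of_subset_of_nonneg (fun r hr => ?_) fun r _ _ => by positivity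
    rw [mem_sdiff] at hr ⊢
    exact ⟨mem_primeSet_expexp.mpr ⟨(hP r hr.1).1, (hP r hr.1).2.2⟩, hr.2⟩
  have h2 : ∑ r ∈ P ∩ A, (1 : ℝ) / r ≤ 1 := by
    have hc : (P ∩ A).card ≤ 1 := by
      rw [card_le_one]
      intro u hu v hv
      rw [mem_inter] at hu hv
      have key : ∀ r, r ∈ P → r ∈ A → (r : ℝ) = Real.exp (Real.exp a) := by
        intro r hr hrA
        obtain ⟨hp, hlo, -⟩ := hP r hr
        have h1 : (1 : ℝ) < r := by exact_mod_cast hp.one_lt
        have e : ll r = a := le_antisymm (mem_primeSet_expexp.mp hrA).2 hlo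
        rw [← e, ll, Real.exp_log (Real.log_pos h1), Real.exp_log (by linarith)]
      exact_mod_cast (key u hu.1 hu.2).trans (key v hv.1 hv.2).symm
    calc ∑ r ∈ P ∩ A, (1 : ℝ) / r ≤ ∑ _r ∈ P ∩ A, (1 : ℝ) := by
          refine sum_le_sum fun r hr => ?_
          have : (1 : ℝ) ≤ r := by exact_mod_cast (hP r (mem_inter.mp hr).1).1.one_le
          rw [div_le_one (by linarith)]
          exact this
      _ = (P ∩ A).card := by simp
      _ ≤ 1 := by exact_mod_cast hc
  have h3 := sum_inter_add_sum_sdiff P A (fun r : ℕ => (1 : ℝ) / r)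
  have h4 := sum_sdiff (f := fun r : ℕ => (1 : ℝ) / r) hAB
  have h5 := (abs_le.mp (hM.upto (ha.trans hab))).2
  have h6 := (abs_le.mp (hM.upto ha)).1
  rw [← hB] at h5
  rw [← hA] at h6
  linarith

/-- A window of `log log` has mass at least its length up to `2 C`. -/
theorem le_mass_window {C : ℝ} (hM : MertensWith C) {a b : ℝ} (ha : 1 ≤ a) (P : Finset ℕ)
    (hP : ∀ r : ℕ, r.Prime → a < ll r → ll r ≤ b → r ∈ P) :
    b - a - 2 * C ≤ ∑ r ∈ P, (1 : ℝ) / r := by
  classical
  have hnn : 0 ≤ ∑ r ∈ P, (1 : ℝ) / r := sum_nonneg fun r _ => by positivity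
  rcases lt_or_ge b a with hab | hab
  · linarith [hM.1]
  set B := primeSet (Real.exp (Real.exp b)) with hB
  set A := primeSet (Real.exp (Real.exp a)) with hA
  have hAB : A ⊆ B := fun r hr => by
    rw [hA, mem_primeSet_expexp] at hr
    rw [hB, mem_primeSet_expexp]
    exact ⟨hr.1, hr.2.trans hab⟩
  have h1 : ∑ r ∈ B \ A, (1 : ℝ) / r ≤ ∑ r ∈ P, (1 : ℝ) / r := by
    refine sum_le_sum_of_subset_of_nonneg (fun r hr => ?_) fun r _ _ => by positivity
    rw [mem_sdiff, hB, hA, mem_primeSet_expexp, mem_primeSet_expexp] at hr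
    exact hP r hr.1.1 (not_le.mp fun h => hr.2 ⟨hr.1.1, h⟩) hr.1.2
  have h4 := sum_sdiff (f := fun r : ℕ => (1 : ℝ) / r) hAB
  have h5 := (abs_le.mp (hM.upto (ha.trans hab))).1
  have h6 := (abs_le.mp (hM.upto ha)).2
  rw [← hB] at h5
  rw [← hA] at h6
  linarith

theorem sum_inv_sq_le_one (P : Finset ℕ) (hP : ∀ r ∈ P, 2 ≤ r) :
    ∑ r ∈ P, 1 / (r : ℝ) ^ 2 ≤ 1 := by
  have key : ∀ n : ℕ, ∑ i ∈ Ioc 1 (n + 1), 1 / (i : ℝ) ^ 2 ≤ 1 - 1 / ((n : ℝ) + 1) := by
    intro n
    induction n with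
    | zero => simp
    | succ n ih =>
      rw [sum_Ioc_succ_top (by omega)]
      push_cast
      have : 1 / ((n : ℝ) + 1 + 1) ^ 2 ≤ 1 / ((n : ℝ) + 1) - 1 / ((n : ℝ) + 1 + 1) := by
        rw [div_sub_div _ _ (by positivity) (by positivity),
          div_le_div_iff₀ (by positivity) (by positivity)]
        nlinarith
      linarith
  refine le_trans (sum_le_sum_of_subset_of_nonneg (t := Ioc 1 (P.sup id + 1)) (fun r hr => ?_)
    fun r _ _ => by positivity) (le_trans (key _) ?_)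
  · rw [mem_Ioc]
    exact ⟨hP r hr, (le_sup (f := id) hr).trans (Nat.le_succ _)⟩
  · have : (0 : ℝ) ≤ 1 / ((P.sup id : ℕ) + 1 : ℝ) := by positivity
    linarith

/-- A finite Euler product with weights at most `W`. -/
theorem euler_le_bdd (w : ℕ → ℝ) (W : ℝ) (P T : Finset ℕ) (hw : ∀ r, 0 ≤ w r)
    (hW : ∀ r ∈ P, w r ≤ W) (h34 : ∀ r ∈ P, w r / r ≤ 3 / 4)
    (hP : ∀ r ∈ P, r.Prime) (hT : ∀ n ∈ T, 0 < n ∧ n.primeFactors ⊆ P) :
    ∑ n ∈ T, wdiv w n ≤ Real.exp ((∑ r ∈ P, w r / r) + 4 * W ^ 2) := by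
  classical
  -- weights off `P` do not matter
  set u : ℕ → ℝ := fun r => if r ∈ P then w r else 0 with hu
  have hu0 : ∀ r, 0 ≤ u r := fun r => by
    simp only [hu]
    split
    · exact hw r
    · exact le_rfl
  have hagree : ∀ n ∈ T, wdiv w n = wdiv u n := by
    intro n hn
    simp only [wdiv]
    congr 2
    refine List.map_congr_left fun r hr => ?_
    have : r ∈ P := (hT n hn).2 (Nat.mem_primeFactors_iff_mem_primeFactorsList.mpr hr)
    simp [hu, this]
  rw [sum_congr rfl hagree]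
  have hmul : ∀ a b : ℕ, wdiv u (a * b) = wdiv u a * wdiv u b := by
    intro a b
    rcases eq_or_ne a 0 with rfl | ha
    · simp [wdiv]
    rcases eq_or_ne b 0 with rfl | hb
    · simp [wdiv]
    have e := wprod_mul u ha hb
    simp only [wprod] at e
    simp only [wdiv, e, Nat.cast_mul]
    rw [mul_div_mul_comm]
  let f : ℕ →* ℝ :=
    { toFun := wdiv u
      map_one' := by simp [wdiv]
      map_mul' := hmul }
  have hfp : ∀ p : ℕ, p.Prime → f p = u p / p := fun p hp => by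
    show wdiv u p = _
    simp [wdiv, Nat.primeFactorsList_prime hp]
  have hbd : ∀ p : ℕ, u p / p ≤ 3 / 4 := fun p => by
    simp only [hu]
    split
    · exact h34 p ‹_›
    · norm_num
  have hlt : ∀ {p : ℕ}, p.Prime → ‖f p‖ < 1 := fun {p} hp => by
    rw [hfp p hp, Real.norm_eq_abs, abs_of_nonneg (div_nonneg (hu0 p) (Nat.cast_nonneg p))]
    linarith [hbd p]
  obtain ⟨-, hs⟩ := EulerProduct.summable_and_hasSum_factoredNumbers_prod_filter_prime_geometric
    (f := f) hlt P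
  have hnn : ∀ n, 0 ≤ wdiv u n := fun n =>
    div_nonneg (List.prod_nonneg fun y hy => by
      obtain ⟨r, _, rfl⟩ := List.mem_map.mp hy
      exact hu0 r) (Nat.cast_nonneg n)
  have hmem : ∀ n ∈ T, n ∈ Nat.factoredNumbers P := fun n hn =>
    Nat.mem_factoredNumbers_of_primeFactors_subset (hT n hn).1.ne' (hT n hn).2
  have h1 : ∑ n ∈ T, wdiv u n ≤ ∏ p ∈ P with p.Prime, (1 - f p)⁻¹ := by
    have h := sum_le_hasSum (T.subtype (· ∈ Nat.factoredNumbers P)) (fun m _ => hnn m) hs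
    rw [sum_subtype_eq_sum_filter, filter_true_of_mem hmem] at h
    exact h
  refine h1.trans ?_
  rw [filter_true_of_mem hP]
  have hstep : ∀ p ∈ P, (1 - f p)⁻¹ ≤ Real.exp (w p / p + 4 * W ^ 2 * (1 / (p : ℝ) ^ 2)) := by
    intro p hp
    rw [hfp p (hP p hp)]
    have e : u p = w p := by simp [hu, hp]
    rw [e]
    set y := w p / p with hy
    have hy0 : 0 ≤ y := div_nonneg (hw p) (Nat.cast_nonneg p)
    have hy1 : y ≤ 3 / 4 := h34 p hp
    have hy2 : y ^ 2 ≤ W ^ 2 * (1 / (p : ℝ) ^ 2) := by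
      rw [hy, div_pow, div_eq_mul_one_div]
      exact mul_le_mul_of_nonneg_right (pow_le_pow_left₀ (hw p) (hW p hp) 2) (by positivity)
    have hpos : 0 < 1 - y := by linarith
    rw [← Real.exp_log (inv_pos.mpr hpos)]
    refine Real.exp_le_exp.mpr ((Real.log_le_sub_one_of_pos (inv_pos.mpr hpos)).trans ?_)
    have h4 : (1 - y)⁻¹ - 1 ≤ y + 4 * y ^ 2 := by
      rw [sub_le_iff_le_add, inv_le_iff_one_le_mul₀ hpos]
      nlinarith [mul_nonneg (sq_nonneg y) (show 0 ≤ 3 - 4 * y by linarith)]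
    linarith
  calc ∏ p ∈ P, (1 - f p)⁻¹ ≤ ∏ p ∈ P, Real.exp (w p / p + 4 * W ^ 2 * (1 / (p : ℝ) ^ 2)) :=
        prod_le_prod (fun p hp => inv_nonneg.mpr (by
          have := hlt (hP p hp)
          rw [Real.norm_eq_abs] at this
          linarith [le_abs_self (f p)])) hstep
    _ = Real.exp (∑ p ∈ P, (w p / p + 4 * W ^ 2 * (1 / (p : ℝ) ^ 2))) := (Real.exp_sum _ _).symm
    _ ≤ Real.exp ((∑ r ∈ P, w r / r) + 4 * W ^ 2) := by
        rw [sum_add_distrib, ← mul_sum]
        refine Real.exp_le_exp.mpr (add_le_add le_rfl ?_)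
        refine mul_le_of_le_one_right (by positivity) ?_
        exact sum_inv_sq_le_one P fun r hr => (hP r hr).two_le

/-- The weight `z` on the primes with `p`, and `1` on the others. -/
noncomputable def tilt (z : ℝ) (p : ℕ → Bool) (r : ℕ) : ℝ := if p r then z else 1

theorem wprod_tilt (z : ℝ) (p : ℕ → Bool) (n : ℕ) :
    wprod (tilt z p) n = z ^ ((n.primeFactorsList.filter p).length) := by
  simp only [wprod]
  induction n.primeFactorsList with
  | nil => simp
  | cons a l ih =>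
    rw [List.map_cons, List.prod_cons, ih, List.filter_cons]
    by_cases h : p a = true
    · simp [tilt, h, pow_succ, mul_comm]
    · simp [tilt, h]

/-- Without squares of big primes the count with multiplicity is the count without. -/
theorem SqOK.filter_length {x : ℝ} {n : ℕ} (hn : SqOK x n) (p : ℕ → Bool)
    (hp : ∀ r ∈ n.primeFactors, p r = true → halfCell x ≤ cell x r) :
    (n.primeFactorsList.filter p).length = (n.primeFactors.filter (fun r => p r = true)).card := by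
  classical
  have hnd : (n.primeFactorsList.filter p).Nodup := by
    rw [List.nodup_iff_count_le_one]
    intro r
    by_contra hc
    have hmem : r ∈ n.primeFactorsList.filter p := List.count_pos_iff.mp (by omega)
    obtain ⟨hr, hpr⟩ := List.mem_filter.mp hmem
    have hr' := Nat.mem_primeFactors_iff_mem_primeFactorsList.mpr hr
    obtain ⟨hprime, -, hn0⟩ := Nat.mem_primeFactors.mp hr'
    refine hn r hprime (hp r hr' hpr) ?_
    rw [hprime.pow_dvd_iff_le_factorization hn0, ← Nat.primeFactorsList_count_eq]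
    have := List.count_filter (l := n.primeFactorsList) hpr
    omega
  rw [← List.toFinset_card_of_nodup hnd]
  congr 1
  ext r
  simp [Nat.mem_primeFactors_iff_mem_primeFactorsList]

end Vale.Agent.P031
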