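import Vale.Agent.P031.BandCases

/-!
# P031: the band theorem

`BandPin` from the pins on cells, abnormal primes, stability, distinct values and the safe mass.
-/

namespace Vale.Agent.P031.Band

open Finset Filter Topology Vale.Agent.P031

/-- A constant for `row_close`. -/
noncomputable def closeC (i : ℕ) : ℝ := (row_close i).choose

theorem closeC_nonneg (i : ℕ) : 0 ≤ closeC i := (row_close i).choose_spec.1

theorem closeC_spec (i : ℕ) : ∀ (b : ℕ → Bool) (d : ℕ → ℝ) (U : ℝ), 0 ≤ U → d 0 = 0 →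
    (∀ l < i, |row i (b l) d l| ≤ U) → ∀ l ≤ i, |d l| ≤ closeC i * U :=
  (row_close i).choose_spec.2

open scoped Classical in
/-- A full configuration of a band value. -/
noncomputable def bandRep (x : ℝ) (w : ℕ) : List ℕ × ℕ :=
  if h : ∃ a : List ℕ × ℕ, IsConf x a.1 a.2 ∧ IsFull x a.1 ∧ confValue a.1 a.2 = w then h.choose
  else ([], 0)

theorem bandRep_spec {x : ℝ} (hR : Regime x) {w : ℕ} (hw : w ∈ bandVals x) :
    IsConf x (bandRep x w).1 (bandRep x w).2 ∧ IsFull x (bandRep x w).1 ∧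
      confValue (bandRep x w).1 (bandRep x w).2 = w ∧ Sat x (bandRep x w).1 0 := by
  classical
  simp only [bandVals, Finset.mem_filter] at hw
  obtain ⟨-, ⟨qs, m, h1, h2, h3⟩, hns⟩ := hw
  have hex : ∃ a : List ℕ × ℕ, IsConf x a.1 a.2 ∧ IsFull x a.1 ∧ confValue a.1 a.2 = w :=
    ⟨(qs, m), h1, h2, h3⟩
  simp only [bandRep, dif_pos hex]
  obtain ⟨c1, c2, c3⟩ := hex.choose_spec
  refine ⟨c1, c2, c3, ?_⟩
  by_contra hs
  simp only [Sat, not_or, not_lt, thr, if_true] at hs
  rw [sv_zero hR.half_le] at hs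
  rw [← topGap_eq_gv] at hs
  exact hns (c3 ▸ mem_safeVals c1 ⟨c2, hs.1, hs.2⟩)

theorem mass_nonneg (S : Finset ℕ) : 0 ≤ mass S := Finset.sum_nonneg fun _ _ => by positivity

theorem mass_le_of_cover (S : Finset ℕ) (P : Finset ℕ) (A : ℕ → Finset ℕ) (B : Finset ℕ)
    (h : ∀ w ∈ S, (∃ i ∈ P, w ∈ A i) ∨ w ∈ B) :
    mass S ≤ (∑ i ∈ P, mass (A i)) + mass B := by
  classical
  calc mass S ≤ ∑ w ∈ S, ((∑ i ∈ P, if w ∈ A i then (1 : ℝ) / w else 0) + if w ∈ B then (1 : ℝ) / w else 0) := by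
        refine Finset.sum_le_sum fun w hw => ?_
        have hP : ∀ i ∈ P, (0 : ℝ) ≤ if w ∈ A i then (1 : ℝ) / w else 0 := fun i _ => by
          split <;> positivity
        rcases h w hw with ⟨i, hi, hwi⟩ | hwB
        · have h1 := Finset.single_le_sum hP hi
          simp only [if_pos hwi] at h1
          have : (0 : ℝ) ≤ if w ∈ B then (1 : ℝ) / w else 0 := by split <;> positivity
          linarith
        · rw [if_pos hwB]
          linarith [Finset.sum_nonneg hP]
    _ ≤ _ := by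
        rw [Finset.sum_add_distrib, Finset.sum_comm]
        refine add_le_add (Finset.sum_le_sum fun i _ => ?_) ?_ <;>
        · rw [← Finset.sum_filter]
          exact Finset.sum_le_sum_of_subset_of_nonneg
            (fun w hw => (Finset.mem_filter.1 hw).2) fun _ _ _ => by positivity

theorem cover_mass {x : ℝ} {K : ℕ} (hc : Ctx x K) (hK : 1 ≤ K)
    (hbig : ∀ i ∈ Finset.Icc 1 K, 24 * (4 * closeC i + 1) * 2 + 12 ≤ kap i * Real.log (llx x))
    (hsmall : 2000 * 10 ^ K * Real.log (llx x) ^ (K + 1) * eta x ≤ pinKap K * numCells x) :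
    mass (bandVals x) ≤
      ((∑ i ∈ Finset.Icc 1 K, 96 * (4 * closeC i + 1) / (kap i * Real.log (llx x)))
        + 2 * (13 * llx x) ^ 19 * (96 * (4 * closeC K + 1) * Real.log (llx x) ^ K * eta x
            / (pinKap K * numCells x)) ^ K) * mass (safeVals x) := by
  classical
  have hR := hc.large.regime
  set rep := bandRep x
  set A : ℕ → Finset ℕ := fun i => (bandVals x).filter
    (fun w => ¬ Sat x (rep w).1 i ∧ ∀ l < i, Sat x (rep w).1 l) with hA
  set B : Finset ℕ := (bandVals x).filter (fun w => ∀ l ≤ K, Sat x (rep w).1 l) with hB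
  refine (mass_le_of_cover (bandVals x) (Finset.Icc 1 K) A B fun w hw => ?_).trans ?_
  · by_cases h : ∀ l ≤ K, Sat x (rep w).1 l
    · exact Or.inr (Finset.mem_filter.2 ⟨hw, h⟩)
    · left
      have hex : ∃ l, ¬ Sat x (rep w).1 l := by
        by_contra hne
        exact h fun l _ => by_contra fun hl => hne ⟨l, hl⟩
      refine ⟨Nat.find hex, Finset.mem_Icc.2 ⟨?_, ?_⟩, Finset.mem_filter.2 ⟨hw, Nat.find_spec hex,
        fun l hl => by_contra fun hns => Nat.find_min hex hl hns⟩⟩
      · by_contra h0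
        have e : Nat.find hex = 0 := by omega
        exact (e ▸ Nat.find_spec hex) (bandRep_spec hR hw).2.2.2
      · by_contra hgt
        exact h fun l hl => by_contra fun hns => Nat.find_min hex (by omega) hns
  · rw [add_mul, Finset.sum_mul]
    refine add_le_add (Finset.sum_le_sum fun i hi => ?_) ?_
    · obtain ⟨h1, h2⟩ := Finset.mem_Icc.1 hi
      refine case_level hc h1 h2 (closeC_nonneg i) (closeC_spec i) (hbig i hi) _ rep fun w hw => ?_
      obtain ⟨hwb, h3, h4⟩ := Finset.mem_filter.1 hw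
      obtain ⟨c1, c2, c3, -⟩ := bandRep_spec hR hwb
      exact ⟨c1, c2, c3, h3, h4⟩
    · refine case_pinned hc hK (closeC_nonneg K) (closeC_spec K) hsmall _ rep fun w hw => ?_
      obtain ⟨hwb, h3⟩ := Finset.mem_filter.1 hw
      obtain ⟨c1, c2, c3, -⟩ := bandRep_spec hR hwb
      exact ⟨c1, c2, c3, h3⟩

theorem primeMass_bounds (S : Finset ℕ) (h : ∀ q ∈ S, q.Prime) :
    (∑ q ∈ S, (1 : ℝ) / q) ≤ primeMass S ∧ primeMass S ≤ 2 * ∑ q ∈ S, (1 : ℝ) / q := by
  refine ⟨Finset.sum_le_sum fun q hq => ?_, ?_⟩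
  · have h2 := (h q hq).two_le
    refine one_div_le_one_div_of_le ?_ ?_
    · exact_mod_cast (show 0 < q - 1 by omega)
    · exact_mod_cast Nat.sub_le q 1
  · rw [Finset.mul_sum]
    refine Finset.sum_le_sum fun q hq => ?_
    have h2 : (2 : ℝ) ≤ q := by exact_mod_cast (h q hq).two_le
    rw [Nat.cast_sub (h q hq).one_le, Nat.cast_one, mul_one_div]
    rw [div_le_div_iff₀ (by linarith) (by linarith)]
    linarith

theorem eventually_ctx (hcm : CellMassPin) (hab : AbnormalMassPin) (hst : StabilityPin)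
    (hdi : DistinctPin) (hsm : SafeMassPin) (K : ℕ) :
    ∀ᶠ x : ℝ in atTop, Ctx x K := by
  classical
  obtain ⟨C, hC⟩ := hcm
  have hst' : ∀ᶠ x : ℝ in atTop, ∀ d ∈ Finset.range (K + 1), ∀ qs qs' : List ℕ, ∀ m m' : ℕ,
      IsConf x qs m → IsConf x qs' m' → IsGood x qs → IsGood x qs' →
      confValue qs m = confValue qs' m' → |tailPhi x d qs - tailPhi x d qs'| ≤ errBd x := by
    rw [Filter.eventually_all_finset]
    intro d _
    filter_upwards [hst d] with x hx qs qs' m m' h1 h2 h3 h4 h5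
    exact (hx qs qs' m m' h1 h2 h3 h4 h5).1
  filter_upwards [eventually_large, eventually_log_ge 2, hC, hab, hst', hdi, hsm,
    eventually_L_ge (8 * (|C| + 1)) (show (0 : ℝ) < 4 / 5 by norm_num)]
    with x hl hlog hx hax hsx hdx hmx hw
  have hW : 4 * (|C| + 1) ≤ width x := by linarith [hl.width_ge]
  have hC0 := le_abs_self C
  have hC1 := abs_nonneg C
  have hp : ∀ j, ∀ q ∈ cellPrimes x j, q.Prime := fun j q hq => by
    simp only [cellPrimes, Finset.mem_filter] at hq
    exact hq.2.1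
  refine ⟨hl, hlog, by linarith, fun j hj => ?_, fun j h1 h2 S hS => ?_,
    fun d hd => hsx d (Finset.mem_range.2 (Nat.lt_succ_of_le hd)), hdx, hmx.1⟩
  · have h := (primeMass_bounds _ (hp j)).2
    rcases hj.eq_or_lt with e | e
    · subst e
      linarith [hx.2]
    · linarith [(abs_le.1 (hx.1 j e)).2]
  · have hS' : S = (cellPrimes x j).filter (fun q => Normal x j q) := by
      ext q
      simp [hS q]
    subst hS'
    have h3 := hax j h1 h2.le
    have h4 := (primeMass_bounds _ (hp j)).1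
    have h5 := (abs_le.1 (hx.1 j h2)).1
    have h6 := Finset.sum_filter_add_sum_filter_not (cellPrimes x j) (fun q => Normal x j q)
      (fun q => (1 : ℝ) / ((q - 1 : ℕ) : ℝ))
    have h7 : epsN x ≤ 1 := by
      refine Real.exp_le_one_iff.2 (neg_nonpos.2 (Real.rpow_nonneg ?_ _))
      linarith [hl.L_ge]
    unfold primeMass at h4
    linarith

theorem pinned_decay (c : ℝ) (hc : 0 ≤ c) (d : ℝ) (hd : 0 < d) (K : ℕ) (hK : 1050 ≤ K) :
    ∀ᶠ x : ℝ in atTop,
      2 * (13 * llx x) ^ 19 * (c * Real.log (llx x) ^ K * eta x / (d * numCells x)) ^ K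
        ≤ 2 * 13 ^ 19 * (c / d) ^ K * llx x ^ (-(19 / 20) : ℝ) := by
  filter_upwards [eventually_large, eventually_log_ge 0,
    eventually_log_pow_le K (show (0 : ℝ) < 1 / 1000 by norm_num)] with x hl hlog hpow
  set L := llx x with hL
  have hL0 : 0 < L := by linarith [hl.L_ge]
  have hJ : (0 : ℝ) < numCells x := lt_of_lt_of_le (Real.rpow_pos_of_pos hL0 _) hl.numCells_ge
  have e : c * Real.log L ^ K * eta x / (d * numCells x)
      = c / d * (Real.log L ^ K * L ^ (-(1 / 50) : ℝ)) := by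
    unfold eta
    rw [← hL]
    field_simp
  have h1 : Real.log L ^ K * L ^ (-(1 / 50) : ℝ) ≤ L ^ (-(19 / 1000) : ℝ) := by
    refine (mul_le_mul_of_nonneg_right hpow (Real.rpow_nonneg hL0.le _)).trans (le_of_eq ?_)
    rw [← Real.rpow_add hL0]
    norm_num
  have h0 : 0 ≤ Real.log L ^ K * L ^ (-(1 / 50) : ℝ) :=
    mul_nonneg (pow_nonneg hlog _) (Real.rpow_nonneg hL0.le _)
  have hKR : (1050 : ℝ) ≤ (K : ℝ) := by exact_mod_cast hK
  rw [e, mul_pow, mul_pow (c / d)]
  have h2 : (Real.log L ^ K * L ^ (-(1 / 50) : ℝ)) ^ K * L ^ 19 ≤ L ^ (-(19 / 20) : ℝ) := by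
    refine (mul_le_mul_of_nonneg_right (pow_le_pow_left₀ h0 h1 K) (pow_nonneg hL0.le _)).trans ?_
    rw [← Real.rpow_natCast L 19, ← Real.rpow_natCast (L ^ (-(19 / 1000) : ℝ)) K,
      ← Real.rpow_mul hL0.le, ← Real.rpow_add hL0]
    refine Real.rpow_le_rpow_of_exponent_le hl.L_ge ?_
    push_cast
    linarith
  have h3 := mul_le_mul_of_nonneg_left h2
    (show (0 : ℝ) ≤ 2 * 13 ^ 19 * (c / d) ^ K by positivity)
  linarith

/-- The band theorem. -/
theorem bandPin_of (hcm : CellMassPin) (hab : AbnormalMassPin) (hst : StabilityPin)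
    (hdi : DistinctPin) (hsm : SafeMassPin) : BandPin := by
  intro δ hδ
  obtain ⟨K, hK⟩ : ∃ K : ℕ, 1050 ≤ K := ⟨_, le_rfl⟩
  have hlim : Tendsto (fun x : ℝ => 2 * 13 ^ 19 * (96 * (4 * closeC K + 1) / pinKap K) ^ K
      * llx x ^ (-(19 / 20) : ℝ)) atTop (𝓝 0) := by
    have h := ((tendsto_rpow_neg_atTop (show (0 : ℝ) < 19 / 20 by norm_num)).comp tendsto_L).const_mul
      (2 * 13 ^ 19 * (96 * (4 * closeC K + 1) / pinKap K) ^ K)
    simpa using h
  have hbig : ∀ᶠ x : ℝ in atTop, ∀ i ∈ Finset.Icc 1 K,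
      24 * (4 * closeC i + 1) * 2 + 12 ≤ kap i * Real.log (llx x) := by
    rw [Filter.eventually_all_finset]
    intro i _
    filter_upwards [eventually_log_ge ((24 * (4 * closeC i + 1) * 2 + 12) / kap i)] with x hx
    rw [div_le_iff₀ (kap_pos i)] at hx
    linarith
  have hsum : Tendsto (fun x : ℝ => ∑ i ∈ Finset.Icc 1 K,
      96 * (4 * closeC i + 1) / (kap i * Real.log (llx x))) atTop (𝓝 0) := by
    have hone : ∀ i ∈ Finset.Icc 1 K, Tendsto
        (fun x : ℝ => 96 * (4 * closeC i + 1) / (kap i * Real.log (llx x))) atTop (𝓝 0) := fun i _ =>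
      ((Real.tendsto_log_atTop.comp tendsto_L).const_mul_atTop (kap_pos i)).const_div_atTop _
    simpa using tendsto_finsetSum (Finset.Icc 1 K) hone
  have hsmall : ∀ᶠ x : ℝ in atTop,
      2000 * 10 ^ K * Real.log (llx x) ^ (K + 1) * eta x ≤ pinKap K * numCells x := by
    filter_upwards [eventually_large, eventually_log_pow_le (K + 1) (show (0 : ℝ) < 1 / 100 by norm_num),
      eventually_L_ge (2000 * 10 ^ K / pinKap K) (show (0 : ℝ) < 1 / 100 by norm_num)] with x hl h1 h2
    set L := llx x with hL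
    have hL0 : 0 < L := by linarith [hl.L_ge]
    rw [div_le_iff₀ (pinKap_pos K)] at h2
    have e : L ^ (1 / 100 : ℝ) * L ^ (1 / 100 : ℝ) * L ^ (-(1 / 50) : ℝ) = 1 := by
      rw [← Real.rpow_add hL0, ← Real.rpow_add hL0]
      norm_num
    have hn : 0 ≤ L ^ (-(1 / 50) : ℝ) := Real.rpow_nonneg hL0.le _
    have hr : 0 ≤ L ^ (1 / 100 : ℝ) := Real.rpow_nonneg hL0.le _
    calc 2000 * 10 ^ K * Real.log L ^ (K + 1) * eta x
        ≤ 2000 * 10 ^ K * L ^ (1 / 100 : ℝ) * eta x := by
          refine mul_le_mul_of_nonneg_right (mul_le_mul_of_nonneg_left h1 (by positivity)) ?_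
          exact hl.regime.eta_pos.le
      _ ≤ L ^ (1 / 100 : ℝ) * pinKap K * L ^ (1 / 100 : ℝ) * eta x :=
          mul_le_mul_of_nonneg_right (mul_le_mul_of_nonneg_right h2 hr) hl.regime.eta_pos.le
      _ = pinKap K * numCells x * (L ^ (1 / 100 : ℝ) * L ^ (1 / 100 : ℝ) * L ^ (-(1 / 50) : ℝ)) := by
          unfold eta
          rw [← hL]
          ring
      _ = pinKap K * numCells x := by rw [e, mul_one]
  filter_upwards [eventually_ctx hcm hab hst hdi hsm K, hbig, hsmall,
    pinned_decay (96 * (4 * closeC K + 1)) (by linarith [closeC_nonneg K]) (pinKap K) (pinKap_pos K) K hK,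
    hsum.eventually (eventually_le_nhds (half_pos hδ)), hlim.eventually (eventually_le_nhds (half_pos hδ))]
    with x hc hb hs hp h1 h2
  refine (cover_mass hc (by omega) hb hs).trans
    (mul_le_mul_of_nonneg_right ?_ (mass_nonneg _))
  linarith

end Vale.Agent.P031.Band

namespace Vale.Agent.P031

/-- The band theorem. -/
theorem bandPin_of (hcm : CellMassPin) (hab : AbnormalMassPin) (hst : StabilityPin)
    (hdi : DistinctPin) (hsm : SafeMassPin) : BandPin :=
  Band.bandPin_of hcm hab hst hdi hsm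

end Vale.Agent.P031
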