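import Vale.Agent.P031.BandShape

/-!
# P031, band theorem: weights of prefixes

`boxLists n A` is the finset of lists of length `n` whose `l`-th entry lies in `A l`.  With the weight
`wt qs = 1 / ∏ (q - 1)` its sum is the product of the sums over the `A l`.
-/

namespace Vale.Agent.P031.Band

open Finset Vale.Agent.P031

/-- The weight `1 / ∏ (q - 1)` of a prefix. -/
noncomputable def wt (qs : List ℕ) : ℝ := (qs.map (fun q => (1 : ℝ) / ((q - 1 : ℕ) : ℝ))).prod

/-- The sum of `1 / (q - 1)` over a finset. -/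
noncomputable def primeMass (A : Finset ℕ) : ℝ := ∑ q ∈ A, (1 : ℝ) / ((q - 1 : ℕ) : ℝ)

theorem wt_nonneg (qs : List ℕ) : 0 ≤ wt qs :=
  List.prod_nonneg fun a ha => by
    obtain ⟨q, _, rfl⟩ := List.mem_map.1 ha
    positivity

theorem primeMass_nonneg (A : Finset ℕ) : 0 ≤ primeMass A :=
  Finset.sum_nonneg fun q _ => by positivity

theorem wt_nil : wt [] = 1 := rfl

theorem wt_cons (q : ℕ) (t : List ℕ) : wt (q :: t) = (1 : ℝ) / ((q - 1 : ℕ) : ℝ) * wt t := by
  simp [wt]

theorem confValue_cons (q : ℕ) (t : List ℕ) (m : ℕ) :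
    confValue (q :: t) m = (q - 1) * confValue t m := by
  simp [confValue, mul_assoc]

theorem confValue_nil (m : ℕ) : confValue [] m = m := by simp [confValue]

theorem confValue_append (p t : List ℕ) (m : ℕ) :
    confValue (p ++ t) m = (p.map (fun q => q - 1)).prod * confValue t m := by
  induction p with
  | nil => simp
  | cons q p ih => simp [confValue_cons, ih, mul_assoc]

theorem inv_confValue_append (p t : List ℕ) (m : ℕ) :
    (1 : ℝ) / (confValue (p ++ t) m : ℕ) = wt p * ((1 : ℝ) / (confValue t m : ℕ)) := by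
  induction p with
  | nil => simp [wt_nil]
  | cons q p ih =>
    rw [List.cons_append, confValue_cons, wt_cons, Nat.cast_mul, mul_assoc, ← ih]
    ring

/-- Lists of length `n` with `l`-th entry in `A l`. -/
def boxLists : ℕ → (ℕ → Finset ℕ) → Finset (List ℕ)
  | 0, _ => {[]}
  | n + 1, A => (A 0 ×ˢ boxLists n (fun l => A (l + 1))).image (fun p => p.1 :: p.2)

theorem mem_boxLists {n : ℕ} {A : ℕ → Finset ℕ} {qs : List ℕ} :
    qs ∈ boxLists n A ↔ qs.length = n ∧ ∀ l < n, qs.getD l 0 ∈ A l := by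
  induction n generalizing A qs with
  | zero =>
    simp only [boxLists, Finset.mem_singleton, Nat.not_lt_zero, false_imp_iff, implies_true,
      and_true, List.length_eq_zero_iff]
  | succ n ih =>
    simp only [boxLists, Finset.mem_image, Finset.mem_product, Prod.exists]
    constructor
    · rintro ⟨q, t, ⟨hq, ht⟩, rfl⟩
      obtain ⟨h1, h2⟩ := ih.1 ht
      refine ⟨by simp [h1], fun l hl => ?_⟩
      cases l with
      | zero => simpa using hq
      | succ l => simpa using h2 l (by omega)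
    · rintro ⟨h1, h2⟩
      cases qs with
      | nil => simp at h1
      | cons q t =>
        refine ⟨q, t, ⟨by simpa using h2 0 (by omega), ih.2 ⟨by simpa using h1, fun l hl => ?_⟩⟩, rfl⟩
        simpa using h2 (l + 1) (by omega)

theorem sum_wt_boxLists (n : ℕ) (A : ℕ → Finset ℕ) :
    ∑ qs ∈ boxLists n A, wt qs = ∏ l ∈ Finset.range n, primeMass (A l) := by
  induction n generalizing A with
  | zero => simp [boxLists, wt_nil]
  | succ n ih =>
    rw [boxLists, Finset.sum_image (by
      rintro ⟨a, b⟩ _ ⟨c, d⟩ _ h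
      simpa using h), Finset.sum_product, Finset.prod_range_succ']
    simp only [wt_cons, ← Finset.mul_sum]
    rw [← Finset.sum_mul, ih, mul_comm]
    rfl

/-- Short lists with entries in `A` weigh at most `(1 + primeMass A) ^ n`. -/
theorem sum_wt_short (n : ℕ) (A : Finset ℕ) (S : Finset (List ℕ))
    (hS : ∀ qs ∈ S, qs.length ≤ n ∧ ∀ q ∈ qs, q ∈ A) :
    ∑ qs ∈ S, wt qs ≤ (1 + primeMass A) ^ n := by
  induction n generalizing S with
  | zero =>
    have hsub : S ⊆ {[]} := fun qs hqs => by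
      simpa [List.length_eq_zero_iff] using (hS qs hqs).1
    refine (Finset.sum_le_sum_of_subset_of_nonneg hsub fun q _ _ => wt_nonneg q).trans ?_
    simp [wt_nil]
  | succ n ih =>
    set T := (S.filter (fun qs => qs ≠ [])).image List.tail with hT
    have hsub : S ⊆ insert [] ((A ×ˢ T).image (fun p => p.1 :: p.2)) := by
      intro qs hqs
      cases qs with
      | nil => exact Finset.mem_insert_self _ _
      | cons q t =>
        refine Finset.mem_insert_of_mem (Finset.mem_image.2 ⟨(q, t), Finset.mem_product.2 ⟨?_, ?_⟩, rfl⟩)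
        · exact (hS _ hqs).2 q List.mem_cons_self
        · rw [hT]
          exact Finset.mem_image.2 ⟨q :: t, Finset.mem_filter.2 ⟨hqs, by simp⟩, rfl⟩
    refine (Finset.sum_le_sum_of_subset_of_nonneg hsub fun q _ _ => wt_nonneg q).trans ?_
    rw [Finset.sum_insert (by simp), Finset.sum_image (by
      rintro ⟨a, b⟩ _ ⟨c, d⟩ _ h
      simpa using h), Finset.sum_product]
    simp only [wt_cons, wt_nil, ← Finset.mul_sum]
    rw [← Finset.sum_mul]
    have hTS : ∑ qs ∈ T, wt qs ≤ (1 + primeMass A) ^ n := by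
      refine ih T fun t ht => ?_
      obtain ⟨qs, hqs, rfl⟩ := Finset.mem_image.1 ht
      have := hS qs (Finset.mem_filter.1 hqs).1
      refine ⟨?_, fun q hq => this.2 q (List.mem_of_mem_tail hq)⟩
      rw [List.length_tail]
      omega
    have hP := primeMass_nonneg A
    have h1 : 1 ≤ (1 + primeMass A) ^ n := one_le_pow₀ (by linarith)
    have h2 := mul_le_mul_of_nonneg_left hTS hP
    rw [pow_succ]
    unfold primeMass at *
    nlinarith

/-- The primes of the cells within distance `R` of `c` (a height). -/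
noncomputable def nearPrimes (x : ℝ) (c R : ℝ) : Finset ℕ :=
  ((Finset.range (numCells x + 1)).filter (fun j : ℕ => |((j : ℝ) - halfCell x) - c| ≤ R)).biUnion
    (cellPrimes x)

theorem cellPrimes_disjoint (x : ℝ) {j k : ℕ} (h : j ≠ k) :
    Disjoint (cellPrimes x j) (cellPrimes x k) := by
  rw [Finset.disjoint_left]
  intro a ha hb
  simp only [cellPrimes, Finset.mem_filter] at ha hb
  exact h (ha.2.2.1.symm.trans hb.2.2.1)

theorem card_near (N : ℕ) (h c R : ℝ) (hR : 0 ≤ R) :
    (((Finset.range N).filter (fun j : ℕ => |((j : ℝ) - h) - c| ≤ R)).card : ℝ) ≤ 2 * R + 1 := by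
  set s := (Finset.range N).filter (fun j : ℕ => |((j : ℝ) - h) - c| ≤ R)
  rcases s.eq_empty_or_nonempty with hs | hs
  · simp [hs]
    linarith
  set a := s.min' hs
  set b := s.max' hs
  have ha := (Finset.mem_filter.1 (s.min'_mem hs)).2
  have hb := (Finset.mem_filter.1 (s.max'_mem hs)).2
  have hab : a ≤ b := s.min'_le _ (s.max'_mem hs)
  have hsub : s ⊆ Finset.Icc a b := fun j hj => Finset.mem_Icc.2 ⟨s.min'_le j hj, s.le_max' j hj⟩
  have hc := Finset.card_le_card hsub
  rw [Nat.card_Icc] at hc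
  have h1 : (s.card : ℝ) + a ≤ (b : ℝ) + 1 := by
    exact_mod_cast (show s.card + a ≤ b + 1 by omega)
  rw [abs_le] at ha hb
  linarith [ha.1, hb.2]

theorem primeMass_near_le {x c R D : ℝ} (hR : 0 ≤ R) (hD : 0 ≤ D)
    (hcell : ∀ j ≤ numCells x, primeMass (cellPrimes x j) ≤ D) :
    primeMass (nearPrimes x c R) ≤ (2 * R + 1) * D := by
  unfold nearPrimes primeMass
  rw [Finset.sum_biUnion fun j _ k _ h => cellPrimes_disjoint x h]
  refine (Finset.sum_le_card_nsmul _ _ D fun j hj => ?_).trans ?_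
  · exact hcell j (by simpa using Nat.lt_succ_iff.1 (Finset.mem_range.1 (Finset.mem_filter.1 hj).1))
  · rw [nsmul_eq_mul]
    exact mul_le_mul_of_nonneg_right (card_near _ _ _ _ hR) hD

open scoped Classical in
/-- The normal primes of the cells with height in `[lo, lo + W]`. -/
noncomputable def targetPrimes (x : ℝ) (lo W : ℝ) : Finset ℕ :=
  ((Finset.range (numCells x)).filter
      (fun j : ℕ => lo ≤ (j : ℝ) - halfCell x ∧ (j : ℝ) - halfCell x ≤ lo + W)).biUnion
    (fun j => (cellPrimes x j).filter (fun q => Normal x j q))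

open scoped Classical in
theorem primeMass_target_ge {x lo W D : ℝ} (hD : 0 ≤ D) (hW : 2 ≤ W) (hlo : 0 ≤ lo)
    (hhi : lo + W + halfCell x < numCells x)
    (hcell : ∀ j : ℕ, lo ≤ (j : ℝ) - halfCell x → (j : ℝ) - halfCell x ≤ lo + W →
      D ≤ ∑ q ∈ (cellPrimes x j).filter (fun q => Normal x j q), (1 : ℝ) / ((q - 1 : ℕ) : ℝ)) :
    W / 2 * D ≤ primeMass (targetPrimes x lo W) := by
  set v : ℝ := lo + halfCell x with hv
  have hv0 : 0 ≤ v := by positivity
  have hsub : Finset.Icc ⌈v⌉₊ ⌊v + W⌋₊ ⊆ (Finset.range (numCells x)).filter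
      (fun j : ℕ => lo ≤ (j : ℝ) - halfCell x ∧ (j : ℝ) - halfCell x ≤ lo + W) := by
    intro j hj
    rw [Finset.mem_Icc, Nat.ceil_le, Nat.le_floor_iff (by linarith)] at hj
    rw [Finset.mem_filter, Finset.mem_range]
    refine ⟨?_, by linarith [hj.1], by linarith [hj.2]⟩
    exact_mod_cast (show (j : ℝ) < numCells x by linarith [hj.2])
  have hcard : W / 2 ≤ ((Finset.Icc ⌈v⌉₊ ⌊v + W⌋₊).card : ℝ) := by
    rw [Nat.card_Icc]
    have h1 := Nat.ceil_lt_add_one hv0
    have h2 := Nat.lt_floor_add_one (v + W)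
    have h4 : ((⌊v + W⌋₊ + 1 : ℕ) : ℝ) - (⌈v⌉₊ : ℝ) ≤ ((⌊v + W⌋₊ + 1 - ⌈v⌉₊ : ℕ) : ℝ) := by
      rcases le_total ⌈v⌉₊ (⌊v + W⌋₊ + 1) with h | h
      · rw [Nat.cast_sub h]
      · rw [Nat.sub_eq_zero_of_le h]
        have : ((⌊v + W⌋₊ + 1 : ℕ) : ℝ) ≤ (⌈v⌉₊ : ℝ) := by exact_mod_cast h
        push_cast at this ⊢
        linarith
    push_cast at h4
    linarith
  unfold targetPrimes primeMass
  rw [Finset.sum_biUnion fun j _ k _ h =>
    (cellPrimes_disjoint x h).mono (Finset.filter_subset _ _) (Finset.filter_subset _ _)]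
  refine le_trans (mul_le_mul_of_nonneg_right hcard hD) ?_
  refine le_trans ?_ (Finset.sum_le_sum_of_subset_of_nonneg hsub
    fun j _ _ => Finset.sum_nonneg fun q _ => by positivity)
  rw [← nsmul_eq_mul]
  refine Finset.card_nsmul_le_sum _ _ _ fun j hj => ?_
  have := (Finset.mem_filter.1 (hsub hj)).2
  exact hcell j this.1 this.2

end Vale.Agent.P031.Band
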