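import Vale.Agent.P031.BandSaturate

/-!
# P031, band theorem: the two cases

Case `i`: levels below `i` saturated, level `i` not.  Pinned case: all levels up to `K` saturated.
-/

namespace Vale.Agent.P031.Band

open Finset Vale.Agent.P031

/-- Everything the band theorem needs at one large `x`. -/
structure Ctx (x : ℝ) (K : ℕ) : Prop where
  large : Large x
  log_ge : 2 ≤ Real.log (llx x)
  width_one : 1 ≤ width x
  cell_up : ∀ j ≤ numCells x, primeMass (cellPrimes x j) ≤ 3 * width x
  cell_low : ∀ j : ℕ, cutCell x < j → j < numCells x →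
    ∀ S : Finset ℕ, (∀ q, q ∈ S ↔ q ∈ cellPrimes x j ∧ Normal x j q) →
      width x / 2 ≤ ∑ q ∈ S, (1 : ℝ) / ((q - 1 : ℕ) : ℝ)
  stab : ∀ d ≤ K, ∀ qs qs' : List ℕ, ∀ m m' : ℕ,
    IsConf x qs m → IsConf x qs' m' → IsGood x qs → IsGood x qs' →
    confValue qs m = confValue qs' m' → |tailPhi x d qs - tailPhi x d qs'| ≤ errBd x
  dist : ∀ i : ℕ, ∀ S : Finset (List ℕ × ℕ),
    (∀ a ∈ S, IsConf x a.1 a.2 ∧ IsGood x a.1 ∧ i ≤ a.1.length ∧
      ∀ l < i, eta x ≤ slackAt x a.1 l) →
    (∀ a ∈ S, ∀ b ∈ S, confValue (a.1.drop i) a.2 = confValue (b.1.drop i) b.2 →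
      a.1.drop i = b.1.drop i ∧ a.2 = b.2) →
    (∑ a ∈ S, (1 : ℝ) / (confValue a.1 a.2 : ℝ))
      ≤ mass (S.image (fun a => confValue a.1 a.2)) + Real.exp (-(eta x * width x / 4))
  safe_one : 1 ≤ mass (safeVals x)

/-- The count of saturated prefixes with all windows at most `M ^ n * η`. -/
theorem count_le {x : ℝ} {K : ℕ} (hc : Ctx x K) {i : ℕ} (hiK : i ≤ K) {C : ℝ} (hC0 : 0 ≤ C)
    (hC : ∀ (b : ℕ → Bool) (d : ℕ → ℝ) (U : ℝ), 0 ≤ U → d 0 = 0 →
      (∀ l < i, |row i (b l) d l| ≤ U) → ∀ l ≤ i, |d l| ≤ C * U)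
    (W : Finset ℕ) (rep : ℕ → List ℕ × ℕ)
    (hW : ∀ w ∈ W, IsConf x (rep w).1 (rep w).2 ∧ IsFull x (rep w).1 ∧
      confValue (rep w).1 (rep w).2 = w ∧ i ≤ (rep w).1.length ∧ ∀ l < i, Sat x (rep w).1 l) :
    mass W ≤ (6 * (4 * C + 1) * Real.log (llx x) ^ i * eta x * width x) ^ i
      * mass (W.image (fun w => confValue ((rep w).1.drop i) (rep w).2)) := by
  have hR := hc.large.regime
  have hM := hc.log_ge
  have he := hR.eta_pos
  set U : ℝ := Real.log (llx x) ^ i * eta x with hU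
  have hpow : 1 ≤ Real.log (llx x) ^ i := one_le_pow₀ (by linarith)
  have hU1 : 1 ≤ U := one_le_mul_of_one_le_of_one_le hpow hc.large.eta_ge
  have hUe : eta x ≤ U := le_mul_of_one_le_left he.le hpow
  have h := count_saturated (i := i) (D := 3 * width x) hR hC0 (show 0 ≤ U by linarith)
    (by linarith [hc.width_one]) hc.cell_up hC (fun d hd => hc.stab d (hd.trans hiK)) W rep
    (fun w hw => by
      obtain ⟨h1, h2, h3, h4, h5⟩ := hW w hw
      refine ⟨h1, h2, h3, h4, fun l hl => ?_⟩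
      rcases h5 l hl with h | h
      · exact Or.inl (h.trans_le (thr_le hM he.le hl))
      · exact Or.inr (h.trans_le (thr_le hM he.le hl)))
  refine h.trans (mul_le_mul_of_nonneg_right ?_ (Finset.sum_nonneg fun _ _ => by positivity))
  rw [← mul_pow]
  refine pow_le_pow_left₀ ?_ ?_ i
  · have h1 : 0 ≤ C * (U + eta1 x + errBd x) := mul_nonneg hC0
      (by linarith [hR.eta1_nonneg, hR.err_nonneg])
    have h2 := hc.width_one
    positivity
  · have h1 : C * (U + eta1 x + errBd x) ≤ C * (2 * U) :=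
      mul_le_mul_of_nonneg_left (by linarith [hc.large.small]) hC0
    have h2 : 2 * (C * (U + eta1 x + errBd x)) + 1 ≤ (4 * C + 1) * U := by linarith
    have h3 := mul_le_mul_of_nonneg_right h2 (show (0 : ℝ) ≤ 6 * width x by linarith [hc.width_one])
    rw [hU] at h3 ⊢
    linarith

theorem exists_witness {M : Finset ℕ} {f : ℕ → ℕ} {W : Finset ℕ} (h : M = W.image f) :
    ∃ g : ℕ → ℕ, ∀ m ∈ M, g m ∈ W ∧ f (g m) = m := by
  classical
  refine ⟨fun m => if hm : ∃ w ∈ W, f w = m then hm.choose else 0, fun m hm => ?_⟩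
  subst h
  have hm' : ∃ w ∈ W, f w = m := Finset.mem_image.1 hm
  simp only [dif_pos hm']
  exact hm'.choose_spec

/-- Case `i`. -/
theorem case_level {x : ℝ} {K : ℕ} (hc : Ctx x K) {i : ℕ} (hi : 1 ≤ i) (hiK : i ≤ K) {C : ℝ}
    (hC0 : 0 ≤ C)
    (hC : ∀ (b : ℕ → Bool) (d : ℕ → ℝ) (U : ℝ), 0 ≤ U → d 0 = 0 →
      (∀ l < i, |row i (b l) d l| ≤ U) → ∀ l ≤ i, |d l| ≤ C * U)
    (hbig : 24 * (4 * C + 1) * 2 + 12 ≤ kap i * Real.log (llx x))
    (W : Finset ℕ) (rep : ℕ → List ℕ × ℕ)
    (hW : ∀ w ∈ W, IsConf x (rep w).1 (rep w).2 ∧ IsFull x (rep w).1 ∧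
      confValue (rep w).1 (rep w).2 = w ∧ ¬ Sat x (rep w).1 i ∧ ∀ l < i, Sat x (rep w).1 l) :
    mass W ≤ 96 * (4 * C + 1) / (kap i * Real.log (llx x)) * mass (safeVals x) := by
  classical
  have hR := hc.large.regime
  have he := hR.eta_pos
  have hM := hc.log_ge
  have hk := kap_pos i
  set M := Real.log (llx x) with hMdef
  set T : ℝ := M ^ (i + 1) * eta x with hTdef
  have hthr : thr x i = T := by simp [thr, hTdef, hMdef, show i ≠ 0 by omega]
  have hTpos : 0 < T := mul_pos (pow_pos (by linarith) _) he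
  have hTM : M * eta x ≤ T :=
    mul_le_mul_of_nonneg_right (le_self_pow₀ (by linarith) (by omega)) he.le
  have hkT : 12 * eta x ≤ kap i * T := by
    have h1 := mul_le_mul_of_nonneg_left hTM hk.le
    nlinarith
  have hfacts : ∀ w ∈ W, i ≤ (rep w).1.length ∧ T ≤ sv x (rep w).1 i ∧ T ≤ gv x (rep w).1 i := by
    intro w hw
    have h := (hW w hw).2.2.2.1
    simp only [Sat, not_or, not_lt, hthr] at h
    exact ⟨le_length_of_unsat hi hTpos h.2, h⟩
  have hcount := count_le hc hiK hC0 hC W rep (fun w hw => by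
    obtain ⟨h1, h2, h3, -, h5⟩ := hW w hw
    exact ⟨h1, h2, h3, (hfacts w hw).1, h5⟩)
  set tv : ℕ → ℕ := fun w => confValue ((rep w).1.drop i) (rep w).2 with htv
  obtain ⟨g, hg⟩ := exists_witness (f := tv) (W := W) rfl
  set lo : ℕ → ℕ → ℝ := fun m l =>
    yv x (rep (g m)).1 l - T / 4 * (inc 0 / 4) ^ (i - l) - kap i / 2 * T with hlo
  have htarget := target_mass hR hc.dist hc.safe_one (show (0 : ℝ) ≤ width x / 2 by linarith [hc.width_one])
    (fun j h1 h2 => hc.cell_low j h1 h2 _ (fun q => by simp)) i (W.image tv)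
    (fun m => (rep (g m)).1.drop i) (fun m => (rep (g m)).2) lo
    (show 2 ≤ kap i / 2 * T by linarith [hc.large.eta_ge]) (fun m hm => by
      obtain ⟨hwW, hwm⟩ := hg m hm
      obtain ⟨h1, h2, -, -, -⟩ := hW (g m) hwW
      obtain ⟨hlen, hs, hgap⟩ := hfacts (g m) hwW
      have hsh := shaped_of_isConf hR.width_nonneg h1
      refine ⟨isConf_drop h1 i, isGood_drop hsh hR.eta1_nonneg h2.1 i, ?_, hwm, ?_⟩
      · have := h1.short
        rw [List.length_drop]
        omega
      · intro y' h0 hy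
        refine target_case hi (y := yv x (rep (g m)).1)
          (φ := fun d => tailPhi x d ((rep (g m)).1.drop i))
          (z := yv x ((rep (g m)).1.drop i) 1) (T := T) (B := eta1 x) (err := 0)
          (fun l hl => ?_) (fun l hl => ?_) ?_ ?_ (fun d _ => by simp) (by simp) hTpos.le
          hR.eta1_nonneg le_rfl (by linarith) ?_ (by simpa [yv] using h0) (fun l h1 h2 => ?_)
        · rw [← sv_eq_sL hsh hl]
          exact isFull_sv hsh hR.eta1_nonneg hR.half_le h2 l
        · rw [← gv_eq_gL x _ hl]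
          exact gv_nonneg hsh hR.half_le l
        · rw [← sv_eq_sL hsh le_rfl]
          exact hs
        · rw [← gv_eq_gL x _ le_rfl]
          exact hgap
        · linarith [hc.large.small, hR.err_nonneg]
        · have := hy l h1 h2
          simp only [hlo] at this
          constructor <;> linarith)
  have hpow : 0 ≤ M ^ i := pow_nonneg (by linarith) _
  set A : ℝ := 6 * (4 * C + 1) * M ^ i * eta x * width x with hA
  set B : ℝ := kap i / 2 * T / 2 * (width x / 2) with hB
  have hBpos : 0 < B := by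
    have := hc.width_one
    positivity
  set r : ℝ := 48 * (4 * C + 1) / (kap i * M) with hr
  have hkM : 0 < kap i * M := mul_pos hk (by linarith)
  have hr0 : 0 ≤ r := by positivity
  have hAB : A = r * B := by
    rw [hA, hB, hr, hTdef, pow_succ]
    field_simp
    ring
  have hr1 : r ≤ 1 := by
    rw [hr, div_le_one hkM]
    linarith
  calc mass W ≤ A ^ i * mass (W.image tv) := hcount
    _ = r ^ i * (B ^ i * mass (W.image tv)) := by rw [hAB, mul_pow]; ring
    _ ≤ r * (2 * mass (safeVals x)) := by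
        refine mul_le_mul ?_ htarget
          (mul_nonneg (pow_nonneg hBpos.le _) (Finset.sum_nonneg fun _ _ => by positivity)) hr0
        exact pow_le_of_le_one hr0 hr1 (by omega)
    _ = 96 * (4 * C + 1) / (kap i * M) * mass (safeVals x) := by rw [hr]; ring

/-- The box width factor of the pinned case. -/
noncomputable def pinKap (K : ℕ) : ℝ :=
  (1 / 8) ^ K / (4 * ((∑ t ∈ Finset.range K, inc t) + 1))

theorem pinKap_pos (K : ℕ) : 0 < pinKap K := by
  have := sum_inc_nonneg K
  unfold pinKap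
  positivity

/-- The pinned case. -/
theorem case_pinned {x : ℝ} {K : ℕ} (hc : Ctx x K) (hK : 1 ≤ K) {C : ℝ} (hC0 : 0 ≤ C)
    (hC : ∀ (b : ℕ → Bool) (d : ℕ → ℝ) (U : ℝ), 0 ≤ U → d 0 = 0 →
      (∀ l < K, |row K (b l) d l| ≤ U) → ∀ l ≤ K, |d l| ≤ C * U)
    (hsmall : 2000 * 10 ^ K * Real.log (llx x) ^ (K + 1) * eta x ≤ pinKap K * numCells x)
    (W : Finset ℕ) (rep : ℕ → List ℕ × ℕ)
    (hW : ∀ w ∈ W, IsConf x (rep w).1 (rep w).2 ∧ IsFull x (rep w).1 ∧
      confValue (rep w).1 (rep w).2 = w ∧ ∀ l ≤ K, Sat x (rep w).1 l) :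
    mass W ≤ 2 * (13 * llx x) ^ 19
      * (96 * (4 * C + 1) * Real.log (llx x) ^ K * eta x / (pinKap K * numCells x)) ^ K
      * mass (safeVals x) := by
  classical
  have hR := hc.large.regime
  have he := hR.eta_pos
  have he1 := hR.eta1_nonneg
  have hM := hc.log_ge
  have hL := hc.large.L_ge
  set M := Real.log (llx x) with hMdef
  set U : ℝ := M ^ (K + 1) * eta x with hU
  have hk := pinKap_pos K
  have hk1 : pinKap K ≤ (1 / 8) ^ K / 4 := by
    unfold pinKap
    gcongr
    linarith [sum_inc_nonneg K]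
  have hk2 : pinKap K ≤ 1 := by
    have : (1 / 8 : ℝ) ^ K ≤ 1 := pow_le_one₀ (by norm_num) (by norm_num)
    linarith
  have hUe : eta x ≤ U := le_mul_of_one_le_left he.le (one_le_pow₀ (by linarith))
  have hsm : 2000 * (10 ^ K * U) ≤ pinKap K * numCells x := by
    rw [hU]
    linarith
  have hU0 : 0 ≤ U := he.le.trans hUe
  have hsmE : 2000 * U ≤ pinKap K * numCells x := by
    have : U ≤ 10 ^ K * U := le_mul_of_one_le_left hU0 (one_le_pow₀ (by norm_num))
    linarith
  have hJ : (0 : ℝ) ≤ numCells x := Nat.cast_nonneg _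
  have hY0 : (numCells x : ℝ) / 2 ≤ (numCells x : ℝ) - halfCell x := by
    linarith [hc.large.half_small]
  have hthr0 : ∀ l, 0 ≤ thr x l := fun l => (thr_pos hM he).le
  have hthr : ∀ l ≤ K, thr x l ≤ U := fun l hl => thr_le hM he.le (Nat.lt_succ_of_le hl)
  have hU8 : 5 * (U + 8 * eta1 x) ≤ (numCells x : ℝ) / 2 / 10 ^ K := by
    rw [le_div_iff₀ (by positivity)]
    have h1 : 5 * (U + 8 * eta1 x) ≤ 45 * U := by linarith [hc.large.small, hR.err_nonneg]
    have h2 := mul_le_mul_of_nonneg_right h1 (show (0 : ℝ) ≤ 10 ^ K by positivity)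
    have h3 := mul_le_mul_of_nonneg_right hk2 hJ
    nlinarith
  have hfacts : ∀ w ∈ W, K + 1 ≤ (rep w).1.length ∧ 60 * eta1 x ≤ yv x (rep w).1 (K + 1) := by
    intro w hw
    obtain ⟨h1, h2, -, h4⟩ := hW w hw
    have hsh := shaped_of_isConf hR.width_nonneg h1
    have h5 := saturated_height hR hsh h2 h4 hthr0 hthr hY0 hU8 (K + 1) le_rfl
    have h6 : 60 * eta1 x ≤ (numCells x : ℝ) / 2 / 10 ^ (K + 1) := by
      rw [pow_succ, ← div_div, le_div_iff₀ (by norm_num : (0 : ℝ) < 10), le_div_iff₀ (by positivity)]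
      have h7 : 60 * eta1 x ≤ 60 * U := by linarith [hc.large.small, hR.err_nonneg]
      have h8 := mul_le_mul_of_nonneg_right h7 (show (0 : ℝ) ≤ 10 ^ K by positivity)
      have h3 := mul_le_mul_of_nonneg_right hk2 hJ
      nlinarith
    refine ⟨?_, h6.trans h5⟩
    by_contra hlen
    have : yv x (rep w).1 (K + 1) = 0 := by
      rw [yv_succ, List.drop_eq_nil_of_le (by omega)]
      rfl
    have h9 : (0 : ℝ) < (numCells x : ℝ) / 2 / 10 ^ (K + 1) := by
      have : (0 : ℝ) < numCells x := lt_of_lt_of_le (by positivity) hc.large.numCells_ge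
      positivity
    linarith
  have hcount := count_le hc le_rfl hC0 hC W rep (fun w hw => by
    obtain ⟨h1, h2, h3, h4⟩ := hW w hw
    exact ⟨h1, h2, h3, by have := (hfacts w hw).1; omega, fun l hl => h4 l hl.le⟩)
  set tv : ℕ → ℕ := fun w => confValue ((rep w).1.drop K) (rep w).2 with htv
  obtain ⟨g, hg⟩ := exists_witness (f := tv) (W := W) rfl
  set rep2 : ℕ → List ℕ × ℕ := fun m => ((rep (g m)).1.drop K, (rep (g m)).2) with hrep2
  have hstrip := strip_mass (D := 3 * width x) hc.cell_up 19 (W.image tv) rep2 (fun m hm => by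
    obtain ⟨hwW, hwm⟩ := hg m hm
    exact ⟨isConf_drop (hW _ hwW).1 K, hwm⟩)
  set sv' : ℕ → ℕ := fun m => confValue ((rep2 m).1.drop 19) (rep2 m).2 with hsv'
  obtain ⟨g2, hg2⟩ := exists_witness (f := sv') (W := W.image tv) rfl
  set E : ℝ := ((numCells x : ℝ) - halfCell x) / 2 with hE
  have hE0 : 0 ≤ E := by linarith
  set Wd : ℝ := E * pinKap K with hWd
  have hWd2 : pinKap K * numCells x / 4 ≤ Wd := by
    have := mul_le_mul_of_nonneg_left (show (numCells x : ℝ) / 4 ≤ E by linarith) hk.le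
    rw [hWd]
    linarith
  have htarget := target_mass hR hc.dist hc.safe_one (show (0 : ℝ) ≤ width x / 2 by linarith [hc.width_one])
    (fun j h1 h2 => hc.cell_low j h1 h2 _ (fun q => by simp)) K ((W.image tv).image sv')
    (fun v => (rep (g (g2 v))).1.drop (K + 19)) (fun v => (rep (g (g2 v))).2)
    (fun v l => yv x (rep (g (g2 v))).1 l / 2 + E * (1 / 8) ^ l) (W := Wd)
    (by linarith [hc.large.eta_ge]) (fun v hv => by
      obtain ⟨hmM, hmv⟩ := hg2 v hv
      obtain ⟨hwW, -⟩ := hg _ hmM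
      obtain ⟨h1, h2, -, -⟩ := hW _ hwW
      obtain ⟨hlen, hy⟩ := hfacts _ hwW
      set qs := (rep (g (g2 v))).1 with hqs
      have hsh := shaped_of_isConf hR.width_nonneg h1
      obtain ⟨hphi, hz⟩ := strip_contract hR hsh h2 hy
      refine ⟨isConf_drop h1 _, isGood_drop hsh he1 h2.1 _, ?_, ?_, ?_⟩
      · have := h1.short
        rw [List.length_drop]
        omega
      · simpa only [hsv', hrep2, List.drop_drop, hqs] using hmv
      · intro y' h0 hy'
        refine target_pinned hK (y := yv x qs) (φ := fun d => tailPhi x d (qs.drop K))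
          (z := yv x (qs.drop K) 1) (B := eta1 x) (E := E) (W := Wd)
          (fun l hl => ?_) (fun l hl => ?_) (yv_antitone hsh hR.half_le (Nat.zero_le 1)) (by simp [hE, yv])
          (fun d _ => hphi d) ?_ ?_ hE0 he1 (by linarith) ?_ (by simpa [yv] using h0) (fun l h1 h2 => hy' l h1 h2)
        · rw [← sv_eq_sL hsh hl]
          exact isFull_sv hsh he1 hR.half_le h2 l
        · rw [← gv_eq_gL x _ hl]
          exact gv_nonneg hsh hR.half_le l
        · rw [yv_succ, List.drop_zero, ← yv_succ x qs (K + 19)]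
          exact hz
        · rw [hWd, pinKap]
          ring
        · have h3 := mul_le_mul_of_nonneg_left hk1 hE0
          have h4 : 3 * eta x ≤ Wd := by linarith [hc.large.eta_ge]
          rw [hWd] at h4
          linarith [hc.large.small, hR.err_nonneg])
  have hJ1 : 1 ≤ (numCells x : ℝ) := le_trans (Real.one_le_rpow hL (by norm_num)) hc.large.numCells_ge
  have hfac : 1 + ((numCells x : ℝ) + 1) * (3 * width x) ≤ 13 * llx x := by
    have := hc.large.width_mul
    have := mul_le_mul_of_nonneg_right hJ1 (show (0 : ℝ) ≤ width x by linarith [hc.width_one])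
    linarith
  have hw := hc.width_one
  set A : ℝ := 6 * (4 * C + 1) * M ^ K * eta x * width x with hA
  set B : ℝ := Wd / 2 * (width x / 2) with hB
  set r : ℝ := 96 * (4 * C + 1) * M ^ K * eta x / (pinKap K * numCells x) with hr
  have hkJ : 0 < pinKap K * numCells x := mul_pos hk (by linarith)
  have hMK : 0 ≤ M ^ K := pow_nonneg (by linarith) _
  have hr0 : 0 ≤ r := by positivity
  have hB0 : 0 ≤ B := by positivity
  have hA0 : 0 ≤ A := by positivity
  have hAB : A ≤ r * B := by
    have e : A = r * (pinKap K * numCells x / 4 / 2 * (width x / 2)) := by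
      rw [hA, hr]
      field_simp
      ring
    rw [e, hB]
    refine mul_le_mul_of_nonneg_left ?_ hr0
    exact mul_le_mul_of_nonneg_right (by linarith) (by linarith)
  have hm0 : ∀ S : Finset ℕ, 0 ≤ mass S := fun S => Finset.sum_nonneg fun _ _ => by positivity
  have hbase : 0 ≤ 1 + ((numCells x : ℝ) + 1) * (3 * width x) := by
    have : 0 ≤ ((numCells x : ℝ) + 1) * (3 * width x) := by positivity
    linarith
  calc mass W ≤ A ^ K * mass (W.image tv) := hcount
    _ ≤ (r * B) ^ K * ((13 * llx x) ^ 19 * mass ((W.image tv).image sv')) :=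
        mul_le_mul (pow_le_pow_left₀ hA0 hAB K)
          (hstrip.trans (mul_le_mul_of_nonneg_right (pow_le_pow_left₀ hbase hfac 19) (hm0 _)))
          (hm0 _) (pow_nonneg (mul_nonneg hr0 hB0) K)
    _ = (13 * llx x) ^ 19 * r ^ K * (B ^ K * mass ((W.image tv).image sv')) := by
        rw [mul_pow]; ring
    _ ≤ (13 * llx x) ^ 19 * r ^ K * (2 * mass (safeVals x)) :=
        mul_le_mul_of_nonneg_left htarget (mul_nonneg (pow_nonneg (by linarith) _) (pow_nonneg hr0 _))
    _ = _ := by rw [hr]; ring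

end Vale.Agent.P031.Band
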