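import Vale.Agent.P031.BandTargets

/-!
# P031, band theorem: saturated prefixes are few

Configurations whose first `i` levels are saturated with windows `T` lie, for each tail value, in
`2 ^ i` boxes of radius `O(T)`; stripping the first primes of a tail costs a power of `L`.
-/

namespace Vale.Agent.P031.Band

open Finset Vale.Agent.P031

theorem isConf_drop {x : ℝ} {qs : List ℕ} {m : ℕ} (h : IsConf x qs m) (n : ℕ) :
    IsConf x (qs.drop n) m :=
  ⟨h.desc.sublist (List.drop_sublist n qs), fun q hq => h.big q (List.mem_of_mem_drop hq),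
    fun q hq => h.capped q (List.mem_of_mem_drop hq), fun q hq => h.normal q (List.mem_of_mem_drop hq),
    (List.drop_sublist n qs).length_le.trans h.short, h.part⟩

theorem mem_cellPrimes {x : ℝ} {qs : List ℕ} {m q : ℕ} (hc : IsConf x qs m) (hq : q ∈ qs) :
    q ∈ cellPrimes x (cell x q) := by
  classical
  have hp := (hc.normal q hq).prime
  have h3 := hc.capped q hq
  refine Finset.mem_filter.2 ⟨Finset.mem_range.2 ?_, hp, rfl, h3⟩
  have h1 : (1 : ℝ) < q := by exact_mod_cast hp.one_lt
  rw [ll, Real.log_le_iff_le_exp (Real.log_pos h1), Real.log_le_iff_le_exp (by linarith)] at h3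
  have h4 : q ≤ ⌈Real.exp (Real.exp (llx x + 1))⌉₊ := by
    exact_mod_cast h3.trans (Nat.le_ceil _)
  omega

/-- `sv` in linear form relative to the tail after `i` levels. -/
theorem sv_eq_sL {x : ℝ} {qs : List ℕ} (h : Shaped x qs) {i l : ℕ} (hl : l ≤ i) :
    sv x qs l = sL i (yv x qs) (fun d => tailPhi x d (qs.drop i)) l := by
  rw [sv, tailPhi_expand h 0 l (i - l), sL, show l + (i - l) = i by omega]
  simp only [zero_add]
  ring

theorem gv_eq_gL (x : ℝ) (qs : List ℕ) {i l : ℕ} (hl : l ≤ i) :
    gv x qs l = gL i (yv x qs) (yv x (qs.drop i) 1) l := by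
  unfold gv gL
  rcases hl.eq_or_lt with e | e
  · subst e
    rw [if_neg (lt_irrefl _)]
    congr 1
  · rw [if_pos e]

/-- Two configurations with the same pattern and close tails have close prefixes. -/
theorem prefix_close {x : ℝ} (hR : Regime x) {i : ℕ} {C T err : ℝ} (hT : 0 ≤ T) (herr : 0 ≤ err)
    (hC : ∀ (b : ℕ → Bool) (d : ℕ → ℝ) (U : ℝ), 0 ≤ U → d 0 = 0 →
      (∀ l < i, |row i (b l) d l| ≤ U) → ∀ l ≤ i, |d l| ≤ C * U)
    {qs qs' : List ℕ} (hs : Shaped x qs) (hs' : Shaped x qs') (hf : IsFull x qs) (hf' : IsFull x qs')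
    (b : ℕ → Bool)
    (hb : ∀ l < i, if b l then gv x qs l < T else sv x qs l < T)
    (hb' : ∀ l < i, if b l then gv x qs' l < T else sv x qs' l < T)
    (hphi : ∀ d ≤ i, |tailPhi x d (qs.drop i) - tailPhi x d (qs'.drop i)| ≤ err) :
    ∀ l ≤ i, |yv x qs l - yv x qs' l| ≤ C * (T + eta1 x + err) := by
  have he := hR.eta1_nonneg
  refine hC b (fun l => yv x qs l - yv x qs' l) _ (by linarith) (by simp [yv]) fun l hl => ?_
  have h1 := hb l hl
  have h2 := hb' l hl
  have g1 := gv_nonneg hs hR.half_le l
  have g2 := gv_nonneg hs' hR.half_le l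
  have s1 := isFull_sv hs he hR.half_le hf l
  have s2 := isFull_sv hs' he hR.half_le hf' l
  cases hbl : b l
  · replace h1 : sv x qs l < T := by simpa [hbl] using h1
    replace h2 : sv x qs' l < T := by simpa [hbl] using h2
    have e1 := sv_eq_sL hs hl.le
    have e2 := sv_eq_sL hs' hl.le
    rw [e1] at h1 s1
    rw [e2] at h2 s2
    have h3 := abs_le.1 (hphi (i - l) (Nat.sub_le _ _))
    simp only [sL] at h1 h2 s1 s2
    simp only [row, Bool.false_eq_true, if_false, mul_sub, Finset.sum_sub_distrib]
    rw [abs_le]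
    constructor <;> linarith
  · replace h1 : gv x qs l < T := by simpa [hbl] using h1
    replace h2 : gv x qs' l < T := by simpa [hbl] using h2
    simp only [gv] at h1 h2 g1 g2
    simp only [row, if_true]
    rw [abs_le]
    constructor <;> linarith

theorem inv_value_split (qs : List ℕ) (m i : ℕ) :
    (1 : ℝ) / (confValue qs m : ℕ) = wt (qs.take i) * ((1 : ℝ) / (confValue (qs.drop i) m : ℕ)) := by
  rw [← inv_confValue_append, List.take_append_drop]

theorem value_split (qs : List ℕ) (m i : ℕ) :
    confValue qs m = ((qs.take i).map (fun q => q - 1)).prod * confValue (qs.drop i) m := by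
  rw [← confValue_append, List.take_append_drop]

/-- The prefixes of values with `i` saturated levels weigh little per tail value. -/
theorem count_saturated {x : ℝ} (hR : Regime x) {i : ℕ} {C T D : ℝ} (hC0 : 0 ≤ C) (hT : 0 ≤ T)
    (hD : 0 ≤ D) (hcell : ∀ j ≤ numCells x, primeMass (cellPrimes x j) ≤ D)
    (hC : ∀ (b : ℕ → Bool) (d : ℕ → ℝ) (U : ℝ), 0 ≤ U → d 0 = 0 →
      (∀ l < i, |row i (b l) d l| ≤ U) → ∀ l ≤ i, |d l| ≤ C * U)
    (hstab : ∀ d ≤ i, ∀ qs qs' : List ℕ, ∀ m m' : ℕ,
      IsConf x qs m → IsConf x qs' m' → IsGood x qs → IsGood x qs' →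
      confValue qs m = confValue qs' m' → |tailPhi x d qs - tailPhi x d qs'| ≤ errBd x)
    (W : Finset ℕ) (rep : ℕ → List ℕ × ℕ)
    (hW : ∀ w ∈ W, IsConf x (rep w).1 (rep w).2 ∧ IsFull x (rep w).1 ∧
      confValue (rep w).1 (rep w).2 = w ∧ i ≤ (rep w).1.length ∧
      ∀ l < i, sv x (rep w).1 l < T ∨ gv x (rep w).1 l < T) :
    mass W ≤ 2 ^ i * ((2 * (C * (T + eta1 x + errBd x)) + 1) * D) ^ i
      * mass (W.image (fun w => confValue ((rep w).1.drop i) (rep w).2)) := by
  classical
  set R : ℝ := C * (T + eta1 x + errBd x) with hRdef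
  have hR0 : 0 ≤ R := mul_nonneg hC0 (by linarith [hR.eta1_nonneg, hR.err_nonneg])
  set B : ℝ := ((2 * R + 1) * D) ^ i with hB
  have hB0 : 0 ≤ B := by positivity
  set tv : ℕ → ℕ := fun w => confValue ((rep w).1.drop i) (rep w).2 with htv
  set pat : ℕ → (Fin i → Bool) := fun w l => decide (gv x (rep w).1 l < T) with hpat
  set key : ℕ → ℕ × (Fin i → Bool) := fun w => (tv w, pat w) with hkey
  have hfib : ∀ k ∈ W.image key,
      ∑ w ∈ W.filter (fun w => key w = k), (1 : ℝ) / (w : ℕ) ≤ B * ((1 : ℝ) / (k.1 : ℕ)) := by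
    intro k hk
    obtain ⟨w0, hw0, rfl⟩ := Finset.mem_image.1 hk
    obtain ⟨hc0, hf0, -, -, hsat0⟩ := hW w0 hw0
    set A : ℕ → Finset ℕ := fun l => nearPrimes x (yv x (rep w0).1 (l + 1)) R with hA
    have hin : ∀ w ∈ W.filter (fun w => key w = key w0), (rep w).1.take i ∈ boxLists i A := by
      intro w hw
      obtain ⟨hwW, hkw⟩ := Finset.mem_filter.1 hw
      obtain ⟨hc, hf, -, hlen, hsat⟩ := hW w hwW
      simp only [hkey, Prod.mk.injEq] at hkw
      set b : ℕ → Bool := fun l => decide (gv x (rep w0).1 l < T) with hb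
      have hbw : ∀ l < i, if b l then gv x (rep w).1 l < T else sv x (rep w).1 l < T := by
        intro l hl
        have e := congrFun hkw.2 ⟨l, hl⟩
        simp only [hpat] at e
        simp only [hb, ← e]
        by_cases h : gv x (rep w).1 l < T
        · simp [h]
        · simp [h, (hsat l hl).resolve_right h]
      have hbw0 : ∀ l < i, if b l then gv x (rep w0).1 l < T else sv x (rep w0).1 l < T := by
        intro l hl
        by_cases h : gv x (rep w0).1 l < T
        · simp [hb, h]
        · simp [hb, h, (hsat0 l hl).resolve_right h]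
      have hsh := shaped_of_isConf hR.width_nonneg hc
      have hsh0 := shaped_of_isConf hR.width_nonneg hc0
      have hclose := prefix_close hR hT hR.err_nonneg hC hsh hsh0 hf hf0 b hbw hbw0 (fun d hd =>
        hstab d hd _ _ _ _ (isConf_drop hc i) (isConf_drop hc0 i)
          (isGood_drop hsh hR.eta1_nonneg hf.1 i) (isGood_drop hsh0 hR.eta1_nonneg hf0.1 i) hkw.1)
      refine mem_boxLists.2 ⟨by rw [List.length_take]; omega, fun l hl => ?_⟩
      have hll : l < (rep w).1.length := by omega
      rw [List.getD_eq_getElem _ _ (by rw [List.length_take]; omega), List.getElem_take]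
      refine Finset.mem_biUnion.2 ⟨cell x (rep w).1[l], Finset.mem_filter.2 ⟨?_, ?_⟩,
        mem_cellPrimes hc (List.getElem_mem hll)⟩
      · exact Finset.mem_range.2 (Nat.lt_succ_of_le (cell_le_numCells x _))
      · have e := hclose (l + 1) (by omega)
        rw [yv_succ x (rep w).1, List.drop_eq_getElem_cons hll] at e
        exact e
    have hinj : Set.InjOn (fun w => (rep w).1.take i) (W.filter (fun w => key w = key w0)) := by
      intro a ha b hb e
      obtain ⟨haW, hka⟩ := Finset.mem_filter.1 ha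
      obtain ⟨hbW, hkb⟩ := Finset.mem_filter.1 hb
      simp only [hkey, Prod.mk.injEq, htv] at hka hkb
      simp only at e
      rw [← (hW a haW).2.2.1, ← (hW b hbW).2.2.1, value_split _ _ i, value_split (rep b).1 _ i, e,
        hka.1, hkb.1]
    calc ∑ w ∈ W.filter (fun w => key w = key w0), (1 : ℝ) / (w : ℕ)
        = (∑ w ∈ W.filter (fun w => key w = key w0), wt ((rep w).1.take i))
            * ((1 : ℝ) / (tv w0 : ℕ)) := by
          rw [Finset.sum_mul]
          refine Finset.sum_congr rfl fun w hw => ?_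
          obtain ⟨hwW, hkw⟩ := Finset.mem_filter.1 hw
          simp only [hkey, Prod.mk.injEq] at hkw
          rw [← hkw.1, htv, ← inv_value_split, (hW w hwW).2.2.1]
      _ ≤ (∑ ps ∈ boxLists i A, wt ps) * ((1 : ℝ) / (tv w0 : ℕ)) := by
          refine mul_le_mul_of_nonneg_right ?_ (by positivity)
          rw [← Finset.sum_image hinj]
          refine Finset.sum_le_sum_of_subset_of_nonneg (fun p hp => ?_) fun p _ _ => wt_nonneg p
          obtain ⟨w, hw, rfl⟩ := Finset.mem_image.1 hp
          exact hin w hw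
      _ ≤ B * ((1 : ℝ) / (tv w0 : ℕ)) := by
          refine mul_le_mul_of_nonneg_right ?_ (by positivity)
          rw [sum_wt_boxLists, hB]
          calc ∏ l ∈ Finset.range i, primeMass (A l) ≤ ∏ _l ∈ Finset.range i, (2 * R + 1) * D :=
                Finset.prod_le_prod (fun l _ => primeMass_nonneg _)
                  fun l _ => primeMass_near_le hR0 hD hcell
            _ = _ := by rw [Finset.prod_const, Finset.card_range]
  calc mass W = ∑ k ∈ W.image key, ∑ w ∈ W.filter (fun w => key w = k), (1 : ℝ) / (w : ℕ) :=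
        (Finset.sum_fiberwise_of_maps_to (fun w hw => Finset.mem_image_of_mem key hw) _).symm
    _ ≤ ∑ k ∈ W.image key, B * ((1 : ℝ) / (k.1 : ℕ)) := Finset.sum_le_sum hfib
    _ ≤ ∑ k ∈ (W.image tv) ×ˢ (Finset.univ : Finset (Fin i → Bool)), B * ((1 : ℝ) / (k.1 : ℕ)) := by
        refine Finset.sum_le_sum_of_subset_of_nonneg (fun k hk => ?_) fun k _ _ => by positivity
        obtain ⟨w, hw, rfl⟩ := Finset.mem_image.1 hk
        exact Finset.mem_product.2 ⟨Finset.mem_image_of_mem tv hw, Finset.mem_univ _⟩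
    _ = 2 ^ i * B * mass (W.image tv) := by
        rw [Finset.sum_product, mass, Finset.mul_sum]
        refine Finset.sum_congr rfl fun m _ => ?_
        simp only
        rw [Finset.sum_const, Finset.card_univ, Fintype.card_fun, Fintype.card_bool, Fintype.card_fin,
          nsmul_eq_mul]
        push_cast
        ring

/-- Stripping the first `P` primes of the tails. -/
theorem strip_mass {x : ℝ} {D : ℝ}
    (hcell : ∀ j ≤ numCells x, primeMass (cellPrimes x j) ≤ D) (P : ℕ)
    (M : Finset ℕ) (rep : ℕ → List ℕ × ℕ)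
    (hM : ∀ m ∈ M, IsConf x (rep m).1 (rep m).2 ∧ confValue (rep m).1 (rep m).2 = m) :
    mass M ≤ (1 + ((numCells x : ℝ) + 1) * D) ^ P
      * mass (M.image (fun m => confValue ((rep m).1.drop P) (rep m).2)) := by
  classical
  set A : Finset ℕ := (Finset.range (numCells x + 1)).biUnion (cellPrimes x) with hA
  have hmassA : primeMass A ≤ ((numCells x : ℝ) + 1) * D := by
    rw [hA, primeMass, Finset.sum_biUnion fun j _ k _ h => cellPrimes_disjoint x h]
    refine (Finset.sum_le_card_nsmul _ _ D fun j hj => ?_).trans ?_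
    · exact hcell j (Nat.lt_succ_iff.1 (Finset.mem_range.1 hj))
    · simp
  set tv : ℕ → ℕ := fun m => confValue ((rep m).1.drop P) (rep m).2 with htv
  have hfib : ∀ v ∈ M.image tv, ∑ m ∈ M.filter (fun m => tv m = v), (1 : ℝ) / (m : ℕ)
      ≤ (1 + ((numCells x : ℝ) + 1) * D) ^ P * ((1 : ℝ) / (v : ℕ)) := by
    intro v _
    have hinj : Set.InjOn (fun m => (rep m).1.take P) (M.filter (fun m => tv m = v)) := by
      intro a ha b hb e
      obtain ⟨haM, hka⟩ := Finset.mem_filter.1 ha
      obtain ⟨hbM, hkb⟩ := Finset.mem_filter.1 hb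
      simp only [htv] at hka hkb
      simp only at e
      rw [← (hM a haM).2, ← (hM b hbM).2, value_split _ _ P, value_split (rep b).1 _ P, e, hka, hkb]
    calc ∑ m ∈ M.filter (fun m => tv m = v), (1 : ℝ) / (m : ℕ)
        = (∑ m ∈ M.filter (fun m => tv m = v), wt ((rep m).1.take P)) * ((1 : ℝ) / (v : ℕ)) := by
          rw [Finset.sum_mul]
          refine Finset.sum_congr rfl fun m hm => ?_
          obtain ⟨hmM, hkm⟩ := Finset.mem_filter.1 hm
          rw [← hkm, htv, ← inv_value_split, (hM m hmM).2]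
      _ ≤ _ := by
          refine mul_le_mul_of_nonneg_right ?_ (by positivity)
          rw [← Finset.sum_image hinj]
          refine (sum_wt_short P A _ fun ps hps => ?_).trans
            (pow_le_pow_left₀ (by linarith [primeMass_nonneg A]) (by linarith) P)
          obtain ⟨m, hm, rfl⟩ := Finset.mem_image.1 hps
          refine ⟨by rw [List.length_take]; omega, fun q hq => ?_⟩
          have hq' := List.mem_of_mem_take hq
          have hc := (hM m (Finset.mem_filter.1 hm).1).1
          exact Finset.mem_biUnion.2 ⟨cell x q,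
            Finset.mem_range.2 (Nat.lt_succ_of_le (cell_le_numCells x q)), mem_cellPrimes hc hq'⟩
  calc mass M = ∑ v ∈ M.image tv, ∑ m ∈ M.filter (fun m => tv m = v), (1 : ℝ) / (m : ℕ) :=
        (Finset.sum_fiberwise_of_maps_to (fun m hm => Finset.mem_image_of_mem tv hm) _).symm
    _ ≤ _ := by
        rw [mass, Finset.mul_sum]
        exact Finset.sum_le_sum hfib

end Vale.Agent.P031.Band
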