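import Vale.Agent.P031.Entropy

/-!
# P031, band theorem: the linear algebra of saturated levels

Pure inequalities on real sequences: closeness of two solutions of the same saturation equations,
and the two target constructions.
-/

namespace Vale.Agent.P031.Band

open Finset

/-- The slack at level `l` in the linear form, with prefix length `i` and tail functions `φ`. -/
noncomputable def sL (i : ℕ) (y φ : ℕ → ℝ) (l : ℕ) : ℝ :=
  y l - (∑ t ∈ Finset.range (i - l), inc t * y (l + 1 + t)) - φ (i - l)

/-- The gap at level `l`, with `z` the first height of the tail. -/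
noncomputable def gL (i : ℕ) (y : ℕ → ℝ) (z : ℝ) (l : ℕ) : ℝ :=
  y l - if l < i then y (l + 1) else z

/-- The linear part of a saturation equation. -/
noncomputable def row (i : ℕ) (g : Bool) (d : ℕ → ℝ) (l : ℕ) : ℝ :=
  if g then d l - d (l + 1) else d l - ∑ t ∈ Finset.range (i - l), inc t * d (l + 1 + t)

theorem inc_zero_le_one : inc 0 ≤ 1 := by
  have h := inc_le_log 0
  simp only [Nat.cast_zero, zero_add] at h
  linarith [Real.log_two_lt_d9]

theorem inc_one_le : inc 1 ≤ 2 := by
  have h := inc_le_log 1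
  have h2 := Real.log_le_sub_one_of_pos (show (0 : ℝ) < ((1 : ℕ) : ℝ) + 2 by positivity)
  push_cast at h h2
  linarith

theorem inc_le_two_pow (t : ℕ) : inc t ≤ (2 : ℝ) ^ t := by
  have h := inc_le_log t
  have h2 := Real.log_le_sub_one_of_pos (show (0 : ℝ) < (t : ℝ) + 2 by positivity)
  have h3 : t + 1 ≤ 2 ^ t := Nat.lt_two_pow_self
  have h4 : (t : ℝ) + 1 ≤ (2 : ℝ) ^ t := by exact_mod_cast h3
  linarith

theorem row_neg (i : ℕ) (g : Bool) (d : ℕ → ℝ) (l : ℕ) :
    row i g (fun l => -d l) l = -row i g d l := by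
  cases g <;> simp [row, Finset.sum_neg_distrib] <;> ring

/-- One-sided bound on the last coordinate. -/
theorem row_last_le {i : ℕ} (hi : 1 ≤ i) {b : ℕ → Bool} {d : ℕ → ℝ} {T : ℝ}
    (d0 : d 0 = 0) (h : ∀ l < i, |row i (b l) d l| ≤ T) :
    d i ≤ (i : ℝ) * T / inc 0 ^ i := by
  have ha := inc_pos 0
  have ha1 := inc_zero_le_one
  have hT : 0 ≤ T := (abs_nonneg _).trans (h 0 (by omega))
  by_contra hlt
  rw [not_le, div_lt_iff₀ (pow_pos ha i)] at hlt
  have key : ∀ k, k ≤ i → ∀ m, i - k ≤ m → m ≤ i → inc 0 ^ (i - m) * d i - ((i - m : ℕ) : ℝ) * T ≤ d m := by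
    intro k
    induction k with
    | zero =>
      intro _ m h1 h2
      have : m = i := by omega
      subst this
      simp
    | succ k ih =>
      intro hk m h1 h2
      by_cases hm : i - k ≤ m
      · exact ih (by omega) m hm h2
      have hml : m < i := by omega
      have hrest : ∀ m', m < m' → m' ≤ i →
          inc 0 ^ (i - m') * d i - ((i - m' : ℕ) : ℝ) * T ≤ d m' :=
        fun m' a c => ih (by omega) m' (by omega) c
      have hdi : 0 ≤ d i := by
        have h1 : 0 ≤ (i : ℝ) * T := by positivity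
        nlinarith [pow_pos ha i]
      have hpos : ∀ m', m < m' → m' ≤ i → 0 ≤ d m' := by
        intro m' a c
        have e1 := hrest m' a c
        have e2 : inc 0 ^ i ≤ inc 0 ^ (i - m') := pow_le_pow_of_le_one ha.le ha1 (by omega)
        have e3 : ((i - m' : ℕ) : ℝ) ≤ (i : ℝ) := by exact_mod_cast Nat.sub_le i m'
        nlinarith
      have hr := (abs_le.1 (h m hml)).1
      have hnext := hrest (m + 1) (by omega) (by omega)
      have hp := hpos (m + 1) (by omega) (by omega)
      have hge : inc 0 * d (m + 1) - T ≤ d m := by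
        unfold row at hr
        split at hr
        · nlinarith
        · have hfirst : inc 0 * d (m + 1)
              ≤ ∑ t ∈ Finset.range (i - m), inc t * d (m + 1 + t) := by
            refine le_trans (le_of_eq ?_) (Finset.single_le_sum
              (f := fun t => inc t * d (m + 1 + t)) (fun t ht => ?_)
              (Finset.mem_range.2 (show 0 < i - m by omega)))
            · simp
            · have := Finset.mem_range.1 ht
              exact mul_nonneg (inc_pos t).le (hpos _ (by omega) (by omega))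
          linarith
      have e : i - m = (i - (m + 1)) + 1 := by omega
      rw [e, pow_succ, Nat.cast_succ]
      have h4 := mul_le_mul_of_nonneg_left hnext ha.le
      nlinarith [mul_le_mul_of_nonneg_right ha1
        (mul_nonneg (Nat.cast_nonneg (i - (m + 1))) hT)]
  have h0 := key i le_rfl 0 (by omega) (by omega)
  rw [d0] at h0
  simp only [Nat.sub_zero] at h0
  linarith

/-- Two solutions of the same saturation equations are close. -/
theorem row_close (i : ℕ) :
    ∃ C : ℝ, 0 ≤ C ∧ ∀ (b : ℕ → Bool) (d : ℕ → ℝ) (T : ℝ), 0 ≤ T → d 0 = 0 →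
      (∀ l < i, |row i (b l) d l| ≤ T) → ∀ l ≤ i, |d l| ≤ C * T := by
  rcases Nat.eq_zero_or_pos i with hi | hi
  · refine ⟨0, le_rfl, fun b d T _ d0 _ l hl => ?_⟩
    have : l = 0 := by omega
    subst this
    simp [d0]
  set A : ℝ := 2 + (i : ℝ) * inc i with hA
  have hA1 : 1 ≤ A := by
    have : 0 ≤ (i : ℝ) * inc i := mul_nonneg (Nat.cast_nonneg _) (inc_pos i).le
    linarith
  set C0 : ℝ := (i : ℝ) / inc 0 ^ i + 1 with hC0
  have hC0p : 1 ≤ C0 := by
    have : 0 ≤ (i : ℝ) / inc 0 ^ i := div_nonneg (Nat.cast_nonneg _) (pow_nonneg (inc_pos 0).le i)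
    linarith
  refine ⟨A ^ i * C0, by positivity, fun b d T hT d0 h => ?_⟩
  have hlast : |d i| ≤ C0 * T := by
    have h1 := row_last_le hi d0 h
    have h2 := row_last_le (d := fun l => -d l) (T := T) (b := b) hi (by simp [d0])
      (fun l hl => by rw [row_neg, abs_neg]; exact h l hl)
    have e : (i : ℝ) * T / inc 0 ^ i = (i : ℝ) / inc 0 ^ i * T := by ring
    rw [e] at h1 h2
    rw [abs_le]
    constructor <;> nlinarith
  have key : ∀ k, k ≤ i → ∀ m, i - k ≤ m → m ≤ i → |d m| ≤ A ^ k * C0 * T := by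
    intro k
    induction k with
    | zero =>
      intro _ m h1 h2
      have : m = i := by omega
      subst this
      simpa using hlast
    | succ k ih =>
      intro hk m h1 h2
      set B := A ^ k * C0 * T with hB
      have hBT : T ≤ B := by
        have : 1 ≤ A ^ k * C0 := one_le_mul_of_one_le_of_one_le (one_le_pow₀ hA1) hC0p
        nlinarith
      have hstep : A ^ (k + 1) * C0 * T = A * B := by rw [hB]; ring
      rw [hstep]
      by_cases hm : i - k ≤ m
      · have := ih (by omega) m hm h2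
        nlinarith
      have hml : m < i := by omega
      have hr := abs_le.1 (h m hml)
      have hn : ∀ m', m < m' → m' ≤ i → |d m'| ≤ B := fun m' a c => ih (by omega) m' (by omega) c
      unfold row at hr
      have hlin : 0 ≤ (i : ℝ) * inc i * B :=
        mul_nonneg (mul_nonneg (Nat.cast_nonneg _) (inc_pos i).le) (hT.trans hBT)
      rw [hA]
      split at hr
      · have := abs_le.1 (hn (m + 1) (by omega) (by omega))
        rw [abs_le]
        constructor <;> nlinarith
      · have hs : |∑ t ∈ Finset.range (i - m), inc t * d (m + 1 + t)| ≤ (i : ℝ) * inc i * B := by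
          refine (Finset.abs_sum_le_sum_abs _ _).trans ?_
          refine (Finset.sum_le_card_nsmul _ _ (inc i * B) fun t ht => ?_).trans ?_
          · have := Finset.mem_range.1 ht
            rw [abs_mul, abs_of_pos (inc_pos t)]
            exact mul_le_mul (inc_mono (by omega)) (hn _ (by omega) (by omega)) (abs_nonneg _)
              (inc_pos i).le
          · rw [Finset.card_range, nsmul_eq_mul, ← mul_assoc]
            have : ((i - m : ℕ) : ℝ) ≤ (i : ℝ) := by exact_mod_cast Nat.sub_le i m
            exact mul_le_mul_of_nonneg_right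
              (mul_le_mul_of_nonneg_right this (inc_pos i).le) (hT.trans hBT)
        have hs' := abs_le.1 hs
        rw [abs_le]
        constructor <;> nlinarith
  intro l hl
  exact key i le_rfl l (by omega) hl

theorem sum_inc_nonneg (n : ℕ) : 0 ≤ ∑ t ∈ Finset.range n, inc t :=
  Finset.sum_nonneg fun t _ => (inc_pos t).le

/-- The constant of the first target construction. -/
noncomputable def kap (i : ℕ) : ℝ := (inc 0 / 4) ^ i / 4

theorem kap_pos (i : ℕ) : 0 < kap i := by
  have := inc_pos 0
  unfold kap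
  positivity

theorem kap_le (i : ℕ) : kap i ≤ 1 / 4 := by
  have h : (inc 0 / 4) ^ i ≤ 1 :=
    pow_le_one₀ (by linarith [inc_pos 0]) (by linarith [inc_zero_le_one])
  unfold kap
  linarith

/-- Targets below a level with slack and gap `≥ T`: push the prefix down. -/
theorem target_case {i : ℕ} (hi : 1 ≤ i) {y φ φ' : ℕ → ℝ} {z z' T B err e : ℝ}
    (hs : ∀ l ≤ i, -B ≤ sL i y φ l) (hg : ∀ l ≤ i, 0 ≤ gL i y z l)
    (hsT : T ≤ sL i y φ i) (hgT : T ≤ gL i y z i)
    (hφ : ∀ d ≤ i, φ' d ≤ φ d + err) (hz : z' ≤ z + err)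
    (hT : 0 ≤ T) (hB : 0 ≤ B) (herr : 0 ≤ err) (he : 0 ≤ e)
    (hsmall : B + err + e ≤ kap i * T / 2)
    {y' : ℕ → ℝ} (h0 : y' 0 = y 0)
    (hy : ∀ l, 1 ≤ l → l ≤ i →
      y' l ≤ y l - T / 4 * (inc 0 / 4) ^ (i - l) ∧
      y l - T / 4 * (inc 0 / 4) ^ (i - l) - kap i / 2 * T ≤ y' l) :
    ∀ l ≤ i, e ≤ sL i y' φ' l ∧ e ≤ gL i y' z' l := by
  set q : ℝ := inc 0 / 4 with hq
  have hq0 : 0 < q := by linarith [inc_pos 0]
  have hq1 : q ≤ 1 / 4 := by linarith [inc_zero_le_one]
  have hk := kap_pos i
  have hk4 := kap_le i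
  have hqk : ∀ n, n + 1 ≤ i → kap i * T ≤ T / 4 * q ^ n * q := by
    intro n hn
    have h1 : q ^ i ≤ q ^ (n + 1) := pow_le_pow_of_le_one hq0.le (by linarith) hn
    have h2 : kap i = q ^ i / 4 := rfl
    rw [h2, pow_succ] at *
    nlinarith
  have hdel : ∀ n, 0 ≤ T / 4 * q ^ n := fun n => by positivity
  intro l hl
  rcases lt_or_eq_of_le hl with hlt | rfl
  · set δ : ℝ := T / 4 * q ^ (i - (l + 1)) with hδ
    have hge : kap i * T ≤ δ * q := hqk _ (by omega)
    have hdown : y l - δ * q - kap i / 2 * T ≤ y' l := by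
      rcases Nat.eq_zero_or_pos l with h | h
      · subst h
        rw [h0]
        nlinarith [hdel (i - (0 + 1))]
      · have := (hy l h hl).2
        rw [show i - l = i - (l + 1) + 1 by omega, pow_succ] at this
        rw [hδ]
        linarith
    have hnext := (hy (l + 1) (by omega) (by omega)).1
    rw [← hδ] at hnext
    have hs0 := hs l hl
    have hg0 := hg l hl
    constructor
    · have hsum : ∑ t ∈ Finset.range (i - l), inc t * y' (l + 1 + t)
          ≤ (∑ t ∈ Finset.range (i - l), inc t * y (l + 1 + t)) - inc 0 * δ := by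
        have hterm : ∀ t ∈ Finset.range (i - l), inc t * y' (l + 1 + t)
            ≤ inc t * y (l + 1 + t) - inc t * (T / 4 * q ^ (i - (l + 1 + t))) := by
          intro t ht
          have := Finset.mem_range.1 ht
          have h1 := (hy (l + 1 + t) (by omega) (by omega)).1
          have := mul_le_mul_of_nonneg_left h1 (inc_pos t).le
          linarith
        refine (Finset.sum_le_sum hterm).trans ?_
        rw [Finset.sum_sub_distrib]
        have hfirst := Finset.single_le_sum
          (f := fun t => inc t * (T / 4 * q ^ (i - (l + 1 + t))))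
          (fun t _ => mul_nonneg (inc_pos t).le (hdel _))
          (Finset.mem_range.2 (show 0 < i - l by omega))
        simp only [Nat.add_zero] at hfirst
        rw [← hδ] at hfirst
        linarith
      have hφ' := hφ (i - l) (by omega)
      have ha : inc 0 * δ = 4 * (δ * q) := by rw [hq]; ring
      simp only [sL] at hs0 ⊢
      nlinarith
    · have hdq : 4 * (δ * q) ≤ δ := by nlinarith [hdel (i - (l + 1))]
      simp only [gL, if_pos hlt] at hg0 ⊢
      nlinarith
  · have hh := (hy l hi le_rfl).2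
    simp only [Nat.sub_self, pow_zero, mul_one] at hh
    have hφ' := hφ 0 (Nat.zero_le _)
    have hkT : kap l * T ≤ T / 4 := by nlinarith
    simp only [sL, gL, Nat.sub_self, Finset.range_zero, Finset.sum_empty, lt_irrefl, if_false,
      sub_zero] at hsT hgT ⊢
    constructor <;> nlinarith

theorem sum_geom_le (n : ℕ) :
    ∑ t ∈ Finset.range n, inc t * (1 / 8 : ℝ) ^ (t + 1) ≤ 1 / 4 := by
  have h1 : ∀ t ∈ Finset.range n, inc t * (1 / 8 : ℝ) ^ (t + 1) ≤ (1 / 8) * (1 / 4 : ℝ) ^ t := by
    intro t _
    have h := mul_le_mul_of_nonneg_right (inc_le_two_pow t)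
      (show (0 : ℝ) ≤ (1 / 8) ^ (t + 1) by positivity)
    refine h.trans (le_of_eq ?_)
    rw [pow_succ, show (1 / 4 : ℝ) = 2 * (1 / 8) by norm_num, mul_pow]
    ring
  refine (Finset.sum_le_sum h1).trans ?_
  rw [← Finset.mul_sum, geom_sum_eq (by norm_num)]
  have : (0 : ℝ) ≤ (1 / 4 : ℝ) ^ n := by positivity
  rw [mul_div_assoc', div_le_iff_of_neg (by norm_num)]
  linarith

/-- Targets for a pinned prefix: halve it and add a geometric profile. -/
theorem target_pinned {K : ℕ} (hK : 1 ≤ K) {y φ φ' : ℕ → ℝ} {z z' B e E W : ℝ}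
    (hs : ∀ l ≤ K, -B ≤ sL K y φ l) (hg : ∀ l ≤ K, 0 ≤ gL K y z l)
    (hy1 : y 1 ≤ y 0) (hE : E = y 0 / 2)
    (hφ : ∀ d ≤ K, φ' d ≤ φ d / 2) (hz : z' ≤ y K / 2)
    (hW : W = E * (1 / 8) ^ K / (4 * ((∑ t ∈ Finset.range K, inc t) + 1)))
    (hE0 : 0 ≤ E) (hB : 0 ≤ B) (he : 0 ≤ e)
    (hsmall : B + e ≤ E * (1 / 8) ^ K / 4)
    {y' : ℕ → ℝ} (h0 : y' 0 = y 0)
    (hy : ∀ l, 1 ≤ l → l ≤ K →
      y l / 2 + E * (1 / 8) ^ l ≤ y' l ∧ y' l ≤ y l / 2 + E * (1 / 8) ^ l + W) :
    ∀ l ≤ K, e ≤ sL K y' φ' l ∧ e ≤ gL K y' z' l := by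
  set S : ℝ := ∑ t ∈ Finset.range K, inc t with hS
  have hS0 : 0 ≤ S := sum_inc_nonneg K
  have hP : ∀ n, n ≤ K → E * (1 / 8 : ℝ) ^ K ≤ E * (1 / 8 : ℝ) ^ n := fun n hn =>
    mul_le_mul_of_nonneg_left (pow_le_pow_of_le_one (by norm_num) (by norm_num) hn) hE0
  have hK0 : 0 ≤ E * (1 / 8 : ℝ) ^ K := by positivity
  have hW4 : W * (4 * (S + 1)) = E * (1 / 8) ^ K := by
    rw [hW, div_mul_cancel₀]
    positivity
  have hW0 : 0 ≤ W := by rw [hW]; positivity
  have hWS : W * S + W ≤ E * (1 / 8) ^ K / 4 := by nlinarith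
  have hWS0 : 0 ≤ W * S := mul_nonneg hW0 hS0
  intro l hl
  have hlow : y l / 2 + E * (1 / 8) ^ l ≤ y' l + (if l = 0 then E * (1 / 8) ^ l - y l / 2 else 0) := by
    split
    · subst_vars
      rw [h0]
      ring_nf
      exact le_rfl
    · rw [add_zero]
      exact (hy l (by omega) hl).1
  have hsum : ∑ t ∈ Finset.range (K - l), inc t * y' (l + 1 + t)
      ≤ (∑ t ∈ Finset.range (K - l), inc t * y (l + 1 + t)) / 2
        + E * (1 / 8) ^ l * (1 / 4) + W * S := by
    have hterm : ∀ t ∈ Finset.range (K - l), inc t * y' (l + 1 + t)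
        ≤ (inc t * y (l + 1 + t)) / 2 + E * (1 / 8) ^ l * (inc t * (1 / 8) ^ (t + 1))
          + W * inc t := by
      intro t ht
      have := Finset.mem_range.1 ht
      have h1 := mul_le_mul_of_nonneg_left (hy (l + 1 + t) (by omega) (by omega)).2 (inc_pos t).le
      have e1 : (1 / 8 : ℝ) ^ (l + 1 + t) = (1 / 8) ^ l * (1 / 8) ^ (t + 1) := by
        rw [← pow_add]
        congr 1
        omega
      rw [e1] at h1
      linarith
    refine (Finset.sum_le_sum hterm).trans ?_
    rw [Finset.sum_add_distrib, Finset.sum_add_distrib, ← Finset.sum_div, ← Finset.mul_sum,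
      ← Finset.mul_sum]
    have h1 := mul_le_mul_of_nonneg_left (sum_geom_le (K - l))
      (show (0 : ℝ) ≤ E * (1 / 8) ^ l by positivity)
    have h2 : ∑ t ∈ Finset.range (K - l), inc t ≤ S :=
      Finset.sum_le_sum_of_subset_of_nonneg (fun a ha => by
        simp only [Finset.mem_range] at ha ⊢
        omega)
        (fun t _ _ => (inc_pos t).le)
    have h3 := mul_le_mul_of_nonneg_left h2 hW0
    linarith
  have hs0 := hs l hl
  have hφl := hφ (K - l) (by omega)
  have hPl := hP l hl
  constructor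
  · simp only [sL] at hs0 ⊢
    split at hlow
    · subst_vars
      simp only [pow_zero, mul_one] at *
      linarith
    · linarith
  · rcases lt_or_eq_of_le hl with hlt | rfl
    · have hnext := (hy (l + 1) (by omega) (by omega)).2
      rw [pow_succ] at hnext
      have hg0 := hg l hl
      simp only [gL, if_pos hlt] at hg0 ⊢
      split at hlow
      · subst_vars
        simp only [pow_zero, mul_one] at *
        linarith
      · linarith
    · have := (hy l hK le_rfl).1
      simp only [gL, lt_irrefl, if_false]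
      linarith

end Vale.Agent.P031.Band
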