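import Vale.Agent.P031.BandTargets

/-!
# P031, band theorem: the parameters for large `x`
-/

namespace Vale.Agent.P031.Band

open Finset Filter Asymptotics Vale.Agent.P031

theorem tendsto_L : Tendsto llx atTop atTop :=
  Real.tendsto_log_atTop.comp Real.tendsto_log_atTop

theorem eventually_L_ge (c : ℝ) {a : ℝ} (ha : 0 < a) : ∀ᶠ x : ℝ in atTop, c ≤ llx x ^ a :=
  ((tendsto_rpow_atTop ha).comp tendsto_L).eventually_ge_atTop c

theorem eventually_rpow_le (c : ℝ) {a b : ℝ} (hab : a < b) :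
    ∀ᶠ x : ℝ in atTop, c * llx x ^ a ≤ llx x ^ b := by
  filter_upwards [eventually_L_ge c (sub_pos.2 hab), tendsto_L.eventually_ge_atTop 1] with x h1 h2
  have e : llx x ^ b = llx x ^ (b - a) * llx x ^ a := by
    rw [← Real.rpow_add (by linarith)]
    norm_num
  rw [e]
  exact mul_le_mul_of_nonneg_right h1 (Real.rpow_nonneg (by linarith) _)

theorem eventually_log_pow_le (n : ℕ) {a : ℝ} (ha : 0 < a) :
    ∀ᶠ x : ℝ in atTop, Real.log (llx x) ^ n ≤ llx x ^ a := by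
  have h := (isLittleO_log_rpow_rpow_atTop (n : ℝ) ha).bound zero_lt_one
  filter_upwards [tendsto_L.eventually h, tendsto_L.eventually_ge_atTop 1] with x hx h1
  rw [Real.norm_eq_abs, Real.norm_eq_abs, one_mul,
    abs_of_nonneg (Real.rpow_nonneg (zero_le_one.trans h1) a), Real.rpow_natCast] at hx
  exact (le_abs_self _).trans hx

theorem eventually_log_ge (c : ℝ) : ∀ᶠ x : ℝ in atTop, c ≤ Real.log (llx x) :=
  (Real.tendsto_log_atTop.comp tendsto_L).eventually_ge_atTop c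

/-- The shape of the parameters for large `x`. -/
structure Large (x : ℝ) : Prop where
  regime : Regime x
  L_ge : 1 ≤ llx x
  eta_ge : 1 ≤ eta x
  small : eta1 x + errBd x ≤ eta x
  half_small : 2 * (halfCell x : ℝ) ≤ numCells x
  width_ge : llx x ^ (4 / 5 : ℝ) ≤ 2 * width x
  numCells_le : (numCells x : ℝ) ≤ 2 * llx x ^ (1 / 5 : ℝ)
  numCells_ge : llx x ^ (1 / 5 : ℝ) ≤ numCells x
  width_mul : (numCells x : ℝ) * width x = llx x

theorem eventually_large : ∀ᶠ x : ℝ in atTop, Large x := by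
  filter_upwards [tendsto_L.eventually_ge_atTop 1,
    eventually_rpow_le 8 (show (7 / 50 : ℝ) < 1 / 5 by norm_num),
    eventually_rpow_le 2 (show (7 / 50 : ℝ) < 9 / 50 by norm_num),
    eventually_rpow_le 2 (show (17 / 100 : ℝ) < 9 / 50 by norm_num),
    eventually_rpow_le 2 (show (-(1 / 25) : ℝ) < -(1 / 50) by norm_num)] with x hL h1 h2 h3 h4
  set L := llx x with hLdef
  have hL0 : 0 < L := by linarith
  have hpow : ∀ a : ℝ, 0 ≤ a → 1 ≤ L ^ a := fun a ha => Real.one_le_rpow hL ha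
  have hJ1 : L ^ (1 / 5 : ℝ) ≤ numCells x := Nat.le_ceil _
  have hJ2 : (numCells x : ℝ) ≤ 2 * L ^ (1 / 5 : ℝ) := by
    have := Nat.ceil_lt_add_one (Real.rpow_nonneg hL0.le (1 / 5 : ℝ))
    have := hpow (1 / 5) (by norm_num)
    show (⌈L ^ (1 / 5 : ℝ)⌉₊ : ℝ) ≤ _
    linarith
  have hJpos : (0 : ℝ) < numCells x := lt_of_lt_of_le (Real.rpow_pos_of_pos hL0 _) hJ1
  have hneg : ∀ a : ℝ, 0 ≤ L ^ a := fun a => Real.rpow_nonneg hL0.le a
  have hmul : (numCells x : ℝ) * width x = L := by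
    unfold width
    rw [mul_div_cancel₀ _ hJpos.ne']
  have h45 : L = L ^ (1 / 5 : ℝ) * L ^ (4 / 5 : ℝ) := by
    rw [← Real.rpow_add hL0]
    norm_num
  have hW : L ^ (4 / 5 : ℝ) ≤ 2 * width x := by
    have hp : 0 < L ^ (1 / 5 : ℝ) := Real.rpow_pos_of_pos hL0 _
    have hw : 0 ≤ width x := div_nonneg hL0.le hJpos.le
    nlinarith
  have h750 : L ^ (1 / 5 : ℝ) * L ^ (-(3 / 50) : ℝ) = L ^ (7 / 50 : ℝ) := by
    rw [← Real.rpow_add hL0]
    norm_num
  have hcut : (cutCell x : ℝ) ≤ 3 * L ^ (7 / 50 : ℝ) := by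
    have h5 : (numCells x : ℝ) * L ^ (-(3 / 50) : ℝ) ≤ 2 * L ^ (7 / 50 : ℝ) := by
      rw [← h750, ← mul_assoc]
      exact mul_le_mul_of_nonneg_right hJ2 (hneg _)
    have h6 := Nat.ceil_lt_add_one
      (show (0 : ℝ) ≤ (numCells x : ℝ) * L ^ (-(3 / 50) : ℝ) from mul_nonneg hJpos.le (hneg _))
    have := hpow (7 / 50) (by norm_num)
    show (⌈(numCells x : ℝ) * L ^ (-(3 / 50) : ℝ)⌉₊ : ℝ) ≤ _
    linarith
  have heta : L ^ (9 / 50 : ℝ) ≤ eta x := by
    have e : L ^ (1 / 5 : ℝ) * L ^ (-(1 / 50) : ℝ) = L ^ (9 / 50 : ℝ) := by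
      rw [← Real.rpow_add hL0]
      norm_num
    rw [← e]
    exact mul_le_mul_of_nonneg_right hJ1 (hneg _)
  have heta1 : 2 * eta1 x ≤ eta x := by
    have := mul_le_mul_of_nonneg_left h4 hJpos.le
    unfold eta1 eta
    linarith
  have hhalf : (halfCell x : ℝ) ≤ cutCell x := by exact_mod_cast halfCell_le_cutCell x
  have h9 := hpow (9 / 50) (by norm_num)
  refine ⟨⟨div_nonneg hL0.le hJpos.le, ?_, mul_nonneg hJpos.le (hneg _), by linarith, ?_,
    hneg _⟩, hL, by linarith, ?_, ?_, hW, hJ2, hJ1, hmul⟩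
  · exact_mod_cast (show (halfCell x : ℝ) ≤ numCells x by linarith [hneg (7 / 50 : ℝ)])
  · linarith
  · unfold errBd
    rw [← hLdef]
    linarith
  · linarith [hneg (7 / 50 : ℝ)]

end Vale.Agent.P031.Band
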