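import Vale.Agent.P031.BandCount
import Vale.Agent.P031.BandParam

/-!
# P031, band theorem: saturation and decay
-/

namespace Vale.Agent.P031.Band

open Finset Vale.Agent.P031

/-- The window at level `l`. -/
noncomputable def thr (x : ℝ) (l : ℕ) : ℝ :=
  if l = 0 then 2 * eta x else Real.log (llx x) ^ (l + 1) * eta x

/-- Level `l` is saturated. -/
def Sat (x : ℝ) (qs : List ℕ) (l : ℕ) : Prop := sv x qs l < thr x l ∨ gv x qs l < thr x l

theorem thr_le {x : ℝ} (hM : 2 ≤ Real.log (llx x)) (he : 0 ≤ eta x) {l n : ℕ} (h : l < n) :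
    thr x l ≤ Real.log (llx x) ^ n * eta x := by
  unfold thr
  refine le_trans ?_ (mul_le_mul_of_nonneg_right
    (pow_le_pow_right₀ (by linarith) (show l + 1 ≤ n by omega)) he)
  split
  · subst_vars
    rw [zero_add, pow_one]
    exact mul_le_mul_of_nonneg_right hM he
  · exact le_rfl

theorem thr_pos {x : ℝ} (hM : 2 ≤ Real.log (llx x)) (he : 0 < eta x) {l : ℕ} :
    0 < thr x l := by
  unfold thr
  split
  · linarith
  · exact mul_pos (pow_pos (by linarith) _) he

theorem le_length_of_unsat {x : ℝ} {qs : List ℕ} {i : ℕ} (hi : 1 ≤ i) {T : ℝ} (hT : 0 < T)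
    (hg : T ≤ gv x qs i) : i ≤ qs.length := by
  by_contra h
  obtain ⟨n, rfl⟩ : ∃ n, i = n + 1 := ⟨i - 1, by omega⟩
  rw [gv, yv_succ, yv_succ, List.drop_eq_nil_of_le (by omega), List.drop_eq_nil_of_le (by omega)] at hg
  simp [zv] at hg
  linarith

theorem sat_step {x : ℝ} (hR : Regime x) {qs : List ℕ} (hsh : Shaped x qs) (hf : IsFull x qs)
    {l : ℕ} (hl : Sat x qs l) :
    yv x qs l - thr x l - 8 * eta1 x ≤ 8 * yv x qs (l + 1) := by
  have he := hR.eta1_nonneg
  have hy := yv_nonneg hsh hR.half_le (l + 1)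
  rcases hl with h | h
  · have h1 := tailPhi_step (shaped_drop hsh l) 0
    rw [drop_tail] at h1
    have h2 := tailPhi_le_shift x 1 (qs.drop (l + 1))
    have h3 := isFull_sv hsh he hR.half_le hf (l + 1)
    have ha : (0.38 : ℝ) ≤ inc 0 := inc_zero_ge
    have ha1 := inc_zero_le_one
    have hr : inc 1 / inc 0 + 1 ≤ 7 := by
      rw [← le_sub_iff_add_le, div_le_iff₀ (inc_pos 0)]
      linarith [inc_one_le]
    have hphi : tailPhi x 0 (qs.drop (l + 1)) ≤ yv x qs (l + 1) + eta1 x := by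
      simp only [sv] at h3
      linarith
    have h4 : tailPhi x 1 (qs.drop (l + 1)) ≤ 7 * (yv x qs (l + 1) + eta1 x) :=
      h2.trans (mul_le_mul hr hphi (tailPhi_nonneg x 0 _) (by norm_num))
    have h5 : inc 0 * zv x (qs.drop l) ≤ zv x (qs.drop l) :=
      mul_le_of_le_one_left (zv_nonneg (shaped_drop hsh l)) ha1
    rw [yv_succ] at hy hphi h4 ⊢
    simp only [sv, zero_add] at h h1
    linarith
  · simp only [gv] at h
    linarith

theorem saturated_height {x : ℝ} (hR : Regime x) {qs : List ℕ} (hsh : Shaped x qs)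
    (hf : IsFull x qs) {K : ℕ} {T : ℝ} (hsat : ∀ l ≤ K, Sat x qs l) (hT0 : ∀ l, 0 ≤ thr x l)
    (hT : ∀ l ≤ K, thr x l ≤ T) {Y : ℝ} (hY : Y ≤ (numCells x : ℝ) - halfCell x)
    (hsmall : 5 * (T + 8 * eta1 x) ≤ Y / 10 ^ K) :
    ∀ l ≤ K + 1, Y / 10 ^ l ≤ yv x qs l := by
  intro l hl
  induction l with
  | zero => simpa [yv] using hY
  | succ n ih =>
    have h1 := ih (by omega)
    have h2 := sat_step hR hsh hf (hsat n (by omega))
    have h3 : Y / 10 ^ K ≤ Y / 10 ^ n := by
      have hYp : 0 ≤ Y := by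
        have h4 : 0 ≤ Y / 10 ^ K := by
          linarith [hT0 0, hT 0 (Nat.zero_le _), hR.eta1_nonneg]
        have hp : (0 : ℝ) < 10 ^ K := by positivity
        rw [le_div_iff₀ hp] at h4
        linarith
      exact div_le_div_of_nonneg_left hYp (by positivity) (pow_le_pow_right₀ (by norm_num) (by omega))
    have h4 : Y / 10 ^ (n + 1) = Y / 10 ^ n / 10 := by rw [pow_succ, div_div]
    have h5 := hT n (by omega)
    rw [h4]
    linarith

theorem decay {x : ℝ} (hR : Regime x) {qs : List ℕ} (hsh : Shaped x qs) (hf : IsFull x qs) (l : ℕ) :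
    (5 / 2 : ℝ) * yv x qs (l + 3) ≤ yv x qs l + eta1 x := by
  have h := isFull_sv hsh hR.eta1_nonneg hR.half_le hf l
  simp only [sv] at h
  rw [tailPhi_expand hsh 0 l 3] at h
  simp only [zero_add, Finset.sum_range_succ, Finset.sum_range_zero] at h
  have h0 := tailPhi_nonneg x 3 (qs.drop (l + 3))
  have ha := yv_antitone hsh hR.half_le (show l + 1 + 0 ≤ l + 3 by omega)
  have hb := yv_antitone hsh hR.half_le (show l + 1 + 1 ≤ l + 3 by omega)
  have hc : l + 1 + 2 = l + 3 := by omega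
  rw [hc] at h
  nlinarith [inc_three, mul_le_mul_of_nonneg_left ha (inc_pos 0).le,
    mul_le_mul_of_nonneg_left hb (inc_pos 1).le, yv_nonneg hsh hR.half_le (l + 3)]

theorem decay_pow {x : ℝ} (hR : Regime x) {qs : List ℕ} (hsh : Shaped x qs) (hf : IsFull x qs)
    (l t : ℕ) : yv x qs (l + 3 * t) ≤ (2 / 5 : ℝ) ^ t * yv x qs l + eta1 x := by
  induction t with
  | zero => simp [hR.eta1_nonneg]
  | succ t ih =>
    have h := decay hR hsh hf (l + 3 * t)
    rw [show l + 3 * t + 3 = l + 3 * (t + 1) by ring] at h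
    rw [pow_succ]
    linarith [hR.eta1_nonneg]

/-- After stripping 19 levels the tail functions are at most half of what they were. -/
theorem strip_contract {x : ℝ} (hR : Regime x) {qs : List ℕ} (hsh : Shaped x qs) (hf : IsFull x qs)
    {K : ℕ} (hbig : 60 * eta1 x ≤ yv x qs (K + 1)) :
    (∀ d, tailPhi x d (qs.drop (K + 19)) ≤ tailPhi x d (qs.drop K) / 2) ∧
      yv x qs (K + 20) ≤ yv x qs K / 2 := by
  have he := hR.eta1_nonneg
  have hpow := decay_pow hR hsh hf (K + 1) 6
  rw [show K + 1 + 3 * 6 = K + 19 by omega] at hpow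
  norm_num at hpow
  have h19 := isFull_sv hsh he hR.half_le hf (K + 19)
  simp only [sv] at h19
  have hmono1 := yv_antitone hsh hR.half_le (show K + 19 ≤ K + 20 by omega)
  have hmono2 := yv_antitone hsh hR.half_le (show K ≤ K + 1 by omega)
  have hy1 := yv_nonneg hsh hR.half_le (K + 1)
  refine ⟨fun d => ?_, by linarith⟩
  have h1 := tailPhi_le_shift x d (qs.drop (K + 19))
  have h2 := tailPhi_step (shaped_drop hsh K) d
  have h3 := tailPhi_nonneg x (d + 1) (qs.drop K).tail
  rw [← yv_succ] at h2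
  have hd := inc_pos d
  have ha := inc_pos 0
  have hd0 : inc 0 ≤ inc d := inc_mono (Nat.zero_le d)
  have hphi : tailPhi x 0 (qs.drop (K + 19)) ≤ yv x qs (K + 19) + eta1 x := by linarith
  have hr : inc d / inc 0 + 1 ≤ 6 * inc d := by
    rw [div_add_one ha.ne', div_le_iff₀ ha]
    nlinarith [inc_zero_ge]
  have h4 : tailPhi x d (qs.drop (K + 19)) ≤ 6 * inc d * (yv x qs (K + 19) + eta1 x) :=
    h1.trans (mul_le_mul hr hphi (tailPhi_nonneg x 0 _) (by linarith))
  have h5 : 6 * (yv x qs (K + 19) + eta1 x) ≤ yv x qs (K + 1) / 2 := by linarith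
  have h6 := mul_le_mul_of_nonneg_left h5 hd.le
  linarith

end Vale.Agent.P031.Band
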