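import Vale.Agent.P031.Pins

/-!
# P031, band theorem: coordinates of a configuration

`yv x qs l` is the height `y_l = ℓ_l - j₁` (with `y_0 = J - j₁` and `0` past the end), `sv` is the
slack and `gv` the gap at level `l`.  The tail function `tailPhi` is linear in the heights.
-/

namespace Vale.Agent.P031.Band

open Finset Vale.Agent.P031

/-- The height of the first prime of the list, `0` for the empty list. -/
noncomputable def zv (x : ℝ) (qs : List ℕ) : ℝ :=
  match qs with
  | [] => 0
  | q :: _ => (cell x q : ℝ) - halfCell x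

/-- The height at level `l`. -/
noncomputable def yv (x : ℝ) (qs : List ℕ) (l : ℕ) : ℝ :=
  match l with
  | 0 => (numCells x : ℝ) - halfCell x
  | n + 1 => zv x (qs.drop n)

/-- The slack at level `l`. -/
noncomputable def sv (x : ℝ) (qs : List ℕ) (l : ℕ) : ℝ :=
  yv x qs l - tailPhi x 0 (qs.drop l)

/-- The gap at level `l`. -/
noncomputable def gv (x : ℝ) (qs : List ℕ) (l : ℕ) : ℝ := yv x qs l - yv x qs (l + 1)

/-- Cells weakly decrease and are all at least `j₁`. -/
def Shaped (x : ℝ) (qs : List ℕ) : Prop :=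
  qs.Pairwise (fun a b => cell x b ≤ cell x a) ∧ ∀ q ∈ qs, halfCell x ≤ cell x q

theorem cell_le_numCells (x : ℝ) (r : ℕ) : cell x r ≤ numCells x := min_le_left _ _

theorem halfCell_le_cutCell (x : ℝ) : halfCell x ≤ cutCell x := by
  unfold halfCell
  omega

theorem cell_mono {x : ℝ} (hw : 0 ≤ width x) {a b : ℕ} (ha : 2 ≤ a) (hab : a ≤ b) :
    cell x a ≤ cell x b := by
  refine min_le_min le_rfl (Nat.floor_mono (div_le_div_of_nonneg_right ?_ hw))
  have h1 : (1 : ℝ) < a := by exact_mod_cast ha
  have h2 : (a : ℝ) ≤ b := by exact_mod_cast hab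
  exact Real.log_le_log (Real.log_pos h1) (Real.log_le_log (by linarith) h2)

theorem shaped_of_isConf {x : ℝ} (hw : 0 ≤ width x) {qs : List ℕ} {m : ℕ} (h : IsConf x qs m) :
    Shaped x qs := by
  refine ⟨?_, fun q hq => (halfCell_le_cutCell x).trans (h.big q hq).le⟩
  refine h.desc.imp_of_mem ?_
  intro a b _ hb hba
  exact cell_mono hw (h.normal b hb).prime.two_le hba.le

theorem shaped_drop {x : ℝ} {qs : List ℕ} (h : Shaped x qs) (n : ℕ) : Shaped x (qs.drop n) :=
  ⟨h.1.sublist (List.drop_sublist n qs), fun q hq => h.2 q (List.mem_of_mem_drop hq)⟩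

theorem drop_tail (qs : List ℕ) (n : ℕ) : (qs.drop n).tail = qs.drop (n + 1) := List.tail_drop

theorem tailPhi_nil (x : ℝ) (d : ℕ) : tailPhi x d [] = 0 := by simp [tailPhi, above]

theorem tailPhi_nonneg (x : ℝ) (d : ℕ) (qs : List ℕ) : 0 ≤ tailPhi x d qs :=
  Finset.sum_nonneg fun j _ => sub_nonneg.2 (ent_mono (Nat.le_add_right d _))

theorem zv_nonneg {x : ℝ} {qs : List ℕ} (h : Shaped x qs) : 0 ≤ zv x qs := by
  cases qs with
  | nil => simp [zv]
  | cons q t =>
    have := h.2 q List.mem_cons_self
    simpa [zv] using this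

theorem above_cons (x : ℝ) (q : ℕ) (t : List ℕ) (j : ℕ) :
    above x (q :: t) j = above x t j + if j < cell x q then 1 else 0 := by
  simp [above, List.countP_cons]

theorem tailPhi_step {x : ℝ} {qs : List ℕ} (h : Shaped x qs) (d : ℕ) :
    tailPhi x d qs = inc d * zv x qs + tailPhi x (d + 1) qs.tail := by
  cases qs with
  | nil => simp [tailPhi_nil, zv]
  | cons q t =>
    have hge := h.2 q List.mem_cons_self
    have ht : ∀ b ∈ t, cell x b ≤ cell x q := (List.pairwise_cons.1 h.1).1
    have hfil : (Finset.Ico (halfCell x) (numCells x)).filter (fun j => j < cell x q)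
        = Finset.Ico (halfCell x) (cell x q) := by
      ext j
      have := cell_le_numCells x q
      simp only [Finset.mem_filter, Finset.mem_Ico]
      omega
    have hterm : ∀ j ∈ Finset.Ico (halfCell x) (numCells x),
        ent (d + above x (q :: t) j) - ent d
          = (ent (d + 1 + above x t j) - ent (d + 1)) + (if j < cell x q then inc d else 0) := by
      intro j _
      rw [above_cons]
      by_cases hj : j < cell x q
      · simp only [hj, if_true]
        rw [show d + (above x t j + 1) = d + 1 + above x t j by omega]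
        simp only [inc]
        ring
      · have h0 : above x t j = 0 := by
          simp only [above, List.countP_eq_zero, decide_eq_true_eq, not_lt]
          intro b hb
          exact (ht b hb).trans (not_lt.1 hj)
        simp [hj, h0]
    unfold tailPhi
    rw [Finset.sum_congr rfl hterm, Finset.sum_add_distrib, ← Finset.sum_filter, hfil]
    simp only [Finset.sum_const, Nat.card_Ico, nsmul_eq_mul, zv, List.tail_cons]
    rw [Nat.cast_sub hge]
    ring

theorem tailPhi_le_shift (x : ℝ) (d : ℕ) (qs : List ℕ) :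
    tailPhi x d qs ≤ (inc d / inc 0 + 1) * tailPhi x 0 qs := by
  unfold tailPhi
  rw [Finset.mul_sum]
  refine Finset.sum_le_sum fun j _ => ?_
  simp only [zero_add, ent_zero, sub_zero]
  generalize above x qs j = k
  have h0 := inc_pos 0
  have e1 : ent (d + k) - ent d = ∑ t ∈ Finset.range k, inc (d + t) := by
    rw [ent_eq_sum, ent_eq_sum, Finset.sum_range_add]
    ring
  rw [e1, ent_eq_sum k, Finset.mul_sum]
  refine Finset.sum_le_sum fun t _ => ?_
  have h1 := inc_add_le d t
  have h2 : inc 0 ≤ inc t := inc_mono (Nat.zero_le t)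
  have h3 : inc d ≤ inc d / inc 0 * inc t := by
    have hd : 0 ≤ inc d / inc 0 := (div_pos (inc_pos d) h0).le
    calc inc d = inc d / inc 0 * inc 0 := by field_simp
      _ ≤ inc d / inc 0 * inc t := mul_le_mul_of_nonneg_left h2 hd
  linarith

theorem yv_succ (x : ℝ) (qs : List ℕ) (n : ℕ) : yv x qs (n + 1) = zv x (qs.drop n) := rfl

theorem yv_drop (x : ℝ) (qs : List ℕ) (i n : ℕ) :
    yv x (qs.drop i) (n + 1) = yv x qs (i + n + 1) := by
  rw [yv_succ, yv_succ, List.drop_drop]

theorem yv_nonneg {x : ℝ} {qs : List ℕ} (h : Shaped x qs) (hJ : halfCell x ≤ numCells x) (l : ℕ) :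
    0 ≤ yv x qs l := by
  cases l with
  | zero => simpa [yv] using hJ
  | succ n => exact zv_nonneg (shaped_drop h n)

/-- Expansion of `tailPhi` at level `l` along the next `n` heights. -/
theorem tailPhi_expand {x : ℝ} {qs : List ℕ} (h : Shaped x qs) (d l n : ℕ) :
    tailPhi x d (qs.drop l)
      = (∑ t ∈ Finset.range n, inc (d + t) * yv x qs (l + 1 + t))
        + tailPhi x (d + n) (qs.drop (l + n)) := by
  induction n with
  | zero => simp
  | succ n ih =>
    rw [ih, Finset.sum_range_succ, tailPhi_step (shaped_drop h (l + n)), drop_tail,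
      show l + 1 + n = (l + n) + 1 by omega, yv_succ, show d + (n + 1) = d + n + 1 by omega,
      show l + (n + 1) = l + n + 1 by omega]
    ring

theorem gv_nonneg {x : ℝ} {qs : List ℕ} (h : Shaped x qs) (hJ : halfCell x ≤ numCells x) (l : ℕ) :
    0 ≤ gv x qs l := by
  cases l with
  | zero =>
    cases qs with
    | nil => simpa [gv, yv, zv] using hJ
    | cons q t =>
      have h2 := cell_le_numCells x q
      simp [gv, yv, zv]
      exact_mod_cast h2
  | succ n =>
    simp only [gv, yv_succ, ← drop_tail qs n]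
    have hs := shaped_drop h n
    generalize qs.drop n = l at hs
    cases l with
    | nil => simp [zv]
    | cons a t =>
      cases t with
      | nil =>
        have := hs.2 a List.mem_cons_self
        simpa [zv] using this
      | cons b u =>
        have := (List.pairwise_cons.1 hs.1).1 b List.mem_cons_self
        simpa [zv] using this

theorem yv_antitone {x : ℝ} {qs : List ℕ} (h : Shaped x qs) (hJ : halfCell x ≤ numCells x)
    {l l' : ℕ} (hll : l ≤ l') : yv x qs l' ≤ yv x qs l := by
  induction hll with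
  | refl => exact le_rfl
  | @step k _ ih =>
    have h2 := gv_nonneg h hJ k
    simp only [gv] at h2
    linarith

theorem topGap_eq (x : ℝ) (qs : List ℕ) :
    topGap x qs = (numCells x : ℝ) - halfCell x - zv x qs := by
  cases qs with
  | nil => simp [topGap, zv]
  | cons q t => simp [topGap, zv]

theorem topGap_eq_gv (x : ℝ) (qs : List ℕ) : topGap x qs = gv x qs 0 := by
  rw [topGap_eq]
  simp [gv, yv]

theorem slack_eq {x : ℝ} {ℓ : ℕ} {t : List ℕ} (h1 : halfCell x ≤ ℓ) (h2 : ℓ ≤ numCells x)
    (ht : ∀ b ∈ t, cell x b ≤ ℓ) :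
    slack x ℓ t = (ℓ : ℝ) - halfCell x - tailPhi x 0 t := by
  have hz : ∀ j ∈ Finset.Ico (halfCell x) (numCells x), j ∉ Finset.Ico (halfCell x) ℓ →
      ent (above x t j) = 0 := by
    intro j hj hj'
    simp only [Finset.mem_Ico] at hj hj'
    have : above x t j = 0 := by
      simp only [above, List.countP_eq_zero, decide_eq_true_eq, not_lt]
      intro b hb
      have := ht b hb
      omega
    rw [this, ent_zero]
  unfold slack tailPhi
  simp only [zero_add, ent_zero, sub_zero]
  rw [← Finset.sum_subset (Finset.Ico_subset_Ico le_rfl h2) hz, Finset.sum_sub_distrib,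
    Finset.sum_const, Nat.card_Ico, nsmul_eq_mul, mul_one, Nat.cast_sub h1]

theorem sv_zero {x : ℝ} (hJ : halfCell x ≤ numCells x) (qs : List ℕ) :
    sv x qs 0 = slack x (numCells x) qs := by
  rw [slack_eq hJ le_rfl fun b _ => cell_le_numCells x b]
  simp [sv, yv]

theorem slackAt_eq {x : ℝ} {qs : List ℕ} (h : Shaped x qs) {i : ℕ} (hi : i < qs.length) :
    slackAt x qs i = sv x qs (i + 1) := by
  have hd : qs.drop i = qs[i] :: qs.drop (i + 1) := List.drop_eq_getElem_cons hi
  have hs := shaped_drop h i
  rw [hd] at hs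
  rw [sv, yv_succ, hd, slackAt, List.getD_eq_getElem _ _ hi,
    slack_eq (hs.2 _ List.mem_cons_self) (cell_le_numCells x _) (List.pairwise_cons.1 hs.1).1]
  simp [zv]

theorem sv_past {x : ℝ} {qs : List ℕ} {n : ℕ} (hn : qs.length ≤ n) : sv x qs (n + 1) = 0 := by
  rw [sv, yv_succ, List.drop_eq_nil_of_le hn, List.drop_eq_nil_of_le (hn.trans (Nat.le_succ n))]
  simp [zv, tailPhi_nil]

theorem isGood_iff {x : ℝ} {qs : List ℕ} (h : Shaped x qs) (he : 0 ≤ eta1 x) :
    IsGood x qs ↔ ∀ n, -eta1 x ≤ sv x qs (n + 1) := by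
  constructor
  · intro hg n
    by_cases hn : n < qs.length
    · rw [← slackAt_eq h hn]
      exact hg n hn
    · rw [sv_past (not_lt.1 hn)]
      linarith
  · intro hg n hn
    rw [slackAt_eq h hn]
    exact hg n

theorem sv_drop (x : ℝ) (qs : List ℕ) (i n : ℕ) :
    sv x (qs.drop i) (n + 1) = sv x qs (i + n + 1) := by
  rw [sv, sv, yv_drop, List.drop_drop]
  rfl

theorem isGood_drop {x : ℝ} {qs : List ℕ} (h : Shaped x qs) (he : 0 ≤ eta1 x) (hg : IsGood x qs)
    (i : ℕ) : IsGood x (qs.drop i) := by
  rw [isGood_iff (shaped_drop h i) he]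
  intro n
  rw [sv_drop]
  exact (isGood_iff h he).1 hg (i + n)

theorem isFull_sv {x : ℝ} {qs : List ℕ} (h : Shaped x qs) (he : 0 ≤ eta1 x)
    (hJ : halfCell x ≤ numCells x) (hf : IsFull x qs) : ∀ l, -eta1 x ≤ sv x qs l := by
  intro l
  cases l with
  | zero => rw [sv_zero hJ]; exact hf.2
  | succ n => exact (isGood_iff h he).1 hf.1 n

end Vale.Agent.P031.Band
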