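import Vale.Agent.P031.BandBox
import Vale.Agent.P031.BandLin

/-!
# P031, band theorem: target configurations are safe and carry mass

A family of tails with target boxes yields safe configurations; `DistinctPin` turns their weight
into mass of safe values.
-/

namespace Vale.Agent.P031.Band

open Finset Vale.Agent.P031

/-- The elementary parameter facts used throughout the band theorem. -/
structure Regime (x : ℝ) : Prop where
  width_nonneg : 0 ≤ width x
  half_le : halfCell x ≤ numCells x
  eta1_nonneg : 0 ≤ eta1 x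
  eta_pos : 0 < eta x
  cut_lt : (cutCell x : ℝ) < 2 * eta x
  err_nonneg : 0 ≤ errBd x

/-- The box `[lo, lo + W]` of prefixes over the tail `zs` consists of safe levels. -/
def TargetBox (x : ℝ) (i : ℕ) (zs : List ℕ) (lo : ℕ → ℝ) (W : ℝ) : Prop :=
  ∀ y' : ℕ → ℝ, y' 0 = (numCells x : ℝ) - halfCell x →
    (∀ l, 1 ≤ l → l ≤ i → lo l ≤ y' l ∧ y' l ≤ lo l + W) →
    ∀ l ≤ i, 2 * eta x ≤ sL i y' (fun d => tailPhi x d zs) l ∧
      2 * eta x ≤ gL i y' (yv x zs 1) l

theorem gap_chain {x : ℝ} (hR : Regime x) {i : ℕ} {y : ℕ → ℝ} {z : ℝ}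
    (h : ∀ l ≤ i, 2 * eta x ≤ gL i y z l) {a b : ℕ} (hab : a < b) (hb : b ≤ i) :
    y b + 2 * eta x ≤ y a := by
  induction b, hab using Nat.le_induction with
  | base =>
    have := h a (by omega)
    rw [gL, if_pos (by omega)] at this
    linarith
  | succ n hn ih =>
    have h1 := ih (by omega)
    have := h n (by omega)
    rw [gL, if_pos (by omega)] at this
    linarith [hR.eta_pos]

theorem gap_last {x : ℝ} {i : ℕ} {y : ℕ → ℝ} {z : ℝ}
    (h : ∀ l ≤ i, 2 * eta x ≤ gL i y z l) : z + 2 * eta x ≤ y i := by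
  have := h i le_rfl
  rw [gL, if_neg (lt_irrefl i)] at this
  linarith

theorem box_range {x : ℝ} (hR : Regime x) {i : ℕ} {zs : List ℕ} (hsh : Shaped x zs)
    {lo : ℕ → ℝ} {W : ℝ} (hW : 0 ≤ W) (hT : TargetBox x i zs lo W) {l : ℕ} (hl1 : 1 ≤ l)
    (hl : l ≤ i) : 0 ≤ lo l ∧ lo l + W + halfCell x < numCells x := by
  set u : ℝ := (numCells x : ℝ) - halfCell x with hu
  have hne : l ≠ 0 := by omega
  constructor
  · set y' : ℕ → ℝ := fun n => if n = 0 then u else lo n with hy'
    have h := hT y' (by simp [hy', hu]) (fun n h1 _ => by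
      have : n ≠ 0 := by omega
      simp [hy', this, hW])
    have h1 := gap_last fun n hn => (h n hn).2
    have h2 : y' i ≤ y' l := by
      rcases hl.eq_or_lt with e | e
      · rw [e]
      · linarith [gap_chain hR (fun n hn => (h n hn).2) e le_rfl, hR.eta_pos]
    have h3 : y' l = lo l := by simp [hy', hne]
    have h4 : 0 ≤ yv x zs 1 := zv_nonneg hsh
    linarith [hR.eta_pos]
  · set y' : ℕ → ℝ := fun n => if n = 0 then u else lo n + W with hy'
    have h := hT y' (by simp [hy', hu]) (fun n h1 _ => by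
      have : n ≠ 0 := by omega
      simp [hy', this, hW])
    have h1 := gap_chain hR (fun n hn => (h n hn).2) (show 0 < l by omega) hl
    have h2 : y' 0 = u := by simp [hy']
    have h3 : y' l = lo l + W := by simp [hy', hne]
    linarith [hR.eta_pos]

/-- A prefix from the target box, glued to the tail, is a safe configuration. -/
theorem target_conf {x : ℝ} (hR : Regime x) {i : ℕ} {zs : List ℕ} {ms : ℕ}
    (hc : IsConf x zs ms) (hg : IsGood x zs) (hlen : i + zs.length ≤ maxLen x)
    {lo : ℕ → ℝ} {W : ℝ} (hT : TargetBox x i zs lo W) {ps : List ℕ}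
    (hps : ps ∈ boxLists i (fun l => targetPrimes x (lo (l + 1)) W)) :
    IsConf x (ps ++ zs) ms ∧ IsSafe x (ps ++ zs) ∧
      ∀ l < i, eta x ≤ slackAt x (ps ++ zs) l := by
  obtain ⟨hlp, hmem⟩ := mem_boxLists.1 hps
  subst hlp
  set qs := ps ++ zs with hqs
  have hshz := shaped_of_isConf hR.width_nonneg hc
  have hP : ∀ n, ∀ hn : n < ps.length, (ps[n]).Prime ∧ ll ps[n] ≤ llx x + 1 ∧
      Normal x (cell x ps[n]) ps[n] ∧
      lo (n + 1) ≤ (cell x ps[n] : ℝ) - halfCell x ∧
      (cell x ps[n] : ℝ) - halfCell x ≤ lo (n + 1) + W := by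
    intro n hn
    have h := hmem n hn
    simp only [List.getD_eq_getElem _ _ hn, targetPrimes, Finset.mem_biUnion, Finset.mem_filter,
      cellPrimes] at h
    obtain ⟨j, ⟨-, hj1, hj2⟩, ⟨-, hpr, hcell, hcap⟩, hnor⟩ := h
    subst hcell
    exact ⟨hpr, hcap, hnor, hj1, hj2⟩
  have hdropn : ∀ n, ∀ hn : n < ps.length, yv x qs (n + 1) = (cell x ps[n] : ℝ) - halfCell x := by
    intro n hn
    rw [yv_succ, hqs, List.drop_append_of_le_length hn.le, List.drop_eq_getElem_cons hn,
      List.cons_append]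
    rfl
  have hdropi : qs.drop ps.length = zs := by simp [hqs]
  have hbox := hT (yv x qs) rfl (fun l h1 h2 => by
    obtain ⟨n, rfl⟩ : ∃ n, l = n + 1 := ⟨l - 1, by omega⟩
    rw [hdropn n (by omega)]
    exact ⟨(hP n (by omega)).2.2.2.1, (hP n (by omega)).2.2.2.2⟩)
  have hgap : ∀ l ≤ ps.length, 2 * eta x ≤ gL ps.length (yv x qs) (yv x zs 1) l :=
    fun l hl => (hbox l hl).2
  have hlast := gap_last hgap
  have hz0 : 0 ≤ yv x zs 1 := zv_nonneg hshz
  have hz : ∀ b ∈ zs, (cell x b : ℝ) - halfCell x ≤ yv x zs 1 := by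
    intro b hb
    cases zs with
    | nil => simp at hb
    | cons q t =>
      simp only [yv, zv, List.drop_zero]
      rcases List.mem_cons.1 hb with rfl | hb'
      · exact le_rfl
      · have := (List.pairwise_cons.1 hshz.1).1 b hb'
        simpa using this
  have hge : ∀ n, ∀ hn : n < ps.length,
      yv x zs 1 + 2 * eta x ≤ (cell x ps[n] : ℝ) - halfCell x := by
    intro n hn
    rw [← hdropn n hn]
    rcases (show n + 1 ≤ ps.length by omega).eq_or_lt with e | e
    · rw [e]
      exact hlast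
    · linarith [gap_chain hR hgap e le_rfl, hR.eta_pos]
  have hlt : ∀ a b : ℕ, b.Prime → a.Prime → cell x b < cell x a → b < a := by
    intro a b _ ha h
    by_contra hba
    have := cell_mono hR.width_nonneg ha.two_le (not_lt.1 hba)
    omega
  have hmemp : ∀ q ∈ ps, ∃ n, ∃ hn : n < ps.length, ps[n] = q := fun q hq => List.getElem_of_mem hq
  have hdesc : qs.Pairwise (fun a b => b < a) := by
    rw [hqs, List.pairwise_append]
    refine ⟨List.pairwise_iff_getElem.2 fun a b ha hb hab => ?_, hc.desc, ?_⟩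
    · refine hlt _ _ (hP b hb).1 (hP a ha).1 ?_
      have h1 := gap_chain hR hgap (show a + 1 < b + 1 by omega) (by omega)
      rw [hdropn a ha, hdropn b hb] at h1
      exact_mod_cast (show (cell x ps[b] : ℝ) < cell x ps[a] by linarith [hR.eta_pos])
    · intro a ha b hb
      obtain ⟨n, hn, rfl⟩ := hmemp a ha
      refine hlt _ _ (hc.normal b hb).prime (hP n hn).1 ?_
      exact_mod_cast (show (cell x b : ℝ) < cell x ps[n] by
        linarith [hz b hb, hge n hn, hR.eta_pos])
  have hconf : IsConf x qs ms := by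
    refine ⟨hdesc, ?_, ?_, ?_, by simpa [hqs] using hlen, hc.part⟩
    · intro q hq
      rcases List.mem_append.1 hq with h | h
      · obtain ⟨n, hn, rfl⟩ := hmemp q h
        have h1 := hge n hn
        have h2 := hR.cut_lt
        have h3 : (0 : ℝ) ≤ halfCell x := Nat.cast_nonneg _
        exact_mod_cast (show (cutCell x : ℝ) < cell x ps[n] by linarith)
      · exact hc.big q h
    · intro q hq
      rcases List.mem_append.1 hq with h | h
      · obtain ⟨n, hn, rfl⟩ := hmemp q h
        exact (hP n hn).2.1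
      · exact hc.capped q h
    · intro q hq
      rcases List.mem_append.1 hq with h | h
      · obtain ⟨n, hn, rfl⟩ := hmemp q h
        exact (hP n hn).2.2.1
      · exact hc.normal q h
  have hsh := shaped_of_isConf hR.width_nonneg hconf
  have hsv : ∀ l ≤ ps.length,
      sv x qs l = sL ps.length (yv x qs) (fun d => tailPhi x d zs) l := by
    intro l hl
    rw [sv, tailPhi_expand hsh 0 l (ps.length - l), sL, show l + (ps.length - l) = ps.length by omega,
      hdropi]
    simp only [zero_add]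
    ring
  have hgood : IsGood x qs := by
    rw [isGood_iff hsh hR.eta1_nonneg]
    intro n
    rcases lt_or_ge n ps.length with hn | hn
    · rw [hsv (n + 1) (by omega)]
      linarith [(hbox (n + 1) (by omega)).1, hR.eta_pos, hR.eta1_nonneg]
    · have e := sv_drop x qs ps.length (n - ps.length)
      rw [hdropi, show ps.length + (n - ps.length) + 1 = n + 1 by omega] at e
      rw [← e]
      exact (isGood_iff hshz hR.eta1_nonneg).1 hg _
  have h0 := hbox 0 (Nat.zero_le _)
  have hg0 : gv x qs 0 = gL ps.length (yv x qs) (yv x zs 1) 0 := by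
    unfold gv gL
    rcases Nat.eq_zero_or_pos ps.length with e | e
    · rw [if_neg (by omega)]
      rw [e, List.drop_zero] at hdropi
      rw [hdropi]
    · rw [if_pos e]
  refine ⟨hconf, ⟨⟨hgood, ?_⟩, ?_, ?_⟩, ?_⟩
  · rw [← sv_zero hR.half_le, hsv 0 (Nat.zero_le _)]
    linarith [h0.1, hR.eta_pos, hR.eta1_nonneg]
  · rw [← sv_zero hR.half_le, hsv 0 (Nat.zero_le _)]
    exact h0.1
  · rw [topGap_eq_gv, hg0]
    exact h0.2
  · intro l hl
    have hl' : l < qs.length := by
      rw [hqs, List.length_append]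
      omega
    rw [slackAt_eq hsh hl', hsv (l + 1) (by omega)]
    linarith [(hbox (l + 1) (by omega)).1, hR.eta_pos]

theorem confValue_lt_valueBd {x : ℝ} {qs : List ℕ} {m : ℕ} (hc : IsConf x qs m) :
    confValue qs m < valueBd x := by
  set E : ℕ := ⌈Real.exp (Real.exp (llx x + 1))⌉₊ with hE
  have hE1 : 1 ≤ E := Nat.one_le_iff_ne_zero.2 (Nat.ceil_pos.2 (Real.exp_pos _)).ne'
  have hq : ∀ q ∈ qs, q - 1 ≤ E := by
    intro q hq
    refine le_trans (Nat.sub_le q 1) ?_
    have h2 := (hc.normal q hq).prime.two_le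
    have h1 : (1 : ℝ) < q := by exact_mod_cast h2
    have h3 := hc.capped q hq
    rw [ll, Real.log_le_iff_le_exp (Real.log_pos h1), Real.log_le_iff_le_exp (by linarith)] at h3
    exact_mod_cast h3.trans (Nat.le_ceil _)
  have hprod : (qs.map (fun q => q - 1)).prod ≤ E ^ maxLen x := by
    refine le_trans (List.prod_le_pow_card _ E (fun a ha => ?_)) ?_
    · obtain ⟨q, hq', rfl⟩ := List.mem_map.1 ha
      exact hq q hq'
    · rw [List.length_map]
      exact Nat.pow_le_pow_right hE1 hc.short
  have hm : m ≤ ⌈Real.exp (Real.exp (2 * (cutCell x : ℝ) * width x))⌉₊ := by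
    exact_mod_cast hc.part.le.trans (Nat.le_ceil _)
  unfold valueBd confValue
  exact Nat.lt_succ_of_le (Nat.mul_le_mul hprod hm)

theorem mem_safeVals {x : ℝ} {qs : List ℕ} {m : ℕ} (hc : IsConf x qs m) (hs : IsSafe x qs) :
    confValue qs m ∈ safeVals x := by
  classical
  simp only [safeVals, Finset.mem_filter, Finset.mem_range]
  exact ⟨confValue_lt_valueBd hc, qs, m, hc, hs, rfl⟩

theorem mass_mono {S T : Finset ℕ} (h : S ⊆ T) : mass S ≤ mass T :=
  Finset.sum_le_sum_of_subset_of_nonneg h fun _ _ _ => by positivity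

open scoped Classical in
/-- The weight of all target configurations is at most twice the mass of the safe values. -/
theorem target_mass {x : ℝ} (hR : Regime x)
    (hdist : ∀ i : ℕ, ∀ S : Finset (List ℕ × ℕ),
      (∀ a ∈ S, IsConf x a.1 a.2 ∧ IsGood x a.1 ∧ i ≤ a.1.length ∧
        ∀ l < i, eta x ≤ slackAt x a.1 l) →
      (∀ a ∈ S, ∀ b ∈ S, confValue (a.1.drop i) a.2 = confValue (b.1.drop i) b.2 →
        a.1.drop i = b.1.drop i ∧ a.2 = b.2) →
      (∑ a ∈ S, (1 : ℝ) / (confValue a.1 a.2 : ℝ))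
        ≤ mass (S.image (fun a => confValue a.1 a.2)) + Real.exp (-(eta x * width x / 4)))
    (hmass : 1 ≤ mass (safeVals x)) {D : ℝ} (hD : 0 ≤ D)
    (hcell : ∀ j : ℕ, cutCell x < j → j < numCells x →
      D ≤ ∑ q ∈ (cellPrimes x j).filter (fun q => Normal x j q), (1 : ℝ) / ((q - 1 : ℕ) : ℝ))
    (i : ℕ) (M : Finset ℕ) (Z : ℕ → List ℕ) (ms : ℕ → ℕ)
    (lo : ℕ → ℕ → ℝ) {W : ℝ} (hW : 2 ≤ W)
    (hM : ∀ m ∈ M, IsConf x (Z m) (ms m) ∧ IsGood x (Z m) ∧
      i + (Z m).length ≤ maxLen x ∧ confValue (Z m) (ms m) = m ∧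
      TargetBox x i (Z m) (lo m) W) :
    (W / 2 * D) ^ i * mass M ≤ 2 * mass (safeVals x) := by
  set A : ℕ → ℕ → Finset ℕ := fun m l => targetPrimes x (lo m (l + 1)) W with hA
  set f : ℕ → List ℕ → List ℕ × ℕ := fun m ps => (ps ++ Z m, ms m) with hf
  set S : Finset (List ℕ × ℕ) := M.biUnion (fun m => (boxLists i (A m)).image (f m)) with hS
  have hmemS : ∀ a ∈ S, ∃ m ∈ M, ∃ ps ∈ boxLists i (A m), f m ps = a := fun a ha => by
    obtain ⟨m, hm, ha⟩ := Finset.mem_biUnion.1 ha
    obtain ⟨ps, hps, e⟩ := Finset.mem_image.1 ha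
    exact ⟨m, hm, ps, hps, e⟩
  have hdropf : ∀ m, ∀ ps ∈ boxLists i (A m), (f m ps).1.drop i = Z m := fun m ps hps => by
    simp [hf, ← (mem_boxLists.1 hps).1]
  have hconf : ∀ m ∈ M, ∀ ps ∈ boxLists i (A m),
      IsConf x (ps ++ Z m) (ms m) ∧ IsSafe x (ps ++ Z m) ∧
        ∀ l < i, eta x ≤ slackAt x (ps ++ Z m) l := by
    intro m hm ps hps
    obtain ⟨h1, h2, h3, -, h5⟩ := hM m hm
    exact target_conf hR h1 h2 h3 h5 hps
  have h1 := hdist i S ?_ ?_
  · have hsub : S.image (fun a => confValue a.1 a.2) ⊆ safeVals x := by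
      intro v hv
      obtain ⟨a, ha, rfl⟩ := Finset.mem_image.1 hv
      obtain ⟨m, hm, ps, hps, rfl⟩ := hmemS a ha
      exact mem_safeVals (hconf m hm ps hps).1 (hconf m hm ps hps).2.1
    have hexp : Real.exp (-(eta x * width x / 4)) ≤ 1 :=
      Real.exp_le_one_iff.2 (by nlinarith [hR.eta_pos, hR.width_nonneg])
    have hdisj : (M : Set ℕ).PairwiseDisjoint (fun m => (boxLists i (A m)).image (f m)) := by
      intro m hm m' hm' hne
      rw [Function.onFun, Finset.disjoint_left]
      intro a ha ha'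
      obtain ⟨ps, hps, rfl⟩ := Finset.mem_image.1 ha
      obtain ⟨ps', hps', e⟩ := Finset.mem_image.1 ha'
      apply hne
      have e1 : Z m' = Z m := by rw [← hdropf m' ps' hps', e, hdropf m ps hps]
      have e2 : ms m' = ms m := congrArg Prod.snd e
      rw [← (hM m hm).2.2.2.1, ← (hM m' hm').2.2.2.1, e1, e2]
    have hlow : (W / 2 * D) ^ i * mass M ≤ ∑ a ∈ S, (1 : ℝ) / (confValue a.1 a.2 : ℝ) := by
      rw [hS, Finset.sum_biUnion hdisj, mass, Finset.mul_sum]
      refine Finset.sum_le_sum fun m hm => ?_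
      rw [Finset.sum_image (fun a _ b _ e => List.append_cancel_right (congrArg Prod.fst e))]
      simp only [hf, inv_confValue_append, (hM m hm).2.2.2.1, ← Finset.sum_mul, sum_wt_boxLists]
      refine mul_le_mul_of_nonneg_right ?_ (by positivity)
      calc (W / 2 * D) ^ i = ∏ _l ∈ Finset.range i, W / 2 * D := by
            rw [Finset.prod_const, Finset.card_range]
        _ ≤ _ := by
          refine Finset.prod_le_prod (fun l _ => by positivity) fun l hl => ?_
          have hl := Finset.mem_range.1 hl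
          obtain ⟨h1, -, -, -, h5⟩ := hM m hm
          have hsh := shaped_of_isConf hR.width_nonneg h1
          obtain ⟨hlo, hhi⟩ := box_range hR hsh (by linarith) h5 (show 1 ≤ l + 1 by omega) (by omega)
          refine primeMass_target_ge hD hW hlo hhi fun j hj1 hj2 => hcell j ?_ ?_
          · set u : ℝ := (numCells x : ℝ) - halfCell x with hu
            set y' : ℕ → ℝ := fun n => if n = 0 then u else
              if n = l + 1 then (j : ℝ) - halfCell x else lo m n with hy'
            have hb := h5 y' (by simp [hy', hu]) (fun n h _ => by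
              have : n ≠ 0 := by omega
              by_cases e : n = l + 1
              · subst e
                simp [hy', hj1, hj2]
              · simp [hy', this, e]
                linarith)
            have ha := gap_last fun n hn => (hb n hn).2
            have hz0 : 0 ≤ yv x (Z m) 1 := zv_nonneg hsh
            have hc : y' i ≤ y' (l + 1) := by
              rcases (show l + 1 ≤ i by omega).eq_or_lt with e | e
              · rw [e]
              · linarith [gap_chain hR (fun n hn => (hb n hn).2) e le_rfl, hR.eta_pos]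
            have hd : y' (l + 1) = (j : ℝ) - halfCell x := by simp [hy']
            have h3 : (0 : ℝ) ≤ halfCell x := Nat.cast_nonneg _
            exact_mod_cast (show (cutCell x : ℝ) < j by linarith [hR.cut_lt])
          · exact_mod_cast (show (j : ℝ) < numCells x by linarith)
    linarith [mass_mono hsub]
  · intro a ha
    obtain ⟨m, hm, ps, hps, rfl⟩ := hmemS a ha
    obtain ⟨c1, c2, c3⟩ := hconf m hm ps hps
    exact ⟨c1, c2.1.1, by simp [hf, (mem_boxLists.1 hps).1], c3⟩
  · intro a ha b hb e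
    obtain ⟨m, hm, ps, hps, rfl⟩ := hmemS a ha
    obtain ⟨m', hm', ps', hps', rfl⟩ := hmemS b hb
    rw [hdropf m ps hps, hdropf m' ps' hps'] at e ⊢
    have e' : m = m' := by
      rw [← (hM m hm).2.2.2.1, ← (hM m' hm').2.2.2.1]
      exact e
    subst e'
    exact ⟨rfl, rfl⟩

end Vale.Agent.P031.Band
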