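import Vale.Agent.P031.CollideBasic

/-!
# P031: configurations with good upper levels carry distinct values

Two configurations with one value and different prefixes are brought into the shape of the inner
majorant by removing their common primes; values with a big square factor are negligible.
-/

namespace Vale.Agent.P031

open Finset Filter

/-- After removal of common primes the first side has the larger head and slack `≥ η` there. -/
def TopSide (x : ℝ) (a b : List ℕ × ℕ) : Prop :=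
  restList a.1 b.1 ≠ [] ∧ (∀ r ∈ restList b.1 a.1, r < (restList a.1 b.1).getD 0 0) ∧
    eta x ≤ slackAt x (restList a.1 b.1) 0

theorem topSide_of_split {x : ℝ} {a b : List ℕ × ℕ} {P tl tl' : List ℕ} {q q' : ℕ}
    (ha : a.1 = P ++ q :: tl) (hb : b.1 = P ++ q' :: tl')
    (hA : a.1.Pairwise (fun u v => v < u)) (hB : b.1.Pairwise (fun u v => v < u))
    (hlt : q' < q) (hs : eta x ≤ slackAt x a.1 P.length) : TopSide x a b := by
  rw [ha] at hA hs
  rw [hb] at hB
  rw [slackAt_append] at hs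
  obtain ⟨⟨tl0, hsub, he⟩, hall⟩ := rest_of_split hA hB hlt
  unfold TopSide
  rw [ha, hb, he]
  refine ⟨by simp, fun r hr => by simpa using hall r hr, ?_⟩
  rw [slackAt_cons_zero]
  exact hs.trans (slack_le_of_sublist hsub _)

theorem topSide_total {x : ℝ} {i : ℕ} {a b : List ℕ × ℕ}
    (ha : IsConf x a.1 a.2 ∧ IsGood x a.1 ∧ i ≤ a.1.length ∧ ∀ l < i, eta x ≤ slackAt x a.1 l)
    (hb : IsConf x b.1 b.2 ∧ IsGood x b.1 ∧ i ≤ b.1.length ∧ ∀ l < i, eta x ≤ slackAt x b.1 l)
    (hdrop : confValue (a.1.drop i) a.2 = confValue (b.1.drop i) b.2 →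
      a.1.drop i = b.1.drop i ∧ a.2 = b.2)
    (hv : confValue a.1 a.2 = confValue b.1 b.2) (hne : a ≠ b) :
    TopSide x a b ∨ TopSide x b a := by
  have htake : a.1.take i ≠ b.1.take i := by
    intro e
    have ea := confValue_prefix (a.1.take i) (a.1.drop i) a.2
    have eb := confValue_prefix (b.1.take i) (b.1.drop i) b.2
    rw [List.take_append_drop] at ea eb
    rw [ea, eb, e] at hv
    have hpos : 0 < ((b.1.take i).map (fun q => q - 1)).prod := by
      refine List.prod_pos fun v hv' => ?_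
      obtain ⟨q, hq, rfl⟩ := List.mem_map.1 hv'
      have := (hb.1.normal q ((List.take_sublist _ _).subset hq)).prime.two_le
      omega
    obtain ⟨e1, e2⟩ := hdrop (Nat.eq_of_mul_eq_mul_left hpos hv)
    refine hne (Prod.ext ?_ e2)
    rw [← List.take_append_drop i a.1, ← List.take_append_drop i b.1, e, e1]
  obtain ⟨P, q, q', tl, tl', e1, e2, hne', hlen⟩ := split_first i a.1 b.1 ha.2.2.1 hb.2.2.1 htake
  rcases lt_or_gt_of_ne hne' with h | h
  · exact Or.inr (topSide_of_split e2 e1 hb.1.desc ha.1.desc h (hb.2.2.2 _ hlen))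
  · exact Or.inl (topSide_of_split e1 e2 ha.1.desc hb.1.desc h (ha.2.2.2 _ hlen))

/-- Values with a big square factor, weighted by the number of pairs carrying them. -/
theorem nonSq_pairs_le {x : ℝ} (hx : CollideOK x) {ι : Type*} (P : Finset ι) (v : ι → ℕ)
    {M : ℕ} (hv : ∀ p ∈ P, 1 ≤ v p ∧ v p ≤ M ∧ ¬ SqOK x (v p))
    (hlogM : Real.log M ≤ Real.exp (5 * llx x))
    (hfib : ∀ w : ℕ, ((P.filter (fun p => v p = w)).card : ℝ)
      ≤ Real.exp (llx x ^ 2) * Real.exp (llx x ^ 2)) :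
    ∑ p ∈ P, (1 : ℝ) / (v p : ℝ) ≤ Real.exp (-(2 * llx x ^ 2)) := by
  classical
  have hL := hx.L10
  rw [← sum_fiberwise_of_maps_to (fun p hp => mem_image_of_mem v hp)]
  have h1 : ∀ w ∈ P.image v, ∑ p ∈ P.filter (fun p => v p = w), (1 : ℝ) / (v p : ℝ)
      ≤ Real.exp (llx x ^ 2) * Real.exp (llx x ^ 2) * ((1 : ℝ) / w) := by
    intro w _
    rw [sum_congr rfl (fun p hp => by rw [(mem_filter.1 hp).2]), sum_const, nsmul_eq_mul]
    exact mul_le_mul_of_nonneg_right (hfib w) (by positivity)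
  refine (sum_le_sum h1).trans ?_
  rw [← mul_sum]
  have hA : (4 : ℝ) ≤ Real.exp (10 * llx x ^ 3) := by
    have := Real.add_one_le_exp (10 * llx x ^ 3)
    have h10 : (10 : ℝ) ^ 3 ≤ llx x ^ 3 := pow_le_pow_left₀ (by norm_num) hL 3
    norm_num at h10
    linarith
  have h2 := nonSq_mass_le (x := x) hA hx.big (M := M) (P.image v) (fun w hw => by
    obtain ⟨p, hp, rfl⟩ := mem_image.1 hw
    exact hv p hp)
  refine (mul_le_mul_of_nonneg_left h2 (by positivity)).trans ?_
  have h3 : 1 + Real.log M ≤ Real.exp (5 * llx x + 1) := by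
    rw [Real.exp_add]
    have h4 : (1 : ℝ) ≤ Real.exp (5 * llx x) := Real.one_le_exp (by linarith)
    have h5 : (2 : ℝ) ≤ Real.exp 1 := by linarith [Real.add_one_le_exp (1 : ℝ)]
    nlinarith
  have h6 : 2 / Real.exp (10 * llx x ^ 3) ≤ Real.exp (1 - 10 * llx x ^ 3) := by
    rw [Real.exp_sub]
    gcongr
    linarith [Real.add_one_le_exp (1 : ℝ)]
  have hlog0 : 0 ≤ Real.log (M : ℝ) := Real.log_natCast_nonneg M
  calc Real.exp (llx x ^ 2) * Real.exp (llx x ^ 2)
        * (2 / Real.exp (10 * llx x ^ 3) * (1 + Real.log M))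
      ≤ Real.exp (llx x ^ 2) * Real.exp (llx x ^ 2)
        * (Real.exp (1 - 10 * llx x ^ 3) * Real.exp (5 * llx x + 1)) := by gcongr
    _ = Real.exp (llx x ^ 2 + llx x ^ 2 + ((1 - 10 * llx x ^ 3) + (5 * llx x + 1))) := by
        simp only [Real.exp_add]
    _ ≤ Real.exp (-(2 * llx x ^ 2)) := Real.exp_le_exp.2 (by
        have h7 : llx x * llx x ^ 2 = llx x ^ 3 := by ring
        have h8 := mul_le_mul_of_nonneg_right hL (sq_nonneg (llx x))
        nlinarith)

/-- The sum of the two kinds of collisions. -/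
theorem collide_total_le {x : ℝ} (hx : CollideOK x) (h8 : 8 ≤ eta x * width x) :
    (llx x ^ 3) ^ ⌊goodLen x⌋₊ * Real.exp (-(eta x * width x / 2))
      + Real.exp (-(2 * llx x ^ 2)) ≤ Real.exp (-(eta x * width x / 4)) := by
  have hL := hx.L10
  set t := eta x * width x with ht
  have h1 : (llx x ^ 3) ^ ⌊goodLen x⌋₊ * Real.exp (-(t / 2))
      ≤ Real.exp (-(3 * t / 8)) := by
    refine (mul_le_mul_of_nonneg_right hx.cost (Real.exp_pos _).le).trans (le_of_eq ?_)
    rw [← Real.exp_add]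
    congr 1
    ring
  have htL : t ≤ llx x := by
    obtain ⟨-, -, -, -, -, -, -, heta, -⟩ := param_bounds hx.par.L_pos
    rw [ht, ← heta]
    calc llx x ^ (49 / 50 : ℝ) ≤ llx x ^ (1 : ℝ) :=
          Real.rpow_le_rpow_of_exponent_le hx.par.L_pos (by norm_num)
      _ = llx x := Real.rpow_one _
  have h2 : Real.exp (-(2 * llx x ^ 2)) ≤ Real.exp (-(3 * t / 8)) :=
    Real.exp_le_exp.2 (by nlinarith)
  have h3 : 2 * Real.exp (-(3 * t / 8)) ≤ Real.exp (-(t / 4)) := by
    have h4 : (2 : ℝ) ≤ Real.exp (t / 8) := by linarith [Real.add_one_le_exp (t / 8)]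
    calc 2 * Real.exp (-(3 * t / 8)) ≤ Real.exp (t / 8) * Real.exp (-(3 * t / 8)) :=
          mul_le_mul_of_nonneg_right h4 (Real.exp_pos _).le
      _ = Real.exp (-(t / 4)) := by rw [← Real.exp_add]; congr 1; ring
  linarith

theorem eventually_eight_le : ∀ᶠ x : ℝ in atTop, 8 ≤ eta x * width x := by
  filter_upwards [eventually_pow_le 8 (show (0 : ℝ) < 49 / 50 by norm_num),
    tendsto_llx.eventually_ge_atTop 1] with x h hL
  obtain ⟨-, -, -, -, -, -, -, heta, -⟩ := param_bounds hL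
  rw [← heta]
  simpa using h

open scoped Classical in
/-- Pairs without big squares: the common primes are removed. -/
theorem sqPairs_inner_le {x : ℝ} (hx : CollideOK x)
    (hlen : ∀ (qs : List ℕ) (m : ℕ), IsConf x qs m → IsGood x qs → (qs.length : ℝ) ≤ goodLen x)
    (hIx : ∀ S : Finset ((List ℕ × ℕ) × (List ℕ × ℕ)),
      (∀ a ∈ S, IsConf x a.1.1 a.1.2 ∧ IsConf x a.2.1 a.2.2 ∧
        a.1.1 ≠ [] ∧ (∀ q' ∈ a.2.1, q' < a.1.1.getD 0 0) ∧
        List.Disjoint a.1.1 a.2.1 ∧ IsGood x a.1.1 ∧ eta x ≤ slackAt x a.1.1 0 ∧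
        confValue a.1.1 a.1.2 = confValue a.2.1 a.2.2 ∧ SqOK x (confValue a.1.1 a.1.2)) →
      (∑ a ∈ S, (1 : ℝ) / (confValue a.1.1 a.1.2 : ℝ)) ≤ Real.exp (-(eta x * width x / 2)))
    (P1 : Finset ((List ℕ × ℕ) × (List ℕ × ℕ)))
    (hmemP : ∀ p ∈ P1, IsConf x p.1.1 p.1.2 ∧ IsGood x p.1.1 ∧ IsConf x p.2.1 p.2.2 ∧
      confValue p.1.1 p.1.2 = confValue p.2.1 p.2.2 ∧ TopSide x p.1 p.2 ∧
      SqOK x (confValue p.1.1 p.1.2)) :
    ∑ p ∈ P1, (1 : ℝ) / (confValue p.1.1 p.1.2 : ℝ)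
      ≤ (llx x ^ 3) ^ ⌊goodLen x⌋₊ * Real.exp (-(eta x * width x / 2)) := by
  set com : (List ℕ × ℕ) × (List ℕ × ℕ) → Finset ℕ := fun p => commonSet p.1.1 p.2.1 with hcom
  set v : List ℕ × ℕ → ℕ := fun a => confValue a.1 a.2 with hv
  have h2 := sum_by_common P1 (fun p => (1 : ℝ) / (v p.1 : ℝ)) com primeWt primeWt_nonneg
    (capSet x) ⌊goodLen x⌋₊ (Real.exp (-(eta x * width x / 2))) (Real.exp_pos _).le
    (fun p hp => by
      obtain ⟨hA, hG, -⟩ := hmemP p hp
      exact ⟨hA.commonSet_subset _,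
        (card_commonSet_le _ _).trans (Nat.le_floor (hlen _ _ hA hG))⟩)
    (fun C _ => by
      set R := P1.filter (fun p => com p = C) with hR
      set φ : (List ℕ × ℕ) × (List ℕ × ℕ) → (List ℕ × ℕ) × (List ℕ × ℕ) := fun p =>
        ((restList p.1.1 p.2.1, p.1.2), (restList p.2.1 p.1.1, p.2.2)) with hφ
      have hinj : Set.InjOn φ (R : Set ((List ℕ × ℕ) × (List ℕ × ℕ))) := by
        intro p hp p' hp' he
        obtain ⟨hpP, hpC⟩ := mem_filter.1 hp
        obtain ⟨hpP', hpC'⟩ := mem_filter.1 hp'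
        obtain ⟨hA, -, hB, -⟩ := hmemP p hpP
        obtain ⟨hA', -, hB', -⟩ := hmemP p' hpP'
        simp only [hφ, Prod.mk.injEq] at he
        have hC' : commonSet p.1.1 p.2.1 = commonSet p'.1.1 p'.2.1 := hpC.trans hpC'.symm
        refine Prod.ext (Prod.ext (list_eq_of_common_rest hA.desc hA'.desc hC' he.1.1) he.1.2)
          (Prod.ext (list_eq_of_common_rest hB.desc hB'.desc ?_ he.2.1) he.2.2)
        rw [commonSet_comm p.2.1, commonSet_comm p'.2.1, hC']
      have hD : ∀ p ∈ R, v p.1 = (∏ q ∈ C, (q - 1)) * confValue (φ p).1.1 (φ p).1.2 := by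
        intro p hp
        obtain ⟨hpP, hpC⟩ := mem_filter.1 hp
        rw [← hpC]
        exact confValue_restList (desc_nodup (hmemP p hpP).1.desc) p.2.1 p.1.2
      have hkey := hIx (R.image φ) (fun b hb => by
        obtain ⟨p, hp, rfl⟩ := mem_image.1 hb
        obtain ⟨hpP, hpC⟩ := mem_filter.1 hp
        obtain ⟨hA, hG, hB, hpv, ⟨hne, hlt, hs⟩, hsq⟩ := hmemP p hpP
        refine ⟨hA.sublist (restList_sublist _ _), hB.sublist (restList_sublist _ _), hne, hlt,
          restList_disjoint _ _, hG.sublist (restList_sublist _ _), hs, ?_, ?_⟩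
        · have hpos := hA.commonProd_pos p.2.1
          refine Nat.eq_of_mul_eq_mul_left hpos ?_
          rw [← confValue_restList (desc_nodup hA.desc), commonSet_comm,
            ← confValue_restList (desc_nodup hB.desc)]
          exact hpv
        · exact hsq.dvd_mono ⟨∏ q ∈ C, (q - 1), (hD p hp).trans (Nat.mul_comm _ _)⟩)
      rw [sum_image hinj] at hkey
      have e : ∑ p ∈ R, (1 : ℝ) / (v p.1 : ℝ) = (∏ q ∈ C, primeWt q)
          * ∑ p ∈ R, (1 : ℝ) / (confValue (φ p).1.1 (φ p).1.2 : ℝ) := by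
        rw [mul_sum, prod_primeWt]
        refine sum_congr rfl fun p hp => ?_
        rw [hD p hp, Nat.cast_mul, one_div_mul_one_div]
      rw [e]
      exact mul_le_mul_of_nonneg_left hkey (prod_nonneg fun q _ => primeWt_nonneg q))
  refine h2.trans (mul_le_mul_of_nonneg_right ?_ (Real.exp_pos _).le)
  exact pow_le_pow_left₀
    (add_nonneg zero_le_one (sum_nonneg fun q _ => primeWt_nonneg q)) hx.primeMass _

/-- `DistinctPin`, given the cell masses and the inner majorant. -/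
theorem distinctPin_of (hM : CellMassPin) (hI : InnerMajorantPin) : DistinctPin := by
  classical
  filter_upwards [eventually_collideOK hM, hI, eventually_length_le_goodLen,
    eventually_eight_le] with x hx hIx hlen h8 i S hS hdet
  set v : List ℕ × ℕ → ℕ := fun a => confValue a.1 a.2 with hv
  set Q : Finset ((List ℕ × ℕ) × (List ℕ × ℕ)) :=
    (S ×ˢ S).filter (fun p => v p.1 = v p.2 ∧ TopSide x p.1 p.2) with hQ
  have hQv : ∀ p ∈ Q, v p.1 = v p.2 := fun p hp => (mem_filter.1 hp).2.1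
  have hQS : ∀ p ∈ Q, p.1 ∈ S ∧ p.2 ∈ S := fun p hp => mem_product.1 (mem_filter.1 hp).1
  have hpair : ∀ a ∈ S, ∀ b ∈ S, v a = v b → a ≠ b → (a, b) ∈ Q ∨ (b, a) ∈ Q := by
    intro a ha b hb hab hne
    rcases topSide_total (hS a ha) (hS b hb) (hdet a ha b hb) hab hne with h | h
    · exact Or.inl (mem_filter.2 ⟨mem_product.2 ⟨ha, hb⟩, hab, h⟩)
    · exact Or.inr (mem_filter.2 ⟨mem_product.2 ⟨hb, ha⟩, hab.symm, h⟩)
  have h1 := sum_le_image_add_pairs v (fun n : ℕ => (1 : ℝ) / n) (fun n => by positivity) Q hQv S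
    hpair
  rw [filter_eq_self.2 hQS] at h1
  refine h1.trans ?_
  refine add_le_add le_rfl ?_
  rw [← sum_filter_add_sum_filter_not Q (fun p => SqOK x (v p.1))]
  refine le_trans (add_le_add ?_ ?_) (collide_total_le hx h8)
  · refine sqPairs_inner_le hx hlen hIx _ fun p hp => ?_
    obtain ⟨hpQ, hsq⟩ := mem_filter.1 hp
    obtain ⟨hpS, hpv, htop⟩ := mem_filter.1 hpQ
    obtain ⟨ha, hb⟩ := mem_product.1 hpS
    exact ⟨(hS _ ha).1, (hS _ ha).2.1, (hS _ hb).1, hpv, htop, hsq⟩
  · refine nonSq_pairs_le (M := ⌊Real.exp (Real.exp (5 * llx x))⌋₊) hx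
      (Q.filter (fun p => ¬ SqOK x (v p.1)))
      (fun p : (List ℕ × ℕ) × (List ℕ × ℕ) => v p.1) (fun p hp => ?_) ?_ (fun w => ?_)
    · obtain ⟨hpQ, hsq⟩ := mem_filter.1 hp
      have hA := (hS _ (hQS p hpQ).1).1
      have hpos : 0 < v p.1 := confValue_pos hx.par hA
      exact ⟨hpos, Nat.le_floor ((Real.log_le_iff_le_exp (by exact_mod_cast hpos)).1
        (log_confValue_le hx hA)), hsq⟩
    · rcases Nat.eq_zero_or_pos ⌊Real.exp (Real.exp (5 * llx x))⌋₊ with h0 | h0
      · rw [h0, Nat.cast_zero, Real.log_zero]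
        positivity
      · exact (Real.log_le_iff_le_exp (by exact_mod_cast h0)).2
          (Nat.floor_le (Real.exp_pos _).le)
    · have hsub : (Q.filter (fun p => ¬ SqOK x (v p.1))).filter (fun p => v p.1 = w)
          ⊆ (S.filter (fun a => v a = w)) ×ˢ (S.filter (fun a => v a = w)) := by
        intro p hp
        simp only [mem_filter] at hp
        obtain ⟨⟨hpQ, -⟩, hpw⟩ := hp
        exact mem_product.2 ⟨mem_filter.2 ⟨(hQS p hpQ).1, hpw⟩,
          mem_filter.2 ⟨(hQS p hpQ).2, (hQv p hpQ).symm.trans hpw⟩⟩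
      have hc := card_conf_fibre_le hx (S.filter (fun a => v a = w)) w fun a ha =>
        ⟨(hS a (mem_filter.1 ha).1).1, (mem_filter.1 ha).2⟩
      refine le_trans (Nat.cast_le.2 (card_le_card hsub)) ?_
      rw [card_product, Nat.cast_mul]
      exact mul_le_mul hc hc (Nat.cast_nonneg _) (Real.exp_pos _).le

end Vale.Agent.P031
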