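import Vale.Agent.P031.CollideParam

/-!
# P031: configurations with one value

At most `exp (L²)` configurations share a value, their values are below `exp (exp (5 L))`, safe
lists lie below `x ^ (1 / (3 N₀))`, and a configuration gives a preimage of its value.
-/

namespace Vale.Agent.P031

open Finset

theorem RowOK.omega_le {x : ℝ} (hx : CollideOK x) {ℓ q : ℕ} (h : RowOK x ℓ q) :
    (ArithmeticFunction.cardFactors (q - 1) : ℝ) ≤ 22 * llx x := by
  have hw := hx.par.width_pos
  have hdev : 0 ≤ devBd x := Real.rpow_nonneg (by linarith [hx.L10]) _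
  have hc := h.cost (fun _ => (1 : ℝ)) 1 (fun _ => zero_le_one) (fun _ _ => rfl)
  have hlen : ((q - 1).primeFactorsList.map fun _ => (1 : ℝ)).sum
      = (ArithmeticFunction.cardFactors (q - 1) : ℝ) := by
    rw [ArithmeticFunction.cardFactors_apply, List.map_const', List.sum_replicate, nsmul_eq_mul,
      mul_one]
  rw [hlen] at hc
  have hsum : ∑ j ∈ range (numCells x + 1),
      (if cutCell x < j ∧ j < ℓ then (1 : ℝ) else 0) * (width x + devBd x)
      ≤ ((numCells x : ℝ) + 1) * (2 * width x) := by
    refine (sum_le_sum (g := fun _ => 2 * width x) fun j _ => ?_).trans (le_of_eq ?_)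
    · split
      · linarith [hx.dev]
      · linarith
    · rw [sum_const, card_range, nsmul_eq_mul]
      push_cast
      rfl
  have hcut : (cutCell x : ℝ) ≤ numCells x := by
    have := hx.par.cut
    exact_mod_cast (by omega : cutCell x ≤ numCells x)
  have hJ : (0 : ℝ) ≤ numCells x := Nat.cast_nonneg _
  have := hx.cells
  nlinarith

theorem omega_confValue_le {x : ℝ} (hx : CollideOK x) {qs : List ℕ} {m : ℕ} (h : IsConf x qs m) :
    (ArithmeticFunction.cardFactors (confValue qs m) : ℝ) ≤ 22 * llx x * ((maxLen x : ℝ) + 1) := by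
  have hL := hx.L10
  have key : ∀ A : List ℕ, (∀ q ∈ A, q ∈ qs) → confValue A m ≠ 0 ∧
      (ArithmeticFunction.cardFactors (confValue A m) : ℝ)
        ≤ 22 * llx x * A.length + smallOmega x := by
    intro A
    induction A with
    | nil =>
      intro _
      refine ⟨by simpa [confValue_nil] using h.part.ne_zero, ?_⟩
      simpa [confValue_nil] using h.part.omega
    | cons q A ih =>
      intro hA
      obtain ⟨h0, h1⟩ := ih fun a ha => hA a (List.mem_cons_of_mem _ ha)
      have hq := hA q List.mem_cons_self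
      have hq1 : q - 1 ≠ 0 := by
        have := (h.normal q hq).prime.two_le
        omega
      have h2 := (h.rowOK hx.par hq).omega_le hx
      rw [confValue_cons]
      refine ⟨Nat.mul_ne_zero hq1 h0, ?_⟩
      rw [ArithmeticFunction.cardFactors_mul hq1 h0, List.length_cons]
      push_cast
      linarith
  have hB : smallOmega x ≤ llx x := by
    calc smallOmega x ≤ llx x ^ (1 : ℝ) :=
          Real.rpow_le_rpow_of_exponent_le (by linarith) (by norm_num)
      _ = llx x := Real.rpow_one _
  have hlen : (qs.length : ℝ) ≤ maxLen x := by exact_mod_cast h.short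
  have := (key qs fun _ hq => hq).2
  have := mul_le_mul_of_nonneg_left hlen (show 0 ≤ 22 * llx x by linarith)
  linarith

theorem two_pow_le_exp (k : ℕ) : (2 : ℝ) ^ k ≤ Real.exp k := by
  rw [← mul_one (k : ℝ), Real.exp_nat_mul]
  exact pow_le_pow_left₀ zero_le_two (by linarith [Real.add_one_le_exp (1 : ℝ)]) k

/-- Few configurations share a value. -/
theorem card_conf_fibre_le {x : ℝ} (hx : CollideOK x) (S : Finset (List ℕ × ℕ)) (w : ℕ)
    (hS : ∀ a ∈ S, IsConf x a.1 a.2 ∧ confValue a.1 a.2 = w) :
    (S.card : ℝ) ≤ Real.exp (llx x ^ 2) := by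
  classical
  rcases S.eq_empty_or_nonempty with hE | ⟨a0, ha0⟩
  · rw [hE, card_empty, Nat.cast_zero]
    positivity
  obtain ⟨h0, hw0⟩ := hS a0 ha0
  have hwpos : 0 < w := hw0 ▸ confValue_pos hx.par h0
  set U : Finset ℕ := w.divisors.image (fun d => d + 1) with hU
  have hinj : Set.InjOn (fun a : List ℕ × ℕ => a.1.toFinset) (S : Set (List ℕ × ℕ)) := by
    intro a ha b hb hab
    obtain ⟨ha1, ha2⟩ := hS a ha
    obtain ⟨hb1, hb2⟩ := hS b hb
    have e : a.1 = b.1 := desc_ext ha1.desc hb1.desc fun q => by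
      rw [← List.mem_toFinset, ← List.mem_toFinset]
      exact iff_of_eq (congrArg (fun s : Finset ℕ => q ∈ s) hab)
    have hpos : 0 < (b.1.map (fun q => q - 1)).prod := Nat.pos_of_ne_zero fun h0' => by
      have := confValue_pos hx.par hb1
      simp [confValue, h0'] at this
    refine Prod.ext e (Nat.eq_of_mul_eq_mul_left hpos ?_)
    have e2 := ha2.trans hb2.symm
    rw [confValue, confValue, e] at e2
    exact e2
  have h1 : (S.card : ℝ)
      = ∑ C ∈ S.image (fun a : List ℕ × ℕ => a.1.toFinset), ∏ _q ∈ C, (1 : ℝ) := by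
    simp [card_image_of_injOn hinj]
  have h2 := sum_prods_subsets_le (fun _ => (1 : ℝ)) (fun _ => zero_le_one) U (maxLen x)
    (S.image (fun a : List ℕ × ℕ => a.1.toFinset)) (fun C hC => by
      obtain ⟨a, ha, rfl⟩ := mem_image.1 hC
      obtain ⟨ha1, ha2⟩ := hS a ha
      refine ⟨fun q hq => ?_, (List.toFinset_card_le _).trans ha1.short⟩
      have hq' := List.mem_toFinset.1 hq
      refine mem_image.2 ⟨q - 1, Nat.mem_divisors.2 ⟨?_, hwpos.ne'⟩, ?_⟩
      · rw [← ha2]
        exact Dvd.dvd.mul_right (List.dvd_prod (List.mem_map.2 ⟨q, hq', rfl⟩)) _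
      · have := (ha1.normal q hq').prime.two_le
        omega)
  rw [h1]
  refine h2.trans ?_
  set k := ArithmeticFunction.cardFactors w with hk
  have h3 : 1 + ∑ q ∈ U, (1 : ℝ) ≤ (2 : ℝ) ^ (k + 1) := by
    have h4 : (U.card : ℝ) ≤ (2 : ℝ) ^ k := by
      exact_mod_cast card_image_le.trans (card_divisors_le_two_pow hwpos.ne')
    have h5 : (1 : ℝ) ≤ 2 ^ k := one_le_pow₀ (by norm_num)
    rw [sum_const, nsmul_eq_mul, mul_one, pow_succ]
    linarith
  refine (pow_le_pow_left₀ (by positivity) h3 _).trans ?_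
  rw [← pow_mul]
  refine (two_pow_le_exp _).trans (Real.exp_le_exp.2 ?_)
  push_cast
  have hk' : (k : ℝ) ≤ 22 * llx x * ((maxLen x : ℝ) + 1) := by
    have := omega_confValue_le hx h0
    rwa [hw0] at this
  have := hx.lenSq
  have hN : (0 : ℝ) ≤ maxLen x := Nat.cast_nonneg _
  nlinarith [mul_le_mul_of_nonneg_right hk' hN, hx.L10]

theorem log_confValue_le {x : ℝ} (hx : CollideOK x) {qs : List ℕ} {m : ℕ} (h : IsConf x qs m) :
    Real.log (confValue qs m) ≤ Real.exp (5 * llx x) := by
  have hL := hx.L10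
  have key : ∀ A : List ℕ, (∀ q ∈ A, q ∈ qs) → confValue A m ≠ 0 ∧
      Real.log (confValue A m) ≤ ((A.length : ℝ) + 1) * Real.exp (4 * llx x) := by
    intro A
    induction A with
    | nil =>
      intro _
      refine ⟨by simpa [confValue_nil] using h.part.ne_zero, ?_⟩
      have hm : (0 : ℝ) < m := by exact_mod_cast Nat.pos_of_ne_zero h.part.ne_zero
      have h1 := Real.log_le_log hm h.part.le
      rw [Real.log_exp] at h1
      simp only [confValue_nil, List.length_nil, Nat.cast_zero, zero_add, one_mul]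
      refine h1.trans (Real.exp_le_exp.2 ?_)
      have h2 : (cutCell x : ℝ) ≤ numCells x := by
        have := hx.par.cut
        exact_mod_cast (by omega : cutCell x ≤ numCells x)
      have := hx.cells
      nlinarith [hx.par.width_pos]
    | cons q A ih =>
      intro hA
      obtain ⟨h0, h1⟩ := ih fun a ha => hA a (List.mem_cons_of_mem _ ha)
      have hq := hA q List.mem_cons_self
      have hq2 := (h.normal q hq).prime.two_le
      have hq1 : q - 1 ≠ 0 := by omega
      rw [confValue_cons]
      refine ⟨Nat.mul_ne_zero hq1 h0, ?_⟩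
      have hlq : Real.log ((q - 1 : ℕ) : ℝ) ≤ Real.exp (4 * llx x) := by
        have h2 : Real.log ((q - 1 : ℕ) : ℝ) ≤ Real.log (q : ℝ) :=
          Real.log_le_log (by exact_mod_cast Nat.pos_of_ne_zero hq1)
            (by exact_mod_cast Nat.sub_le q 1)
        have hlog : 0 < Real.log (q : ℝ) := Real.log_pos (by exact_mod_cast (by omega : 1 < q))
        have h3 : Real.log (q : ℝ) ≤ Real.exp (llx x + 1) :=
          (Real.log_le_iff_le_exp hlog).1 (h.capped q hq)
        exact h2.trans (h3.trans (Real.exp_le_exp.2 (by linarith)))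
      rw [Nat.cast_mul, Real.log_mul (by exact_mod_cast hq1) (by exact_mod_cast h0),
        List.length_cons, Nat.cast_succ]
      linarith
  refine ((key qs fun _ hq => hq).2).trans ?_
  have hlen : (qs.length : ℝ) + 1 ≤ llx x := by
    have h1 : (qs.length : ℝ) ≤ maxLen x := by exact_mod_cast h.short
    have h2 := hx.lenSq
    have hN : (1 : ℝ) ≤ (maxLen x : ℝ) + 1 := le_add_of_nonneg_left (Nat.cast_nonneg _)
    nlinarith
  have h3 : llx x ≤ Real.exp (llx x) := by linarith [Real.add_one_le_exp (llx x)]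
  calc ((qs.length : ℝ) + 1) * Real.exp (4 * llx x)
      ≤ Real.exp (llx x) * Real.exp (4 * llx x) := by gcongr; linarith
    _ = Real.exp (5 * llx x) := by rw [← Real.exp_add]; ring_nf

theorem IsConf.commonSet_subset {x : ℝ} {A : List ℕ} {m : ℕ} (h : IsConf x A m) (B : List ℕ) :
    commonSet A B ⊆ capSet x := fun q hq => by
  have hq' : q ∈ A := List.mem_toFinset.1 (mem_inter.1 hq).1
  exact mem_biUnion.2 ⟨cell x q,
    mem_range.2 (Nat.lt_succ_of_le (cell_le_numCells x q)),
    mem_cellPrimes (h.normal q hq').prime rfl (h.capped q hq')⟩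

theorem IsConf.commonProd_pos {x : ℝ} {A : List ℕ} {m : ℕ} (h : IsConf x A m) (B : List ℕ) :
    0 < ∏ q ∈ commonSet A B, (q - 1) :=
  prod_pos fun q hq => by
    have := (h.normal q (List.mem_toFinset.1 (mem_inter.1 hq).1)).prime.two_le
    omega

theorem prod_primeWt (C : Finset ℕ) :
    ∏ q ∈ C, primeWt q = 1 / ((∏ q ∈ C, (q - 1) : ℕ) : ℝ) := by
  simp only [primeWt]
  rw [Nat.cast_prod, prod_div_distrib, prod_const_one]

theorem lt_rpow_of_ll_lt {x : ℝ} (hx : 1 < x) {N : ℝ} (hN : 0 < N) {r : ℕ} (hr : 2 ≤ r)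
    (h : ll r < llx x - Real.log N) : (r : ℝ) < x ^ (1 / N) := by
  have hlog : 0 < Real.log (r : ℝ) := Real.log_pos (by exact_mod_cast (by omega : 1 < r))
  have hlx : 0 < Real.log x := Real.log_pos hx
  have h1 : Real.log (r : ℝ) < Real.log x / N := by
    have h2 : Real.exp (ll r) < Real.exp (llx x - Real.log N) := Real.exp_lt_exp.2 h
    rwa [ll, Real.exp_log hlog, Real.exp_sub, llx, Real.exp_log hlx, Real.exp_log hN] at h2
  rw [Real.rpow_def_of_pos (by linarith), mul_one_div]
  exact (Real.log_lt_iff_lt_exp (by positivity)).1 h1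

theorem ll_lt_of_cell_lt {x : ℝ} (hw : 0 < width x) {r : ℕ} (h : cell x r < numCells x) :
    ll r < ((cell x r : ℝ) + 1) * width x := by
  have e : cell x r = ⌊ll r / width x⌋₊ := by
    unfold cell at h ⊢
    omega
  have := Nat.lt_floor_add_one (ll r / width x)
  rw [div_lt_iff₀ hw, ← e] at this
  exact this

/-- Primes in cells `≤ j₀` lie below `x ^ (1 / (3 N₀))`. -/
theorem low_prime_lt {x : ℝ} (hx : CollideOK x) (hx1 : 1 < x) {r : ℕ} (hr : 2 ≤ r)
    (hc : cell x r ≤ cutCell x) : (r : ℝ) < x ^ (1 / (3 * (maxLen x : ℝ))) := by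
  have hN : (1 : ℝ) ≤ maxLen x := by exact_mod_cast hx.par.len_pos
  have hw := hx.par.width_pos
  refine lt_rpow_of_ll_lt hx1 (by positivity) hr ?_
  have hJ : (numCells x : ℝ) * width x = llx x := numCells_mul_width (by linarith [hx.L10])
  have hlt : cell x r < numCells x := by
    have h0 : (cutCell x : ℝ) * width x < (numCells x : ℝ) * width x := by
      have := hx.lowRoom
      have h3 : 0 ≤ Real.log (3 * (maxLen x : ℝ)) := Real.log_nonneg (by linarith)
      nlinarith
    have : (cutCell x : ℝ) < numCells x := lt_of_mul_lt_mul_right h0 hw.le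
    have : cutCell x < numCells x := by exact_mod_cast this
    omega
  have h1 := ll_lt_of_cell_lt hw hlt
  have h2 : ((cell x r : ℝ) + 1) * width x ≤ ((cutCell x : ℝ) + 1) * width x := by
    gcongr
  linarith [hx.lowRoom]

/-- Safe lists lie below `x ^ (1 / (3 N₀))`. -/
theorem safe_prime_lt {x : ℝ} (hx : CollideOK x) (hx1 : 1 < x) {qs : List ℕ} {m : ℕ}
    (h : IsConf x qs m) (hs : IsSafe x qs) {r : ℕ} (hr : r ∈ qs) :
    (r : ℝ) < x ^ (1 / (3 * (maxLen x : ℝ))) := by
  cases qs with
  | nil => simp at hr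
  | cons q tl =>
    have hN : (1 : ℝ) ≤ maxLen x := by exact_mod_cast hx.par.len_pos
    have hw := hx.par.width_pos
    have hq2 := (h.normal q List.mem_cons_self).prime.two_le
    have hgap : 2 * eta x ≤ (numCells x : ℝ) - cell x q := hs.2.2
    have hlt : cell x q < numCells x := by
      have h1 : (cell x q : ℝ) < numCells x := by linarith [hx.etaOne]
      exact_mod_cast h1
    have hqlt : (q : ℝ) < x ^ (1 / (3 * (maxLen x : ℝ))) := by
      refine lt_rpow_of_ll_lt hx1 (by positivity) hq2 ?_
      have h1 := ll_lt_of_cell_lt hw hlt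
      have hJ : (numCells x : ℝ) * width x = llx x := numCells_mul_width (by linarith [hx.L10])
      have h2 : ((cell x q : ℝ) + 1) * width x ≤ ((numCells x : ℝ) - eta x) * width x := by
        gcongr
        linarith [hx.etaOne]
      have := hx.topRoom
      linarith
    rcases List.mem_cons.1 hr with rfl | hr'
    · exact hqlt
    · have h3 : r < q := (List.pairwise_cons.1 h.desc).1 r hr'
      have h4 : (r : ℝ) < q := by exact_mod_cast h3
      linarith

/-- A preimage of the value of a configuration. -/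
theorem totient_conf {x : ℝ} {qs : List ℕ} {m : ℕ} (h : IsConf x qs m) :
    ∃ n : ℕ, 0 < n ∧ n.totient = confValue qs m ∧
      ∀ r : ℕ, r.Prime → r ∣ n → r ∈ qs ∨ cell x r ≤ cutCell x := by
  obtain ⟨ns, hns, htot, hcell⟩ := h.part.isTot
  have key : ∀ A : List ℕ, A.Pairwise (fun a b => b < a) → (∀ q ∈ A, q ∈ qs) →
      ∃ n : ℕ, 0 < n ∧ n.totient = confValue A m ∧
        ∀ r : ℕ, r.Prime → r ∣ n → r ∈ A ∨ cell x r ≤ cutCell x := by
    intro A
    induction A with
    | nil =>
      intro _ _
      exact ⟨ns, hns, by rw [htot, confValue_nil],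
        fun r hr hd => Or.inr (hcell r (Nat.mem_primeFactors.2 ⟨hr, hd, hns.ne'⟩))⟩
    | cons q A ih =>
      intro hd hA
      obtain ⟨hd1, hd2⟩ := List.pairwise_cons.1 hd
      obtain ⟨n, hn, ht, hp⟩ := ih hd2 fun a ha => hA a (List.mem_cons_of_mem _ ha)
      have hq := hA q List.mem_cons_self
      have hqp := (h.normal q hq).prime
      have hco : Nat.Coprime q n := (hqp.coprime_iff_not_dvd).2 fun hdv => by
        rcases hp q hqp hdv with h1 | h1
        · exact lt_irrefl q (hd1 q h1)
        · have := h.big q hq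
          omega
      refine ⟨q * n, Nat.mul_pos hqp.pos hn, ?_, fun r hr hdv => ?_⟩
      · rw [Nat.totient_mul hco, Nat.totient_prime hqp, ht, confValue_cons]
      · rcases hr.dvd_mul.1 hdv with h1 | h1
        · rw [(Nat.prime_dvd_prime_iff_eq hr hqp).1 h1]
          exact Or.inl List.mem_cons_self
        · exact (hp r hr h1).imp_left (List.mem_cons_of_mem _)
  exact key qs h.desc fun _ hq => hq

end Vale.Agent.P031
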