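import Vale.Agent.P031.Collide

/-!
# P031: the lower bound

The numbers `(p - 1) w` with `w` a safe value and `p` a large normal prime are totients, and few of
them coincide.
-/

namespace Vale.Agent.P031

open Finset Filter

/-- The prime and the configuration of the value. -/
def repOf (qf : ℕ → List ℕ) (mf : ℕ → ℕ) (a : (_ : ℕ) × ℕ) : ℕ × List ℕ × ℕ :=
  (a.2, qf a.1, mf a.1)

/-- The value `(p - 1) w`. -/
def topValue (a : (_ : ℕ) × ℕ) : ℕ := (a.2 - 1) * a.1

/-- What the representations in the lower bound satisfy. -/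
structure GoodRep (x Y : ℝ) (qf : ℕ → List ℕ) (mf : ℕ → ℕ) (a : (_ : ℕ) × ℕ) : Prop where
  normal : Normal x (numCells x) a.2
  large : x ^ (1 / (3 * (maxLen x : ℝ))) ≤ (a.2 : ℝ)
  conf : IsConf x (qf a.1) (mf a.1)
  safe : IsSafe x (qf a.1)
  eqv : confValue (qf a.1) (mf a.1) = a.1
  le : (topValue a : ℝ) ≤ Y

theorem GoodRep.value_pos {x Y : ℝ} (hx : CollideOK x) {qf : ℕ → List ℕ} {mf : ℕ → ℕ}
    {a : (_ : ℕ) × ℕ} (h : GoodRep x Y qf mf a) : 0 < topValue a := by
  have h1 : 0 < a.1 := h.eqv ▸ confValue_pos hx.par h.conf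
  have h2 := h.normal.prime.two_le
  exact Nat.mul_pos (by omega) h1

theorem GoodRep.rowOK {x Y c : ℝ} (hx : CollideOK x) (hx1 : 1 < x)
    (hll : ∀ p : ℕ, 2 ≤ p → (p : ℝ) ≤ c * x + 1 → ll p ≤ llx x + 1) (hY : Y ≤ c * x)
    {qf : ℕ → List ℕ} {mf : ℕ → ℕ} {a : (_ : ℕ) × ℕ} (h : GoodRep x Y qf mf a) :
    RowOK x (numCells x) a.2 := by
  have h2 := h.normal.prime.two_le
  have hN1 : (1 : ℝ) ≤ maxLen x := by exact_mod_cast hx.par.len_pos
  have hpY : (a.2 : ℝ) ≤ c * x + 1 := by
    have h1 : 0 < a.1 := h.eqv ▸ confValue_pos hx.par h.conf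
    have h3 : a.2 - 1 ≤ topValue a := Nat.le_mul_of_pos_right _ h1
    have h4 : ((a.2 - 1 : ℕ) : ℝ) ≤ topValue a := by exact_mod_cast h3
    rw [Nat.cast_sub (by omega)] at h4
    push_cast at h4
    linarith [h.le]
  refine ⟨h.normal, ?_, le_rfl, hll _ h2 hpY, fun r _ => cell_le_numCells x r, ?_⟩
  · have h1 := hx.par.cut
    have h3 : (0 : ℝ) < numCells x := by
      have := hx.etaOne
      unfold eta at this
      rcases Nat.eq_zero_or_pos (numCells x) with h0 | h0
      · rw [h0] at this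
        norm_num at this
      · exact_mod_cast h0
    have h4 : 0 < numCells x := by exact_mod_cast h3
    omega
  · rw [numCells_mul_width (by linarith [hx.L10]), llx, Real.exp_log (Real.log_pos hx1)]
    have h3 := Real.log_le_log (Real.rpow_pos_of_pos (by linarith) _) h.large
    rw [Real.log_rpow (by linarith)] at h3
    rw [div_mul_eq_mul_div, div_le_iff₀ (by linarith), one_mul] at h3
    linarith

theorem GoodRep.omega_le {x Y c : ℝ} (hx : CollideOK x) (hx1 : 1 < x)
    (hll : ∀ p : ℕ, 2 ≤ p → (p : ℝ) ≤ c * x + 1 → ll p ≤ llx x + 1) (hY : Y ≤ c * x)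
    {qf : ℕ → List ℕ} {mf : ℕ → ℕ} {a : (_ : ℕ) × ℕ} (h : GoodRep x Y qf mf a) :
    (ArithmeticFunction.cardFactors (topValue a) : ℝ) ≤ llx x ^ 2 := by
  have h1 : 0 < a.1 := h.eqv ▸ confValue_pos hx.par h.conf
  have h2 : a.2 - 1 ≠ 0 := by
    have := h.normal.prime.two_le
    omega
  rw [topValue, ArithmeticFunction.cardFactors_mul h2 h1.ne', Nat.cast_add]
  have h3 := (h.rowOK hx hx1 hll hY).omega_le hx
  have h4 := omega_confValue_le hx h.conf
  rw [h.eqv] at h4
  have hN : (1 : ℝ) ≤ (maxLen x : ℝ) + 1 := le_add_of_nonneg_left (Nat.cast_nonneg _)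
  have := hx.lenSq
  have hL := hx.L10
  nlinarith

/-- Few representations share a value. -/
theorem card_top_fibre_le {x Y c : ℝ} (hx : CollideOK x) (hx1 : 1 < x)
    (hll : ∀ p : ℕ, 2 ≤ p → (p : ℝ) ≤ c * x + 1 → ll p ≤ llx x + 1) (hY : Y ≤ c * x)
    {qf : ℕ → List ℕ} {mf : ℕ → ℕ} (G : Finset ((_ : ℕ) × ℕ))
    (hG : ∀ a ∈ G, GoodRep x Y qf mf a) (v : ℕ) :
    ((G.filter (fun a => topValue a = v)).card : ℝ) ≤ Real.exp (llx x ^ 2) := by
  rcases (G.filter (fun a => topValue a = v)).eq_empty_or_nonempty with hE | ⟨a0, ha0⟩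
  · rw [hE, card_empty, Nat.cast_zero]
    positivity
  obtain ⟨ha0G, rfl⟩ := mem_filter.1 ha0
  set w := topValue a0 with hw
  have hwpos : 0 < w := (hG a0 ha0G).value_pos hx
  have hc : (G.filter (fun a => topValue a = w)).card ≤ w.divisors.card := by
    refine card_le_card_of_injOn (fun a => a.1) (fun a ha => ?_) ?_
    · exact Nat.mem_divisors.2
        ⟨⟨a.2 - 1, ((mem_filter.1 ha).2).symm.trans (Nat.mul_comm _ _)⟩, hwpos.ne'⟩
    · intro a ha b hb hab
      obtain ⟨haG, hav⟩ := mem_filter.1 ha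
      obtain ⟨hbG, hbv⟩ := mem_filter.1 hb
      have hab' : a.1 = b.1 := hab
      have hpos : 0 < b.1 := (hG b hbG).eqv ▸ confValue_pos hx.par (hG b hbG).conf
      have e := hav.trans hbv.symm
      rw [topValue, topValue, hab'] at e
      have e' := Nat.eq_of_mul_eq_mul_right hpos e
      have := (hG a haG).normal.prime.two_le
      have := (hG b hbG).normal.prime.two_le
      exact Sigma.ext hab' (heq_of_eq (by omega))
  refine (Nat.cast_le.2 (hc.trans (card_divisors_le_two_pow hwpos.ne'))).trans ?_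
  push_cast
  exact (two_pow_le_exp _).trans
    (Real.exp_le_exp.2 ((hG a0 ha0G).omega_le hx hx1 hll hY))

open scoped Classical in
/-- Few pairs of representations share a value. -/
theorem topPairs_le {x Y c : ℝ} (hx : CollideOK x) (hx1 : 1 < x) (hcx : c ≤ x)
    (hlen : ∀ (qs : List ℕ) (m : ℕ), IsConf x qs m → IsGood x qs → (qs.length : ℝ) ≤ goodLen x)
    (hll : ∀ p : ℕ, 2 ≤ p → (p : ℝ) ≤ c * x + 1 → ll p ≤ llx x + 1)
    (hOx : ∀ Z : ℝ, 0 < Z → Z ≤ c * x → ∀ S : Finset ((ℕ × List ℕ × ℕ) × (ℕ × List ℕ × ℕ)),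
      (∀ a ∈ S,
        Normal x (numCells x) a.1.1 ∧ Normal x (numCells x) a.2.1 ∧
        IsConf x a.1.2.1 a.1.2.2 ∧ IsConf x a.2.2.1 a.2.2.2 ∧
        a.2.1 < a.1.1 ∧ x ^ (1 / (3 * (maxLen x : ℝ))) ≤ (a.2.1 : ℝ) ∧
        (∀ q ∈ a.1.2.1, q < a.2.1) ∧ (∀ q ∈ a.2.2.1, q < a.2.1) ∧
        List.Disjoint a.1.2.1 a.2.2.1 ∧ IsGood x a.1.2.1 ∧
        eta x ≤ slack x (numCells x) a.1.2.1 ∧
        (a.1.1 - 1) * confValue a.1.2.1 a.1.2.2 = (a.2.1 - 1) * confValue a.2.2.1 a.2.2.2 ∧
        (((a.1.1 - 1) * confValue a.1.2.1 a.1.2.2 : ℕ) : ℝ) ≤ Z ∧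
        SqOK x ((a.1.1 - 1) * confValue a.1.2.1 a.1.2.2)) →
      (S.card : ℝ) ≤ Z / Real.log x * Real.exp (-(eta x * width x / 2)))
    (hY1 : x ≤ Y) (hY2 : Y ≤ c * x) {qf : ℕ → List ℕ} {mf : ℕ → ℕ}
    (G : Finset ((_ : ℕ) × ℕ)) (hG : ∀ a ∈ G, GoodRep x Y qf mf a) :
    (((G ×ˢ G).filter (fun p => topValue p.1 = topValue p.2 ∧ p.2.2 < p.1.2)).card : ℝ)
      ≤ Y / Real.log x * ((llx x ^ 3) ^ ⌊goodLen x⌋₊ * Real.exp (-(eta x * width x / 2))
          + Real.exp (-(llx x ^ 2))) := by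
  set Q := (G ×ˢ G).filter (fun p => topValue p.1 = topValue p.2 ∧ p.2.2 < p.1.2) with hQ
  have hlogx : 0 < Real.log x := Real.log_pos hx1
  have hY0 : 0 < Y := by linarith
  have hQm : ∀ p ∈ Q, GoodRep x Y qf mf p.1 ∧ GoodRep x Y qf mf p.2 ∧
      topValue p.1 = topValue p.2 ∧ p.2.2 < p.1.2 := by
    intro p hp
    obtain ⟨hpG, hpv, hlt⟩ := mem_filter.1 hp
    exact ⟨hG _ (mem_product.1 hpG).1, hG _ (mem_product.1 hpG).2, hpv, hlt⟩
  rw [← card_filter_add_card_filter_not (s := Q) (fun p => SqOK x (topValue p.1)), Nat.cast_add,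
    mul_add]
  refine add_le_add ?_ ?_
  · set P1 := Q.filter (fun p => SqOK x (topValue p.1)) with hP1
    have hP1Q : ∀ p ∈ P1, p ∈ Q ∧ SqOK x (topValue p.1) := fun p hp => mem_filter.1 hp
    set com : ((_ : ℕ) × ℕ) × ((_ : ℕ) × ℕ) → Finset ℕ :=
      fun p => commonSet (qf p.1.1) (qf p.2.1) with hcom
    have h2 := sum_by_common P1 (fun _ => (1 : ℝ)) com primeWt primeWt_nonneg
      (capSet x) ⌊goodLen x⌋₊ (Y / Real.log x * Real.exp (-(eta x * width x / 2))) (by positivity)
      (fun p hp => by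
        have hA := (hQm p (hP1Q p hp).1).1
        exact ⟨hA.conf.commonSet_subset _,
          (card_commonSet_le _ _).trans (Nat.le_floor (hlen _ _ hA.conf hA.safe.1.1))⟩)
      (fun C hC => by
        set R := P1.filter (fun p => com p = C) with hR
        obtain ⟨p0, hp0, hp0C⟩ := mem_image.1 hC
        set φ : ((_ : ℕ) × ℕ) × ((_ : ℕ) × ℕ) → (ℕ × List ℕ × ℕ) × (ℕ × List ℕ × ℕ) := fun p =>
          ((p.1.2, restList (qf p.1.1) (qf p.2.1), mf p.1.1),
            (p.2.2, restList (qf p.2.1) (qf p.1.1), mf p.2.1)) with hφ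
        have hinj : Set.InjOn φ (R : Set (((_ : ℕ) × ℕ) × ((_ : ℕ) × ℕ))) := by
          intro p hp p' hp' he
          obtain ⟨hpP, hpC⟩ := mem_filter.1 hp
          obtain ⟨hpP', hpC'⟩ := mem_filter.1 hp'
          obtain ⟨hA, hB, -⟩ := hQm p (hP1Q p hpP).1
          obtain ⟨hA', hB', -⟩ := hQm p' (hP1Q p' hpP').1
          simp only [hφ, Prod.mk.injEq] at he
          obtain ⟨⟨e1, e2, e3⟩, e4, e5, e6⟩ := he
          have hC' : commonSet (qf p.1.1) (qf p.2.1) = commonSet (qf p'.1.1) (qf p'.2.1) :=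
            hpC.trans hpC'.symm
          have eA := list_eq_of_common_rest hA.conf.desc hA'.conf.desc hC' e2
          have eB := list_eq_of_common_rest hB.conf.desc hB'.conf.desc
            (by rw [commonSet_comm (qf p.2.1), commonSet_comm (qf p'.2.1), hC']) e5
          have w1 : p.1.1 = p'.1.1 := by rw [← hA.eqv, ← hA'.eqv, eA, e3]
          have w2 : p.2.1 = p'.2.1 := by rw [← hB.eqv, ← hB'.eqv, eB, e6]
          exact Prod.ext (Sigma.ext w1 (heq_of_eq e1)) (Sigma.ext w2 (heq_of_eq e4))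
        set D : ℕ := ∏ q ∈ C, (q - 1) with hD
        have hD0 : 0 < D := by
          rw [hD, ← hp0C]
          exact (hQm p0 (hP1Q p0 hp0).1).1.conf.commonProd_pos _
        have hD1 : (1 : ℝ) ≤ D := by exact_mod_cast hD0
        have hkey := hOx (Y / D) (by positivity) ((div_le_self hY0.le hD1).trans hY2) (R.image φ)
          (fun b hb => by
            obtain ⟨p, hp, rfl⟩ := mem_image.1 hb
            obtain ⟨hpP, hpC⟩ := mem_filter.1 hp
            obtain ⟨hA, hB, hpv, hlt⟩ := hQm p (hP1Q p hpP).1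
            have hsmall : ∀ a : (_ : ℕ) × ℕ, GoodRep x Y qf mf a → ∀ q ∈ qf a.1, q < p.2.2 := by
              intro a ha q hq
              have h3 := (safe_prime_lt hx hx1 ha.conf ha.safe hq).trans_le hB.large
              exact_mod_cast h3
            have eA : topValue p.1
                = D * ((p.1.2 - 1) * confValue (restList (qf p.1.1) (qf p.2.1)) (mf p.1.1)) := by
              have e := confValue_restList (desc_nodup hA.conf.desc) (qf p.2.1) (mf p.1.1)
              rw [hA.eqv] at e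
              rw [hD, ← hpC, topValue]
              nth_rw 1 [e]
              rw [Nat.mul_left_comm]
            have eB : topValue p.2
                = D * ((p.2.2 - 1) * confValue (restList (qf p.2.1) (qf p.1.1)) (mf p.2.1)) := by
              have e := confValue_restList (desc_nodup hB.conf.desc) (qf p.1.1) (mf p.2.1)
              rw [hB.eqv, commonSet_comm] at e
              rw [hD, ← hpC, topValue]
              nth_rw 1 [e]
              rw [Nat.mul_left_comm]
            refine ⟨hA.normal, hB.normal, hA.conf.sublist (restList_sublist _ _),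
              hB.conf.sublist (restList_sublist _ _), hlt, hB.large,
              fun q hq => hsmall _ hA q (mem_restList.1 hq).1,
              fun q hq => hsmall _ hB q (mem_restList.1 hq).1,
              restList_disjoint _ _, hA.safe.1.1.sublist (restList_sublist _ _), ?_,
              Nat.eq_of_mul_eq_mul_left hD0 (eA.symm.trans (hpv.trans eB)), ?_, ?_⟩
            · refine le_trans ?_ (slack_le_of_sublist (restList_sublist _ _) _)
              have := hA.safe.2.1
              linarith [hx.etaOne]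
            · rw [le_div_iff₀ (by positivity)]
              refine le_trans (le_of_eq ?_) hA.le
              rw [eA, Nat.cast_mul D, mul_comm]
            · exact (hP1Q p hpP).2.dvd_mono ⟨D, eA.trans (Nat.mul_comm _ _)⟩)
        rw [card_image_of_injOn hinj] at hkey
        rw [sum_const, nsmul_eq_mul, mul_one, prod_primeWt, ← hD]
        refine hkey.trans (le_of_eq ?_)
        ring)
    rw [sum_const, nsmul_eq_mul, mul_one] at h2
    refine h2.trans ?_
    rw [mul_left_comm (Y / Real.log x)]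
    exact mul_le_mul_of_nonneg_right (pow_le_pow_left₀
      (add_nonneg zero_le_one (sum_nonneg fun q _ => primeWt_nonneg q)) hx.primeMass _)
      (by positivity)
  · set P2 := Q.filter (fun p => ¬ SqOK x (topValue p.1)) with hP2
    have hP2Q : ∀ p ∈ P2, p ∈ Q ∧ ¬ SqOK x (topValue p.1) := fun p hp => mem_filter.1 hp
    have hM0 : (1 : ℝ) ≤ Y := by linarith
    have hlY : Real.log (⌊Y⌋₊ : ℝ) ≤ Real.exp (5 * llx x) := by
      have h1 : (0 : ℝ) < ⌊Y⌋₊ := by exact_mod_cast Nat.floor_pos.2 hM0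
      refine (Real.log_le_log h1 (Nat.floor_le hY0.le)).trans ?_
      have hL := hx.L10
      have h2 : Y ≤ x ^ 2 := by nlinarith
      have h3 := Real.log_le_log hY0 h2
      rw [Real.log_pow, Nat.cast_ofNat] at h3
      have h4 : (2 : ℝ) ≤ Real.exp (4 * llx x) := by linarith [Real.add_one_le_exp (4 * llx x)]
      have h5 : Real.exp (llx x) = Real.log x := Real.exp_log hlogx
      calc Real.log Y ≤ 2 * Real.log x := h3
        _ ≤ Real.exp (4 * llx x) * Real.exp (llx x) := by rw [h5]; gcongr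
        _ = Real.exp (5 * llx x) := by rw [← Real.exp_add]; ring_nf
    have h1 := nonSq_pairs_le (M := ⌊Y⌋₊) hx P2
      (fun p : ((_ : ℕ) × ℕ) × ((_ : ℕ) × ℕ) => topValue p.1)
      (fun p hp => by
        obtain ⟨hA, -⟩ := hQm p (hP2Q p hp).1
        exact ⟨hA.value_pos hx, Nat.le_floor hA.le, (hP2Q p hp).2⟩) hlY
      (fun w => by
        have hsub : P2.filter (fun p => topValue p.1 = w)
            ⊆ (G.filter (fun a => topValue a = w)) ×ˢ (G.filter (fun a => topValue a = w)) := by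
          intro p hp
          obtain ⟨hp2, hpw⟩ := mem_filter.1 hp
          obtain ⟨hpG, hpv, -⟩ := mem_filter.1 (hP2Q p hp2).1
          exact mem_product.2 ⟨mem_filter.2 ⟨(mem_product.1 hpG).1, hpw⟩,
            mem_filter.2 ⟨(mem_product.1 hpG).2, hpv.symm.trans hpw⟩⟩
        have hc' := card_top_fibre_le hx hx1 hll hY2 G hG w
        refine le_trans (Nat.cast_le.2 (card_le_card hsub)) ?_
        rw [card_product, Nat.cast_mul]
        exact mul_le_mul hc' hc' (Nat.cast_nonneg _) (Real.exp_pos _).le)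
    have h2 : (P2.card : ℝ) ≤ Y * ∑ p ∈ P2, (1 : ℝ) / (topValue p.1 : ℝ) := by
      rw [mul_sum, cast_card]
      refine sum_le_sum fun p hp => ?_
      obtain ⟨hA, -⟩ := hQm p (hP2Q p hp).1
      have hv0 : (0 : ℝ) < topValue p.1 := by exact_mod_cast hA.value_pos hx
      rw [mul_one_div, le_div_iff₀ hv0, one_mul]
      exact hA.le
    refine h2.trans ((mul_le_mul_of_nonneg_left h1 hY0.le).trans ?_)
    rw [div_mul_eq_mul_div, le_div_iff₀ hlogx, mul_assoc]
    refine mul_le_mul_of_nonneg_left ?_ hY0.le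
    rw [← Real.exp_log hlogx, ← Real.exp_add]
    refine Real.exp_le_exp.2 ?_
    have hL : 10 ≤ llx x := hx.L10
    show -(2 * llx x ^ 2) + llx x ≤ -(llx x ^ 2)
    nlinarith

open scoped Classical in
/-- `π` as a count. -/
theorem primeCounting_card (n : ℕ) :
    Nat.primeCounting n = ((range (n + 1)).filter Nat.Prime).card := by
  rw [Nat.primeCounting, Nat.primeCounting', Nat.count_eq_card_filter_range]

/-- `LowerPin`, given the cell masses, the abnormal count, the outer majorant and the safe values. -/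
theorem lowerPin_of (hM : CellMassPin) (hA : AbnormalCountPin) (hO : OuterMajorantPin)
    (hMass : SafeMassPin) (hSmall : SafeSmallPin) : LowerPin := by
  classical
  intro c hc δ hδ
  have heps : ∀ᶠ x : ℝ in atTop, epsN x ≤ δ / 8 :=
    ((Real.tendsto_exp_neg_atTop_nhds_zero.comp
      ((tendsto_rpow_atTop (show (0 : ℝ) < 3 / 20 by norm_num)).comp tendsto_llx))).eventually_le_const
      (by linarith)
  have hdec : ∀ᶠ x : ℝ in atTop, Real.exp (-(eta x * width x / 4)) + Real.exp (-(llx x ^ 2))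
      ≤ δ / 4 := by
    have h1 : Tendsto (fun x : ℝ => eta x * width x / 4) atTop atTop := by
      refine Tendsto.atTop_div_const (by norm_num) ?_
      refine ((tendsto_rpow_atTop (show (0 : ℝ) < 49 / 50 by norm_num)).comp
        tendsto_llx).congr' ?_
      filter_upwards [tendsto_llx.eventually_ge_atTop 1] with x hL
      obtain ⟨-, -, -, -, -, -, -, heta, -⟩ := param_bounds hL
      exact heta
    have h2 : Tendsto (fun x : ℝ => llx x ^ 2) atTop atTop :=
      (tendsto_pow_atTop two_ne_zero).comp tendsto_llx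
    have h3 := (Real.tendsto_exp_neg_atTop_nhds_zero.comp h1).add
      (Real.tendsto_exp_neg_atTop_nhds_zero.comp h2)
    rw [add_zero] at h3
    exact h3.eventually_le_const (by linarith)
  have hsmallx : ∀ᶠ x : ℝ in atTop,
      4 * (x ^ (1 / 3 : ℝ) * x ^ (1 / 4 : ℝ)) ≤ δ / 4 * (x / Real.log x) := by
    filter_upwards [(isLittleO_log_rpow_atTop (show (0 : ℝ) < 5 / 12 by norm_num)).bound
      (show (0 : ℝ) < δ / 16 by linarith), eventually_gt_atTop 1] with x hx hx1
    have hl := Real.log_pos hx1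
    rw [Real.norm_of_nonneg hl.le, Real.norm_of_nonneg (Real.rpow_nonneg (by linarith) _)] at hx
    rw [← mul_div_assoc, le_div_iff₀ hl]
    calc 4 * (x ^ (1 / 3 : ℝ) * x ^ (1 / 4 : ℝ)) * Real.log x
        ≤ 4 * (x ^ (1 / 3 : ℝ) * x ^ (1 / 4 : ℝ)) * (δ / 16 * x ^ (5 / 12 : ℝ)) := by gcongr
      _ = δ / 4 * (x ^ (1 / 3 : ℝ) * x ^ (1 / 4 : ℝ) * x ^ (5 / 12 : ℝ)) := by ring
      _ = δ / 4 * x := by
          rw [← Real.rpow_add (by linarith), ← Real.rpow_add (by linarith)]
          norm_num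
  filter_upwards [eventually_collideOK hM, hA, hO c hc, hMass, hSmall (1 / 4) (by norm_num),
    eventually_length_le_goodLen, eventually_ll_le c, eventually_eight_le, heps, hdec, hsmallx,
    eventually_ge_atTop c, eventually_gt_atTop 1]
    with x hx hAx hOx hMx hSx hlen hll h8 hε hde hsm hcx hx1 Y hY1 hY2
  have hlogx : 0 < Real.log x := Real.log_pos hx1
  have hY0 : 0 < Y := by linarith
  have hL := hx.L10
  have hsel : ∀ w ∈ safeVals x, ∃ qs m, IsConf x qs m ∧ IsSafe x qs ∧ confValue qs m = w :=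
    fun w hw => (mem_filter.1 hw).2
  choose! qf mf hqc hqs hqv using hsel
  have hwpos : ∀ w ∈ safeVals x, 0 < w := fun w hw => hqv w hw ▸ confValue_pos hx.par (hqc w hw)
  set T : Finset ((_ : ℕ) × ℕ) := (safeVals x).sigma
    (fun w => (range (⌊Y / w + 1⌋₊ + 1)).filter Nat.Prime) with hT
  have hTcard : mainTerm x Y = (T.card : ℝ) := by
    rw [hT, card_sigma, Nat.cast_sum, mainTerm]
    exact sum_congr rfl fun w _ => by rw [primeCounting_card]
  have hTmem : ∀ a ∈ T, a.1 ∈ safeVals x ∧ a.2.Prime ∧ (a.2 : ℝ) ≤ Y / a.1 + 1 ∧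
      (topValue a : ℝ) ≤ Y := by
    intro a ha
    obtain ⟨h1, h2⟩ := mem_sigma.1 ha
    obtain ⟨h3, h4⟩ := mem_filter.1 h2
    have hw : (0 : ℝ) < a.1 := by exact_mod_cast hwpos _ h1
    have h5 : (a.2 : ℝ) ≤ Y / a.1 + 1 := le_trans
      (Nat.cast_le.2 (Nat.lt_succ_iff.1 (mem_range.1 h3))) (Nat.floor_le (by positivity))
    refine ⟨h1, h4, h5, ?_⟩
    rw [topValue, Nat.cast_mul, Nat.cast_sub h4.one_le, Nat.cast_one, ← le_div_iff₀ hw]
    linarith
  set G := T.filter (fun a => Normal x (numCells x) a.2 ∧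
    x ^ (1 / (3 * (maxLen x : ℝ))) ≤ (a.2 : ℝ)) with hGdef
  have hG : ∀ a ∈ G, GoodRep x Y qf mf a := by
    intro a ha
    obtain ⟨haT, hN, hbig⟩ := mem_filter.1 ha
    obtain ⟨h1, -, -, h4⟩ := hTmem a haT
    exact ⟨hN, hbig, hqc _ h1, hqs _ h1, hqv _ h1, h4⟩
  -- the values are totients
  have himg : ((G.image topValue).card : ℝ) ≤ totCount Y := by
    have hfin : {v : ℕ | 0 < v ∧ (v : ℝ) ≤ Y ∧ ∃ n : ℕ, 0 < n ∧ n.totient = v}.Finite :=
      (Set.finite_Iic ⌊Y⌋₊).subset fun v hv => Nat.le_floor hv.2.1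
    have hsub : (↑(G.image topValue) : Set ℕ)
        ⊆ {v : ℕ | 0 < v ∧ (v : ℝ) ≤ Y ∧ ∃ n : ℕ, 0 < n ∧ n.totient = v} := by
      intro v hv
      obtain ⟨a, ha, rfl⟩ := mem_image.1 (mem_coe.1 hv)
      have hR := hG a ha
      refine ⟨hR.value_pos hx, hR.le, ?_⟩
      obtain ⟨n, hn, ht, hp⟩ := totient_conf hR.conf
      have hp2 := hR.normal.prime
      have hco : Nat.Coprime a.2 n := (hp2.coprime_iff_not_dvd).2 fun hd => by
        rcases hp a.2 hp2 hd with h1 | h1
        · exact absurd hR.large (not_le.2 (safe_prime_lt hx hx1 hR.conf hR.safe h1))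
        · exact absurd hR.large (not_le.2 (low_prime_lt hx hx1 hp2.two_le h1))
      refine ⟨a.2 * n, Nat.mul_pos hp2.pos hn, ?_⟩
      rw [Nat.totient_mul hco, Nat.totient_prime hp2, ht, hR.eqv, topValue]
    have h1 := Set.ncard_le_ncard hsub hfin
    rw [Set.ncard_coe_finset] at h1
    exact_mod_cast h1
  -- collisions
  have hcol : (G.card : ℝ) ≤ ((G.image topValue).card : ℝ)
      + (((G ×ˢ G).filter (fun p => topValue p.1 = topValue p.2 ∧ p.2.2 < p.1.2)).card : ℝ) := by
    have h1 := sum_le_image_add_pairs topValue (fun _ => (1 : ℝ)) (fun _ => zero_le_one)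
      ((G ×ˢ G).filter (fun p => topValue p.1 = topValue p.2 ∧ p.2.2 < p.1.2))
      (fun p hp => (mem_filter.1 hp).2.1) G (fun a ha b hb hab hne => by
        rcases lt_trichotomy a.2 b.2 with h | h | h
        · exact Or.inr (mem_filter.2 ⟨mem_product.2 ⟨hb, ha⟩, hab.symm, h⟩)
        · refine (hne (Sigma.ext ?_ (heq_of_eq h))).elim
          rw [topValue, topValue, h] at hab
          have := (hG b hb).normal.prime.two_le
          exact Nat.eq_of_mul_eq_mul_left (by omega) hab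
        · exact Or.inl (mem_filter.2 ⟨mem_product.2 ⟨ha, hb⟩, hab, h⟩))
    rw [filter_eq_self.2 fun p hp => mem_product.1 (mem_filter.1 hp).1] at h1
    simpa using h1
  have hpairs := topPairs_le hx hx1 hcx hlen hll hOx hY1 hY2 G hG
  -- abnormal top primes
  have hbad1 : ((T.filter (fun a => ¬ Normal x (numCells x) a.2)).card : ℝ)
      ≤ 2 * epsN x * (Y / Real.log x) * mass (safeVals x) := by
    rw [hT, show ((safeVals x).sigma fun w => (range (⌊Y / w + 1⌋₊ + 1)).filter Nat.Prime).filter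
        (fun a => ¬ Normal x (numCells x) a.2)
      = (safeVals x).sigma fun w => ((range (⌊Y / w + 1⌋₊ + 1)).filter Nat.Prime).filter
          (fun p => ¬ Normal x (numCells x) p) by
        ext a; simp [and_assoc], card_sigma, Nat.cast_sum, mass, mul_sum]
    refine sum_le_sum fun w hw => ?_
    have hw0 : (0 : ℝ) < w := by exact_mod_cast hwpos w hw
    have hw1 : (w : ℝ) ≤ x ^ (1 / 4 : ℝ) := hSx w hw
    have hXlo : x ^ (3 / 4 : ℝ) ≤ Y / w := by
      rw [le_div_iff₀ hw0]
      calc x ^ (3 / 4 : ℝ) * w ≤ x ^ (3 / 4 : ℝ) * x ^ (1 / 4 : ℝ) :=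
            mul_le_mul_of_nonneg_left hw1 (Real.rpow_nonneg (by linarith) _)
        _ = x := by rw [← Real.rpow_add (by linarith)]; norm_num
        _ ≤ Y := hY1
    have hXhi : Y / w ≤ x ^ (2 : ℝ) := by
      rw [Real.rpow_two]
      refine (div_le_self hY0.le (by exact_mod_cast hwpos w hw)).trans ?_
      nlinarith
    have hlo2 : x ^ (1 / llx x) ≤ Y / w := by
      refine le_trans (Real.rpow_le_rpow_of_exponent_le hx1.le ?_) hXlo
      rw [div_le_iff₀ (by linarith)]
      linarith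
    refine (hAx (Y / w) hlo2 hXhi _ fun p hp => ?_).trans ?_
    · obtain ⟨hp1, hp2⟩ := mem_filter.1 hp
      obtain ⟨hp3, hp4⟩ := mem_filter.1 hp1
      exact ⟨hp4, le_trans (Nat.cast_le.2 (Nat.lt_succ_iff.1 (mem_range.1 hp3)))
        (Nat.floor_le (by positivity)), hp2⟩
    · have hlog : Real.log x / 2 ≤ Real.log (Y / w) := by
        have h1 := Real.log_le_log (Real.rpow_pos_of_pos (by linarith) _) hXlo
        rw [Real.log_rpow (by linarith)] at h1
        linarith
      have he : 0 ≤ epsN x := (Real.exp_pos _).le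
      calc epsN x * (Y / w) / Real.log (Y / w) ≤ epsN x * (Y / w) / (Real.log x / 2) := by
            gcongr
        _ = 2 * epsN x * (Y / Real.log x) * (1 / w) := by
            field_simp
  -- small top primes
  have hbad2 : ((T.filter (fun a => ¬ x ^ (1 / (3 * (maxLen x : ℝ))) ≤ (a.2 : ℝ))).card : ℝ)
      ≤ δ / 4 * (Y / Real.log x) := by
    have hsub : T.filter (fun a => ¬ x ^ (1 / (3 * (maxLen x : ℝ))) ≤ (a.2 : ℝ))
        ⊆ (range (⌊x ^ (1 / 4 : ℝ)⌋₊ + 1)).sigma
          (fun _ => range (⌊x ^ (1 / 3 : ℝ)⌋₊ + 1)) := by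
      intro a ha
      obtain ⟨haT, hlt⟩ := mem_filter.1 ha
      refine mem_sigma.2 ⟨mem_range.2 (Nat.lt_succ_of_le (Nat.le_floor
        (hSx _ (hTmem a haT).1))), mem_range.2 (Nat.lt_succ_of_le (Nat.le_floor ?_))⟩
      refine (not_le.1 hlt).le.trans (Real.rpow_le_rpow_of_exponent_le hx1.le ?_)
      have hN1 : (1 : ℝ) ≤ maxLen x := by exact_mod_cast hx.par.len_pos
      gcongr
      linarith
    refine le_trans (Nat.cast_le.2 (card_le_card hsub)) ?_
    rw [card_sigma, sum_const, card_range, card_range, smul_eq_mul]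
    push_cast
    have h1 : ∀ e : ℝ, 0 ≤ e → (⌊x ^ e⌋₊ : ℝ) + 1 ≤ 2 * x ^ e := fun e he => by
      have := Nat.floor_le (Real.rpow_nonneg (show 0 ≤ x by linarith) e)
      have := Real.one_le_rpow hx1.le he
      linarith
    calc ((⌊x ^ (1 / 4 : ℝ)⌋₊ : ℝ) + 1) * ((⌊x ^ (1 / 3 : ℝ)⌋₊ : ℝ) + 1)
        ≤ (2 * x ^ (1 / 4 : ℝ)) * (2 * x ^ (1 / 3 : ℝ)) :=
          mul_le_mul (h1 _ (by norm_num)) (h1 _ (by norm_num)) (by positivity) (by positivity)
      _ = 4 * (x ^ (1 / 3 : ℝ) * x ^ (1 / 4 : ℝ)) := by ring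
      _ ≤ δ / 4 * (x / Real.log x) := hsm
      _ ≤ δ / 4 * (Y / Real.log x) := by gcongr
  have hsplit : (T.card : ℝ) ≤ G.card
      + ((T.filter (fun a => ¬ Normal x (numCells x) a.2)).card : ℝ)
      + ((T.filter (fun a => ¬ x ^ (1 / (3 * (maxLen x : ℝ))) ≤ (a.2 : ℝ))).card : ℝ) := by
    have h1 : T ⊆ G ∪ T.filter (fun a => ¬ Normal x (numCells x) a.2)
        ∪ T.filter (fun a => ¬ x ^ (1 / (3 * (maxLen x : ℝ))) ≤ (a.2 : ℝ)) := by
      intro a ha
      simp only [hGdef, mem_union, mem_filter]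
      tauto
    have h2 := (card_le_card h1).trans
      ((card_union_le _ _).trans (Nat.add_le_add_right (card_union_le _ _) _))
    exact_mod_cast h2
  have hmass := hMx.1
  have hbound := collide_total_le hx h8
  set U := Y / Real.log x with hU
  have hU0 : 0 ≤ U := by positivity
  have hC1 : (llx x ^ 3) ^ ⌊goodLen x⌋₊ * Real.exp (-(eta x * width x / 2))
      + Real.exp (-(llx x ^ 2)) ≤ δ / 4 := by
    have : 0 ≤ Real.exp (-(2 * llx x ^ 2)) := (Real.exp_pos _).le
    linarith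
  rw [hTcard]
  have g1 : U * ((llx x ^ 3) ^ ⌊goodLen x⌋₊ * Real.exp (-(eta x * width x / 2))
      + Real.exp (-(llx x ^ 2))) ≤ U * (δ / 4) := mul_le_mul_of_nonneg_left hC1 hU0
  have g2 : 2 * epsN x * U * mass (safeVals x) ≤ δ / 4 * U * mass (safeVals x) :=
    mul_le_mul_of_nonneg_right (mul_le_mul_of_nonneg_right (by linarith) hU0) (by linarith)
  have g3 : U * (δ / 4) ≤ U * (δ / 4) * mass (safeVals x) :=
    le_mul_of_one_le_right (by positivity) hmass
  linarith

end Vale.Agent.P031
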