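import Vale.Agent.P031.CollideTools

/-!
# P031: parameters for collisions

For large `x`: at most `exp (L²)` configurations share a value, big primes exceed `exp (10 L³)`,
common primes cost less than `exp (η Δ / 8)`, and safe lists lie below `x ^ (1 / (3 N₀))`.
-/

namespace Vale.Agent.P031

open Finset Filter

/-- The primes that a configuration may use. -/
noncomputable def capSet (x : ℝ) : Finset ℕ :=
  (range (numCells x + 1)).biUnion (cellPrimes x)

/-- The cost of one common prime. -/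
noncomputable def primeWt (q : ℕ) : ℝ := (1 : ℝ) / ((q - 1 : ℕ) : ℝ)

theorem primeWt_nonneg (q : ℕ) : 0 ≤ primeWt q := by
  unfold primeWt
  positivity

/-- Facts on the parameters which hold for large `x`. -/
structure CollideOK (x : ℝ) : Prop where
  par : ParamOK x
  L10 : 10 ≤ llx x
  dev : devBd x ≤ width x
  cells : ((numCells x : ℝ) + 1) * width x ≤ 2 * llx x
  lenSq : 100 * ((maxLen x : ℝ) + 1) ^ 2 * llx x ≤ llx x ^ 2
  big : ∀ r : ℕ, r.Prime → halfCell x ≤ cell x r → Real.exp (10 * llx x ^ 3) ≤ (r : ℝ)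
  primeMass : (1 + ∑ q ∈ capSet x, primeWt q) ≤ llx x ^ 3
  cost : (llx x ^ 3) ^ ⌊goodLen x⌋₊ ≤ Real.exp (eta x * width x / 8)
  etaOne : 1 ≤ eta x
  topRoom : Real.log (3 * (maxLen x : ℝ)) < eta x * width x
  lowRoom : ((cutCell x : ℝ) + 1) * width x + Real.log (3 * (maxLen x : ℝ)) < llx x

theorem numCells_mul_width {x : ℝ} (hL : 1 ≤ llx x) : (numCells x : ℝ) * width x = llx x := by
  have h1 : 0 < llx x ^ (1 / 5 : ℝ) := Real.rpow_pos_of_pos (by linarith) _
  have h2 : (0 : ℝ) < numCells x := lt_of_lt_of_le h1 (Nat.le_ceil _)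
  unfold width
  rw [mul_div_cancel₀ _ h2.ne']

theorem eventually_collideOK (hM : CellMassPin) : ∀ᶠ x : ℝ in atTop, CollideOK x := by
  obtain ⟨C, hC0, hC⟩ := eventually_cellBd hM
  filter_upwards [eventually_paramOK, hC, tendsto_llx.eventually_ge_atTop (10 + 8 * C),
    eventually_pow_le 2 (show (1 / 2 : ℝ) < 4 / 5 by norm_num),
    eventually_pow_le (100 * 402 ^ 2) (show (28 / 25 : ℝ) < 2 by norm_num),
    eventually_pow_le (4 * 760) (show (1 / 250 : ℝ) < 47 / 50 by norm_num),
    eventually_pow_le (8 * 751) (show (29 / 1000 : ℝ) < 49 / 50 by norm_num),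
    eventually_pow_le 1300 (show (3 / 50 : ℝ) < 49 / 50 by norm_num),
    eventually_pow_le 1400 (show (47 / 50 : ℝ) < 1 by norm_num)]
    with x hp hCx hL hD hlen hbig hcost htop hlow
  obtain ⟨hJ1, hJ2, hW1, hW2, hC1, hC2, hN, heta, hN1⟩ := param_bounds hp.L_pos
  have hJW := numCells_mul_width hp.L_pos
  have hw := hp.width_pos
  have hL0 : 0 < llx x := by linarith
  have hL1 : 1 ≤ llx x := by linarith
  have hW1L : width x ≤ llx x := by
    refine hW2.trans ?_
    calc llx x ^ (4 / 5 : ℝ) ≤ llx x ^ (1 : ℝ) :=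
          Real.rpow_le_rpow_of_exponent_le hL1 (by norm_num)
      _ = llx x := Real.rpow_one _
  have hN1' : (1 : ℝ) ≤ maxLen x := by exact_mod_cast hN1
  have h350 : 1 ≤ llx x ^ (3 / 50 : ℝ) := Real.one_le_rpow hL1 (by norm_num)
  have hlog3 : Real.log (3 * (maxLen x : ℝ)) ≤ 1203 * llx x ^ (3 / 50 : ℝ) :=
    (Real.log_le_sub_one_of_pos (by positivity)).trans (by linarith)
  refine ⟨hp, by linarith, ?_, ?_, ?_, ?_, ?_, ?_, ?_, ?_, ?_⟩
  · unfold devBd
    linarith
  · rw [add_mul, one_mul, hJW]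
    linarith
  · calc 100 * ((maxLen x : ℝ) + 1) ^ 2 * llx x
        ≤ 100 * (402 * llx x ^ (3 / 50 : ℝ)) ^ 2 * llx x := by gcongr; linarith
      _ = 100 * 402 ^ 2 * llx x ^ (28 / 25 : ℝ) := by
          rw [mul_pow, pow_two (llx x ^ (3 / 50 : ℝ)), ← Real.rpow_add hL0,
            show (28 / 25 : ℝ) = (3 / 50 + 3 / 50) + 1 by norm_num, Real.rpow_add hL0 _ 1,
            Real.rpow_one]
          ring
      _ ≤ llx x ^ (2 : ℝ) := hlen
      _ = llx x ^ 2 := Real.rpow_two _
  · intro r hr hrc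
    have hlog : 0 < Real.log r := Real.log_pos (by exact_mod_cast hr.one_lt)
    have hcut : (cutCell x : ℝ) ≤ 2 * halfCell x := by
      have : cutCell x ≤ 2 * halfCell x := by unfold halfCell; omega
      exact_mod_cast this
    have h47 : llx x ^ (47 / 50 : ℝ) ≤ 4 * ((halfCell x : ℝ) * width x) := by
      calc llx x ^ (47 / 50 : ℝ) = llx x ^ (7 / 50 : ℝ) * llx x ^ (4 / 5 : ℝ) := by
            rw [← Real.rpow_add hL0]; norm_num
        _ ≤ (cutCell x : ℝ) * (2 * width x) := mul_le_mul hC1 hW1 (by positivity) (by positivity)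
        _ ≤ 2 * (halfCell x : ℝ) * (2 * width x) := by gcongr
        _ = _ := by ring
    have hpos : (0 : ℝ) < halfCell x := by
      have : 0 < llx x ^ (47 / 50 : ℝ) := Real.rpow_pos_of_pos hL0 _
      nlinarith
    have hm : halfCell x ≤ ⌊ll r / width x⌋₊ := hrc.trans (min_le_right _ _)
    have h0 : 1 ≤ ll r / width x := by
      refine Nat.one_le_floor_iff _ |>.mp (le_trans ?_ hm)
      exact_mod_cast hpos
    have h1 : (halfCell x : ℝ) ≤ ll r / width x :=
      le_trans (Nat.cast_le.2 hm) (Nat.floor_le (by linarith))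
    rw [le_div_iff₀ hw] at h1
    have h2 : Real.log (10 * llx x ^ 3) ≤ ll r := by
      refine (log_mul_pow_le hL1 (by norm_num) 3).trans ?_
      push_cast
      linarith
    have h3 : 10 * llx x ^ 3 ≤ Real.log r := (Real.log_le_log_iff (by positivity) hlog).1 h2
    exact (Real.le_log_iff_exp_le (by exact_mod_cast hr.pos)).1 h3
  · have hsum : ∑ q ∈ capSet x, primeWt q ≤ 2 * ((numCells x : ℝ) + 1) * (width x + C) := by
      have hdis : (↑(range (numCells x + 1)) : Set ℕ).PairwiseDisjoint (cellPrimes x) := by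
        intro i _ j _ hij
        exact disjoint_left.2 fun q hi hj =>
          hij ((mem_filter.1 hi).2.2.1.symm.trans (mem_filter.1 hj).2.2.1)
      rw [capSet, sum_biUnion hdis]
      have hj : ∀ j ∈ range (numCells x + 1), ∑ q ∈ cellPrimes x j, primeWt q
          ≤ 2 * (width x + C) := by
        intro j hj
        refine le_trans ?_ (mul_le_mul_of_nonneg_left
          (hCx.2 j (Nat.lt_succ_iff.1 (mem_range.1 hj))) zero_le_two)
        rw [mul_sum]
        refine sum_le_sum fun q hq => ?_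
        have hq2 : 2 ≤ q := (mem_filter.1 hq).2.1.two_le
        have hq2' : (2 : ℝ) ≤ q := by exact_mod_cast hq2
        unfold primeWt
        rw [Nat.cast_sub (by omega), Nat.cast_one, mul_one_div,
          div_le_div_iff₀ (by linarith) (by linarith)]
        linarith
      refine (sum_le_sum hj).trans (le_of_eq ?_)
      rw [sum_const, card_range, nsmul_eq_mul]
      push_cast
      ring
    have hJL : (numCells x : ℝ) ≤ 2 * llx x := by
      refine hJ2.trans ?_
      gcongr
      calc llx x ^ (1 / 5 : ℝ) ≤ llx x ^ (1 : ℝ) :=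
            Real.rpow_le_rpow_of_exponent_le hL1 (by norm_num)
        _ = llx x := Real.rpow_one _
    have h1 : ((numCells x : ℝ) + 1) * width x ≤ 2 * llx x := by
      rw [add_mul, one_mul, hJW]
      linarith
    have h2 : ((numCells x : ℝ) + 1) * C ≤ 3 * llx x * C :=
      mul_le_mul_of_nonneg_right (by linarith) hC0
    nlinarith [mul_le_mul_of_nonneg_left hL (mul_nonneg hL0.le hL0.le)]
  · have hg : (⌊goodLen x⌋₊ : ℝ) ≤ llx x ^ (1 / 40 : ℝ) := Nat.floor_le (Real.rpow_nonneg hL0.le _)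
    have hl := log_mul_pow_le hL1 le_rfl 3
    rw [one_mul] at hl
    push_cast at hl
    have hlog0 : 0 ≤ Real.log (llx x ^ 3) := Real.log_nonneg (one_le_pow₀ hL1)
    have h1 : (⌊goodLen x⌋₊ : ℝ) * Real.log (llx x ^ 3) ≤ 751 * llx x ^ (29 / 1000 : ℝ) := by
      calc (⌊goodLen x⌋₊ : ℝ) * Real.log (llx x ^ 3)
          ≤ llx x ^ (1 / 40 : ℝ) * ((1 + 250 * 3) * llx x ^ (1 / 250 : ℝ)) :=
            mul_le_mul hg hl hlog0 (Real.rpow_nonneg hL0.le _)
        _ = 751 * (llx x ^ (1 / 40 : ℝ) * llx x ^ (1 / 250 : ℝ)) := by ring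
        _ = 751 * llx x ^ (29 / 1000 : ℝ) := by rw [← Real.rpow_add hL0]; norm_num
    rw [← Real.exp_log (show 0 < llx x ^ 3 by positivity), ← Real.exp_nat_mul, ← heta]
    exact Real.exp_le_exp.2 (by linarith)
  · have h1 : llx x ^ (1 / 50 : ℝ) ≤ numCells x :=
      (Real.rpow_le_rpow_of_exponent_le hL1 (by norm_num)).trans hJ1
    unfold eta
    rw [Real.rpow_neg hL0.le, ← div_eq_mul_inv, le_div_iff₀ (Real.rpow_pos_of_pos hL0 _), one_mul]
    exact h1
  · rw [← heta]
    linarith
  · have h1 : ((cutCell x : ℝ) + 1) * width x ≤ 4 * llx x ^ (47 / 50 : ℝ) := by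
      have : 1 ≤ llx x ^ (7 / 50 : ℝ) := Real.one_le_rpow hL1 (by norm_num)
      calc ((cutCell x : ℝ) + 1) * width x ≤ (4 * llx x ^ (7 / 50 : ℝ)) * llx x ^ (4 / 5 : ℝ) :=
            mul_le_mul (by linarith) hW2 hw.le (by positivity)
        _ = 4 * llx x ^ (47 / 50 : ℝ) := by rw [mul_assoc, ← Real.rpow_add hL0]; norm_num
    have h2 : llx x ^ (3 / 50 : ℝ) ≤ llx x ^ (47 / 50 : ℝ) :=
      Real.rpow_le_rpow_of_exponent_le hL1 (by norm_num)
    rw [Real.rpow_one] at hlow
    linarith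

end Vale.Agent.P031
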