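import Vale.Agent.P031.Majorant

/-!
# P031: tools for counting collisions

Removal of common primes from two lists, sums over small sets of primes, and the mass of numbers
with a big square factor.
-/

namespace Vale.Agent.P031

open Finset

/-- The sum over subsets with at most `n` elements of the products is at most `(1 + ∑ g) ^ n`. -/
theorem sum_prods_subsets_le (g : ℕ → ℝ) (hg : ∀ q, 0 ≤ g q) :
    ∀ (U : Finset ℕ) (n : ℕ) (T : Finset (Finset ℕ)), (∀ C ∈ T, C ⊆ U ∧ C.card ≤ n) →
      ∑ C ∈ T, ∏ q ∈ C, g q ≤ (1 + ∑ q ∈ U, g q) ^ n := by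
  intro U
  induction U using Finset.induction_on with
  | empty =>
    intro n T hT
    have hsub : T ⊆ {∅} := fun C hC => mem_singleton.2 (subset_empty.1 (hT C hC).1)
    refine (sum_le_sum_of_subset_of_nonneg hsub fun C _ _ => prod_nonneg fun q _ => hg q).trans ?_
    simp
  | insert a U ha ih =>
    intro n T hT
    have hS : 0 ≤ ∑ q ∈ U, g q := sum_nonneg fun q _ => hg q
    rw [sum_insert ha, ← sum_filter_add_sum_filter_not T (fun C => a ∈ C)]
    have h2 : ∑ C ∈ T.filter (fun C => a ∉ C), ∏ q ∈ C, g q ≤ (1 + ∑ q ∈ U, g q) ^ n := by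
      refine ih n _ fun C hC => ?_
      obtain ⟨hC1, hC2⟩ := mem_filter.1 hC
      exact ⟨(subset_insert_iff_of_notMem hC2).1 (hT C hC1).1, (hT C hC1).2⟩
    cases n with
    | zero =>
      have hnone : T.filter (fun C => a ∈ C) = ∅ := filter_eq_empty_iff.2 fun C hC haC => by
        have := (hT C hC).2
        rw [Nat.le_zero, card_eq_zero] at this
        simp [this] at haC
      rw [hnone, sum_empty, zero_add, pow_zero]
      simpa using h2
    | succ k =>
      have hinj : Set.InjOn (fun C : Finset ℕ => C.erase a)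
          (↑(T.filter (fun C => a ∈ C)) : Set (Finset ℕ)) := by
        intro C hC D hD h
        have h' : C.erase a = D.erase a := h
        rw [← insert_erase (mem_filter.1 hC).2, h', insert_erase (mem_filter.1 hD).2]
      have h1 : ∑ C ∈ T.filter (fun C => a ∈ C), ∏ q ∈ C, g q
          ≤ g a * (1 + ∑ q ∈ U, g q) ^ k := by
        have e : ∑ C ∈ T.filter (fun C => a ∈ C), ∏ q ∈ C, g q
            = g a * ∑ D ∈ (T.filter (fun C => a ∈ C)).image (fun C => C.erase a), ∏ q ∈ D, g q := by
          rw [sum_image hinj, mul_sum]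
          refine sum_congr rfl fun C hC => ?_
          rw [mul_prod_erase C g (mem_filter.1 hC).2]
        rw [e]
        refine mul_le_mul_of_nonneg_left (ih k _ fun D hD => ?_) (hg a)
        obtain ⟨C, hC, rfl⟩ := mem_image.1 hD
        obtain ⟨hC1, hC2⟩ := mem_filter.1 hC
        refine ⟨subset_insert_iff.1 (hT C hC1).1, ?_⟩
        have := (hT C hC1).2
        rw [card_erase_of_mem hC2]
        omega
      have h3 : (1 + ∑ q ∈ U, g q) ^ k ≤ (1 + (g a + ∑ q ∈ U, g q)) ^ k :=
        pow_le_pow_left₀ (by linarith) (by linarith [hg a]) k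
      rw [pow_succ] at h2
      rw [pow_succ]
      have h4 := mul_le_mul_of_nonneg_left h3
        (show 0 ≤ 1 + (g a + ∑ q ∈ U, g q) by linarith [hg a])
      linarith

/-- Summation by the common sets. -/
theorem sum_by_common {ι : Type*} (P : Finset ι) (f : ι → ℝ) (com : ι → Finset ℕ) (g : ℕ → ℝ)
    (hg : ∀ q, 0 ≤ g q) (U : Finset ℕ) (n : ℕ) (K : ℝ) (hK0 : 0 ≤ K)
    (h : ∀ a ∈ P, com a ⊆ U ∧ (com a).card ≤ n)
    (hK : ∀ C ∈ P.image com, ∑ a ∈ P.filter (fun a => com a = C), f a ≤ (∏ q ∈ C, g q) * K) :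
    ∑ a ∈ P, f a ≤ (1 + ∑ q ∈ U, g q) ^ n * K := by
  rw [← sum_fiberwise_of_maps_to (fun a ha => mem_image_of_mem com ha) f]
  refine (sum_le_sum hK).trans ?_
  rw [← sum_mul]
  refine mul_le_mul_of_nonneg_right (sum_prods_subsets_le g hg U n _ fun C hC => ?_) hK0
  obtain ⟨a, ha, rfl⟩ := mem_image.1 hC
  exact h a ha

/-- Each collision is paid for by a pair. -/
theorem sum_le_image_add_pairs {ι : Type*} [DecidableEq ι] (v : ι → ℕ) (f : ℕ → ℝ)
    (hf : ∀ n, 0 ≤ f n) (P : Finset (ι × ι)) (hPv : ∀ p ∈ P, v p.1 = v p.2) :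
    ∀ S : Finset ι, (∀ a ∈ S, ∀ b ∈ S, v a = v b → a ≠ b → (a, b) ∈ P ∨ (b, a) ∈ P) →
      ∑ a ∈ S, f (v a) ≤ ∑ w ∈ S.image v, f w
        + ∑ p ∈ P.filter (fun p => p.1 ∈ S ∧ p.2 ∈ S), f (v p.1) := by
  intro S
  induction S using Finset.induction_on with
  | empty => intro _; simp
  | insert a S ha ih =>
    intro h
    have ih' := ih fun b hb c hc => h b (mem_insert_of_mem hb) c (mem_insert_of_mem hc)
    have hsub : P.filter (fun p => p.1 ∈ S ∧ p.2 ∈ S)
        ⊆ P.filter (fun p => p.1 ∈ insert a S ∧ p.2 ∈ insert a S) := fun p hp => by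
      simp only [mem_filter, mem_insert] at hp ⊢
      exact ⟨hp.1, Or.inr hp.2.1, Or.inr hp.2.2⟩
    rw [sum_insert ha, image_insert]
    by_cases hva : v a ∈ S.image v
    · rw [insert_eq_of_mem hva]
      obtain ⟨b, hb, hvb⟩ := mem_image.1 hva
      have hne : a ≠ b := fun h' => ha (h' ▸ hb)
      obtain ⟨p, hpP, hp1, hp2, hpnot⟩ : ∃ p ∈ P, p.1 ∈ insert a S ∧ p.2 ∈ insert a S ∧
          ¬ (p.1 ∈ S ∧ p.2 ∈ S) := by
        rcases h a (mem_insert_self a S) b (mem_insert_of_mem hb) hvb.symm hne with hp | hp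
        · exact ⟨(a, b), hp, mem_insert_self _ _, mem_insert_of_mem hb, fun h' => ha h'.1⟩
        · exact ⟨(b, a), hp, mem_insert_of_mem hb, mem_insert_self _ _, fun h' => ha h'.2⟩
      have hpv : v p.1 = v a := by
        rcases mem_insert.1 hp1 with e | e
        · rw [e]
        · rcases mem_insert.1 hp2 with e2 | e2
          · rw [hPv p hpP, e2]
          · exact absurd ⟨e, e2⟩ hpnot
      have hstep : f (v a) + ∑ q ∈ P.filter (fun p => p.1 ∈ S ∧ p.2 ∈ S), f (v q.1)
          ≤ ∑ q ∈ P.filter (fun p => p.1 ∈ insert a S ∧ p.2 ∈ insert a S), f (v q.1) := by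
        have hnot : p ∉ P.filter (fun p => p.1 ∈ S ∧ p.2 ∈ S) := fun h' =>
          hpnot (mem_filter.1 h').2
        rw [← hpv, ← sum_insert hnot (f := fun q => f (v q.1))]
        refine sum_le_sum_of_subset_of_nonneg (insert_subset_iff.2 ⟨?_, hsub⟩) fun q _ _ => hf _
        exact mem_filter.2 ⟨hpP, hp1, hp2⟩
      linarith
    · rw [sum_insert hva]
      have := sum_le_sum_of_subset_of_nonneg hsub (f := fun q => f (v q.1)) fun q _ _ => hf _
      linarith

/-- The number of divisors is at most `2 ^ Ω`. -/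
theorem card_divisors_le_two_pow {n : ℕ} (hn : n ≠ 0) :
    n.divisors.card ≤ 2 ^ ArithmeticFunction.cardFactors n := by
  rw [Nat.card_divisors hn, ArithmeticFunction.cardFactors_eq_sum_factorization, Finsupp.sum,
    Nat.support_factorization, ← prod_pow_eq_pow_sum]
  exact prod_le_prod' fun p _ => Nat.succ_le_of_lt Nat.lt_two_pow_self

/-- The numbers up to `M` with a big square factor have small mass. -/
theorem nonSq_mass_le {x A : ℝ} (hA : 4 ≤ A)
    (hr : ∀ r : ℕ, r.Prime → halfCell x ≤ cell x r → A ≤ (r : ℝ)) {M : ℕ} (V : Finset ℕ)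
    (hV : ∀ v ∈ V, 1 ≤ v ∧ v ≤ M ∧ ¬ SqOK x v) :
    (∑ v ∈ V, (1 : ℝ) / v) ≤ 2 / A * (1 + Real.log M) := by
  classical
  have hlog : 0 ≤ Real.log M := Real.log_natCast_nonneg _
  set k : ℕ := ⌊A⌋₊ - 1 with hk
  have hfl : 4 ≤ ⌊A⌋₊ := Nat.le_floor (by exact_mod_cast hA)
  have hk1 : A / 2 ≤ (k : ℝ) := by
    have h1 := Nat.lt_floor_add_one A
    rw [hk, Nat.cast_sub (by omega), Nat.cast_one]
    linarith
  have hkpos : (0 : ℝ) < k := by linarith
  have hkey : ∀ v ∈ V, ∃ r t : ℕ, r ∈ Ioc k M ∧ t ∈ Icc 1 M ∧ v = r ^ 2 * t := by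
    intro v hv
    obtain ⟨h1, h2, h3⟩ := hV v hv
    simp only [SqOK, not_forall, not_not, exists_prop] at h3
    obtain ⟨r, hrp, hrc, t, ht⟩ := h3
    have hAr : ⌊A⌋₊ ≤ r := by
      have := Nat.floor_mono (hr r hrp hrc)
      simpa using this
    have htpos : 0 < t := by
      rcases Nat.eq_zero_or_pos t with h0 | h0
      · simp [h0] at ht; omega
      · exact h0
    have hr2 : 1 ≤ r ^ 2 := Nat.one_le_pow _ _ hrp.pos
    have hrv : r ≤ r ^ 2 := Nat.le_self_pow two_ne_zero r
    refine ⟨r, t, mem_Ioc.2 ⟨by omega, ?_⟩, mem_Icc.2 ⟨htpos, ?_⟩, ht⟩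
    · have : r ^ 2 ≤ v := ht ▸ Nat.le_mul_of_pos_right _ htpos
      omega
    · have : t ≤ v := ht ▸ Nat.le_mul_of_pos_left _ (by omega)
      omega
  rcases V.eq_empty_or_nonempty with hE | ⟨v0, hv0⟩
  · simp only [hE, sum_empty]
    positivity
  obtain ⟨r0, t0, hr0, -, -⟩ := hkey v0 hv0
  have hkM : k ≤ M := by have := mem_Ioc.1 hr0; omega
  have hsub : V ⊆ (Ioc k M ×ˢ Icc 1 M).image (fun p => p.1 ^ 2 * p.2) := by
    intro v hv
    obtain ⟨r, t, h1, h2, rfl⟩ := hkey v hv
    exact mem_image.2 ⟨(r, t), mem_product.2 ⟨h1, h2⟩, rfl⟩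
  refine (sum_le_sum_of_subset_of_nonneg hsub fun v _ _ => by positivity).trans ?_
  refine (sum_image_le_of_nonneg fun v _ => by positivity).trans ?_
  have e : ∑ p ∈ Ioc k M ×ˢ Icc 1 M, (1 : ℝ) / ((p.1 ^ 2 * p.2 : ℕ) : ℝ)
      = (∑ r ∈ Ioc k M, ((r : ℝ) ^ 2)⁻¹) * ∑ t ∈ Icc 1 M, ((t : ℝ))⁻¹ := by
    rw [sum_mul_sum, ← sum_product']
    refine sum_congr rfl fun p _ => ?_
    push_cast
    rw [one_div, mul_inv]
  rw [e]
  refine mul_le_mul ?_ ?_ (sum_nonneg fun t _ => by positivity) (by positivity)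
  · have h1 := sum_Ioc_inv_sq_le_sub (α := ℝ) (show k ≠ 0 by omega) hkM
    have h2 : (k : ℝ)⁻¹ ≤ 2 / A := by
      rw [inv_le_comm₀ hkpos (by positivity), inv_div]
      exact hk1
    have h3 : (0 : ℝ) ≤ (M : ℝ)⁻¹ := by positivity
    linarith
  · have h1 := harmonic_le_one_add_log M
    rw [harmonic_eq_sum_Icc] at h1
    push_cast at h1
    exact h1

/-- The primes common to two lists. -/
def commonSet (A B : List ℕ) : Finset ℕ := A.toFinset ∩ B.toFinset

/-- The primes of the first list which are not in the second. -/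
def restList (A B : List ℕ) : List ℕ := A.filter (fun q => decide (q ∉ B))

theorem commonSet_comm (A B : List ℕ) : commonSet A B = commonSet B A := inter_comm _ _

theorem restList_sublist (A B : List ℕ) : List.Sublist (restList A B) A := List.filter_sublist

theorem mem_restList {A B : List ℕ} {q : ℕ} : q ∈ restList A B ↔ q ∈ A ∧ q ∉ B := by
  simp [restList]

theorem restList_disjoint (A B : List ℕ) : List.Disjoint (restList A B) (restList B A) :=
  fun _ h1 h2 => (mem_restList.1 h1).2 (mem_restList.1 h2).1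

theorem card_commonSet_le (A B : List ℕ) : (commonSet A B).card ≤ A.length :=
  (card_le_card inter_subset_left).trans (List.toFinset_card_le A)

theorem desc_nodup {A : List ℕ} (h : A.Pairwise (fun a b => b < a)) : A.Nodup :=
  h.imp fun hab => (ne_of_lt hab).symm

theorem desc_ext {A B : List ℕ} (hA : A.Pairwise (fun a b => b < a))
    (hB : B.Pairwise (fun a b => b < a)) (h : ∀ q, q ∈ A ↔ q ∈ B) : A = B :=
  List.Perm.eq_of_pairwise (fun _ _ _ _ h1 h2 => absurd h1 (lt_asymm h2)) hA hB
    ((List.perm_ext_iff_of_nodup (desc_nodup hA) (desc_nodup hB)).2 h)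

/-- The common set and the rest determine a list. -/
theorem list_eq_of_common_rest {A B A' B' : List ℕ} (hA : A.Pairwise (fun a b => b < a))
    (hA' : A'.Pairwise (fun a b => b < a)) (hC : commonSet A B = commonSet A' B')
    (hR : restList A B = restList A' B') : A = A' := by
  have key : ∀ (A B : List ℕ) (q : ℕ), q ∈ A ↔ q ∈ commonSet A B ∨ q ∈ restList A B := by
    intro A B q
    simp only [commonSet, mem_inter, List.mem_toFinset, mem_restList]
    tauto
  refine desc_ext hA hA' fun q => ?_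
  rw [key A B q, key A' B' q, hC, hR]

theorem confValue_restList {A : List ℕ} (hA : A.Nodup) (B : List ℕ) (m : ℕ) :
    confValue A m = (∏ q ∈ commonSet A B, (q - 1)) * confValue (restList A B) m := by
  have h1 : (A.map (fun q => q - 1)).prod = ∏ q ∈ A.toFinset, (q - 1) :=
    (List.prod_toFinset _ hA).symm
  have h2 : ((restList A B).map (fun q => q - 1)).prod
      = ∏ q ∈ A.toFinset.filter (fun q => q ∉ B), (q - 1) := by
    rw [← List.prod_toFinset _ (hA.sublist (restList_sublist A B))]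
    refine prod_congr ?_ fun _ _ => rfl
    ext q
    simp [mem_restList]
  have h3 : commonSet A B = A.toFinset.filter (fun q => ¬ q ∉ B) := by
    ext q
    simp [commonSet]
  unfold confValue
  rw [h1, h2, h3, ← mul_assoc, mul_comm (∏ q ∈ A.toFinset.filter (fun q => ¬ q ∉ B), (q - 1)),
    prod_filter_mul_prod_filter_not]

/-- Two lists with different prefixes have a first difference. -/
theorem split_first : ∀ (i : ℕ) (A B : List ℕ), i ≤ A.length → i ≤ B.length →
    A.take i ≠ B.take i → ∃ (P : List ℕ) (q q' : ℕ) (tl tl' : List ℕ),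
      A = P ++ q :: tl ∧ B = P ++ q' :: tl' ∧ q ≠ q' ∧ P.length < i
  | 0, A, B, _, _, h => by simp at h
  | i + 1, [], B, h, _, _ => by simp at h
  | i + 1, a :: A, [], _, h, _ => by simp at h
  | i + 1, a :: A, b :: B, hA, hB, h => by
    by_cases hab : a = b
    · subst hab
      simp only [List.length_cons, Nat.succ_le_succ_iff] at hA hB
      have h' : A.take i ≠ B.take i := fun e => h (by simp [e])
      obtain ⟨P, q, q', tl, tl', e1, e2, hne, hlen⟩ := split_first i A B hA hB h'
      exact ⟨a :: P, q, q', tl, tl', by simp [e1], by simp [e2], hne, by simp; omega⟩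
    · exact ⟨[], a, b, A, B, rfl, rfl, hab, by simp⟩

/-- The larger side at the first difference heads the rests. -/
theorem rest_of_split {P : List ℕ} {q q' : ℕ} {tl tl' : List ℕ}
    (hA : (P ++ q :: tl).Pairwise (fun a b => b < a))
    (hB : (P ++ q' :: tl').Pairwise (fun a b => b < a)) (hlt : q' < q) :
    (∃ tl0, List.Sublist tl0 tl ∧
      restList (P ++ q :: tl) (P ++ q' :: tl') = q :: tl0) ∧
    ∀ r ∈ restList (P ++ q' :: tl') (P ++ q :: tl), r < q := by
  rw [List.pairwise_append] at hA hB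
  obtain ⟨-, hA1, hA2⟩ := hA
  obtain ⟨-, hB1, hB2⟩ := hB
  have hqB : q ∉ P ++ q' :: tl' := by
    intro h
    rcases List.mem_append.1 h with h | h
    · exact lt_irrefl q (hA2 q h q List.mem_cons_self)
    · rcases List.mem_cons.1 h with h | h
      · omega
      · have := (List.pairwise_cons.1 hB1).1 q h
        omega
  constructor
  · refine ⟨tl.filter (fun r => decide (r ∉ P ++ q' :: tl')), List.filter_sublist, ?_⟩
    have h0 : P.filter (fun r => decide (r ∉ P ++ q' :: tl')) = [] := by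
      rw [List.filter_eq_nil_iff]
      intro r hr
      simp [hr]
    unfold restList
    rw [List.filter_append, h0, List.nil_append, List.filter_cons_of_pos (by simpa using hqB)]
  · intro r hr
    obtain ⟨hr1, hr2⟩ := mem_restList.1 hr
    rcases List.mem_append.1 hr1 with h | h
    · exact absurd (List.mem_append_left _ h) hr2
    · rcases List.mem_cons.1 h with h | h
      · omega
      · have := (List.pairwise_cons.1 hB1).1 r h
        omega

theorem slackAt_append (x : ℝ) (P : List ℕ) (q : ℕ) (tl : List ℕ) :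
    slackAt x (P ++ q :: tl) P.length = slack x (cell x q) tl := by
  simp [slackAt, List.getD_eq_getElem?_getD]

theorem IsConf.sublist {x : ℝ} {qs qs' : List ℕ} {m : ℕ} (h : IsConf x qs m)
    (hs : List.Sublist qs' qs) : IsConf x qs' m :=
  ⟨h.desc.sublist hs, fun q hq => h.big q (hs.subset hq), fun q hq => h.capped q (hs.subset hq),
    fun q hq => h.normal q (hs.subset hq), hs.length_le.trans h.short, h.part⟩

theorem SqOK.dvd_mono {x : ℝ} {a b : ℕ} (h : SqOK x b) (hab : a ∣ b) : SqOK x a :=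
  fun r hr hc hd => h r hr hc (hd.trans hab)

theorem confValue_prefix (P A : List ℕ) (m : ℕ) :
    confValue (P ++ A) m = (P.map (fun q => q - 1)).prod * confValue A m := by
  simp [confValue, mul_assoc]

end Vale.Agent.P031
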