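import Mathlib

/-!
The entropy function of the totient problem and its increments.
-/

namespace Vale.Agent.P031

open Real

/-- The function `(k + 1) log (k + 1) - k`. -/
noncomputable def ent (k : ℕ) : ℝ := ((k : ℝ) + 1) * Real.log ((k : ℝ) + 1) - k

/-- The increment `ent (d + 1) - ent d`. -/
noncomputable def inc (d : ℕ) : ℝ := ent (d + 1) - ent d

theorem ent_zero : ent 0 = 0 := by simp [ent]

theorem inc_eq (d : ℕ) :
    inc d = ((d : ℝ) + 1) * (Real.log ((d : ℝ) + 2) - Real.log ((d : ℝ) + 1))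
      + Real.log ((d : ℝ) + 2) - 1 := by
  simp only [inc, ent]
  push_cast
  rw [show (d : ℝ) + 1 + 1 = (d : ℝ) + 2 by ring]
  ring

theorem inc_le_log (d : ℕ) : inc d ≤ Real.log ((d : ℝ) + 2) := by
  have hd : (0 : ℝ) < (d : ℝ) + 1 := by positivity
  have h := Real.log_le_sub_one_of_pos (show (0 : ℝ) < ((d : ℝ) + 2) / ((d : ℝ) + 1) by positivity)
  rw [Real.log_div (by positivity) (by positivity)] at h
  have h2 : ((d : ℝ) + 2) / ((d : ℝ) + 1) - 1 = 1 / ((d : ℝ) + 1) := by field_simp; ring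
  rw [h2, le_div_iff₀ hd] at h
  rw [inc_eq]
  nlinarith

theorem log_le_inc (d : ℕ) : Real.log ((d : ℝ) + 1) ≤ inc d := by
  have hd : (0 : ℝ) < (d : ℝ) + 2 := by positivity
  have h := Real.log_le_sub_one_of_pos (show (0 : ℝ) < ((d : ℝ) + 1) / ((d : ℝ) + 2) by positivity)
  rw [Real.log_div (by positivity) (by positivity)] at h
  have h2 : ((d : ℝ) + 1) / ((d : ℝ) + 2) - 1 = -1 / ((d : ℝ) + 2) := by field_simp; ring
  rw [h2, le_div_iff₀ hd] at h
  rw [inc_eq]
  nlinarith

theorem inc_mono : Monotone inc := by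
  refine monotone_nat_of_le_succ fun d => ?_
  have h1 := inc_le_log d
  have h2 := log_le_inc (d + 1)
  push_cast at h2
  rw [show (d : ℝ) + 1 + 1 = (d : ℝ) + 2 by ring] at h2
  linarith

theorem inc_zero_ge : (0.38 : ℝ) ≤ inc 0 := by
  have h := Real.log_two_gt_d9
  simp [inc, ent]
  norm_num
  linarith

theorem inc_pos (d : ℕ) : 0 < inc d :=
  lt_of_lt_of_le (by norm_num) (inc_zero_ge.trans (inc_mono (Nat.zero_le d)))

theorem ent_mono : Monotone ent :=
  monotone_nat_of_le_succ fun d => by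
    have h : 0 < ent (d + 1) - ent d := inc_pos d
    linarith

theorem ent_nonneg (k : ℕ) : 0 ≤ ent k := by
  have h := ent_mono (Nat.zero_le k)
  rwa [ent_zero] at h

/-- Telescoping: `ent` is the sum of its increments. -/
theorem ent_eq_sum (k : ℕ) : ent k = ∑ d ∈ Finset.range k, inc d := by
  simp only [inc]
  rw [Finset.sum_range_sub, ent_zero, sub_zero]

theorem inc_three : (2.5 : ℝ) ≤ inc 0 + inc 1 + inc 2 := by
  have h4 : Real.log (4 : ℝ) = 2 * Real.log 2 := by
    rw [show (4 : ℝ) = 2 ^ 2 by norm_num, Real.log_pow]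
    norm_num
  have h := Real.log_two_gt_d9
  have e : inc 0 + inc 1 + inc 2 = ent 3 - ent 0 := by
    simp only [inc]
    ring
  rw [e, ent_zero, sub_zero]
  simp only [ent]
  norm_num [h4]
  linarith

/-- Subadditivity of increments: `a (d + l) ≤ a (d + 1) + a l` in one-based indexing. -/
theorem inc_add_le (d l : ℕ) : inc (d + l) ≤ inc d + inc l := by
  rcases Nat.eq_zero_or_pos d with hd | hd
  · subst hd
    simp
    linarith [inc_pos 0]
  rcases Nat.eq_zero_or_pos l with hl | hl
  · subst hl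
    simp
    linarith [inc_pos 0]
  refine (inc_le_log (d + l)).trans ?_
  refine le_trans ?_ (add_le_add (log_le_inc d) (log_le_inc l))
  rw [← Real.log_mul (by positivity) (by positivity)]
  refine Real.log_le_log (by positivity) ?_
  have h1 : (1 : ℝ) ≤ d := by exact_mod_cast hd
  have h2 : (1 : ℝ) ≤ l := by exact_mod_cast hl
  push_cast
  nlinarith [mul_le_mul h1 h2 zero_le_one (by linarith)]

theorem inc_succ_le (d : ℕ) : inc (d + 1) ≤ inc d + inc 1 := by
  simpa using inc_add_le d 1

end Vale.Agent.P031
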