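import Mathlib
import Vale.Agent.P031.Entropy

/-!
# P031: parameters, cells, lists and the totient counting function

All objects depend on a large real `x`.  `llx x = log (log x)` is cut into `numCells x` cells of
width `width x`.  See notes/P031/proof.md.
-/

namespace Vale.Agent.P031

open Finset

/-- The number of distinct totient values up to `x`. -/
noncomputable def totCount (x : ℝ) : ℕ :=
  {v : ℕ | 0 < v ∧ (v : ℝ) ≤ x ∧ ∃ n : ℕ, 0 < n ∧ n.totient = v}.ncard

/-- `L = log log x`. -/
noncomputable def llx (x : ℝ) : ℝ := Real.log (Real.log x)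

/-- `J`, the number of cells. -/
noncomputable def numCells (x : ℝ) : ℕ := ⌈llx x ^ (1 / 5 : ℝ)⌉₊

/-- `Δ`, the width of a cell. -/
noncomputable def width (x : ℝ) : ℝ := llx x / numCells x

/-- `log log` of a natural number. -/
noncomputable def ll (r : ℕ) : ℝ := Real.log (Real.log (r : ℝ))

/-- The cell of `r`: `min J ⌊log log r / Δ⌋`. -/
noncomputable def cell (x : ℝ) (r : ℕ) : ℕ := min (numCells x) ⌊ll r / width x⌋₊

/-- `j₀`: primes in cells `≤ j₀` are small. -/
noncomputable def cutCell (x : ℝ) : ℕ := ⌈(numCells x : ℝ) * llx x ^ (-(3 / 50) : ℝ)⌉₊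

/-- `j₁ = ⌈j₀ / 2⌉`. -/
noncomputable def halfCell (x : ℝ) : ℕ := (cutCell x + 1) / 2

/-- `D`, the allowed deviation in a cell. -/
noncomputable def devBd (x : ℝ) : ℝ := llx x ^ (1 / 2 : ℝ)

/-- `N₀`, the bound on the number of big primes. -/
noncomputable def maxLen (x : ℝ) : ℕ := ⌈200 * (numCells x : ℝ) / cutCell x⌉₊

/-- `B`, the bound on `Ω` of the small part. -/
noncomputable def smallOmega (x : ℝ) : ℝ := llx x ^ (24 / 25 : ℝ)

/-- `η₁`, the slack lower bound for good lists (in cells). -/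
noncomputable def eta1 (x : ℝ) : ℝ := numCells x * llx x ^ (-(1 / 25) : ℝ)

/-- `η`, the slack threshold for safety (in cells). -/
noncomputable def eta (x : ℝ) : ℝ := numCells x * llx x ^ (-(1 / 50) : ℝ)

/-- The stability error (in cells). -/
noncomputable def errBd (x : ℝ) : ℝ := llx x ^ (17 / 100 : ℝ)

/-- `N₁`, the bound on the length of a good list. -/
noncomputable def goodLen (x : ℝ) : ℝ := llx x ^ (1 / 40 : ℝ)

/-- `ε`, the bound on the mass of abnormal primes. -/
noncomputable def epsN (x : ℝ) : ℝ := Real.exp (-(llx x ^ (3 / 20 : ℝ)))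

/-- Number of distinct prime factors of `n` in cell `j`. -/
noncomputable def omegaIn (x : ℝ) (j n : ℕ) : ℕ :=
  (n.primeFactors.filter (fun r => cell x r = j)).card

/-- Number of prime factors of `n`, with multiplicity, in cells `≤ j₀`. -/
noncomputable def omegaSmall (x : ℝ) (n : ℕ) : ℕ :=
  (n.primeFactorsList.filter (fun r => decide (cell x r ≤ cutCell x))).length

/-- No square of a prime in a cell `≥ j₁` divides `n`. -/
def SqOK (x : ℝ) (n : ℕ) : Prop :=
  ∀ r : ℕ, r.Prime → halfCell x ≤ cell x r → ¬ r ^ 2 ∣ n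

/-- A prime `q`, thought of in cell `ℓ`, whose `q - 1` has typical anatomy. -/
structure Normal (x : ℝ) (ℓ q : ℕ) : Prop where
  prime : q.Prime
  dev : ∀ j : ℕ, halfCell x ≤ j → j < ℓ → |(omegaIn x j (q - 1) : ℝ) - width x| ≤ devBd x
  top : (omegaIn x ℓ (q - 1) : ℝ) ≤ 4 * width x
  small : (omegaSmall x (q - 1) : ℝ) ≤ 5 * ((cutCell x : ℝ) + 1) * width x
  large : ∃ r ∈ (q - 1).primeFactors, Real.exp (Real.log (q : ℝ) / llx x) ≤ (r : ℝ)
  sq : SqOK x (q - 1)

/-- A natural number that may serve as the totient of the small part. -/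
structure SmallPart (x : ℝ) (m : ℕ) : Prop where
  isTot : ∃ n : ℕ, 0 < n ∧ n.totient = m ∧ ∀ r ∈ n.primeFactors, cell x r ≤ cutCell x
  le : (m : ℝ) ≤ Real.exp (Real.exp (2 * (cutCell x : ℝ) * width x))
  omega : (ArithmeticFunction.cardFactors m : ℝ) ≤ smallOmega x

/-- A configuration: big primes in decreasing order, and the value of the small part. -/
structure IsConf (x : ℝ) (qs : List ℕ) (m : ℕ) : Prop where
  desc : qs.Pairwise (fun a b => b < a)
  big : ∀ q ∈ qs, cutCell x < cell x q
  capped : ∀ q ∈ qs, ll q ≤ llx x + 1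
  normal : ∀ q ∈ qs, Normal x (cell x q) q
  short : qs.length ≤ maxLen x
  part : SmallPart x m

/-- The value `∏ (q - 1) * m`. -/
def confValue (qs : List ℕ) (m : ℕ) : ℕ := (qs.map (fun q => q - 1)).prod * m

/-- `k_j`: the number of primes of the list in cells above `j`. -/
noncomputable def above (x : ℝ) (qs : List ℕ) (j : ℕ) : ℕ :=
  qs.countP (fun q => decide (j < cell x q))

/-- The slack of a prime in cell `ℓ` over the lower primes `qs`, in cells. -/
noncomputable def slack (x : ℝ) (ℓ : ℕ) (qs : List ℕ) : ℝ :=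
  ∑ j ∈ Finset.Ico (halfCell x) ℓ, (1 - ent (above x qs j))

/-- The slack at level `i + 1` (`q = qs[i]`). -/
noncomputable def slackAt (x : ℝ) (qs : List ℕ) (i : ℕ) : ℝ :=
  slack x (cell x (qs.getD i 0)) (qs.drop (i + 1))

/-- Every level has slack `≥ -η₁`. -/
def IsGood (x : ℝ) (qs : List ℕ) : Prop :=
  ∀ i : ℕ, i < qs.length → -eta1 x ≤ slackAt x qs i

/-- The gap at level `0`. -/
noncomputable def topGap (x : ℝ) (qs : List ℕ) : ℝ :=
  match qs with
  | [] => (numCells x : ℝ) - halfCell x
  | q :: _ => (numCells x : ℝ) - cell x q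

/-- Good, and the top level has slack `≥ -η₁`. -/
def IsFull (x : ℝ) (qs : List ℕ) : Prop :=
  IsGood x qs ∧ -eta1 x ≤ slack x (numCells x) qs

/-- Full, with top slack and top gap `≥ 2η`. -/
def IsSafe (x : ℝ) (qs : List ℕ) : Prop :=
  IsFull x qs ∧ 2 * eta x ≤ slack x (numCells x) qs ∧ 2 * eta x ≤ topGap x qs

/-- A bound for all values of configurations. -/
noncomputable def valueBd (x : ℝ) : ℕ :=
  ⌈Real.exp (Real.exp (llx x + 1))⌉₊ ^ maxLen x
    * ⌈Real.exp (Real.exp (2 * (cutCell x : ℝ) * width x))⌉₊ + 1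

open scoped Classical in
/-- `𝒜`: the values of safe configurations. -/
noncomputable def safeVals (x : ℝ) : Finset ℕ :=
  (Finset.range (valueBd x)).filter
    (fun w => ∃ qs m, IsConf x qs m ∧ IsSafe x qs ∧ confValue qs m = w)

open scoped Classical in
/-- The band: values of full configurations that have no safe configuration. -/
noncomputable def bandVals (x : ℝ) : Finset ℕ :=
  (Finset.range (valueBd x)).filter
    (fun w => (∃ qs m, IsConf x qs m ∧ IsFull x qs ∧ confValue qs m = w) ∧ w ∉ safeVals x)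

open scoped Classical in
/-- The small parts. -/
noncomputable def smallVals (x : ℝ) : Finset ℕ :=
  (Finset.range (valueBd x)).filter (fun m => SmallPart x m)

open scoped Classical in
/-- The primes `r` with `log log r ≤ L + 1` in cell `j`. -/
noncomputable def cellPrimes (x : ℝ) (j : ℕ) : Finset ℕ :=
  (Finset.range (⌈Real.exp (Real.exp (llx x + 1))⌉₊ + 1)).filter
    (fun r => r.Prime ∧ cell x r = j ∧ ll r ≤ llx x + 1)

/-- `φ_d = ∑_{l ≥ 1} a_{d + l} y_l`, in cell form. -/
noncomputable def tailPhi (x : ℝ) (d : ℕ) (qs : List ℕ) : ℝ :=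
  ∑ j ∈ Finset.Ico (halfCell x) (numCells x), (ent (d + above x qs j) - ent d)

/-- `∑ 1 / w` over a finite set of naturals. -/
noncomputable def mass (S : Finset ℕ) : ℝ := ∑ w ∈ S, (1 : ℝ) / w

/-- The main term `∑_{w ∈ 𝒜} π(Y / w + 1)`. -/
noncomputable def mainTerm (x Y : ℝ) : ℝ :=
  ∑ w ∈ safeVals x, (Nat.primeCounting ⌊Y / w + 1⌋₊ : ℝ)

end Vale.Agent.P031
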