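import Mathlib
import Vale.Agent.P028.Arith

/-!
# P031: finite Euler products and the Rankin bound for smooth numbers

* `euler_gen`: a sum of a nonnegative multiplicative weight over numbers with prime factors in `S`
  is at most the product of the local sums.
* `euler_omega`: weights `∏_{p ∣ n} z p / n`, any `0 ≤ z p ≤ Z`.
* `euler_cardFactors`: completely multiplicative weights, `0 ≤ z p ≤ Z` with `Z < 2`.
* `rankin_smooth`: `∑ 1/n` over `t`-smooth `n ≥ M`.
-/

namespace Vale.Agent.P031.Euler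

open Finset

/-- The general finite Euler product. -/
theorem euler_gen (S T : Finset ℕ) (h : ℕ → ℕ → ℝ) (B : ℕ → ℝ)
    (hh : ∀ p ∈ S, ∀ k, 0 ≤ h p k) (hB : ∀ p ∈ S, ∀ K, ∑ k ∈ range K, h p k ≤ B p)
    (hT : ∀ n ∈ T, 0 < n ∧ n.primeFactors ⊆ S) :
    ∑ n ∈ T, ∏ p ∈ S, h p (n.factorization p) ≤ ∏ p ∈ S, B p := by
  classical
  set K := T.sup id + 1 with hK
  let φ : ℕ → ({p // p ∈ S} → ℕ) := fun n p => n.factorization p.1
  have hinj : Set.InjOn φ (T : Set ℕ) := by
    intro a ha b hb hab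
    obtain ⟨ha0, haS⟩ := hT a ha
    obtain ⟨hb0, hbS⟩ := hT b hb
    refine Nat.eq_of_factorization_eq ha0.ne' hb0.ne' fun p => ?_
    by_cases hp : p ∈ S
    · exact congrFun hab ⟨p, hp⟩
    · rw [Finsupp.notMem_support_iff.1 (fun hm => hp (haS (by simpa using hm))),
        Finsupp.notMem_support_iff.1 (fun hm => hp (hbS (by simpa using hm)))]
  have hsub : T.image φ ⊆ Fintype.piFinset fun _ => range K := by
    intro y hy
    obtain ⟨n, hn, rfl⟩ := mem_image.1 hy
    refine Fintype.mem_piFinset.2 fun p => mem_range.2 ?_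
    have h1 : n.factorization p.1 < n := Nat.factorization_lt p.1 (hT n hn).1.ne'
    have h2 : id n ≤ T.sup id := le_sup (f := id) hn
    simp only [id_eq] at h2
    simp only [φ]
    omega
  calc ∑ n ∈ T, ∏ p ∈ S, h p (n.factorization p)
      = ∑ n ∈ T, ∏ p : {p // p ∈ S}, h p.1 (φ n p) := by
        refine sum_congr rfl fun n _ => ?_
        exact (prod_coe_sort S fun p => h p (n.factorization p)).symm
    _ = ∑ y ∈ T.image φ, ∏ p : {p // p ∈ S}, h p.1 (y p) :=
        (sum_image (f := fun y => ∏ p : {p // p ∈ S}, h p.1 (y p)) hinj).symm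
    _ ≤ ∑ y ∈ Fintype.piFinset fun _ : {p // p ∈ S} => range K,
          ∏ p : {p // p ∈ S}, h p.1 (y p) :=
        sum_le_sum_of_subset_of_nonneg hsub fun _ _ _ => prod_nonneg fun p _ => hh p.1 p.2 _
    _ = ∏ p : {p // p ∈ S}, ∑ k ∈ range K, h p.1 k :=
        (prod_univ_sum (fun _ : {p // p ∈ S} => range K) fun p k => h p.1 k).symm
    _ ≤ ∏ p : {p // p ∈ S}, B p.1 :=
        prod_le_prod (fun p _ => sum_nonneg fun k _ => hh p.1 p.2 k) fun p _ => hB p.1 p.2 K
    _ = ∏ p ∈ S, B p := prod_coe_sort S B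

/-- `n` as a product over a set containing its prime factors. -/
theorem prod_pow_factorization_eq {S : Finset ℕ} {n : ℕ} (hn : n ≠ 0) (hS : n.primeFactors ⊆ S) :
    ∏ p ∈ S, (p : ℝ) ^ n.factorization p = n := by
  have h0 : ∏ p ∈ n.primeFactors, p ^ n.factorization p = n := by
    simpa [Finsupp.prod] using Nat.prod_factorization_pow_eq_self hn
  have h1 : (∏ p ∈ n.primeFactors, (p : ℝ) ^ n.factorization p) = (n : ℝ) := by
    exact_mod_cast h0
  refine ((prod_subset hS fun p _ hp => ?_).symm).trans h1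
  rw [Finsupp.notMem_support_iff.1 (fun hm => hp (by simpa using hm)), pow_zero]

/-- A partial geometric sum. -/
theorem geom_le {x : ℝ} (h0 : 0 ≤ x) (h1 : x < 1) (K : ℕ) : ∑ k ∈ range K, x ^ k ≤ (1 - x)⁻¹ := by
  rw [← tsum_geometric_of_lt_one h0 h1]
  exact (summable_geometric_of_lt_one h0 h1).sum_le_tsum _ fun _ _ => by positivity

/-- `∑ 1/p²` over primes is at most one. -/
theorem sum_inv_sq_le (S : Finset ℕ) (hS : ∀ p ∈ S, p.Prime) :
    ∑ p ∈ S, 1 / (p : ℝ) ^ 2 ≤ 1 := by
  have hsub : S ⊆ Icc 2 (S.sup id + 2) := fun p hp => by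
    have := (hS p hp).two_le
    have h2 : id p ≤ S.sup id := le_sup (f := id) hp
    simp only [id_eq] at h2
    simp only [mem_Icc]
    omega
  refine (sum_le_sum_of_subset_of_nonneg hsub fun _ _ _ => by positivity).trans ?_
  have key : ∀ m : ℕ, ∑ p ∈ Icc 2 (m + 2), 1 / (p : ℝ) ^ 2 ≤ 1 - 1 / ((m : ℝ) + 2) := by
    intro m
    induction m with
    | zero => simp; norm_num
    | succ m ih =>
      rw [show m + 1 + 2 = m + 2 + 1 by ring, sum_Icc_succ_top (by omega)]
      have e : 1 / (((m + 2 + 1 : ℕ) : ℝ)) ^ 2 ≤ 1 / ((m : ℝ) + 2) - 1 / ((m : ℝ) + 3) := by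
        push_cast
        rw [div_sub_div _ _ (by positivity) (by positivity),
          div_le_div_iff₀ (by positivity) (by positivity)]
        nlinarith [(Nat.cast_nonneg m : (0 : ℝ) ≤ m)]
      push_cast at e ⊢
      have e2 : ((m : ℝ) + 1 + 2) = (m : ℝ) + 3 := by ring
      rw [e2]
      linarith
  exact (key _).trans (by linarith [show (0 : ℝ) ≤ 1 / ((S.sup id : ℕ) + 2 : ℝ) by positivity])

/-- The Euler bound for weights `∏_{p ∣ n} z p` (any size). -/
theorem euler_omega (z : ℕ → ℝ) (Z : ℝ) (S T : Finset ℕ) (hS : ∀ p ∈ S, p.Prime)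
    (hz : ∀ p ∈ S, 0 ≤ z p) (hzZ : ∀ p ∈ S, z p ≤ Z) (hZ : 0 ≤ Z)
    (hT : ∀ n ∈ T, 0 < n ∧ n.primeFactors ⊆ S) :
    ∑ n ∈ T, (∏ p ∈ n.primeFactors, z p) / (n : ℝ)
      ≤ Real.exp ((∑ p ∈ S, z p / p) + 2 * Z) := by
  classical
  set h : ℕ → ℕ → ℝ := fun p k => (if k = 0 then 1 else z p) / (p : ℝ) ^ k with hh
  have hterm : ∀ n ∈ T, (∏ p ∈ n.primeFactors, z p) / (n : ℝ)
      = ∏ p ∈ S, h p (n.factorization p) := by
    intro n hn
    obtain ⟨hn0, hnS⟩ := hT n hn
    simp only [hh]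
    rw [prod_div_distrib, prod_pow_factorization_eq hn0.ne' hnS]
    congr 1
    rw [← prod_subset hnS]
    · refine prod_congr rfl fun p hp => ?_
      have : n.factorization p ≠ 0 := Finsupp.mem_support_iff.1 (by simpa using hp)
      simp [this]
    · intro p _ hp
      rw [Finsupp.notMem_support_iff.1 (fun hm => hp (by simpa using hm))]
      simp
  rw [sum_congr rfl hterm]
  refine (euler_gen S T h (fun p => Real.exp (z p / ((p : ℝ) - 1))) ?_ ?_ hT).trans ?_
  · intro p hp k
    simp only [hh]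
    have := hz p hp
    split_ifs <;> positivity
  · intro p hp K
    have hp2 : (2 : ℝ) ≤ p := by exact_mod_cast (hS p hp).two_le
    refine le_trans ?_ (Real.add_one_le_exp _)
    set x : ℝ := 1 / (p : ℝ) with hx
    have hx0 : 0 ≤ x := by positivity
    have hx1 : x < 1 := by rw [hx, div_lt_one (by linarith)]; linarith
    have hsplit : ∀ k, h p k = z p * x ^ k + (if k = 0 then 1 - z p else 0) := by
      intro k
      simp only [hh, hx, one_div, inv_pow]
      split_ifs with hk
      · subst hk; simp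
      · ring
    rcases Nat.eq_zero_or_pos K with hK | hK
    · subst hK
      have : 0 ≤ z p / ((p : ℝ) - 1) := div_nonneg (hz p hp) (by linarith)
      simp; linarith
    rw [sum_congr rfl fun k _ => hsplit k, sum_add_distrib, ← mul_sum, sum_ite_eq',
      if_pos (mem_range.2 hK)]
    have hg := mul_le_mul_of_nonneg_left (geom_le hx0 hx1 K) (hz p hp)
    have e : z p * (1 - x)⁻¹ = z p / ((p : ℝ) - 1) + z p := by
      rw [hx]
      have h1 : (p : ℝ) - 1 ≠ 0 := by linarith
      have h2 : (p : ℝ) ≠ 0 := by linarith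
      field_simp
      ring
    linarith
  · rw [← Real.exp_sum]
    refine Real.exp_le_exp.2 ?_
    have h1 : ∀ p ∈ S, z p / ((p : ℝ) - 1) ≤ z p / p + 2 * Z * (1 / (p : ℝ) ^ 2) := by
      intro p hp
      have hp2 : (2 : ℝ) ≤ p := by exact_mod_cast (hS p hp).two_le
      have e : z p / ((p : ℝ) - 1) = z p / p + z p / ((p : ℝ) * (p - 1)) := by
        have h1 : (p : ℝ) - 1 ≠ 0 := by linarith
        have h2 : (p : ℝ) ≠ 0 := by linarith
        field_simp
        ring
      rw [e]
      refine add_le_add le_rfl ?_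
      rw [mul_one_div, div_le_div_iff₀ (by nlinarith) (by positivity)]
      have := hzZ p hp
      nlinarith [mul_nonneg hZ (sq_nonneg ((p : ℝ) - 2)), mul_le_mul_of_nonneg_right this
        (sq_nonneg (p : ℝ)), mul_nonneg (mul_nonneg hZ (le_trans (by norm_num) hp2 : (0:ℝ) ≤ p))
        (by linarith : (0 : ℝ) ≤ (p : ℝ) - 2)]
    refine (sum_le_sum h1).trans ?_
    rw [sum_add_distrib, ← mul_sum]
    have := mul_le_mul_of_nonneg_left (sum_inv_sq_le S hS) (by linarith : (0 : ℝ) ≤ 2 * Z)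
    linarith

/-- The Euler bound for completely multiplicative weights below two. -/
theorem euler_cardFactors (z : ℕ → ℝ) (Z : ℝ) (S T : Finset ℕ) (hS : ∀ p ∈ S, p.Prime)
    (hz : ∀ p ∈ S, 0 ≤ z p) (hzZ : ∀ p ∈ S, z p ≤ Z) (hZ : 0 ≤ Z) (hZ2 : Z < 2)
    (hT : ∀ n ∈ T, 0 < n ∧ n.primeFactors ⊆ S) :
    ∑ n ∈ T, (∏ p ∈ n.primeFactors, z p ^ n.factorization p) / (n : ℝ)
      ≤ Real.exp ((∑ p ∈ S, z p / p) + 2 * Z ^ 2 / (2 - Z)) := by
  classical
  set h : ℕ → ℕ → ℝ := fun p k => z p ^ k / (p : ℝ) ^ k with hh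
  have hterm : ∀ n ∈ T, (∏ p ∈ n.primeFactors, z p ^ n.factorization p) / (n : ℝ)
      = ∏ p ∈ S, h p (n.factorization p) := by
    intro n hn
    obtain ⟨hn0, hnS⟩ := hT n hn
    simp only [hh]
    rw [prod_div_distrib, prod_pow_factorization_eq hn0.ne' hnS]
    congr 1
    refine prod_subset hnS fun p _ hp => ?_
    rw [Finsupp.notMem_support_iff.1 (fun hm => hp (by simpa using hm)), pow_zero]
  rw [sum_congr rfl hterm]
  refine (euler_gen S T h (fun p => Real.exp (z p / ((p : ℝ) - z p))) ?_ ?_ hT).trans ?_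
  · intro p hp k
    simp only [hh]
    have := hz p hp
    positivity
  · intro p hp K
    have hp2 : (2 : ℝ) ≤ p := by exact_mod_cast (hS p hp).two_le
    have hzp := hz p hp
    have hzl := hzZ p hp
    refine le_trans ?_ (Real.add_one_le_exp _)
    have hx1 : z p / (p : ℝ) < 1 := by rw [div_lt_one (by linarith)]; linarith
    simp only [hh, ← div_pow]
    refine (geom_le (div_nonneg hzp (by linarith)) hx1 K).trans (le_of_eq ?_)
    have h1 : (p : ℝ) - z p ≠ 0 := by linarith
    have h2 : (p : ℝ) ≠ 0 := by linarith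
    field_simp
    ring
  · rw [← Real.exp_sum]
    refine Real.exp_le_exp.2 ?_
    have h1 : ∀ p ∈ S, z p / ((p : ℝ) - z p)
        ≤ z p / p + 2 * Z ^ 2 / (2 - Z) * (1 / (p : ℝ) ^ 2) := by
      intro p hp
      have hp2 : (2 : ℝ) ≤ p := by exact_mod_cast (hS p hp).two_le
      have hzp := hz p hp
      have hzl := hzZ p hp
      have e : z p / ((p : ℝ) - z p) = z p / p + z p ^ 2 / ((p : ℝ) * (p - z p)) := by
        have h1 : (p : ℝ) - z p ≠ 0 := by linarith
        have h2 : (p : ℝ) ≠ 0 := by linarith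
        field_simp
        ring
      rw [e, mul_one_div, div_div]
      refine add_le_add le_rfl ?_
      have hA : z p ^ 2 ≤ Z ^ 2 := pow_le_pow_left₀ hzp hzl 2
      have hB : (p : ℝ) * (2 - Z) ≤ 2 * (p - z p) := by
        nlinarith [mul_nonneg (by linarith : (0 : ℝ) ≤ (p : ℝ) - 2) hZ]
      rw [div_le_div_iff₀ (mul_pos (by linarith) (by linarith))
        (mul_pos (by linarith) (by positivity))]
      calc z p ^ 2 * ((2 - Z) * (p : ℝ) ^ 2) ≤ Z ^ 2 * ((2 - Z) * (p : ℝ) ^ 2) :=
            mul_le_mul_of_nonneg_right hA (mul_nonneg (by linarith) (sq_nonneg _))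
        _ = Z ^ 2 * (p : ℝ) * ((p : ℝ) * (2 - Z)) := by ring
        _ ≤ Z ^ 2 * (p : ℝ) * (2 * (p - z p)) :=
            mul_le_mul_of_nonneg_left hB (mul_nonneg (sq_nonneg _) (by linarith))
        _ = _ := by ring
    refine (sum_le_sum h1).trans ?_
    rw [sum_add_distrib, ← mul_sum]
    have := mul_le_mul_of_nonneg_left (sum_inv_sq_le S hS)
      (div_nonneg (by positivity) (by linarith) : (0 : ℝ) ≤ 2 * Z ^ 2 / (2 - Z))
    linarith

/-- A crude form of Mertens' second theorem: `∑_{p ≤ P} 1/p ≤ 8 log log P + C`. -/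
theorem sum_inv_primes_le :
    ∃ C : ℝ, ∀ P : ℕ, ∑ p ∈ (Finset.Icc 1 P).filter Nat.Prime, (1 : ℝ) / p
      ≤ 8 * Real.log (1 + Real.log P) + C := by
  obtain ⟨C, hC⟩ := P028.mertens
  refine ⟨Real.log C, fun P => ?_⟩
  have h := hC 0 P (Nat.zero_le _)
  have hset : (Finset.Ioc 0 P).filter Nat.Prime = (Finset.Icc 1 P).filter Nat.Prime := by rfl
  rw [hset] at h
  simp only [Nat.cast_zero, zero_add, Real.log_one, add_zero, div_one] at h
  set S := (Finset.Icc 1 P).filter Nat.Prime
  have hp2 : ∀ p ∈ S, (2 : ℝ) ≤ p := fun p hp => by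
    exact_mod_cast (mem_filter.1 hp).2.two_le
  have h0 : 0 < ∏ p ∈ S, (p : ℝ) / (p - 1) := prod_pos fun p hp => by
    have := hp2 p hp
    exact div_pos (by linarith) (by linarith)
  have hl : 0 < 1 + Real.log (P : ℝ) := by linarith [Real.log_natCast_nonneg P]
  have hC0 : 0 < C := by
    by_contra hcon
    replace hcon := not_lt.1 hcon
    linarith [mul_nonpos_of_nonpos_of_nonneg hcon (pow_nonneg hl.le 8)]
  have h1 : ∑ p ∈ S, (1 : ℝ) / p ≤ ∑ p ∈ S, Real.log ((p : ℝ) / (p - 1)) := by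
    refine sum_le_sum fun p hp => ?_
    have := hp2 p hp
    have hi := Real.one_sub_inv_le_log_of_pos (by
      exact div_pos (by linarith) (by linarith) : (0 : ℝ) < (p : ℝ) / (p - 1))
    have e : (1 : ℝ) - ((p : ℝ) / (p - 1))⁻¹ = 1 / p := by
      have h2 : (p : ℝ) ≠ 0 := by linarith
      rw [inv_div]
      field_simp
      ring
    rw [e] at hi
    exact hi
  refine h1.trans ?_
  rw [← Real.log_prod (fun p hp => (div_pos (by linarith [hp2 p hp]) (by linarith [hp2 p hp])).ne')]
  refine (Real.log_le_log h0 h).trans_eq ?_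
  rw [Real.log_mul hC0.ne' (pow_ne_zero _ hl.ne'), Real.log_pow]
  push_cast
  ring

/-- `∑_{p ≤ P} log p / p ≤ 12 (log P + 1)`. -/
theorem sum_log_div_primes_le (P : ℕ) :
    ∑ p ∈ (Finset.Icc 1 P).filter Nat.Prime, Real.log p / p ≤ 12 * (Real.log P + 1) := by
  have hblock : ∀ k : ℕ, ∑ p ∈ (Finset.Ioc (2 ^ k) (2 ^ (k + 1))).filter Nat.Prime,
      Real.log p / p ≤ 8 * Real.log 2 := by
    intro k
    set F := (Finset.Ioc (2 ^ k) (2 ^ (k + 1))).filter Nat.Prime with hF
    have hl2 : 0 ≤ Real.log 2 := Real.log_nonneg (by norm_num)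
    have h2k : (0 : ℝ) < (2 : ℝ) ^ k := by positivity
    have hsum : ∑ p ∈ F, Real.log p / p ≤ ∑ _p ∈ F, ((k : ℝ) + 1) * Real.log 2 / 2 ^ k := by
      refine sum_le_sum fun p hp => ?_
      obtain ⟨h1, h2⟩ := Finset.mem_Ioc.1 (mem_filter.1 hp).1
      have h1' : (2 : ℝ) ^ k < p := by exact_mod_cast h1
      have h2' : (p : ℝ) ≤ (2 : ℝ) ^ (k + 1) := by exact_mod_cast h2
      have hlog : Real.log p ≤ ((k : ℝ) + 1) * Real.log 2 := by
        have := Real.log_le_log (h2k.trans h1') h2'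
        rw [Real.log_pow] at this
        push_cast at this
        exact this
      exact div_le_div₀ (by positivity) hlog h2k h1'.le
    refine hsum.trans ?_
    rw [sum_const, nsmul_eq_mul]
    rcases Nat.eq_zero_or_pos k with hk | hk
    · subst hk
      have : F.card ≤ 1 := (card_filter_le _ _).trans (by simp)
      have : (F.card : ℝ) ≤ 1 := by exact_mod_cast this
      simp only [Nat.cast_zero, zero_add, one_mul, pow_zero, div_one]
      nlinarith
    have hcard : k * F.card ≤ 4 * 2 ^ k := by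
      have h1 : (2 ^ k) ^ F.card ≤ ∏ p ∈ F, p := Finset.pow_card_le_prod _ _ _ fun p hp =>
        (Finset.mem_Ioc.1 (Finset.mem_filter.1 hp).1).1.le
      have h2 : ∏ p ∈ F, p ≤ primorial (2 ^ (k + 1)) := by
        apply Finset.prod_le_prod_of_subset_of_one_le'
        · intro p hp
          obtain ⟨hp1, hp2⟩ := Finset.mem_filter.1 hp
          exact Finset.mem_filter.2 ⟨Finset.mem_range.2
            (Nat.lt_succ_of_le (Finset.mem_Ioc.1 hp1).2), hp2⟩
        · intro p hp _
          exact (Finset.mem_filter.1 hp).2.one_le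
      have h3 := h1.trans (h2.trans (primorial_le_four_pow _))
      rw [← pow_mul, show (4 : ℕ) = 2 ^ 2 by norm_num, ← pow_mul,
        Nat.pow_le_pow_iff_right (by norm_num)] at h3
      calc k * F.card ≤ 2 * 2 ^ (k + 1) := h3
        _ = 4 * 2 ^ k := by ring
    have hcard' : ((k : ℝ) + 1) * F.card ≤ 8 * 2 ^ k := by
      have : (k + 1) * F.card ≤ 8 * 2 ^ k := by nlinarith
      exact_mod_cast this
    rw [mul_div_assoc', div_le_iff₀ h2k]
    nlinarith
  have hind : ∀ j : ℕ, ∑ p ∈ (Finset.Ioc 1 (2 ^ j)).filter Nat.Prime, Real.log p / p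
      ≤ 8 * Real.log 2 * j := by
    intro j
    induction j with
    | zero => simp
    | succ j ih =>
      rw [← Finset.Ioc_union_Ioc_eq_Ioc (Nat.one_le_two_pow (n := j))
        (Nat.pow_le_pow_right (by norm_num) (Nat.le_succ j)), Finset.filter_union,
        Finset.sum_union (Finset.disjoint_filter_filter (Finset.Ioc_disjoint_Ioc_of_le le_rfl))]
      have := hblock j
      push_cast
      linarith
  set j := Nat.log 2 P + 1 with hj
  refine le_trans (sum_le_sum_of_subset_of_nonneg ?_ fun p _ _ => ?_) ((hind j).trans ?_)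
  · intro p hp
    obtain ⟨h1, h2⟩ := mem_filter.1 hp
    refine mem_filter.2 ⟨Finset.mem_Ioc.2 ⟨h2.one_lt, ?_⟩, h2⟩
    exact (Finset.mem_Icc.1 h1).2.trans (Nat.lt_pow_succ_log_self (by norm_num) P).le
  · exact div_nonneg (Real.log_natCast_nonneg _) (Nat.cast_nonneg _)
  · have hl : Real.log 2 * (Nat.log 2 P : ℝ) ≤ Real.log P := by
      rcases Nat.eq_zero_or_pos P with hP | hP
      · simp [hP]
      · have h : ((2 : ℝ)) ^ Nat.log 2 P ≤ P := by exact_mod_cast Nat.pow_log_le_self 2 hP.ne'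
        have h' := Real.log_le_log (by positivity) h
        rw [Real.log_pow] at h'
        linarith
    have := Real.log_two_lt_d9
    have := Real.log_natCast_nonneg P
    rw [hj]
    push_cast
    linarith

/-- Rankin: smooth numbers above `M` have small reciprocal sum. -/
theorem rankin_smooth :
    ∃ C : ℝ, ∀ (t lam M : ℝ) (T : Finset ℕ), 3 ≤ t → 0 ≤ lam → lam ≤ Real.log t / 4 → 0 < M →
      (∀ n ∈ T, M ≤ (n : ℝ) ∧ ∀ p ∈ n.primeFactors, (p : ℝ) ≤ t) →
      ∑ n ∈ T, (1 : ℝ) / n ≤ Real.exp (-(lam * Real.log M / Real.log t))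
        * Real.exp (8 * Real.log (1 + Real.log t) + C * Real.exp (2 * lam)) := by
  classical
  obtain ⟨C0, hC0⟩ := sum_inv_primes_le
  refine ⟨|C0| + 60, fun t lam M T ht hlam hlam4 hM hT => ?_⟩
  have hlt : 1 ≤ Real.log t := by
    rw [Real.le_log_iff_exp_le (by linarith)]
    linarith [Real.exp_one_lt_three]
  set s := lam / Real.log t with hs
  have hs0 : 0 ≤ s := div_nonneg hlam (by linarith)
  have hs4 : s ≤ 1 / 4 := by rw [hs, div_le_iff₀ (by linarith)]; linarith
  set P := ⌊t⌋₊ with hP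
  set S := (Finset.Icc 1 P).filter Nat.Prime with hS
  have hSp : ∀ p ∈ S, p.Prime := fun p hp => (mem_filter.1 hp).2
  have hTS : ∀ n ∈ T, 0 < n ∧ n.primeFactors ⊆ S := by
    intro n hn
    obtain ⟨hMn, hpt⟩ := hT n hn
    have h0 : (0 : ℝ) < n := hM.trans_le hMn
    refine ⟨by exact_mod_cast h0, fun p hp => ?_⟩
    have hpp := Nat.prime_of_mem_primeFactors hp
    exact mem_filter.2 ⟨Finset.mem_Icc.2 ⟨hpp.one_le, Nat.le_floor (hpt p hp)⟩, hpp⟩
  set x : ℕ → ℝ := fun p => (p : ℝ) ^ (-(1 - s)) with hx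
  have hxb : ∀ p ∈ S, 0 ≤ x p ∧ x p ≤ 3 / 4 := by
    intro p hp
    have hp2 : (2 : ℝ) ≤ p := by exact_mod_cast (hSp p hp).two_le
    refine ⟨by positivity, ?_⟩
    have ha : x p ≤ (p : ℝ) ^ (-(3 / 4) : ℝ) :=
      Real.rpow_le_rpow_of_exponent_le (by linarith) (by linarith)
    have hb : (p : ℝ) ^ (-(3 / 4) : ℝ) ≤ (2 : ℝ) ^ (-(3 / 4) : ℝ) :=
      Real.rpow_le_rpow_of_nonpos (by norm_num) hp2 (by norm_num)
    have hc : (2 : ℝ) ^ (-(3 / 4) : ℝ) ≤ (2 : ℝ) ^ (-(1 / 2) : ℝ) :=
      Real.rpow_le_rpow_of_exponent_le (by norm_num) (by norm_num)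
    have hd : (2 : ℝ) ^ (-(1 / 2) : ℝ) ≤ 3 / 4 := by
      rw [Real.rpow_neg (by norm_num), ← Real.sqrt_eq_rpow, inv_le_comm₀
        (by positivity) (by norm_num)]
      exact Real.le_sqrt_of_sq_le (by norm_num)
    linarith
  have hterm : ∀ n ∈ T, (1 : ℝ) / n ≤ M ^ (-s) * ∏ p ∈ S, x p ^ n.factorization p := by
    intro n hn
    obtain ⟨hn0, hnS⟩ := hTS n hn
    have hMn := (hT n hn).1
    have hn0' : (0 : ℝ) < n := hM.trans_le hMn
    have hprod : ∏ p ∈ S, x p ^ n.factorization p = (n : ℝ) ^ (-(1 - s)) := by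
      conv_rhs => rw [← prod_pow_factorization_eq hn0.ne' hnS]
      rw [← Real.finsetProd_rpow S _ fun p _ => by positivity]
      refine prod_congr rfl fun p _ => ?_
      simp only [hx]
      rw [← Real.rpow_natCast, ← Real.rpow_natCast, ← Real.rpow_mul (Nat.cast_nonneg p),
        ← Real.rpow_mul (Nat.cast_nonneg p), mul_comm]
    rw [hprod]
    have h1 : (n : ℝ) ^ (-s) ≤ M ^ (-s) := Real.rpow_le_rpow_of_nonpos hM hMn (by linarith)
    have h2 : (1 : ℝ) / n = (n : ℝ) ^ (-s) * (n : ℝ) ^ (-(1 - s)) := by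
      rw [← Real.rpow_add hn0', one_div, ← Real.rpow_neg_one]
      congr 1
      ring
    rw [h2]
    exact mul_le_mul_of_nonneg_right h1 (by positivity)
  have hMexp : M ^ (-s) = Real.exp (-(lam * Real.log M / Real.log t)) := by
    rw [Real.rpow_def_of_pos hM, hs]
    congr 1
    ring
  refine (sum_le_sum hterm).trans ?_
  rw [← mul_sum, hMexp]
  refine mul_le_mul_of_nonneg_left ?_ (Real.exp_pos _).le
  refine (euler_gen S T (fun p k => x p ^ k) (fun p => Real.exp (x p / (1 - x p)))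
    (fun p hp k => pow_nonneg (hxb p hp).1 k) (fun p hp K => ?_) hTS).trans ?_
  · obtain ⟨hx0, hx3⟩ := hxb p hp
    refine (geom_le hx0 (by linarith) K).trans (le_trans (le_of_eq ?_) (Real.add_one_le_exp _))
    have : 1 - x p ≠ 0 := by linarith
    field_simp
    ring
  rw [← Real.exp_sum]
  refine Real.exp_le_exp.2 ?_
  have hel : 1 ≤ Real.exp lam := Real.one_le_exp hlam
  have hstep : ∀ p ∈ S, x p / (1 - x p) ≤
      1 / (p : ℝ) + s * Real.exp lam * (Real.log p / p) + 4 * (p : ℝ) ^ (-(3 / 2) : ℝ) := by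
    intro p hp
    obtain ⟨hx0, hx3⟩ := hxb p hp
    have hp2 : (2 : ℝ) ≤ p := by exact_mod_cast (hSp p hp).two_le
    have hp0 : (0 : ℝ) < p := by linarith
    have hpt : (p : ℝ) ≤ t := by
      have := (Finset.mem_Icc.1 (mem_filter.1 hp).1).2
      exact le_trans (by exact_mod_cast this) (Nat.floor_le (by linarith))
    have e1 : x p / (1 - x p) ≤ x p + 4 * x p ^ 2 := by
      rw [div_le_iff₀ (by linarith)]
      nlinarith [mul_nonneg hx0 hx0, mul_nonneg (mul_nonneg hx0 hx0) hx0]
    have e2 : x p ^ 2 ≤ (p : ℝ) ^ (-(3 / 2) : ℝ) := by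
      simp only [hx]
      rw [← Real.rpow_natCast, ← Real.rpow_mul hp0.le]
      exact Real.rpow_le_rpow_of_exponent_le (by linarith) (by push_cast; linarith)
    have e3 : (p : ℝ) ^ s ≤ 1 + s * Real.exp lam * Real.log p := by
      rw [Real.rpow_def_of_pos hp0]
      set u := Real.log p * s with hu
      have hu0 : 0 ≤ u := mul_nonneg (Real.log_nonneg (by linarith)) hs0
      have hul : u ≤ lam := by
        calc u ≤ Real.log t * s := mul_le_mul_of_nonneg_right (Real.log_le_log hp0 hpt) hs0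
          _ = lam := by rw [hs]; field_simp
      have h1 : Real.exp u - 1 ≤ u * Real.exp u := by
        have h := Real.add_one_le_exp (-u)
        have h2 : Real.exp (-u) * Real.exp u = 1 := by rw [← Real.exp_add]; simp
        nlinarith [Real.exp_pos u]
      have h2 : u * Real.exp u ≤ u * Real.exp lam :=
        mul_le_mul_of_nonneg_left (Real.exp_le_exp.2 hul) hu0
      nlinarith
    have e4 : x p ≤ 1 / (p : ℝ) + s * Real.exp lam * (Real.log p / p) := by
      have : x p = (p : ℝ) ^ s / p := by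
        simp only [hx]
        rw [neg_sub, Real.rpow_sub_one hp0.ne']
      rw [this]
      calc (p : ℝ) ^ s / p ≤ (1 + s * Real.exp lam * Real.log p) / p := by gcongr
        _ = _ := by ring
    linarith
  refine (sum_le_sum hstep).trans ?_
  rw [sum_add_distrib, sum_add_distrib, ← mul_sum, ← mul_sum]
  have b1 : ∑ p ∈ S, (1 : ℝ) / p ≤ 8 * Real.log (1 + Real.log t) + |C0| := by
    refine (hC0 P).trans (add_le_add ?_ (le_abs_self _))
    have hP1 : (1 : ℝ) ≤ (P : ℝ) := by
      exact_mod_cast Nat.le_floor (by push_cast; linarith : ((1 : ℕ) : ℝ) ≤ t)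
    have hPt : (P : ℝ) ≤ t := Nat.floor_le (by linarith)
    have h := Real.log_le_log (by linarith [Real.log_nonneg hP1])
      (add_le_add (le_refl (1 : ℝ)) (Real.log_le_log (by linarith) hPt))
    linarith
  have b2 : s * Real.exp lam * ∑ p ∈ S, Real.log p / p ≤ 24 * Real.exp (2 * lam) := by
    have hlog : Real.log (P : ℝ) + 1 ≤ 2 * Real.log t := by
      have hP1 : (1 : ℝ) ≤ (P : ℝ) := by
        exact_mod_cast Nat.le_floor (by push_cast; linarith : ((1 : ℕ) : ℝ) ≤ t)
      have := Real.log_le_log (by linarith) (Nat.floor_le (by linarith) : (P : ℝ) ≤ t)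
      linarith
    calc s * Real.exp lam * ∑ p ∈ S, Real.log p / p
        ≤ s * Real.exp lam * (12 * (2 * Real.log t)) :=
          mul_le_mul_of_nonneg_left ((sum_log_div_primes_le P).trans (by linarith)) (by positivity)
      _ = 24 * (lam * Real.exp lam) := by rw [hs]; field_simp; ring
      _ ≤ 24 * Real.exp (2 * lam) := by
          rw [two_mul, Real.exp_add]
          have := Real.add_one_le_exp lam
          nlinarith [mul_le_mul_of_nonneg_right (by linarith : lam ≤ Real.exp lam)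
            (Real.exp_pos lam).le]
  have b3 : ∑ p ∈ S, (p : ℝ) ^ (-(3 / 2) : ℝ) ≤ 3 := by
    have key : ∀ N : ℕ, 1 ≤ N → ∑ n ∈ Finset.Icc 1 N, (n : ℝ) ^ (-(3 / 2) : ℝ)
        ≤ 3 - 2 / Real.sqrt N := by
      intro N hN
      induction N, hN using Nat.le_induction with
      | base => simp; norm_num
      | succ N hN ih =>
        rw [Finset.sum_Icc_succ_top (by omega)]
        have hN0 : (1 : ℝ) ≤ N := by exact_mod_cast hN
        push_cast
        set a := Real.sqrt (N : ℝ) with ha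
        set b := Real.sqrt ((N : ℝ) + 1) with hb
        have ha0 : 0 < a := by positivity
        have hab : a ≤ b := Real.sqrt_le_sqrt (by linarith)
        have ha2 : a * a = N := Real.mul_self_sqrt (by linarith)
        have hb2 : b * b = (N : ℝ) + 1 := Real.mul_self_sqrt (by linarith)
        have e : ((N : ℝ) + 1) ^ (-(3 / 2) : ℝ) = 1 / (b * b * b) := by
          rw [Real.rpow_neg (by linarith), show (3 / 2 : ℝ) = 1 + 1 / 2 by norm_num,
            Real.rpow_add (by linarith), Real.rpow_one, ← Real.sqrt_eq_rpow, ← hb, hb2, one_div]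
        rw [e]
        have : 1 / (b * b * b) ≤ 2 / a - 2 / b := by
          rw [div_sub_div _ _ ha0.ne' (by positivity), div_le_div_iff₀ (by positivity) (by positivity)]
          have hba : (b - a) * (b + a) = 1 := by nlinarith
          nlinarith [mul_pos ha0 (by linarith : 0 < b), mul_le_mul_of_nonneg_left hab ha0.le,
            mul_nonneg (sub_nonneg.2 hab) (by positivity : (0 : ℝ) ≤ b * b * b)]
        linarith
    rcases Nat.eq_zero_or_pos P with hP0 | hP0
    · simp [hS, hP0]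
    · refine ((sum_le_sum_of_subset_of_nonneg (filter_subset _ _) fun _ _ _ => by positivity).trans
        (key P hP0)).trans ?_
      have : (0 : ℝ) ≤ 2 / Real.sqrt P := by positivity
      linarith
  have he2 : 1 ≤ Real.exp (2 * lam) := Real.one_le_exp (by linarith)
  nlinarith [abs_nonneg C0]

end Vale.Agent.P031.Euler
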