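import Mathlib

/-!
Prime number theorem, by the Wiener–Ikehara argument with the Fejér kernel.
-/

open Filter Topology MeasureTheory Set

namespace Vale.Agent.P031.PNT

/-- Fejér kernel with parameter `l`, not normalised. -/
noncomputable def fejer (l v : ℝ) : ℝ := ∫ t in (0:ℝ)..l, (l - t) * Real.cos (t * v)

lemma fejer_continuous (l : ℝ) : Continuous (fejer l) :=
  intervalIntegral.continuous_parametric_intervalIntegral_of_continuous'
    (by simp only [Function.uncurry_def]; fun_prop) 0 l

lemma fejer_eq {l v : ℝ} (hv : v ≠ 0) : fejer l v = (1 - Real.cos (l * v)) / v ^ 2 := by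
  have h : ∀ t ∈ Set.uIcc (0:ℝ) l,
      HasDerivAt (fun s => (l - s) * Real.sin (s * v) / v - Real.cos (s * v) / v ^ 2)
        ((l - t) * Real.cos (t * v)) t := by
    intro t _
    have h1 : HasDerivAt (fun s => (l - s) * Real.sin (s * v))
        ((-1) * Real.sin (t * v) + (l - t) * (Real.cos (t * v) * v)) t := by
      simpa using ((hasDerivAt_id t).const_sub l).fun_mul
        ((hasDerivAt_id t).mul_const v).sin
    have h2 : HasDerivAt (fun s => Real.cos (s * v)) (-Real.sin (t * v) * v) t := by
      simpa using ((hasDerivAt_id t).mul_const v).cos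
    refine ((h1.div_const v).fun_sub (h2.div_const (v ^ 2))).congr_deriv ?_
    field_simp
    ring
  rw [fejer, intervalIntegral.integral_eq_sub_of_hasDerivAt h
    ((by fun_prop : Continuous fun t => (l - t) * Real.cos (t * v)).intervalIntegrable _ _)]
  simp [Real.sin_zero, Real.cos_zero]
  ring

lemma fejer_nonneg {l : ℝ} (hl : 0 ≤ l) (v : ℝ) : 0 ≤ fejer l v := by
  rcases eq_or_ne v 0 with rfl | hv
  · refine intervalIntegral.integral_nonneg hl fun t ht => ?_
    simp only [mul_zero, Real.cos_zero, mul_one]; linarith [ht.2]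
  · rw [fejer_eq hv]
    exact div_nonneg (by linarith [Real.cos_le_one (l * v)]) (sq_nonneg v)

lemma fejer_mul_sq_le (l v : ℝ) : fejer l v * v ^ 2 ≤ 2 := by
  rcases eq_or_ne v 0 with rfl | hv
  · simp
  · rw [fejer_eq hv, div_mul_cancel₀ _ (pow_ne_zero 2 hv)]
    linarith [Real.neg_one_le_cos (l * v)]

lemma fejer_le {l : ℝ} (hl : 0 ≤ l) (v : ℝ) : fejer l v ≤ l ^ 2 := by
  have h : fejer l v ≤ ∫ _t in (0:ℝ)..l, l := by
    refine intervalIntegral.integral_mono_on hl ?_ intervalIntegrable_const fun t ht => ?_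
    · exact (by fun_prop : Continuous fun t => (l - t) * Real.cos (t * v)).intervalIntegrable _ _
    · calc (l - t) * Real.cos (t * v) ≤ (l - t) * 1 :=
            mul_le_mul_of_nonneg_left (Real.cos_le_one _) (by linarith [ht.2])
        _ ≤ l := by linarith [ht.1]
  simpa [sq] using h

lemma le_fejer {l v : ℝ} (hl : 0 ≤ l) (hv : |v| * l ≤ 1) : l ^ 2 / 4 ≤ fejer l v := by
  have h : (∫ t in (0:ℝ)..l, (l - t) * (1 / 2)) ≤ fejer l v := by
    refine intervalIntegral.integral_mono_on hl ?_ ?_ fun t ht => ?_
    · exact (by fun_prop : Continuous fun t => (l - t) * (1 / 2 : ℝ)).intervalIntegrable _ _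
    · exact (by fun_prop : Continuous fun t => (l - t) * Real.cos (t * v)).intervalIntegrable _ _
    · refine mul_le_mul_of_nonneg_left ?_ (by linarith [ht.2])
      have h1 : |t * v| ≤ 1 := by
        rw [abs_mul, abs_of_nonneg ht.1]
        nlinarith [abs_nonneg v, ht.2]
      have h2 := Real.one_sub_sq_div_two_le_cos (x := t * v)
      have h3 : (t * v) ^ 2 ≤ 1 := (sq_le_one_iff_abs_le_one _).mpr h1
      linarith
  refine le_trans (le_of_eq ?_) h
  rw [intervalIntegral.integral_mul_const, intervalIntegral.integral_sub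
    intervalIntegrable_const (continuous_id'.intervalIntegrable _ _)]
  simp
  ring

lemma fejer_le_inv {l : ℝ} (hl : 0 ≤ l) (v : ℝ) :
    fejer l v ≤ (l ^ 2 + 2) * (1 + v ^ 2)⁻¹ := by
  rw [← div_eq_mul_inv, le_div_iff₀ (by positivity)]
  nlinarith [fejer_mul_sq_le l v, fejer_le hl v]

lemma fejer_integrable {l : ℝ} (hl : 0 ≤ l) : Integrable (fejer l) :=
  (integrable_inv_one_add_sq.const_mul (l ^ 2 + 2)).mono'
    (fejer_continuous l).aestronglyMeasurable
    (Eventually.of_forall fun v => by
      rw [Real.norm_eq_abs, abs_of_nonneg (fejer_nonneg hl v)]; exact fejer_le_inv hl v)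

/-- If all smoothed averages of `b` tend to zero, `b` is not large on a long interval far out. -/
lemma not_large {b : ℝ → ℝ} {B c h : ℝ} (hb : Measurable b) (hB : ∀ u, |b u| ≤ B) (hc : 0 < c)
    (hh : 0 < h)
    (hlim : ∀ l > 0, Tendsto (fun v => ∫ u in Ioi (0:ℝ), b u * fejer l (v - u)) atTop (𝓝 0)) :
    ∀ᶠ v in atTop, ¬ ∀ u ∈ Icc (v - h) (v + h), c ≤ b u := by
  have hB0 : 0 ≤ B := (abs_nonneg _).trans (hB 0)
  set D : ℝ := B * (2 * (1 + 1 / h ^ 2)) with hDd
  have hD : 0 ≤ D := by positivity
  obtain ⟨l, hl1, hl2⟩ : ∃ l : ℝ, 1 / h ≤ l ∧ (2 / c) * (D * Real.pi + 1) ≤ l :=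
    ⟨max (1 / h) ((2 / c) * (D * Real.pi + 1)), le_max_left _ _, le_max_right _ _⟩
  have hl : 0 < l := lt_of_lt_of_le (by positivity) hl1
  have hlh : 1 / l ≤ h := by
    rw [div_le_iff₀ hl]
    rw [div_le_iff₀ hh] at hl1
    linarith
  filter_upwards [(hlim l hl).eventually (gt_mem_nhds (zero_lt_one (α := ℝ))),
    eventually_gt_atTop h] with v hv hvh hall
  have hK : Integrable fun u => fejer l (v - u) := (fejer_integrable hl.le).comp_sub_left v
  have hlow : Integrable fun u => (Icc (v - 1 / l) (v + 1 / l)).indicator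
      (fun _ => c * (l ^ 2 / 4)) u - D * (1 + (v - u) ^ 2)⁻¹ := by
    refine Integrable.sub ?_ ((integrable_inv_one_add_sq.comp_sub_left v).const_mul D)
    exact (integrable_indicator_iff measurableSet_Icc).2
      (integrableOn_const (hs := by simp) (hC := by finiteness))
  have hup : Integrable ((Ioi (0:ℝ)).indicator fun u => b u * fejer l (v - u)) := by
    rw [integrable_indicator_iff measurableSet_Ioi]
    refine (hK.const_mul B).integrableOn.mono'
      ((hb.aestronglyMeasurable).mul hK.aestronglyMeasurable.restrict)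
      (Eventually.of_forall fun u => ?_)
    rw [Real.norm_eq_abs, abs_mul, abs_of_nonneg (fejer_nonneg hl.le _)]
    exact mul_le_mul_of_nonneg_right (hB u) (fejer_nonneg hl.le _)
  have hle := integral_mono hlow hup fun u => by
    have hK0 := fejer_nonneg hl.le (v - u)
    have hpos : 0 ≤ D * (1 + (v - u) ^ 2)⁻¹ := by positivity
    by_cases hu : u ∈ Icc (v - h) (v + h)
    · have hu0 : u ∈ Ioi (0:ℝ) := by
        have := hu.1; simp only [mem_Ioi]; linarith
      rw [indicator_of_mem hu0]
      by_cases hu' : u ∈ Icc (v - 1 / l) (v + 1 / l)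
      · rw [indicator_of_mem hu']
        have h1 : |v - u| * l ≤ 1 := by
          have : |v - u| ≤ 1 / l := abs_le.mpr ⟨by linarith [hu'.2], by linarith [hu'.1]⟩
          rwa [le_div_iff₀ hl] at this
        have := mul_le_mul (hall u hu) (le_fejer hl.le h1) (by positivity) (hc.le.trans (hall u hu))
        linarith
      · rw [indicator_of_notMem hu']
        nlinarith [hall u hu]
    · have hu' : u ∉ Icc (v - 1 / l) (v + 1 / l) := fun h' =>
        hu ⟨by linarith [h'.1], by linarith [h'.2]⟩
      rw [indicator_of_notMem hu', zero_sub]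
      by_cases hu0 : u ∈ Ioi (0:ℝ)
      · rw [indicator_of_mem hu0]
        have hs : h ^ 2 ≤ (v - u) ^ 2 := by
          rw [mem_Icc, not_and_or, not_le, not_le] at hu
          rcases hu with hu | hu <;> nlinarith
        have h1 : fejer l (v - u) ≤ 2 * (1 + 1 / h ^ 2) * (1 + (v - u) ^ 2)⁻¹ := by
          rw [← div_eq_mul_inv, le_div_iff₀ (by positivity)]
          have h2 := fejer_mul_sq_le l (v - u)
          have h3 : fejer l (v - u) ≤ 2 / h ^ 2 := by
            rw [le_div_iff₀ (by positivity)]
            exact (mul_le_mul_of_nonneg_left hs hK0).trans h2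
          calc fejer l (v - u) * (1 + (v - u) ^ 2)
              = fejer l (v - u) + fejer l (v - u) * (v - u) ^ 2 := by ring
            _ ≤ 2 / h ^ 2 + 2 := by linarith
            _ = 2 * (1 + 1 / h ^ 2) := by ring
        have h4 : -B ≤ b u := (abs_le.mp (hB u)).1
        have h5 := mul_le_mul_of_nonneg_left h1 hB0
        have h6 := mul_le_mul_of_nonneg_right h4 hK0
        rw [hDd]
        nlinarith
      · rw [indicator_of_notMem hu0]; linarith
  rw [integral_indicator measurableSet_Ioi, integral_sub, integral_indicator measurableSet_Icc,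
    setIntegral_const, integral_const_mul, integral_sub_left_eq_self (fun x : ℝ => (1 + x ^ 2)⁻¹) volume v,
    integral_univ_inv_one_add_sq, smul_eq_mul, measureReal_def, Real.volume_Icc,
    ENNReal.toReal_ofReal (by have : 0 < 1 / l := by positivity
                              linarith)] at hle
  · have h1 : (v + 1 / l - (v - 1 / l)) * (c * (l ^ 2 / 4)) = c * l / 2 := by field_simp; ring
    have h2 : D * Real.pi + 1 ≤ c * l / 2 := by
      have := mul_le_mul_of_nonneg_left hl2 (half_pos hc).le
      have e : c / 2 * (2 / c * (D * Real.pi + 1)) = D * Real.pi + 1 := by field_simp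
      linarith
    linarith [h1 ▸ hle]
  · exact (integrable_indicator_iff measurableSet_Icc).2
      (integrableOn_const (hs := by simp) (hC := by finiteness))
  · exact (integrable_inv_one_add_sq.comp_sub_left v).const_mul D

/-- `ψ (e^u) e^{-u}` -/
noncomputable def ratio (u : ℝ) : ℝ := Chebyshev.psi (Real.exp u) * Real.exp (-u)

lemma measurable_ratio : Measurable ratio :=
  (Chebyshev.psi_mono.measurable.comp Real.measurable_exp).mul
    (Real.measurable_exp.comp measurable_neg)

lemma ratio_nonneg (u : ℝ) : 0 ≤ ratio u :=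
  mul_nonneg (Chebyshev.psi_nonneg _) (Real.exp_pos _).le

noncomputable def bnd : ℝ := Real.log 4 + 5

lemma ratio_le (u : ℝ) : ratio u ≤ Real.log 4 + 4 := by
  have h := mul_le_mul_of_nonneg_right
    (Chebyshev.psi_le_const_mul_self (Real.exp_pos u).le) (Real.exp_pos (-u)).le
  rwa [mul_assoc, ← Real.exp_add, add_neg_cancel, Real.exp_zero, mul_one] at h

lemma abs_ratio_sub_one_le (u : ℝ) : |ratio u - 1| ≤ bnd := by
  have := Real.log_nonneg (show (1:ℝ) ≤ 4 by norm_num)
  have := ratio_nonneg u
  have := ratio_le u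
  rw [bnd, abs_le]; constructor <;> linarith

lemma ratio_shift {u v : ℝ} (h : u ≤ v) : ratio u * Real.exp (-(v - u)) ≤ ratio v := by
  have h1 := Chebyshev.psi_mono (Real.exp_le_exp.mpr h)
  rw [ratio, ratio, mul_assoc, ← Real.exp_add]
  rw [show -u + -(v - u) = -v by ring]
  exact mul_le_mul_of_nonneg_right h1 (Real.exp_pos _).le

open ArithmeticFunction.vonMangoldt in
/-- The boundary function of the Laplace transform of `ratio - 1`. -/
noncomputable def aux (p : ℝ × ℝ) : ℂ :=
  (LFunctionResidueClassAux (1 : ZMod 1) (1 + ((|p.1| : ℝ) + p.2 * Complex.I)) - 1) /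
    (1 + ((|p.1| : ℝ) + p.2 * Complex.I))

open ArithmeticFunction.vonMangoldt in
lemma continuous_aux : Continuous aux := by
  have hs : Continuous fun p : ℝ × ℝ => (1 : ℂ) + ((|p.1| : ℝ) + p.2 * Complex.I) := by fun_prop
  refine Continuous.div (Continuous.sub ?_ continuous_const) hs fun p h => ?_
  · exact (continuousOn_LFunctionResidueClassAux (1 : ZMod 1)).comp_continuous hs
      fun p => by simp
  · have := congrArg Complex.re h
    simp at this
    linarith [abs_nonneg p.1]

lemma vonMangoldt_bigO : (fun n : ℕ => ∑ k ∈ Finset.Icc 1 n, ArithmeticFunction.vonMangoldt k)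
    =O[atTop] fun n : ℕ => (n : ℝ) ^ (1 : ℝ) := by
  refine Asymptotics.IsBigO.of_bound (Real.log 4 + 4) (Eventually.of_forall fun n => ?_)
  have h := Chebyshev.psi_le_const_mul_self (Nat.cast_nonneg (α := ℝ) n)
  have he : Chebyshev.psi n = ∑ k ∈ Finset.Icc 1 n, ArithmeticFunction.vonMangoldt k := by
    rw [Chebyshev.psi, Nat.floor_natCast]; rfl
  rw [Real.rpow_one, Real.norm_eq_abs, abs_of_nonneg, Real.norm_eq_abs, Nat.abs_cast, ← he]
  · exact h
  · exact Finset.sum_nonneg fun i _ => ArithmeticFunction.vonMangoldt_nonneg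

lemma integrableOn_laplace {z : ℂ} (hz : 0 < z.re) {f : ℝ → ℝ} (hf : Measurable f) {B : ℝ}
    (hB : ∀ u, |f u| ≤ B) :
    IntegrableOn (fun u : ℝ => (f u : ℂ) * Complex.exp (-z * u)) (Ioi 0) :=
  Integrable.bdd_mul (c := B) (integrableOn_exp_mul_complex_Ioi (by simpa using hz) 0)
    (Complex.continuous_ofReal.measurable.comp hf).aestronglyMeasurable
    (Eventually.of_forall fun u => by simpa [Complex.norm_real] using hB u)

open ArithmeticFunction.vonMangoldt in
lemma laplace_eq {δ : ℝ} (hδ : 0 < δ) (t : ℝ) :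
    ∫ u in Ioi (0:ℝ), ((ratio u - 1 : ℝ) : ℂ) * Complex.exp (-((δ : ℂ) + t * Complex.I) * u)
      = aux (δ, t) := by
  set z : ℂ := (δ : ℂ) + t * Complex.I with hzd
  have hz : 0 < z.re := by simp [hzd, hδ]
  have hz0 : z ≠ 0 := fun h => by simp [h] at hz
  have hs : 1 < (1 + z).re := by simp; linarith
  have hs0 : 1 + z ≠ 0 := fun h => by simp [h] at hs; linarith
  have hres : (fun n : ℕ => ((residueClass (1 : ZMod 1) n : ℝ) : ℂ)) =
      fun n : ℕ => ((ArithmeticFunction.vonMangoldt n : ℝ) : ℂ) := by
    funext n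
    simp [residueClass, Subsingleton.elim (n : ZMod 1) 1]
  have h1 := eqOn_LFunctionResidueClassAux (a := (1 : ZMod 1)) isUnit_one hs
  simp only [hres] at h1
  have h2 := LSeries_eq_mul_integral_of_nonneg (fun n => ArithmeticFunction.vonMangoldt n)
    zero_le_one hs vonMangoldt_bigO fun n => ArithmeticFunction.vonMangoldt_nonneg
  have h3 : ∫ x in Ioi (1:ℝ), (∑ k ∈ Finset.Icc 1 ⌊x⌋₊,
        ((ArithmeticFunction.vonMangoldt k : ℝ) : ℂ)) * (x : ℂ) ^ (-(1 + z + 1))
      = ∫ u in Ioi (0:ℝ), (ratio u : ℂ) * Complex.exp (-z * u) := by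
    rw [← Real.exp_zero, ← integral_comp_exp_Ioi]
    refine setIntegral_congr_fun measurableSet_Ioi fun u _ => ?_
    have hp : (Chebyshev.psi (Real.exp u) : ℂ) = ∑ k ∈ Finset.Icc 1 ⌊Real.exp u⌋₊,
        ((ArithmeticFunction.vonMangoldt k : ℝ) : ℂ) := by
      rw [← Complex.ofReal_sum]; rfl
    simp only [Complex.real_smul, ← hp, ratio, Complex.ofReal_mul, Complex.ofReal_exp]
    rw [Complex.cpow_def_of_ne_zero (Complex.exp_ne_zero _), ← Complex.ofReal_exp,
      ← Complex.ofReal_log (Real.exp_pos u).le, Real.log_exp, Complex.ofReal_exp]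
    rw [mul_left_comm, ← Complex.exp_add, mul_assoc, ← Complex.exp_add]
    congr 2
    push_cast
    ring
  rw [h3] at h2
  have hA := integrableOn_laplace hz measurable_ratio (B := Real.log 4 + 4)
    fun u => by rw [abs_of_nonneg (ratio_nonneg u)]; exact ratio_le u
  have hone := integrableOn_exp_mul_complex_Ioi (a := -z) (by simpa using hz) 0
  simp only [Complex.ofReal_sub, Complex.ofReal_one, sub_mul, one_mul]
  rw [integral_sub hA hone, integral_exp_mul_complex_Ioi (by simpa using hz) 0]
  simp only [aux, abs_of_pos hδ, ← hzd]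
  rw [h1]
  simp only [Nat.totient_one, Nat.cast_one, inv_one, add_sub_cancel_left, Complex.ofReal_zero,
    mul_zero, Complex.exp_zero]
  rw [h2]
  field_simp
  ring

/-- The smoothed transform identity with damping `δ`. -/
lemma smoothed {δ : ℝ} (hδ : 0 < δ) {l : ℝ} (hl : 0 ≤ l) (v : ℝ) :
    ∫ u in Ioi (0:ℝ), (ratio u - 1) * Real.exp (-δ * u) * fejer l (v - u)
      = ∫ t in (0:ℝ)..l, (l - t) * (Complex.exp ((t * v : ℝ) * Complex.I) * aux (δ, t)).re := by
  have key : ∀ t : ℝ, (l - t) * (Complex.exp ((t * v : ℝ) * Complex.I) * aux (δ, t)).re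
      = ∫ u in Ioi (0:ℝ), (ratio u - 1) * Real.exp (-δ * u) * ((l - t) * Real.cos (t * (v - u))) := by
    intro t
    have hz : 0 < ((δ : ℂ) + t * Complex.I).re := by simp [hδ]
    have hi : IntegrableOn (fun u : ℝ => Complex.exp ((t * v : ℝ) * Complex.I) *
        (((ratio u - 1 : ℝ) : ℂ) * Complex.exp (-((δ : ℂ) + t * Complex.I) * u))) (Ioi 0) :=
      (integrableOn_laplace hz (measurable_ratio.sub_const 1) abs_ratio_sub_one_le).const_mul _
    rw [← laplace_eq hδ t, ← integral_const_mul, ← RCLike.re_to_complex, ← integral_re hi,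
      ← integral_const_mul]
    refine setIntegral_congr_fun measurableSet_Ioi fun u _ => ?_
    simp only [RCLike.re_to_complex]
    rw [mul_left_comm (Complex.exp _), ← Complex.exp_add, Complex.re_ofReal_mul, Complex.exp_re]
    simp
    ring_nf
  simp only [key]
  rw [intervalIntegral_integral_swap]
  · refine setIntegral_congr_fun measurableSet_Ioi fun u _ => ?_
    rw [intervalIntegral.integral_const_mul, fejer]
  · rw [Set.uIoc_of_le hl]
    have h1 : Integrable (fun p : ℝ × ℝ => (bnd * l) * Real.exp (-δ * p.2))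
        ((volume.restrict (Ioc 0 l)).prod (volume.restrict (Ioi 0))) := by
      have e1 : Integrable (fun _ : ℝ => bnd * l) (volume.restrict (Ioc (0:ℝ) l)) :=
        integrableOn_const (hs := by simp) (hC := by finiteness)
      have e2 : Integrable (fun u : ℝ => Real.exp (-δ * u)) (volume.restrict (Ioi (0:ℝ))) :=
        exp_neg_integrableOn_Ioi 0 hδ
      exact e1.mul_prod e2
    refine h1.mono' ?_ ?_
    · refine Measurable.aestronglyMeasurable ?_
      simp only [Function.uncurry_def]
      have := measurable_ratio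
      fun_prop
    · rw [Measure.prod_restrict]
      filter_upwards [ae_restrict_mem (measurableSet_Ioc.prod measurableSet_Ioi)] with p hp
      simp only [Function.uncurry_def, Real.norm_eq_abs, abs_mul, abs_of_pos (Real.exp_pos _)]
      obtain ⟨⟨hp0, hp1⟩, -⟩ := hp
      have hb0 : 0 ≤ bnd := (abs_nonneg _).trans (abs_ratio_sub_one_le 0)
      calc |ratio p.2 - 1| * Real.exp (-δ * p.2) * (|l - p.1| * |Real.cos (p.1 * (v - p.2))|)
          ≤ bnd * Real.exp (-δ * p.2) * (l * 1) := by
            gcongr
            · exact abs_ratio_sub_one_le _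
            · rw [abs_of_nonneg (by linarith)]; linarith
            · exact Real.abs_cos_le_one _
        _ = bnd * l * Real.exp (-δ * p.2) := by ring

lemma smoothed_zero {l : ℝ} (hl : 0 ≤ l) (v : ℝ) :
    ∫ u in Ioi (0:ℝ), (ratio u - 1) * fejer l (v - u)
      = ∫ t in (0:ℝ)..l, (l - t) * (Complex.exp ((t * v : ℝ) * Complex.I) * aux (0, t)).re := by
  have hd : Tendsto (fun n : ℕ => 1 / ((n : ℝ) + 1)) atTop (𝓝 0) :=
    tendsto_one_div_add_atTop_nhds_zero_nat
  have hL : Tendsto (fun n : ℕ => ∫ u in Ioi (0:ℝ),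
      (ratio u - 1) * Real.exp (-(1 / ((n : ℝ) + 1)) * u) * fejer l (v - u)) atTop
      (𝓝 (∫ u in Ioi (0:ℝ), (ratio u - 1) * fejer l (v - u))) := by
    refine tendsto_integral_of_dominated_convergence (fun u => bnd * fejer l (v - u))
      (fun n => ?_) (((fejer_integrable hl).comp_sub_left v).const_mul bnd).integrableOn
      (fun n => ?_) (Eventually.of_forall fun u => ?_)
    · refine Measurable.aestronglyMeasurable ?_
      have := measurable_ratio
      have := (fejer_continuous l).measurable
      fun_prop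
    · filter_upwards [ae_restrict_mem measurableSet_Ioi] with u hu
      rw [Real.norm_eq_abs, abs_mul, abs_mul, abs_of_pos (Real.exp_pos _),
        abs_of_nonneg (fejer_nonneg hl _)]
      have h1 : Real.exp (-(1 / ((n : ℝ) + 1)) * u) ≤ 1 := by
        rw [Real.exp_le_one_iff, neg_mul, neg_nonpos]
        have : (0:ℝ) ≤ 1 / ((n : ℝ) + 1) := by positivity
        exact mul_nonneg this (le_of_lt hu)
      refine mul_le_mul_of_nonneg_right ?_ (fejer_nonneg hl _)
      calc |ratio u - 1| * Real.exp _ ≤ bnd * 1 := mul_le_mul (abs_ratio_sub_one_le u) h1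
            (Real.exp_pos _).le ((abs_nonneg _).trans (abs_ratio_sub_one_le u))
        _ = bnd := mul_one _
    · have h1 := ((Real.continuous_exp.tendsto _).comp ((hd.neg).mul_const u)).const_mul
        (ratio u - 1) |>.mul_const (fejer l (v - u))
      simpa using h1
  have hc : Continuous fun d : ℝ => ∫ t in (0:ℝ)..l,
      (l - t) * (Complex.exp ((t * v : ℝ) * Complex.I) * aux (d, t)).re := by
    have := continuous_aux
    refine intervalIntegral.continuous_parametric_intervalIntegral_of_continuous' ?_ 0 l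
    simp only [Function.uncurry_def]
    fun_prop
  refine tendsto_nhds_unique hL (((hc.tendsto 0).comp hd).congr fun n => ?_)
  simp only [Function.comp_apply]
  rw [smoothed (by positivity) hl]

lemma smoothed_tendsto {l : ℝ} (hl : 0 ≤ l) :
    Tendsto (fun v => ∫ u in Ioi (0:ℝ), (ratio u - 1) * fejer l (v - u)) atTop (𝓝 0) := by
  set g : ℝ → ℂ := (Ioc 0 l).indicator fun t => ((l - t : ℝ) : ℂ) * aux (0, t) with hg
  have hw : Tendsto (fun v : ℝ => -v / (2 * Real.pi)) atTop (cocompact ℝ) :=
    (tendsto_neg_atTop_atBot.atBot_div_const (by positivity)).mono_right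
      (by rw [cocompact_eq_atBot_atTop]; exact le_sup_left)
  have h := (Complex.continuous_re.tendsto 0).comp
    ((Real.tendsto_integral_exp_smul_cocompact g).comp hw)
  rw [Complex.zero_re] at h
  refine h.congr fun v => ?_
  simp only [Function.comp_apply]
  rw [smoothed_zero hl, intervalIntegral.integral_of_le hl]
  have hint : IntegrableOn (fun t : ℝ => ((l - t : ℝ) : ℂ) *
      (Complex.exp ((t * v : ℝ) * Complex.I) * aux (0, t))) (Ioc 0 l) := by
    have := continuous_aux
    exact (by fun_prop : Continuous fun t : ℝ => ((l - t : ℝ) : ℂ) *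
      (Complex.exp ((t * v : ℝ) * Complex.I) * aux (0, t))).integrableOn_Ioc
  have he : ∫ t in Ioc (0:ℝ) l,
      (l - t) * (Complex.exp ((t * v : ℝ) * Complex.I) * aux (0, t)).re
      = (∫ t in Ioc (0:ℝ) l, ((l - t : ℝ) : ℂ) *
        (Complex.exp ((t * v : ℝ) * Complex.I) * aux (0, t))).re := by
    rw [← RCLike.re_to_complex, ← integral_re hint]
    exact setIntegral_congr_fun measurableSet_Ioc fun t _ => by simp [Complex.re_ofReal_mul]
  rw [he, ← integral_indicator measurableSet_Ioc]
  congr 1
  refine integral_congr_ae (Eventually.of_forall fun t => ?_)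
  simp only [hg, Circle.smul_def, Real.fourierChar_apply, smul_eq_mul]
  by_cases ht : t ∈ Ioc (0:ℝ) l
  · rw [indicator_of_mem ht, indicator_of_mem ht]
    have e : 2 * Real.pi * -(t * (-v / (2 * Real.pi))) = t * v := by
      field_simp
    rw [e]; ring
  · rw [indicator_of_notMem ht, indicator_of_notMem ht, mul_zero]

lemma ratio_tendsto : Tendsto ratio atTop (𝓝 1) := by
  rw [Metric.tendsto_atTop']
  intro ε hε
  wlog hε1 : ε ≤ 1 generalizing ε
  · obtain ⟨N, hN⟩ := this 1 one_pos le_rfl
    exact ⟨N, fun u hu => lt_of_lt_of_le (hN u hu) (le_of_not_ge hε1)⟩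
  set h : ℝ := ε / 16 with hh
  have hh0 : 0 < h := by positivity
  have hlim : ∀ l > (0:ℝ), Tendsto (fun v => ∫ u in Ioi (0:ℝ), (ratio u - 1) * fejer l (v - u))
      atTop (𝓝 0) := fun l hl => smoothed_tendsto hl.le
  have hlim' : ∀ l > (0:ℝ), Tendsto (fun v => ∫ u in Ioi (0:ℝ), (1 - ratio u) * fejer l (v - u))
      atTop (𝓝 0) := by
    intro l hl
    have := (hlim l hl).neg
    rw [neg_zero] at this
    refine this.congr fun v => ?_
    rw [← integral_neg]
    exact integral_congr_ae (Eventually.of_forall fun u => by ring)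
  have hup := not_large (c := ε / 4) (h := h) (measurable_ratio.sub_const 1) abs_ratio_sub_one_le
    (by positivity) hh0 hlim
  have hdn := not_large (c := ε / 4) (h := h) (b := fun u => 1 - ratio u)
    (measurable_ratio.const_sub 1) (fun u => by rw [abs_sub_comm]; exact abs_ratio_sub_one_le u)
    (by positivity) hh0 hlim'
  obtain ⟨N, hN⟩ := eventually_atTop.mp (hup.and hdn)
  refine ⟨N + h, fun v hv => ?_⟩
  rw [Real.dist_eq, abs_lt]
  constructor
  · by_contra hc
    refine (hN (v - h) (by linarith)).2 fun u hu => ?_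
    have h1 := ratio_shift (u := u) (v := v) (by linarith [hu.2])
    have h2 : 1 - 2 * h ≤ Real.exp (-(v - u)) := by
      have := Real.add_one_le_exp (-(v - u))
      linarith [hu.1]
    have h3 := mul_le_mul_of_nonneg_left h2 (ratio_nonneg u)
    show ε / 4 ≤ 1 - ratio u
    by_contra h4
    push Not at hc h4
    nlinarith
  · by_contra hc
    refine (hN (v + h) (by linarith)).1 fun u hu => ?_
    have h1 := ratio_shift (u := v) (v := u) (by linarith [hu.1])
    have h2 : 1 - 2 * h ≤ Real.exp (-(u - v)) := by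
      have := Real.add_one_le_exp (-(u - v))
      linarith [hu.2]
    have h3 := mul_le_mul_of_nonneg_left h2 (ratio_nonneg v)
    show ε / 4 ≤ ratio u - 1
    push Not at hc
    nlinarith

open Asymptotics

theorem psi_isEquivalent : Chebyshev.psi ~[atTop] (id : ℝ → ℝ) := by
  refine (isEquivalent_iff_tendsto_one ?_).mpr ?_
  · filter_upwards [eventually_ne_atTop (0:ℝ)] with x hx using hx
  · refine (ratio_tendsto.comp Real.tendsto_log_atTop).congr' ?_
    filter_upwards [eventually_gt_atTop (0:ℝ)] with x hx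
    simp [ratio, Real.exp_log hx, Real.exp_neg, div_eq_mul_inv]

theorem theta_isEquivalent : Chebyshev.theta ~[atTop] (id : ℝ → ℝ) := by
  have h1 : (fun x => Chebyshev.psi x - Chebyshev.theta x) =o[atTop] (id : ℝ → ℝ) :=
    Chebyshev.isBigO_psi_sub_theta_sqrt.trans_isLittleO (by
      refine (isLittleO_iff_tendsto' ?_).mpr ?_
      · filter_upwards [eventually_ne_atTop (0:ℝ)] with x hx h using absurd h hx
      · refine (Real.tendsto_sqrt_atTop.inv_tendsto_atTop).congr' ?_
        filter_upwards [eventually_gt_atTop (0:ℝ)] with x hx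
        have := Real.mul_self_sqrt hx.le
        simp only [Pi.inv_apply, id_eq]
        rw [eq_div_iff hx.ne']
        field_simp
        linarith)
  have := psi_isEquivalent.sub_isLittleO h1
  refine this.congr_left (Eventually.of_forall fun x => ?_)
  simp

/-- The prime number theorem. -/
theorem primeCounting_isEquivalent :
    (fun x : ℝ => (Nat.primeCounting (Nat.floor x) : ℝ)) ~[atTop] (fun x => x / Real.log x) := by
  have h1 : (fun x : ℝ => Chebyshev.theta x / Real.log x) ~[atTop] (fun x => x / Real.log x) :=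
    theta_isEquivalent.div IsEquivalent.refl
  have h2 : (fun x : ℝ => x / Real.log x ^ 2) =o[atTop] (fun x => x / Real.log x) := by
    rw [isLittleO_iff_tendsto']
    · refine Real.tendsto_log_atTop.inv_tendsto_atTop.congr' ?_
      filter_upwards [eventually_gt_atTop (1:ℝ)] with x hx
      have := Real.log_pos hx
      simp only [Pi.inv_apply]
      field_simp
    · filter_upwards [eventually_gt_atTop (1:ℝ)] with x hx h
      have := Real.log_pos hx
      exact absurd h (div_ne_zero (by linarith) this.ne')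
  have h3 := h1.add_isLittleO
    (Chebyshev.primeCounting_sub_theta_div_log_isBigO.trans_isLittleO h2)
  refine h3.congr_left (Eventually.of_forall fun x => ?_)
  simp

/-- `π(c y) / π(y) → c`. -/
theorem primeCounting_ratio {c : ℝ} (hc : 0 < c) :
    Tendsto (fun y : ℝ => (Nat.primeCounting (Nat.floor (c * y)) : ℝ) /
      (Nat.primeCounting (Nat.floor y) : ℝ)) atTop (𝓝 c) := by
  have hcy : Tendsto (fun y : ℝ => c * y) atTop atTop := tendsto_id.const_mul_atTop hc
  have h := (primeCounting_isEquivalent.comp_tendsto hcy).div primeCounting_isEquivalent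
  refine h.symm.tendsto_nhds ?_
  show Tendsto (fun y : ℝ => c * y / Real.log (c * y) / (y / Real.log y)) atTop (𝓝 c)
  have h1 : Tendsto (fun y : ℝ => c * (1 / (1 + Real.log c * (Real.log y)⁻¹))) atTop (𝓝 c) := by
    have h2 := Real.tendsto_log_atTop.inv_tendsto_atTop
    have h3 : Tendsto (fun y : ℝ => (1 + Real.log c * (Real.log y)⁻¹)) atTop (𝓝 1) := by
      simpa using (h2.const_mul (Real.log c)).const_add 1
    simpa using ((h3.inv₀ one_ne_zero)).const_mul c
  refine h1.congr' ?_
  filter_upwards [eventually_gt_atTop (1:ℝ), hcy.eventually (eventually_gt_atTop (1:ℝ))]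
    with y hy hy'
  have e1 := Real.log_pos hy
  have e2 := Real.log_pos hy'
  rw [Real.log_mul hc.ne' (by linarith)] at e2 ⊢
  have e3 : 1 + Real.log c * (Real.log y)⁻¹ = (Real.log c + Real.log y) / Real.log y := by
    field_simp
    ring
  rw [e3, one_div_div]
  field_simp

end Vale.Agent.P031.PNT
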