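import Vale.Agent.P031.Pins
import Vale.Agent.P031.PNT

/-!
# P031: the final assembly

From the upper and lower pins, the band pin, the sizes of safe values and the prime number theorem:
`totCount (a * x) ~ a * x / log x * mass (safeVals x)`, hence `V (c x) / V x → c`.
-/

namespace Vale.Agent.P031

open Finset Filter Topology Asymptotics

theorem totCount_tendsto_aux {f g : ℝ → ℝ} {a : ℝ}
    (h : ∀ ε : ℝ, 0 < ε → ∀ᶠ x : ℝ in atTop, 0 < g x ∧ |f x - a * g x| ≤ ε * g x) :
    Tendsto (fun x => f x / g x) atTop (𝓝 a) := by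
  rw [Metric.tendsto_nhds]
  intro ε hε
  filter_upwards [h (ε / 2) (half_pos hε)] with x hx
  obtain ⟨hg, hb⟩ := hx
  rw [Real.dist_eq, show f x / g x - a = (f x - a * g x) / g x by field_simp, abs_div,
    abs_of_pos hg, div_lt_iff₀ hg]
  have := mul_pos hε hg
  linarith

theorem term_bounds_main {δ t A l L p : ℝ} (hδ0 : 0 < δ) (hδ : δ ≤ 1 / 2) (hA : 0 < A)
    (ht1 : A ≤ t) (ht2 : t ≤ (1 + δ) * A) (hL : 0 < L) (hl1 : (1 - δ) * L ≤ l)
    (hl2 : l ≤ (1 + δ) * L) (hp1 : (1 - δ) * (t / l) ≤ p) (hp2 : p ≤ (1 + δ) * (t / l)) :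
    |p - A / L| ≤ 8 * δ * (A / L) := by
  have h1δ : 0 < 1 - δ := by linarith
  have hlpos : 0 < l := lt_of_lt_of_le (mul_pos h1δ hL) hl1
  have hAL : 0 ≤ A / L := (div_pos hA hL).le
  have ht : 0 ≤ t := hA.le.trans ht1
  have hup : t / l ≤ (1 + δ) / (1 - δ) * (A / L) := by
    calc t / l ≤ (1 + δ) * A / ((1 - δ) * L) :=
          div_le_div₀ (by positivity) ht2 (mul_pos h1δ hL) hl1
      _ = _ := by field_simp
  have hlo : (A / L) / (1 + δ) ≤ t / l := by
    calc (A / L) / (1 + δ) = A / ((1 + δ) * L) := by field_simp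
      _ ≤ t / l := div_le_div₀ ht ht1 hlpos hl2
  have h3 : (1 + δ) * ((1 + δ) / (1 - δ)) ≤ 1 + 8 * δ := by
    rw [← mul_div_assoc, div_le_iff₀ h1δ]
    nlinarith
  have h4 : 1 - 8 * δ ≤ (1 - δ) / (1 + δ) := by
    rw [le_div_iff₀ (by linarith)]
    nlinarith
  have hA1 : p ≤ (1 + 8 * δ) * (A / L) := by
    refine hp2.trans ((mul_le_mul_of_nonneg_left hup (by linarith)).trans ?_)
    rw [← mul_assoc]
    exact mul_le_mul_of_nonneg_right h3 hAL
  have hA2 : (1 - 8 * δ) * (A / L) ≤ p := by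
    refine le_trans ?_ ((mul_le_mul_of_nonneg_left hlo h1δ.le).trans hp1)
    calc (1 - 8 * δ) * (A / L) ≤ (1 - δ) / (1 + δ) * (A / L) :=
          mul_le_mul_of_nonneg_right h4 hAL
      _ = (1 - δ) * (A / L / (1 + δ)) := by ring
  rw [abs_le]
  constructor <;> linarith

/-- The prime number theorem makes the main term `a x / log x * mass`. -/
theorem mainTerm_near (hsmall : SafeSmallPin) {a : ℝ} (ha : 1 ≤ a) {δ : ℝ} (hδ0 : 0 < δ)
    (hδ : δ ≤ 1 / 2) :
    ∀ᶠ x : ℝ in atTop,
      |mainTerm x (a * x) - a * x / Real.log x * mass (safeVals x)|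
        ≤ 8 * δ * (a * x / Real.log x * mass (safeVals x)) := by
  obtain ⟨T, hT⟩ := eventually_atTop.1 (PNT.primeCounting_isEquivalent.isLittleO.bound hδ0)
  have hpow : ∀ᶠ x : ℝ in atTop, max T (max 3 (1 / δ)) ≤ x ^ (1 - δ) :=
    (tendsto_rpow_atTop (by linarith)).eventually_ge_atTop _
  have hlog : ∀ᶠ x : ℝ in atTop, Real.log (2 * a) ≤ δ * Real.log x :=
    (Real.tendsto_log_atTop.const_mul_atTop hδ0).eventually_ge_atTop _
  filter_upwards [hsmall δ hδ0, hpow, hlog, eventually_gt_atTop 1] with x hw hx hl hx1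
  have hx0 : 0 < x := by linarith
  have hLpos : 0 < Real.log x := Real.log_pos hx1
  unfold mainTerm mass
  rw [Finset.mul_sum, Finset.mul_sum, ← Finset.sum_sub_distrib]
  refine (Finset.abs_sum_le_sum_abs _ _).trans (Finset.sum_le_sum fun w hwS => ?_)
  rcases Nat.eq_zero_or_pos w with h0 | hpos
  · subst h0
    simp [show Nat.primeCounting 1 = 0 by decide]
  have hwR : (0 : ℝ) < w := by exact_mod_cast hpos
  set A : ℝ := a * x / w with hA
  set t : ℝ := A + 1 with ht
  have hApow : x ^ (1 - δ) ≤ A := by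
    rw [hA, le_div_iff₀ hwR]
    have e : x ^ (1 - δ) * x ^ δ = x := by
      rw [← Real.rpow_add hx0]
      norm_num
    have h1 : x ^ (1 - δ) * w ≤ x ^ (1 - δ) * x ^ δ :=
      mul_le_mul_of_nonneg_left (hw w hwS) (Real.rpow_nonneg hx0.le _)
    nlinarith
  have hA0 : 0 < A := lt_of_lt_of_le (Real.rpow_pos_of_pos hx0 _) hApow
  have hmax : T ≤ A ∧ 3 ≤ A ∧ 1 / δ ≤ A := by
    simp only [max_le_iff] at hx
    exact ⟨hx.1.trans hApow, hx.2.1.trans hApow, hx.2.2.trans hApow⟩
  have hAd : 1 ≤ δ * A := by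
    have := hmax.2.2
    rw [div_le_iff₀ hδ0] at this
    linarith
  have hlt : 0 < Real.log t := Real.log_pos (by linarith [hmax.2.1])
  have h := hT t (by linarith [hmax.1])
  rw [Real.norm_eq_abs, Real.norm_eq_abs, Pi.sub_apply, abs_le,
    abs_of_nonneg (show 0 ≤ t / Real.log t from div_nonneg (by linarith) hlt.le)] at h
  have hlo : (1 - δ) * Real.log x ≤ Real.log t := by
    rw [← Real.log_rpow hx0]
    exact Real.log_le_log (Real.rpow_pos_of_pos hx0 _) (by linarith)
  have hhi : Real.log t ≤ (1 + δ) * Real.log x := by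
    have h1 : A ≤ a * x := by
      rw [hA, div_le_iff₀ hwR]
      exact le_mul_of_one_le_right (by positivity) (by exact_mod_cast hpos)
    have h2 : Real.log t ≤ Real.log (2 * a * x) :=
      Real.log_le_log (by linarith) (by linarith [hmax.2.1])
    rw [Real.log_mul (by linarith) hx0.ne'] at h2
    linarith
  have hb := term_bounds_main hδ0 hδ hA0 (by linarith) (show t ≤ (1 + δ) * A by linarith) hLpos hlo hhi
    (p := (Nat.primeCounting ⌊t⌋₊ : ℝ)) (by linarith [h.1]) (by linarith [h.2])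
  have e : a * x / Real.log x * (1 / (w : ℝ)) = A / Real.log x := by
    rw [hA]
    field_simp
  rw [e]
  exact hb

/-- `V (a x)` is asymptotic to `a x / log x` times the mass of the safe values at `x`. -/
theorem totCount_asymp (hU : UpperPin) (hL : LowerPin) (hB : BandPin) (hS : SafeSmallPin)
    (hM : SafeMassPin) {a : ℝ} (ha : 1 ≤ a) :
    Tendsto (fun x : ℝ => (totCount (a * x) : ℝ) / (x / Real.log x * mass (safeVals x))) atTop
      (𝓝 a) := by
  refine totCount_tendsto_aux fun ε hε => ?_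
  obtain ⟨C, hC⟩ := hU a ha
  set δ : ℝ := min (1 / 2) (ε / (30 * a)) with hδ
  have hδ0 : 0 < δ := lt_min (by norm_num) (by positivity)
  have hδ1 : δ * (30 * a) ≤ ε := by
    rw [← le_div_iff₀ (by positivity)]
    exact min_le_right _ _
  have hC1 : (0 : ℝ) < |C| + 1 := by positivity
  filter_upwards [hC δ hδ0, hL a ha δ hδ0, hB (δ / (|C| + 1)) (div_pos hδ0 hC1),
    mainTerm_near hS ha hδ0 (min_le_left _ _), hM, eventually_gt_atTop 1]
    with x hu hl hb hm hmass hx
  have hY1 : x ≤ a * x := le_mul_of_one_le_left (by linarith) ha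
  have h1 := hu (a * x) hY1 le_rfl
  have h2 := hl (a * x) hY1 le_rfl
  have hlog : 0 < Real.log x := Real.log_pos hx
  have hA : 0 < mass (safeVals x) := lt_of_lt_of_le one_pos hmass.1
  have hg : 0 < x / Real.log x * mass (safeVals x) := mul_pos (div_pos (by linarith) hlog) hA
  have hpre : 0 ≤ a * x / Real.log x := div_nonneg (by nlinarith) hlog.le
  have hb' : C * mass (bandVals x) ≤ δ * mass (safeVals x) := by
    have h3 : 0 ≤ mass (bandVals x) := Finset.sum_nonneg fun _ _ => by positivity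
    calc C * mass (bandVals x) ≤ (|C| + 1) * mass (bandVals x) :=
          mul_le_mul_of_nonneg_right (by linarith [le_abs_self C]) h3
      _ ≤ (|C| + 1) * (δ / (|C| + 1) * mass (safeVals x)) := mul_le_mul_of_nonneg_left hb hC1.le
      _ = δ * mass (safeVals x) := by field_simp
  have h4 := mul_le_mul_of_nonneg_left hb' hpre
  have h5 := abs_le.1 hm
  have e : a * x / Real.log x * mass (safeVals x)
      = a * (x / Real.log x * mass (safeVals x)) := by ring
  have h6 : δ * 30 * a * (x / Real.log x * mass (safeVals x)) ≤ ε * (x / Real.log x * mass (safeVals x)) :=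
    mul_le_mul_of_nonneg_right (by linarith) hg.le
  have h7 : 0 ≤ δ * (a * x / Real.log x * mass (safeVals x)) := by positivity
  refine ⟨hg, ?_⟩
  rw [← e, abs_le]
  rw [mul_add] at h1
  generalize hG : a * x / Real.log x * mass (safeVals x) = G at *
  generalize hg' : x / Real.log x * mass (safeVals x) = g at *
  have h8 : a * x / Real.log x * (δ * mass (safeVals x)) = δ * G := by rw [← hG]; ring
  rw [h8] at h1 h2 h4
  have h9 : δ * 30 * a * g = 30 * (δ * G) := by rw [e]; ring
  constructor <;> linarith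

/-- The Erdős–Hall question from the pins: `V (c x) / V x → c`. -/
theorem ratio_tendsto (hU : UpperPin) (hL : LowerPin) (hB : BandPin) (hS : SafeSmallPin)
    (hM : SafeMassPin) {c : ℝ} (hc : 1 < c) :
    Tendsto (fun x : ℝ => (totCount (c * x) : ℝ) / totCount x) atTop (𝓝 c) := by
  have h1 := totCount_asymp hU hL hB hS hM hc.le
  have h2 := totCount_asymp hU hL hB hS hM (le_refl (1 : ℝ))
  simp only [one_mul] at h2
  have h := h1.div h2 one_ne_zero
  rw [div_one] at h
  refine h.congr' ?_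
  filter_upwards [hM, eventually_gt_atTop 1] with x hm hx
  have hg : x / Real.log x * mass (safeVals x) ≠ 0 :=
    (mul_pos (div_pos (by linarith) (Real.log_pos hx)) (lt_of_lt_of_le one_pos hm.1)).ne'
  simp only [Pi.div_apply]
  rw [div_div_div_cancel_right₀ hg]

end Vale.Agent.P031
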