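import Vale.Agent.P031.MajorantAccount

/-!
# P031: the majorant bound for lists of levels and primes

The pairs of representations are grouped by their lengths and levels, and the bound for fixed
levels is summed over the groups.
-/

namespace Vale.Agent.P031

open Finset

theorem prod_getD (f : ℕ → ℕ) : ∀ l : List ℕ,
    ∏ i : Fin l.length, f (l.getD i 0) = (l.map f).prod
  | [] => by simp
  | a :: l => by
    show ∏ i : Fin (l.length + 1), f ((a :: l).getD i 0) = _
    rw [Fin.prod_univ_succ, List.map_cons, List.prod_cons, ← prod_getD f l]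
    simp

theorem upCnt_getD (j : ℕ) : ∀ l : List ℕ,
    upCnt (fun i : Fin l.length => l.getD i 0) j = l.countP (fun a => decide (j < a))
  | [] => by simp [upCnt]
  | a :: l => by
    have ih := upCnt_getD j l
    simp only [upCnt, card_filter] at ih ⊢
    show (∑ i : Fin (l.length + 1), if j < (a :: l).getD i 0 then 1 else 0) = _
    rw [Fin.sum_univ_succ, List.countP_cons, ← ih]
    simp [add_comm]

/-- The value of a list of levelled primes and a small part. -/
def rowsVal (A : List (ℕ × ℕ)) (m : ℕ) : ℕ := (A.map (fun p => p.2 - 1)).prod * m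

/-- Two representations given by lists of levelled primes. -/
abbrev LRep := (List (ℕ × ℕ) × ℕ) × (List (ℕ × ℕ) × ℕ)

/-- Valid pairs of list representations. -/
structure LValid (x : ℝ) (a : LRep) : Prop where
  rows : ∀ p ∈ a.1.1, RowOK x p.1 p.2
  rows' : ∀ p ∈ a.2.1, RowOK x p.1 p.2
  left : SmallPart x a.1.2
  right : SmallPart x a.2.2
  eq : rowsVal a.1.1 a.1.2 = rowsVal a.2.1 a.2.2
  sq : SqOK x (rowsVal a.1.1 a.1.2)
  ne : ∀ p ∈ a.1.1, ∀ q ∈ a.2.1, p.2 ≠ q.2

/-- `∑ ψ` over the big cells, for a list. -/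
noncomputable def mainList (x : ℝ) (A : List (ℕ × ℕ)) : ℝ :=
  ∑ j ∈ Finset.Ioc (cutCell x) (numCells x), psi ((A.map Prod.fst).countP (fun a => decide (j < a)))

/-- The lists of length at most `N` with entries at most `J`. -/
noncomputable def keyBox (J N : ℕ) : Finset (List ℕ) :=
  (range (N + 1)).biUnion fun n =>
    (Fintype.piFinset fun _ : Fin n => range (J + 1)).image List.ofFn

theorem mem_keyBox {J N : ℕ} {l : List ℕ} (hl : l.length ≤ N) (h : ∀ a ∈ l, a ≤ J) :
    l ∈ keyBox J N := by
  refine mem_biUnion.mpr ⟨l.length, mem_range.mpr (by omega), mem_image.mpr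
    ⟨fun i => l[i.1], Fintype.mem_piFinset.mpr fun i => mem_range.mpr ?_, List.ofFn_getElem⟩⟩
  have := h l[i.1] (List.getElem_mem i.2)
  omega

theorem card_keyBox (J N : ℕ) : (keyBox J N).card ≤ (N + 1) * (J + 1) ^ N := by
  refine card_biUnion_le.trans ?_
  refine le_trans (sum_le_card_nsmul _ _ ((J + 1) ^ N) fun n hn => ?_) (by simp)
  refine card_image_le.trans ?_
  simp only [Fintype.card_piFinset, card_range, prod_const, card_univ, Fintype.card_fin]
  exact Nat.pow_le_pow_right (by omega) (by have := mem_range.mp hn; omega)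

theorem card_shp_le (n k N N' : ℕ) (hn : n ≤ N) (hk : k ≤ N') :
    Fintype.card (Shp n k) ≤ (N + N' + 2) ^ (3 * (N + N' + 2)) := by
  simp only [Fintype.card_sigma, Fintype.card_prod, Fintype.card_fun, Fintype.card_fin,
    Fintype.card_sum, Fintype.card_option]
  set M := N + N' + 2 with hM
  calc ∑ r : Fin (n + k + 1), r.1 ^ (n + k) * ((n + 1) * (k + 1)) ^ r.1
      ≤ ∑ _r : Fin (n + k + 1), M ^ (n + k) * (M * M) ^ (n + k) := by
        refine sum_le_sum fun r _ => Nat.mul_le_mul (Nat.pow_le_pow_left (by omega) _) ?_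
        exact le_trans (Nat.pow_le_pow_left (Nat.mul_le_mul (by omega) (by omega)) _)
          (Nat.pow_le_pow_right (by positivity) (by omega))
    _ = (n + k + 1) * (M ^ (n + k) * (M * M) ^ (n + k)) := by simp
    _ ≤ M * M ^ (3 * (n + k)) := by
        rw [show (M * M) ^ (n + k) = M ^ (2 * (n + k)) by rw [← sq, ← pow_mul], ← pow_add,
          show n + k + 2 * (n + k) = 3 * (n + k) by omega]
        exact Nat.mul_le_mul_right _ (by omega)
    _ ≤ M ^ (3 * M) := by
        rw [← pow_succ']
        exact Nat.pow_le_pow_right (by omega) (by omega)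

/-- All errors together. -/
noncomputable def totErr (x C K : ℝ) (N N' : ℕ) : ℝ :=
  errTerm x C N N' + 5 * (((N + N' + 2 : ℕ)) : ℝ) * Real.log (((N + N' + 2 : ℕ)) : ℝ)
    + (((N + N' + 2 : ℕ)) : ℝ) * Real.log ((numCells x : ℝ) + 1)
    + (((N + N' + 2 : ℕ)) : ℝ) * Real.log K

theorem errTerm_mono {x C : ℝ} (hx : ParamOK x) (hC : 0 ≤ C) {n k N N' : ℕ} (hn : n ≤ N)
    (hk : k ≤ N') : errTerm x C n k ≤ errTerm x C N N' := by
  have hw := hx.width_pos.le
  have hL := hx.L_pos
  have hd : 0 ≤ devBd x := Real.rpow_nonneg (by linarith) _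
  have hB : 0 ≤ smallOmega x := Real.rpow_nonneg (by linarith) _
  have h1 : (1 : ℝ) ≤ maxLen x := by exact_mod_cast hx.len_pos
  have hA : 0 ≤ Real.log (3 * (maxLen x : ℝ) * llx x) := Real.log_nonneg (by nlinarith)
  have hn' : (n : ℝ) ≤ N := by exact_mod_cast hn
  have hk' : (k : ℝ) ≤ N' := by exact_mod_cast hk
  have hl : Real.log ((n : ℝ) + 1) ≤ Real.log ((N : ℝ) + 1) :=
    Real.log_le_log (by positivity) (by linarith)
  have hl0 : 0 ≤ Real.log ((n : ℝ) + 1) :=
    Real.log_nonneg (by linarith [(Nat.cast_nonneg n : (0 : ℝ) ≤ n)])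
  have hl1 : 0 ≤ Real.log ((N : ℝ) + 1) := hl0.trans hl
  unfold errTerm
  gcongr

/-- The majorant bound for lists. -/
theorem lists_le {x C K s : ℝ} (hx : ParamOK x) (hC : CellBd x C) (hS : SieveBd x K) (N N' : ℕ)
    (win : Option ℝ) (S : Finset LRep)
    (hval : ∀ a ∈ S, LValid x a ∧ a.1.1.length ≤ N ∧ a.2.1.length ≤ N' ∧
      mainList x a.1.1 ≤ -s ∧
      ∀ V ∈ win, a.1.1 ≠ [] ∧ (a.1.1.map Prod.fst).getD 0 0 = numCells x ∧
        V / 2 < (rowsVal a.1.1 a.1.2 : ℝ) ∧ (rowsVal a.1.1 a.1.2 : ℝ) ≤ V) :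
    ∑ a ∈ S, (1 : ℝ) / (rowsVal a.1.1 a.1.2 : ℝ)
      ≤ (if win.isSome then gain x (numCells x) else 1) *
        Real.exp (-(s * width x) + ((cutCell x : ℝ) + 1) * width x + totErr x C K N N') := by
  classical
  set J := numCells x with hJ
  set G : ℝ := if win.isSome then gain x J else 1 with hG
  set M : ℕ := N + N' + 2 with hM
  have hGpos : 0 ≤ G := by
    rw [hG]; split
    · exact (gain_pos hx _).le
    · exact zero_le_one
  have hK := hS.1
  set B : ℝ := ((M : ℝ) ^ (3 * M)) * K ^ M * G *
    Real.exp (-(s * width x) + ((cutCell x : ℝ) + 1) * width x + errTerm x C N N') with hB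
  have hB0 : 0 ≤ B := by rw [hB]; positivity
  set key : LRep → List ℕ × List ℕ := fun a => (a.1.1.map Prod.fst, a.2.1.map Prod.fst) with hkey
  have hmaps : ∀ a ∈ S, key a ∈ keyBox J N ×ˢ keyBox J N' := by
    intro a ha
    obtain ⟨hv, h1, h2, -, -⟩ := hval a ha
    refine mem_product.mpr ⟨mem_keyBox (by simp only [hkey, List.length_map]; exact h1) ?_,
      mem_keyBox (by simp only [hkey, List.length_map]; exact h2) ?_⟩
    · intro l hl
      obtain ⟨p, hp, rfl⟩ := List.mem_map.mp hl
      exact (hv.rows p hp).le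
    · intro l hl
      obtain ⟨p, hp, rfl⟩ := List.mem_map.mp hl
      exact (hv.rows' p hp).le
  rw [← sum_fiberwise_of_maps_to hmaps]
  refine le_trans (sum_le_card_nsmul _ _ B fun κ _ => ?_) ?_
  · rcases (S.filter (fun a => key a = κ)).eq_empty_or_nonempty with h0 | ⟨a0, ha0⟩
    · rw [h0, sum_empty]; exact hB0
    obtain ⟨la, la'⟩ := κ
    set n := la.length with hn
    set k := la'.length with hk
    obtain ⟨ha0S, hka0⟩ := mem_filter.mp ha0
    simp only [hkey, Prod.mk.injEq] at hka0
    have hnN : n ≤ N := by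
      have := (hval a0 ha0S).2.1
      rw [hn, ← hka0.1, List.length_map]; exact this
    have hkN : k ≤ N' := by
      have := (hval a0 ha0S).2.2.1
      rw [hk, ← hka0.2, List.length_map]; exact this
    set Λ : Own n k → ℕ := Sum.elim (fun i => la.getD i 0) (fun l => la'.getD l 0) with hΛ
    set conv : LRep → Rep n k := fun a =>
      (Sum.elim (fun i : Fin n => (a.1.1.map Prod.snd).getD i 0)
        (fun l : Fin k => (a.2.1.map Prod.snd).getD l 0), a.1.2, a.2.2) with hconv
    have hget : ∀ (A : List (ℕ × ℕ)) (i : ℕ) (hi : i < A.length),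
        (A.map Prod.fst).getD i 0 = A[i].1 ∧ (A.map Prod.snd).getD i 0 = A[i].2 := by
      intro A i hi
      simp [List.getD_eq_getElem?_getD, List.getElem?_map, List.getElem?_eq_getElem hi]
    have hside : ∀ (A : List (ℕ × ℕ)) (m : ℕ) (l : ℕ), A.length = l →
        rowsVal A m = (∏ i : Fin l, ((A.map Prod.snd).getD i 0 - 1)) * m := by
      intro A m l hl
      subst hl
      rw [rowsVal]
      congr 1
      have := prod_getD (fun q => q - 1) (A.map Prod.snd)
      rw [List.map_map] at this
      refine this.symm.trans ?_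
      exact Fintype.prod_equiv (finCongr (by simp)) _ _ (fun i => rfl)
    set Sκ := S.filter (fun a => key a = (la, la')) with hSκ
    have hlen : ∀ a ∈ Sκ, a.1.1.length = n ∧ a.2.1.length = k := by
      intro a ha
      have h := (mem_filter.mp ha).2
      simp only [hkey, Prod.mk.injEq] at h
      rw [hn, hk, ← h.1, ← h.2]
      simp
    have hvaleq : ∀ a ∈ Sκ, repVal (conv a) = rowsVal a.1.1 a.1.2 := by
      intro a ha
      rw [hside _ _ n (hlen a ha).1, repVal, Fintype.prod_option, mul_comm]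
      rfl
    have hinj : Set.InjOn conv (Sκ : Set LRep) := by
      intro a ha b hb hab
      have ha' := hlen a (mem_coe.mp ha)
      have hb' := hlen b (mem_coe.mp hb)
      have e1 := (mem_filter.mp (mem_coe.mp ha)).2.trans (mem_filter.mp (mem_coe.mp hb)).2.symm
      simp only [hkey, Prod.mk.injEq] at e1
      simp only [hconv, Prod.mk.injEq] at hab
      have f1 : a.1.1 = b.1.1 := by
        refine List.ext_getElem (ha'.1.trans hb'.1.symm) fun i h1 h2 => Prod.ext ?_ ?_
        · rw [← (hget _ i h1).1, ← (hget _ i h2).1, e1.1]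
        · have := congrFun hab.1 (Sum.inl ⟨i, ha'.1 ▸ h1⟩)
          simp only [Sum.elim_inl] at this
          rw [← (hget _ i h1).2, ← (hget _ i h2).2, this]
      have f2 : a.2.1 = b.2.1 := by
        refine List.ext_getElem (ha'.2.trans hb'.2.symm) fun i h1 h2 => Prod.ext ?_ ?_
        · rw [← (hget _ i h1).1, ← (hget _ i h2).1, e1.2]
        · have := congrFun hab.1 (Sum.inr ⟨i, ha'.2 ▸ h1⟩)
          simp only [Sum.elim_inr] at this
          rw [← (hget _ i h1).2, ← (hget _ i h2).2, this]
      exact Prod.ext (Prod.ext f1 hab.2.1) (Prod.ext f2 hab.2.2)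
    have hrows : ∀ a ∈ Sκ, ∀ o, RowOK x (Λ o) ((conv a).1 o) ∧
        ((∀ i, o = Sum.inl i → ∃ p ∈ a.1.1, p.2 = (conv a).1 o) ∧
          ∀ l, o = Sum.inr l → ∃ p ∈ a.2.1, p.2 = (conv a).1 o) := by
      intro a ha o
      obtain ⟨hv, -⟩ := hval a (mem_filter.mp ha).1
      have hkk := (mem_filter.mp ha).2
      simp only [hkey, Prod.mk.injEq] at hkk
      obtain ⟨l1, l2⟩ := hlen a ha
      rcases o with i | i
      · have hi : i.1 < a.1.1.length := (by rw [l1]; exact i.2)
        have := hv.rows _ (List.getElem_mem hi)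
        rw [← (hget _ _ hi).1, ← (hget _ _ hi).2] at this
        refine ⟨?_, fun j _ => ⟨_, List.getElem_mem hi, ((hget _ _ hi).2).symm⟩,
          fun l h => by simp at h⟩
        simp only [hΛ, hconv, Sum.elim_inl, ← hkk.1]
        exact this
      · have hi : i.1 < a.2.1.length := (by rw [l2]; exact i.2)
        have := hv.rows' _ (List.getElem_mem hi)
        rw [← (hget _ _ hi).1, ← (hget _ _ hi).2] at this
        refine ⟨?_, fun j h => by simp at h,
          fun l _ => ⟨_, List.getElem_mem hi, ((hget _ _ hi).2).symm⟩⟩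
        simp only [hΛ, hconv, Sum.elim_inr, ← hkk.2]
        exact this
    have hvalid : ∀ a ∈ Sκ, Valid x Λ (conv a) := by
      intro a ha
      obtain ⟨hv, -⟩ := hval a (mem_filter.mp ha).1
      refine ⟨fun o => (hrows a ha o).1, hv.left, hv.right, ?_, ?_, fun i l => ?_⟩
      · have e1 := hvaleq a ha
        rw [repVal] at e1
        rw [e1, hv.eq, hside _ _ k (hlen a ha).2, Fintype.prod_option, mul_comm]
        rfl
      · rw [hvaleq a ha]; exact hv.sq
      · obtain ⟨p, hp, hp'⟩ := (hrows a ha (Sum.inl i)).2.1 i rfl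
        obtain ⟨q, hq, hq'⟩ := (hrows a ha (Sum.inr l)).2.2 l rfl
        rw [← hp', ← hq']
        exact hv.ne p hp q hq
    -- the window
    obtain ⟨w', hw1, hw2⟩ : ∃ w' : Option (Own n k × ℝ), winGain x Λ w' = G ∧
        ∀ a ∈ Sκ, InWindow w' (conv a) := by
      cases hwin : win with
      | none => exact ⟨none, by simp [hG, hwin, winGain], fun a _ w hw => by simp at hw⟩
      | some V =>
        obtain ⟨hne, hhead, -⟩ := (hval a0 ha0S).2.2.2.2 V (by rw [hwin]; rfl)
        have hn0 : 0 < n := by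
          rw [hn, ← hka0.1, List.length_map]
          exact List.length_pos_iff.mpr hne
        refine ⟨some (Sum.inl ⟨0, hn0⟩, V), ?_, fun a ha w hw => ?_⟩
        · rw [hka0.1] at hhead
          simp only [hG, hwin, winGain, hΛ, Option.isSome_some, if_true, Sum.elim_inl, hhead]
        · simp only [Option.mem_def, Option.some.injEq] at hw
          subst hw
          rw [hvaleq a ha]
          exact ((hval a (mem_filter.mp ha).1).2.2.2.2 V (by rw [hwin]; rfl)).2.2
    have hlev := levels_le hx hC hS Λ w' (Sκ.image conv) (fun b hb => by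
      obtain ⟨a, ha, rfl⟩ := mem_image.mp hb
      exact ⟨hvalid a ha, hw2 a ha⟩)
    rw [sum_image hinj, sum_congr rfl fun a ha => by rw [hvaleq a ha]] at hlev
    refine hlev.trans ?_
    rw [hw1, hB]
    refine mul_le_mul (mul_le_mul_of_nonneg_right (mul_le_mul ?_ ?_ (by positivity) (by positivity))
      hGpos) (Real.exp_le_exp.mpr ?_) (Real.exp_pos _).le (by positivity)
    · exact_mod_cast card_shp_le n k N N' hnN hkN
    · exact pow_le_pow_right₀ hK (by omega)
    · have hmain : mainExp x (fun i => Λ (Sum.inl i)) = mainList x a0.1.1 := by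
        simp only [mainExp, mainList, hΛ, Sum.elim_inl, hka0.1]
        exact sum_congr rfl fun j _ => congrArg psi (upCnt_getD j la)
      have := mul_le_mul_of_nonneg_left ((hval a0 ha0S).2.2.2.1) hx.width_pos.le
      have := errTerm_mono hx hC.1 hnN hkN
      rw [hmain]
      linarith
  · rw [nsmul_eq_mul]
    have hcard : (((keyBox J N ×ˢ keyBox J N').card : ℕ) : ℝ)
        ≤ (M : ℝ) ^ (2 * M) * ((J : ℝ) + 1) ^ M := by
      have h1 : (keyBox J N ×ˢ keyBox J N').card ≤ M ^ (2 * M) * (J + 1) ^ M := by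
        rw [card_product]
        refine (Nat.mul_le_mul (card_keyBox J N) (card_keyBox J N')).trans ?_
        rw [mul_mul_mul_comm, ← pow_add]
        refine Nat.mul_le_mul ?_ (Nat.pow_le_pow_right (by omega) (by omega))
        calc (N + 1) * (N' + 1) ≤ M * M := Nat.mul_le_mul (by omega) (by omega)
          _ = M ^ 2 := (sq M).symm
          _ ≤ M ^ (2 * M) := Nat.pow_le_pow_right (by omega) (by omega)
      exact_mod_cast h1
    refine (mul_le_mul_of_nonneg_right hcard hB0).trans (le_of_eq ?_)
    have hMp : (0 : ℝ) < (M : ℝ) := by positivity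
    have hKp : (0 : ℝ) < K := by linarith
    rw [hB, totErr, ← hM, ← hJ]
    have e : ∀ (y : ℝ) (e : ℕ), 0 < y → y ^ e = Real.exp ((e : ℝ) * Real.log y) := by
      intro y e hy
      rw [Real.exp_nat_mul, Real.exp_log hy]
    rw [e _ (3 * M) hMp, e _ (2 * M) hMp, e _ M hKp, e ((J : ℝ) + 1) M (by positivity)]
    simp only [Real.exp_add]
    push_cast
    rw [show 5 * (M : ℝ) * Real.log M
      = 3 * (M : ℝ) * Real.log M + 2 * (M : ℝ) * Real.log M by ring, Real.exp_add]
    ring

end Vale.Agent.P031
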