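import Vale.Agent.P031.Pins
import Vale.Agent.P031.MajorantLists

/-!
# P031: parameters in the majorant lemma

For large `x` the error terms of the majorant lemma are of lower order than `η Δ`.
-/

namespace Vale.Agent.P031

open Filter

/-- The sieve bound with a constant that is a power of `log log x`. -/
def MajorantSieve : Prop :=
  ∃ C : ℝ, ∃ e : ℕ, 1 ≤ C ∧ ∀ᶠ x : ℝ in atTop, SieveBd x (C * llx x ^ e)

/-- Powers of `L` used below. -/
theorem param_bounds {x : ℝ} (hL : 1 ≤ llx x) :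
    llx x ^ (1 / 5 : ℝ) ≤ numCells x ∧ (numCells x : ℝ) ≤ 2 * llx x ^ (1 / 5 : ℝ) ∧
    llx x ^ (4 / 5 : ℝ) ≤ 2 * width x ∧ width x ≤ llx x ^ (4 / 5 : ℝ) ∧
    llx x ^ (7 / 50 : ℝ) ≤ cutCell x ∧ (cutCell x : ℝ) ≤ 3 * llx x ^ (7 / 50 : ℝ) ∧
    (maxLen x : ℝ) ≤ 401 * llx x ^ (3 / 50 : ℝ) ∧
    llx x ^ (49 / 50 : ℝ) = eta x * width x ∧ 1 ≤ maxLen x := by
  set L := llx x with hLdef
  have hL0 : 0 < L := by linarith
  have hpow : ∀ a : ℝ, 0 ≤ a → 1 ≤ L ^ a := fun a ha => Real.one_le_rpow hL ha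
  have hJ1 : L ^ (1 / 5 : ℝ) ≤ numCells x := Nat.le_ceil _
  have hJ2 : (numCells x : ℝ) ≤ 2 * L ^ (1 / 5 : ℝ) := by
    have := Nat.ceil_lt_add_one (Real.rpow_nonneg hL0.le (1 / 5 : ℝ))
    have := hpow (1 / 5) (by norm_num)
    show (⌈L ^ (1 / 5 : ℝ)⌉₊ : ℝ) ≤ _
    linarith
  have hJpos : (0 : ℝ) < numCells x := lt_of_lt_of_le (Real.rpow_pos_of_pos hL0 _) hJ1
  have h45 : L = L ^ (1 / 5 : ℝ) * L ^ (4 / 5 : ℝ) := by
    rw [← Real.rpow_add hL0]; norm_num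
  have hw : width x = L / numCells x := rfl
  have hW1 : L ^ (4 / 5 : ℝ) ≤ 2 * width x := by
    rw [hw, ← mul_div_assoc, le_div_iff₀ hJpos]
    calc L ^ (4 / 5 : ℝ) * numCells x ≤ L ^ (4 / 5 : ℝ) * (2 * L ^ (1 / 5 : ℝ)) := by gcongr
      _ = 2 * L := by
          nth_rw 3 [h45]
          ring
  have hW2 : width x ≤ L ^ (4 / 5 : ℝ) := by
    rw [hw, div_le_iff₀ hJpos]
    calc L = L ^ (4 / 5 : ℝ) * L ^ (1 / 5 : ℝ) := by rw [mul_comm]; exact h45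
      _ ≤ L ^ (4 / 5 : ℝ) * numCells x := by gcongr
  have h7 : L ^ (1 / 5 : ℝ) * L ^ (-(3 / 50) : ℝ) = L ^ (7 / 50 : ℝ) := by
    rw [← Real.rpow_add hL0]; norm_num
  have hn3 : 0 ≤ L ^ (-(3 / 50) : ℝ) := Real.rpow_nonneg hL0.le _
  have hC1 : L ^ (7 / 50 : ℝ) ≤ cutCell x := by
    refine le_trans ?_ (Nat.le_ceil _)
    rw [← h7]
    exact mul_le_mul_of_nonneg_right hJ1 hn3
  have hC2 : (cutCell x : ℝ) ≤ 3 * L ^ (7 / 50 : ℝ) := by
    have h1 := Nat.ceil_lt_add_one (mul_nonneg hJpos.le hn3)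
    have h2 := mul_le_mul_of_nonneg_right hJ2 hn3
    rw [mul_assoc, h7] at h2
    have := hpow (7 / 50) (by norm_num)
    show (⌈(numCells x : ℝ) * L ^ (-(3 / 50) : ℝ)⌉₊ : ℝ) ≤ _
    linarith
  have hCpos : (0 : ℝ) < cutCell x := lt_of_lt_of_le (Real.rpow_pos_of_pos hL0 _) hC1
  have hN : (maxLen x : ℝ) ≤ 401 * L ^ (3 / 50 : ℝ) := by
    have h1 : 200 * (numCells x : ℝ) / cutCell x ≤ 400 * L ^ (3 / 50 : ℝ) := by
      rw [div_le_iff₀ hCpos]
      calc 200 * (numCells x : ℝ) ≤ 400 * L ^ (1 / 5 : ℝ) := by linarith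
        _ = 400 * L ^ (3 / 50 : ℝ) * L ^ (7 / 50 : ℝ) := by
            rw [mul_assoc, ← Real.rpow_add hL0]; norm_num
        _ ≤ _ := by gcongr
    have h2 := Nat.ceil_lt_add_one (show 0 ≤ 200 * (numCells x : ℝ) / cutCell x by positivity)
    have := hpow (3 / 50) (by norm_num)
    show (⌈200 * (numCells x : ℝ) / cutCell x⌉₊ : ℝ) ≤ _
    linarith
  refine ⟨hJ1, hJ2, hW1, hW2, hC1, hC2, hN, ?_, Nat.ceil_pos.mpr (by positivity)⟩
  have : eta x * width x = L * L ^ (-(1 / 50) : ℝ) := by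
    rw [hw, eta]
    field_simp
    rfl
  rw [this, ← Real.rpow_one_add' hL0.le (by norm_num)]
  norm_num

theorem log_le_small {L : ℝ} (hL : 1 ≤ L) : Real.log L ≤ 250 * L ^ (1 / 250 : ℝ) := by
  have h := Real.log_le_rpow_div (show (0 : ℝ) ≤ L by linarith) (show (0 : ℝ) < 1 / 250 by norm_num)
  rw [div_div_eq_mul_div, div_one, mul_comm] at h
  exact h

theorem log_mul_pow_le {L a : ℝ} (hL : 1 ≤ L) (ha : 1 ≤ a) (m : ℕ) :
    Real.log (a * L ^ m) ≤ (a + 250 * m) * L ^ (1 / 250 : ℝ) := by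
  have h1 : (1 : ℝ) ≤ L ^ (1 / 250 : ℝ) := Real.one_le_rpow hL (by norm_num)
  rw [Real.log_mul (by linarith) (pow_ne_zero _ (by linarith)), Real.log_pow]
  have h2 := Real.log_le_sub_one_of_pos (show (0 : ℝ) < a by linarith)
  have h3 := mul_le_mul_of_nonneg_left (log_le_small hL) (Nat.cast_nonneg m : (0 : ℝ) ≤ m)
  nlinarith

theorem eventually_pow_le (c : ℝ) {a b : ℝ} (hab : a < b) :
    ∀ᶠ x : ℝ in atTop, c * llx x ^ a ≤ llx x ^ b := by
  have h1 := (tendsto_rpow_atTop (sub_pos.mpr hab)).comp tendsto_llx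
  filter_upwards [h1.eventually_ge_atTop c, tendsto_llx.eventually_ge_atTop 1] with x h2 h3
  have : llx x ^ b = llx x ^ (b - a) * llx x ^ a := by
    rw [← Real.rpow_add (by linarith)]; norm_num
  rw [this]
  exact mul_le_mul_of_nonneg_right h2 (Real.rpow_nonneg (by linarith) _)

theorem eventually_paramOK : ∀ᶠ x : ℝ in atTop, ParamOK x := by
  filter_upwards [tendsto_llx.eventually_ge_atTop 1,
    eventually_pow_le (2 * (2406 + 500)) (show (1 / 250 : ℝ) < 4 / 5 by norm_num),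
    eventually_pow_le 6 (show (7 / 50 : ℝ) < 1 / 5 by norm_num)] with x hL h1 h2
  obtain ⟨hJ1, -, hW1, -, -, hC2, hN, -, hN1⟩ := param_bounds hL
  have hpos : 0 < llx x ^ (4 / 5 : ℝ) := Real.rpow_pos_of_pos (by linarith) _
  refine ⟨hL, by linarith, hN1, ?_, ?_⟩
  · have hN1' : (1 : ℝ) ≤ maxLen x := by exact_mod_cast hN1
    have h3 : llx x ^ (3 / 50 : ℝ) ≤ llx x := by
      calc llx x ^ (3 / 50 : ℝ) ≤ llx x ^ (1 : ℝ) :=
            Real.rpow_le_rpow_of_exponent_le hL (by norm_num)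
        _ = llx x := Real.rpow_one _
    have h4 : 6 * (maxLen x : ℝ) * llx x ≤ 2406 * llx x ^ 2 := by nlinarith
    refine (Real.log_le_log (by positivity) h4).trans ?_
    have := log_mul_pow_le hL (show (1 : ℝ) ≤ 2406 by norm_num) 2
    push_cast at this
    linarith
  · have : (2 * cutCell x : ℝ) ≤ numCells x := by linarith
    exact_mod_cast this

theorem eventually_cellBd (h : CellMassPin) : ∃ C : ℝ, 0 ≤ C ∧ ∀ᶠ x : ℝ in atTop, CellBd x C := by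
  obtain ⟨C, hC⟩ := h
  refine ⟨max C 0, le_max_right _ _, ?_⟩
  filter_upwards [hC, eventually_paramOK] with x hx hp
  refine ⟨le_max_right _ _, fun j hj => ?_⟩
  rcases hj.eq_or_lt with h | h
  · rw [h]
    have := hx.2
    linarith [hp.width_pos, le_max_left C 0]
  · have := (abs_le.mp (hx.1 j h)).2
    linarith [le_max_left C 0]

/-- The lengths. -/
theorem len_bounds {x : ℝ} (hL : 1 ≤ llx x) {N N' : ℕ} (hN : (N : ℝ) ≤ goodLen x + 2)
    (hN' : N' ≤ maxLen x + 1) :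
    (N : ℝ) + 1 ≤ 4 * llx x ^ (1 / 40 : ℝ) ∧ (N' : ℝ) + 1 ≤ 410 * llx x ^ (3 / 50 : ℝ) ∧
      (((N + N' + 2 : ℕ)) : ℝ) ≤ 420 * llx x ^ (3 / 50 : ℝ) ∧
      (N : ℝ) + N' ≤ 420 * llx x ^ (3 / 50 : ℝ) := by
  obtain ⟨-, hJ2, -, hW2, -, hC2, hML, heta, hN1⟩ := param_bounds hL
  set L := llx x with hLdef
  have hL0 : 0 < L := by linarith
  have hN1' : (1 : ℝ) ≤ maxLen x := by exact_mod_cast hN1
  have hp : ∀ a b : ℝ, a ≤ b → L ^ a ≤ L ^ b := fun a b h =>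
    Real.rpow_le_rpow_of_exponent_le hL h
  have h1p : ∀ a : ℝ, 0 ≤ a → 1 ≤ L ^ a := fun a ha => Real.one_le_rpow hL ha
  have hg : goodLen x = L ^ (1 / 40 : ℝ) := rfl
  have ha : (N : ℝ) + 1 ≤ 4 * L ^ (1 / 40 : ℝ) := by
    rw [hg] at hN; have := h1p (1 / 40) (by norm_num); linarith
  have hb : (N' : ℝ) + 1 ≤ 410 * L ^ (3 / 50 : ℝ) := by
    have h : (N' : ℝ) ≤ maxLen x + 1 := by exact_mod_cast hN'
    have := h1p (3 / 50) (by norm_num); linarith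
  have hM : (((N + N' + 2 : ℕ)) : ℝ) ≤ 420 * L ^ (3 / 50 : ℝ) := by
    push_cast
    have := hp (1 / 40) (3 / 50) (by norm_num)
    have := h1p (3 / 50) (by norm_num)
    linarith
  have hNN : (N : ℝ) + N' ≤ 420 * L ^ (3 / 50 : ℝ) := by
    push_cast at hM; linarith
  have hLpow : ∀ a : ℝ, a ≤ 1 → L ^ a ≤ L := fun a h => by
    calc L ^ a ≤ L ^ (1 : ℝ) := hp a 1 h
      _ = L := Real.rpow_one L
  exact ⟨ha, hb, hM, hNN⟩

/-- The logarithms. -/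
theorem log_bounds {x : ℝ} (hL : 1 ≤ llx x) {N N' : ℕ} (hN : (N : ℝ) ≤ goodLen x + 2)
    (hN' : N' ≤ maxLen x + 1) {K : ℝ} (hK : 1 ≤ K) {e : ℕ} {Q : ℝ}
    (hQ : Q = 2 + 250 + 2406 + 500 + 500 + K + 250 * e) :
    Real.log ((N : ℝ) + 1) ≤ Q * llx x ^ (1 / 250 : ℝ) ∧
    Real.log (3 * (maxLen x : ℝ) * llx x) ≤ Q * llx x ^ (1 / 250 : ℝ) ∧
    Real.log (6 * (maxLen x : ℝ) * llx x) ≤ Q * llx x ^ (1 / 250 : ℝ) ∧
    Real.log (((N + N' + 2 : ℕ)) : ℝ) ≤ 2 * Q * llx x ^ (1 / 250 : ℝ) ∧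
    Real.log ((numCells x : ℝ) + 1) ≤ Q * llx x ^ (1 / 250 : ℝ) ∧
    Real.log (K * llx x ^ e) ≤ Q * llx x ^ (1 / 250 : ℝ) := by
  obtain ⟨ha, hb, hM, hNN⟩ := len_bounds hL hN hN'
  obtain ⟨-, hJ2, -, hW2, -, hC2, hML, heta, hN1⟩ := param_bounds hL
  set L := llx x with hLdef
  have hL0 : 0 < L := by linarith
  have hN1' : (1 : ℝ) ≤ maxLen x := by exact_mod_cast hN1
  have hp : ∀ a b : ℝ, a ≤ b → L ^ a ≤ L ^ b := fun a b h =>
    Real.rpow_le_rpow_of_exponent_le hL h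
  have h1p : ∀ a : ℝ, 0 ≤ a → 1 ≤ L ^ a := fun a ha => Real.one_le_rpow hL ha
  have hg : goodLen x = L ^ (1 / 40 : ℝ) := rfl
  set δ := L ^ (1 / 250 : ℝ) with hδ
  have hδ1 : 1 ≤ δ := h1p _ (by norm_num)
  have hLpow : ∀ a : ℝ, a ≤ 1 → L ^ a ≤ L := fun a h => by
    calc L ^ a ≤ L ^ (1 : ℝ) := hp a 1 h
      _ = L := Real.rpow_one L
  have hlogN : Real.log ((N : ℝ) + 1) ≤ Q * δ := by
    refine (Real.log_le_log (by positivity) (show (N : ℝ) + 1 ≤ 4 * L ^ 1 by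
      have := hLpow (1 / 40) (by norm_num); rw [pow_one]; linarith)).trans ?_
    refine (log_mul_pow_le hL (by norm_num) 1).trans ?_
    have : (4 : ℝ) + 250 * ((1 : ℕ) : ℝ) ≤ Q := by push_cast; rw [hQ]; nlinarith
    exact mul_le_mul_of_nonneg_right this (by linarith)
  have hlogA : Real.log (3 * (maxLen x : ℝ) * L) ≤ Q * δ := by
    refine (Real.log_le_log (by positivity) (show 3 * (maxLen x : ℝ) * L ≤ 2406 * L ^ 2 by
      have := hLpow (3 / 50) (by norm_num); nlinarith)).trans ?_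
    refine (log_mul_pow_le hL (by norm_num) 2).trans ?_
    have : (2406 : ℝ) + 250 * ((2 : ℕ) : ℝ) ≤ Q := by push_cast; rw [hQ]; nlinarith
    exact mul_le_mul_of_nonneg_right this (by linarith)
  have hlogA6 : Real.log (6 * (maxLen x : ℝ) * L) ≤ Q * δ := by
    refine (Real.log_le_log (by positivity) (show 6 * (maxLen x : ℝ) * L ≤ 2406 * L ^ 2 by
      have := hLpow (3 / 50) (by norm_num); nlinarith)).trans ?_
    refine (log_mul_pow_le hL (by norm_num) 2).trans ?_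
    have : (2406 : ℝ) + 250 * ((2 : ℕ) : ℝ) ≤ Q := by push_cast; rw [hQ]; nlinarith
    exact mul_le_mul_of_nonneg_right this (by linarith)
  have hlogM : Real.log (((N + N' + 2 : ℕ)) : ℝ) ≤ 2 * Q * δ := by
    refine (Real.log_le_log (by positivity) (show (((N + N' + 2 : ℕ)) : ℝ) ≤ 420 * L ^ 1 by
      have := hLpow (3 / 50) (by norm_num); rw [pow_one]; linarith)).trans ?_
    refine (log_mul_pow_le hL (by norm_num) 1).trans ?_
    have : (420 : ℝ) + 250 * ((1 : ℕ) : ℝ) ≤ 2 * Q := by push_cast; rw [hQ]; nlinarith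
    exact mul_le_mul_of_nonneg_right this (by linarith)
  have hlogJ : Real.log ((numCells x : ℝ) + 1) ≤ Q * δ := by
    refine (Real.log_le_log (by positivity) (show (numCells x : ℝ) + 1 ≤ 3 * L ^ 1 by
      have := hLpow (1 / 5) (by norm_num); rw [pow_one]; linarith)).trans ?_
    refine (log_mul_pow_le hL (by norm_num) 1).trans ?_
    have : (3 : ℝ) + 250 * ((1 : ℕ) : ℝ) ≤ Q := by push_cast; rw [hQ]; nlinarith
    exact mul_le_mul_of_nonneg_right this (by linarith)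
  have hlogK : Real.log (K * L ^ e) ≤ Q * δ := by
    refine (log_mul_pow_le hL hK e).trans ?_
    have : K + 250 * (e : ℝ) ≤ Q := by rw [hQ]; linarith
    exact mul_le_mul_of_nonneg_right this (by linarith)
  exact ⟨hlogN, hlogA, hlogA6, hlogM, hlogJ, hlogK⟩

/-- The large error terms. -/
theorem term_bounds {x C Q : ℝ} (hL : 1 ≤ llx x) (hC : 0 ≤ C) (hQ0 : 0 ≤ Q) {N N' : ℕ}
    (ha : (N : ℝ) + 1 ≤ 4 * llx x ^ (1 / 40 : ℝ))
    (hb : (N' : ℝ) + 1 ≤ 410 * llx x ^ (3 / 50 : ℝ))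
    (hlogN : Real.log ((N : ℝ) + 1) ≤ Q * llx x ^ (1 / 250 : ℝ)) :
    2 * ((cutCell x : ℝ) + 1) * width x
      + ((N' : ℝ) + (N : ℝ) * ((N' : ℝ) + 1)) * width x
      + C * ((numCells x : ℝ) + 1) * ((N : ℝ) + 1) * ((N' : ℝ) + 1)
      + 2 * ((N : ℝ) + 1) * ((N' : ℝ) + 1)
      + Real.log ((N : ℝ) + 1) * (N : ℝ)
        * (devBd x * ((numCells x : ℝ) + 1) + 4 * width x
          + 5 * ((cutCell x : ℝ) + 1) * width x)
      + Real.log ((N : ℝ) + 1) * smallOmega x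
    ≤ (8 + 2500 + C * 3 * 4 * 410 + 2 * 4 * 410 + Q * 4 * (3 + 4 + 20) + Q)
        * llx x ^ (97 / 100 : ℝ) := by
  obtain ⟨-, hJ2, -, hW2, -, hC2, hML, heta, hN1⟩ := param_bounds hL
  set L := llx x with hLdef
  have hL0 : 0 < L := by linarith
  have hN1' : (1 : ℝ) ≤ maxLen x := by exact_mod_cast hN1
  have hp : ∀ a b : ℝ, a ≤ b → L ^ a ≤ L ^ b := fun a b h =>
    Real.rpow_le_rpow_of_exponent_le hL h
  have h1p : ∀ a : ℝ, 0 ≤ a → 1 ≤ L ^ a := fun a ha => Real.one_le_rpow hL ha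
  have hg : goodLen x = L ^ (1 / 40 : ℝ) := rfl
  have hpm : ∀ a b : ℝ, a + b ≤ 97 / 100 → L ^ a * L ^ b ≤ L ^ (97 / 100 : ℝ) := fun a b h => by
    rw [← Real.rpow_add hL0]; exact hp _ _ h
  set T := L ^ (97 / 100 : ℝ) with hT
  have hT1 : 1 ≤ T := h1p _ (by norm_num)
  set δ := L ^ (1 / 250 : ℝ) with hδ
  have hwpos : 0 ≤ width x := div_nonneg hL0.le (Nat.cast_nonneg _)
  have t0 : 2 * ((cutCell x : ℝ) + 1) * width x ≤ 8 * T := by
    calc 2 * ((cutCell x : ℝ) + 1) * width x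
        ≤ 2 * (4 * L ^ (7 / 50 : ℝ)) * L ^ (4 / 5 : ℝ) := by
          gcongr
          have := h1p (7 / 50) (by norm_num); linarith
      _ = 8 * (L ^ (7 / 50 : ℝ) * L ^ (4 / 5 : ℝ)) := by ring
      _ ≤ 8 * T := by gcongr; exact hpm _ _ (by norm_num)
  have hab : ((N : ℝ) + 1) * ((N' : ℝ) + 1) ≤ 4 * 410 * L ^ (17 / 200 : ℝ) := by
    calc ((N : ℝ) + 1) * ((N' : ℝ) + 1)
        ≤ (4 * L ^ (1 / 40 : ℝ)) * (410 * L ^ (3 / 50 : ℝ)) :=
          mul_le_mul ha hb (by positivity) (by positivity)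
      _ = 4 * 410 * L ^ (1 / 40 + 3 / 50 : ℝ) := by rw [Real.rpow_add hL0]; ring
      _ = _ := by norm_num
  have t1 : ((N' : ℝ) + (N : ℝ) * ((N' : ℝ) + 1)) * width x ≤ 2500 * T := by
    calc ((N' : ℝ) + (N : ℝ) * ((N' : ℝ) + 1)) * width x
        ≤ (((N : ℝ) + 1) * ((N' : ℝ) + 1)) * L ^ (4 / 5 : ℝ) := by
          gcongr
          nlinarith
      _ ≤ 4 * 410 * L ^ (17 / 200 : ℝ) * L ^ (4 / 5 : ℝ) := by gcongr
      _ ≤ 4 * 410 * T := by rw [mul_assoc]; gcongr; exact hpm _ _ (by norm_num)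
      _ ≤ _ := by linarith
  have t2 : C * ((numCells x : ℝ) + 1) * ((N : ℝ) + 1) * ((N' : ℝ) + 1)
      ≤ C * 3 * 4 * 410 * T := by
    calc C * ((numCells x : ℝ) + 1) * ((N : ℝ) + 1) * ((N' : ℝ) + 1)
        = C * ((numCells x : ℝ) + 1) * (((N : ℝ) + 1) * ((N' : ℝ) + 1)) := by ring
      _ ≤ C * (3 * L ^ (1 / 5 : ℝ)) * (4 * 410 * L ^ (17 / 200 : ℝ)) := by
          gcongr
          have := h1p (1 / 5) (by norm_num); linarith
      _ = C * 3 * 4 * 410 * (L ^ (1 / 5 : ℝ) * L ^ (17 / 200 : ℝ)) := by ring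
      _ ≤ _ := by gcongr; exact hpm _ _ (by norm_num)
  have t3 : 2 * ((N : ℝ) + 1) * ((N' : ℝ) + 1) ≤ 2 * 4 * 410 * T := by
    have := hp (17 / 200) (97 / 100) (by norm_num)
    nlinarith
  have hlog0 : 0 ≤ Real.log ((N : ℝ) + 1) :=
    Real.log_nonneg (by linarith [(Nat.cast_nonneg N : (0 : ℝ) ≤ N)])
  have hdev : devBd x = L ^ (1 / 2 : ℝ) := rfl
  have t4 : Real.log ((N : ℝ) + 1) * (N : ℝ)
      * (devBd x * ((numCells x : ℝ) + 1) + 4 * width x + 5 * ((cutCell x : ℝ) + 1) * width x)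
      ≤ Q * 4 * (3 + 4 + 20) * T := by
    have h1 : devBd x * ((numCells x : ℝ) + 1) + 4 * width x
        + 5 * ((cutCell x : ℝ) + 1) * width x ≤ (3 + 4 + 20) * L ^ (47 / 50 : ℝ) := by
      have u1 : devBd x * ((numCells x : ℝ) + 1) ≤ 3 * L ^ (47 / 50 : ℝ) := by
        rw [hdev]
        calc L ^ (1 / 2 : ℝ) * ((numCells x : ℝ) + 1)
            ≤ L ^ (1 / 2 : ℝ) * (3 * L ^ (1 / 5 : ℝ)) := by
              gcongr
              have := h1p (1 / 5) (by norm_num); linarith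
          _ = 3 * L ^ (1 / 2 + 1 / 5 : ℝ) := by rw [Real.rpow_add hL0]; ring
          _ ≤ _ := mul_le_mul_of_nonneg_left (hp _ _ (by norm_num)) (by norm_num)
      have u2 : width x ≤ L ^ (47 / 50 : ℝ) := hW2.trans (hp _ _ (by norm_num))
      have u3 : 5 * ((cutCell x : ℝ) + 1) * width x ≤ 20 * L ^ (47 / 50 : ℝ) := by
        calc 5 * ((cutCell x : ℝ) + 1) * width x
            ≤ 5 * (4 * L ^ (7 / 50 : ℝ)) * L ^ (4 / 5 : ℝ) := by
              gcongr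
              have := h1p (7 / 50) (by norm_num); linarith
          _ = 20 * L ^ (7 / 50 + 4 / 5 : ℝ) := by rw [Real.rpow_add hL0]; ring
          _ = _ := by norm_num
      linarith
    have h0 : 0 ≤ devBd x * ((numCells x : ℝ) + 1) + 4 * width x
        + 5 * ((cutCell x : ℝ) + 1) * width x := by
      rw [hdev]; positivity
    calc _ ≤ Q * δ * (4 * L ^ (1 / 40 : ℝ)) * ((3 + 4 + 20) * L ^ (47 / 50 : ℝ)) := by
            refine mul_le_mul (mul_le_mul hlogN (by linarith) (Nat.cast_nonneg _)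
              (by positivity)) h1 h0 (by positivity)
      _ = Q * 4 * (3 + 4 + 20) * (L ^ (1 / 250 : ℝ) * L ^ (1 / 40 + 47 / 50 : ℝ)) := by
          rw [Real.rpow_add hL0, hδ]; ring
      _ ≤ _ := by gcongr; exact hpm _ _ (by norm_num)
  have t5 : Real.log ((N : ℝ) + 1) * smallOmega x ≤ Q * T := by
    calc Real.log ((N : ℝ) + 1) * smallOmega x ≤ Q * δ * L ^ (24 / 25 : ℝ) :=
          mul_le_mul_of_nonneg_right hlogN (Real.rpow_nonneg hL0.le _)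
      _ ≤ Q * T := by rw [mul_assoc]; gcongr; exact hpm _ _ (by norm_num)
  linarith

/-- The errors are negligible against `η Δ`. -/
theorem eventually_err_le (C : ℝ) (hC : 0 ≤ C) (K : ℝ) (hK : 1 ≤ K) (e : ℕ) :
    ∀ᶠ x : ℝ in atTop, ∀ N N' : ℕ, (N : ℝ) ≤ goodLen x + 2 → N' ≤ maxLen x + 1 →
      2 * ((cutCell x : ℝ) + 1) * width x + totErr x C (K * llx x ^ e) N N'
          + Real.log (6 * (maxLen x : ℝ) * llx x) + 1
        ≤ eta x * width x / 4 := by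
  set Q : ℝ := 2 + 250 + 2406 + 500 + 500 + K + 250 * e with hQ
  set c : ℝ := 8 + 2500 + C * 3 * 4 * 410 + 2 * 4 * 410 + Q * 4 * (3 + 4 + 20) + Q
    + 420 * Q + 5 * 420 * (2 * Q) + 420 * Q + 420 * Q + Q + 1 with hc
  filter_upwards [tendsto_llx.eventually_ge_atTop 1,
    eventually_pow_le (4 * c) (show (97 / 100 : ℝ) < 49 / 50 by norm_num)] with x hL hev
  intro N N' hN hN'
  obtain ⟨-, -, -, -, -, -, -, heta, hN1⟩ := param_bounds hL
  rw [← heta]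
  set L := llx x with hLdef
  have hL0 : 0 < L := by linarith
  have hN1' : (1 : ℝ) ≤ maxLen x := by exact_mod_cast hN1
  have hp : ∀ a b : ℝ, a ≤ b → L ^ a ≤ L ^ b := fun a b h =>
    Real.rpow_le_rpow_of_exponent_le hL h
  have h1p : ∀ a : ℝ, 0 ≤ a → 1 ≤ L ^ a := fun a ha => Real.one_le_rpow hL ha
  have hpm : ∀ a b : ℝ, a + b ≤ 97 / 100 → L ^ a * L ^ b ≤ L ^ (97 / 100 : ℝ) := fun a b h => by
    rw [← Real.rpow_add hL0]; exact hp _ _ h
  set T := L ^ (97 / 100 : ℝ) with hT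
  have hT1 : 1 ≤ T := h1p _ (by norm_num)
  set δ := L ^ (1 / 250 : ℝ) with hδ
  have hδ1 : 1 ≤ δ := h1p _ (by norm_num)
  have hg : goodLen x = L ^ (1 / 40 : ℝ) := rfl
  obtain ⟨ha, hb, hM, hNN⟩ := len_bounds hL hN hN'
  obtain ⟨hlogN, hlogA, hlogA6, hlogM, hlogJ, hlogK⟩ := log_bounds hL hN hN' hK hQ
  have hQ0 : 0 ≤ Q := by rw [hQ]; positivity
  have t0 := term_bounds (C := C) hL hC hQ0 ha hb hlogN
  have hsmall : ∀ a q : ℝ, 0 ≤ q → a ≤ 420 * L ^ (3 / 50 : ℝ) → ∀ g : ℝ, 0 ≤ g → g ≤ q * δ →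
      a * g ≤ 420 * q * T := by
    intro a q hq ha2 g hg0 hg1
    calc a * g ≤ (420 * L ^ (3 / 50 : ℝ)) * (q * δ) :=
          mul_le_mul ha2 hg1 hg0 (by positivity)
      _ = 420 * q * (L ^ (3 / 50 : ℝ) * L ^ (1 / 250 : ℝ)) := by rw [hδ]; ring
      _ ≤ _ := by gcongr; exact hpm _ _ (by norm_num)
  have t6 := hsmall _ Q hQ0 hNN _ (Real.log_nonneg (by nlinarith)) hlogA
  have t7 : 5 * (((N + N' + 2 : ℕ)) : ℝ) * Real.log (((N + N' + 2 : ℕ)) : ℝ)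
      ≤ 5 * 420 * (2 * Q) * T := by
    have := hsmall _ (2 * Q) (by linarith) hM _ (Real.log_natCast_nonneg _) hlogM
    linarith
  have t8 := hsmall _ Q hQ0 hM _
    (Real.log_nonneg (by linarith [(Nat.cast_nonneg (numCells x) : (0 : ℝ) ≤ numCells x)])) hlogJ
  have hKL : 1 ≤ K * L ^ e := by
    exact one_le_mul_of_one_le_of_one_le hK (one_le_pow₀ hL)
  have t9 := hsmall _ Q hQ0 hM _ (Real.log_nonneg hKL) hlogK
  have t10 : Real.log (6 * (maxLen x : ℝ) * L) ≤ Q * T := by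
    refine hlogA6.trans ?_
    gcongr
    exact hp _ _ (by norm_num)
  have hfinal : c * T ≤ L ^ (49 / 50 : ℝ) / 4 := by linarith only [hev]
  simp only [totErr, errTerm, ← hLdef]
  rw [hc] at hfinal
  linarith only [t0, t6, t7, t8, t9, t10, hfinal, hT1]

end Vale.Agent.P031
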