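import Vale.Agent.P031.Stability
import Vale.Agent.P031.MajorantParam

/-!
# P031: the majorant lemma

Both majorant pins follow from the bound for lists: the exponent is at most minus the slack.
-/

namespace Vale.Agent.P031

open Finset Filter

/-- The main exponent is minus the slack. -/
theorem mainList_le {x : ℝ} (ℓ : ℕ) (hℓ : cutCell x < ℓ) (hℓJ : ℓ ≤ numCells x)
    (A : List (ℕ × ℕ)) (qs : List ℕ) (hA : A.map Prod.fst = ℓ :: qs.map (cell x))
    (hq : ∀ q ∈ qs, cell x q ≤ ℓ) :
    mainList x A ≤ -slack x ℓ qs + ((cutCell x : ℝ) + 1) := by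
  have hab : ∀ j, (qs.map (cell x)).countP (fun a => decide (j < a)) = above x qs j := by
    intro j
    rw [List.countP_map]
    rfl
  have e : mainList x A = -∑ j ∈ Ico (cutCell x + 1) ℓ, (1 - ent (above x qs j)) := by
    rw [mainList, hA, ← sum_neg_distrib]
    refine ((sum_subset (s₁ := Ico (cutCell x + 1) ℓ) ?_ ?_).symm).trans (sum_congr rfl ?_)
    · intro j hj
      simp only [mem_Ico] at hj
      simp only [mem_Ioc]
      omega
    · intro j hj hj'
      simp only [mem_Ico] at hj'
      simp only [mem_Ioc] at hj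
      have hz : (ℓ :: qs.map (cell x)).countP (fun a => decide (j < a)) = 0 := by
        rw [List.countP_eq_zero]
        intro a ha
        rcases List.mem_cons.mp ha with rfl | ha
        · simp; omega
        · obtain ⟨q, hq', rfl⟩ := List.mem_map.mp ha
          have := hq q hq'
          simp; omega
      rw [hz, psi_zero]
    · intro j hj
      simp only [mem_Ico] at hj
      rw [List.countP_cons, hab, if_pos (by simp; omega), psi_succ]
  have hhalf := halfCell_le_cutCell x
  have hsplit : slack x ℓ qs = ∑ j ∈ Ico (halfCell x) (cutCell x + 1), (1 - ent (above x qs j))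
      + ∑ j ∈ Ico (cutCell x + 1) ℓ, (1 - ent (above x qs j)) := by
    rw [slack, sum_Ico_consecutive _ (by omega) (by omega)]
  have hlow : ∑ j ∈ Ico (halfCell x) (cutCell x + 1), (1 - ent (above x qs j))
      ≤ (cutCell x : ℝ) + 1 := by
    calc ∑ j ∈ Ico (halfCell x) (cutCell x + 1), (1 - ent (above x qs j))
        ≤ ∑ _j ∈ Ico (halfCell x) (cutCell x + 1), (1 : ℝ) :=
          sum_le_sum fun j _ => by linarith [ent_nonneg (above x qs j)]
      _ ≤ (cutCell x : ℝ) + 1 := by
          simp only [sum_const, Nat.card_Ico, nsmul_eq_mul, mul_one]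
          exact_mod_cast (by omega : cutCell x + 1 - halfCell x ≤ cutCell x + 1)
  rw [e]
  linarith

theorem rowsVal_map (f : ℕ → ℕ) (qs : List ℕ) (m : ℕ) :
    rowsVal (qs.map fun q => (f q, q)) m = confValue qs m := by
  simp [rowsVal, confValue, List.map_map, Function.comp_def]

/-- The primes of a configuration are admissible. -/
theorem IsConf.rowOK {x : ℝ} (hx : ParamOK x) {qs : List ℕ} {m : ℕ} (h : IsConf x qs m) {q : ℕ}
    (hq : q ∈ qs) : RowOK x (cell x q) q := by
  have hn := h.normal q hq
  have h2 := hn.prime.two_le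
  have hL := hx.L_pos
  have hbig := h.big q hq
  refine ⟨hn, hbig, cell_le_numCells x q, h.capped q hq, fun r hr => ?_, ?_⟩
  · obtain ⟨hp, hd, hne⟩ := Nat.mem_primeFactors.mp hr
    exact cell_le_cell (by linarith) hp.two_le
      ((Nat.le_of_dvd (Nat.pos_of_ne_zero hne) hd).trans (Nat.sub_le q 1))
  · have hm : cell x q ≤ ⌊ll q / width x⌋₊ := min_le_right _ _
    have h0 : 1 ≤ ⌊ll q / width x⌋₊ := le_trans (by omega) hm
    have hpos : 1 ≤ ll q / width x := Nat.one_le_floor_iff _ |>.mp h0
    have h1 : (cell x q : ℝ) ≤ ll q / width x :=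
      le_trans (Nat.cast_le.mpr (min_le_right _ _)) (Nat.floor_le (by linarith))
    rw [le_div_iff₀ hx.width_pos] at h1
    have hlog : 0 < Real.log q := Real.log_pos (by exact_mod_cast hn.prime.one_lt)
    have h3 : Real.exp (cell x q * width x) ≤ Real.log q :=
      (Real.exp_le_exp.mpr h1).trans (le_of_eq (Real.exp_log hlog))
    refine h3.trans (le_mul_of_one_le_left hlog.le ?_)
    have : (1 : ℝ) ≤ maxLen x := by exact_mod_cast hx.len_pos
    linarith

theorem confValue_pos {x : ℝ} (hx : ParamOK x) {qs : List ℕ} {m : ℕ} (h : IsConf x qs m) :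
    0 < confValue qs m := by
  refine Nat.mul_pos (List.prod_pos ?_) (h.part.prime_props hx).1
  intro a ha
  obtain ⟨q, hq, rfl⟩ := List.mem_map.mp ha
  have := (h.normal q hq).prime.two_le
  omega

/-- The inner majorant, given the cell masses and the sieve. -/
theorem innerMajorantPin_of (hM : CellMassPin) (hS : MajorantSieve) : InnerMajorantPin := by
  obtain ⟨C, hC0, hC⟩ := eventually_cellBd hM
  obtain ⟨K, e, hK, hsv⟩ := hS
  filter_upwards [eventually_paramOK, hC, hsv, eventually_err_le C hC0 K hK e,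
    eventually_length_le_goodLen] with x hx hCx hSx herr hlen S hS
  classical
  set f : (List ℕ × ℕ) × (List ℕ × ℕ) → LRep := fun a =>
    ((a.1.1.map fun q => (cell x q, q), a.1.2), (a.2.1.map fun q => (cell x q, q), a.2.2)) with hf
  have hfinj : Function.Injective f := by
    intro a b h
    simp only [hf, Prod.mk.injEq] at h
    have hl : ∀ l l' : List ℕ, (l.map fun q => (cell x q, q)) = l'.map (fun q => (cell x q, q)) →
        l = l' := fun l l' h => List.map_injective_iff.mpr
          (fun p q hpq => (Prod.mk.injEq _ _ _ _ ▸ hpq).2) h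
    exact Prod.ext (Prod.ext (hl _ _ h.1.1) h.1.2) (Prod.ext (hl _ _ h.2.1) h.2.2)
  set N := ⌊goodLen x⌋₊ + 2 with hN
  have hgl : 0 ≤ goodLen x := Real.rpow_nonneg (by linarith [hx.L_pos]) _
  have key := lists_le (s := eta x - ((cutCell x : ℝ) + 1)) hx hCx hSx N (maxLen x + 1) none
    (S.image f) (fun b hb => by
      obtain ⟨a, ha, rfl⟩ := mem_image.mp hb
      obtain ⟨h1, h2, hne, htop, hdis, hgood, hs, hval, hsq⟩ := hS a ha
      refine ⟨⟨?_, ?_, h1.part, h2.part, ?_, ?_, ?_⟩, ?_, ?_, ?_, fun V hV => by simp at hV⟩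
      · intro p hp
        obtain ⟨q, hq, rfl⟩ := List.mem_map.mp hp
        exact h1.rowOK hx hq
      · intro p hp
        obtain ⟨q, hq, rfl⟩ := List.mem_map.mp hp
        exact h2.rowOK hx hq
      · simp only [hf, rowsVal_map]; exact hval
      · simp only [hf, rowsVal_map]; exact hsq
      · intro p hp q hq hpq
        obtain ⟨p', hp', rfl⟩ := List.mem_map.mp hp
        obtain ⟨q', hq', rfl⟩ := List.mem_map.mp hq
        simp only at hpq
        exact hdis hp' (hpq ▸ hq')
      · simp only [hf, List.length_map]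
        have h := hlen _ _ h1 hgood
        have := Nat.le_floor h
        omega
      · simp only [hf, List.length_map]
        have := h2.short
        omega
      · rcases hqs : a.1.1 with _ | ⟨q, tl⟩
        · exact absurd hqs hne
        · rw [hqs] at hs h1
          have hsh := h1.shape (by linarith [hx.L_pos])
          have := mainList_le (x := x) (cell x q) (h1.big q (by simp)) (cell_le_numCells x q)
            ((q :: tl).map fun q => (cell x q, q)) tl
            (by simp [List.map_map, Function.comp_def])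
            (fun r hr => (List.pairwise_cons.1 hsh.anti).1 r hr)
          rw [slackAt_cons_zero] at hs
          simp only [hf, hqs]
          linarith)
  rw [sum_image hfinj.injOn] at key
  refine le_trans (le_of_eq (sum_congr rfl fun a _ => ?_)) (key.trans ?_)
  · simp only [hf, rowsVal_map]
  simp only [Option.isSome_none, Bool.false_eq_true, if_false, one_mul]
  refine Real.exp_le_exp.mpr ?_
  have := herr N (maxLen x + 1) (by
    rw [hN]; push_cast; linarith [Nat.floor_le hgl]) le_rfl
  have hA : 0 ≤ Real.log (6 * (maxLen x : ℝ) * llx x) := by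
    refine Real.log_nonneg ?_
    have : (1 : ℝ) ≤ maxLen x := by exact_mod_cast hx.len_pos
    nlinarith [hx.L_pos]
  have hη : 0 ≤ eta x * width x :=
    mul_nonneg (mul_nonneg (Nat.cast_nonneg _) (Real.rpow_nonneg (by linarith [hx.L_pos]) _))
      hx.width_pos.le
  linarith

theorem eventually_ll_le (c : ℝ) : ∀ᶠ x : ℝ in atTop, ∀ p : ℕ, 2 ≤ p →
    (p : ℝ) ≤ c * x + 1 → ll p ≤ llx x + 1 := by
  filter_upwards [eventually_ge_atTop (max 3 (|c| + 1)), tendsto_llx.eventually_ge_atTop 1]
    with x hx hL p hp hpx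
  have hx3 : 3 ≤ x := le_trans (le_max_left _ _) hx
  have hxc : |c| + 1 ≤ x := le_trans (le_max_right _ _) hx
  have hlog : 0 < Real.log x := Real.log_pos (by linarith)
  have hp2 : (2 : ℝ) ≤ p := by exact_mod_cast hp
  have hpx2 : (p : ℝ) ≤ x ^ 2 := by nlinarith [le_abs_self c]
  have h1 : Real.log p ≤ 2 * Real.log x := by
    have := Real.log_le_log (by linarith) hpx2
    rwa [Real.log_pow, Nat.cast_ofNat] at this
  calc ll p ≤ Real.log (2 * Real.log x) := Real.log_le_log (Real.log_pos (by linarith)) h1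
    _ = Real.log 2 + llx x := by rw [Real.log_mul two_ne_zero hlog.ne']; rfl
    _ ≤ llx x + 1 := by linarith [Real.log_le_sub_one_of_pos (show (0 : ℝ) < 2 by norm_num)]

/-- The outer majorant, given the cell masses and the sieve. -/
theorem outerMajorantPin_of (hM : CellMassPin) (hS : MajorantSieve) : OuterMajorantPin := by
  intro c hc
  obtain ⟨C, hC0, hC⟩ := eventually_cellBd hM
  obtain ⟨K, e, hK, hsv⟩ := hS
  filter_upwards [eventually_paramOK, hC, hsv, eventually_err_le C hC0 K hK e,
    eventually_length_le_goodLen, eventually_ll_le c, eventually_gt_atTop 1] with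
    x hx hCx hSx herr hlen hll hx1 Y hY0 hYc S hS
  classical
  set J := numCells x with hJ
  set f : (ℕ × List ℕ × ℕ) × (ℕ × List ℕ × ℕ) → LRep := fun a =>
    (((J, a.1.1) :: a.1.2.1.map fun q => (cell x q, q), a.1.2.2),
      ((J, a.2.1) :: a.2.2.1.map fun q => (cell x q, q), a.2.2.2)) with hf
  have hfinj : Function.Injective f := by
    intro a b h
    simp only [hf, Prod.mk.injEq, List.cons.injEq] at h
    have hl : ∀ l l' : List ℕ, (l.map fun q => (cell x q, q)) = l'.map (fun q => (cell x q, q)) →
        l = l' := fun l l' h => List.map_injective_iff.mpr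
          (fun p q hpq => (Prod.mk.injEq _ _ _ _ ▸ hpq).2) h
    obtain ⟨⟨⟨⟨-, h1⟩, h2⟩, h3⟩, ⟨⟨-, h4⟩, h5⟩, h6⟩ := h
    exact Prod.ext (Prod.ext h1 (Prod.ext (hl _ _ h2) h3)) (Prod.ext h4 (Prod.ext (hl _ _ h5) h6))
  set v : (ℕ × List ℕ × ℕ) × (ℕ × List ℕ × ℕ) → ℕ := fun a =>
    (a.1.1 - 1) * confValue a.1.2.1 a.1.2.2 with hv
  have hrv : ∀ a, rowsVal (f a).1.1 (f a).1.2 = v a := by
    intro a
    simp [hf, hv, rowsVal, confValue, List.map_map, Function.comp_def, mul_assoc]
  have hrv' : ∀ a, rowsVal (f a).2.1 (f a).2.2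
      = (a.2.1 - 1) * confValue a.2.2.1 a.2.2.2 := by
    intro a
    simp [hf, rowsVal, confValue, List.map_map, Function.comp_def, mul_assoc]
  set B := gain x J * Real.exp (-((eta x - ((cutCell x : ℝ) + 1)) * width x)
    + ((cutCell x : ℝ) + 1) * width x
    + totErr x C (K * llx x ^ e) (⌊goodLen x⌋₊ + 2) (maxLen x + 1)) with hB
  have hB0 : 0 ≤ B := mul_nonneg (gain_pos hx _).le (Real.exp_pos _).le
  have hvpos : ∀ a ∈ S, 0 < v a := fun a ha => by
    obtain ⟨hp, -, h1, -⟩ := hS a ha
    have := hp.prime.two_le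
    exact Nat.mul_pos (by omega) (confValue_pos hx h1)
  have hvY : ∀ a ∈ S, (v a : ℝ) ≤ Y := fun a ha => (hS a ha).2.2.2.2.2.2.2.2.2.2.2.2.1
  set g : (ℕ × List ℕ × ℕ) × (ℕ × List ℕ × ℕ) → ℕ := fun a => Nat.log 2 ⌊Y / v a⌋₊ with hg
  have hpow : 0 < llx x := by linarith [hx.L_pos]
  have hxJ : Real.exp ((J : ℝ) * width x) = Real.log x := by
    have hJne : (J : ℝ) ≠ 0 := by
      have h5 : 0 < llx x ^ (1 / 5 : ℝ) := Real.rpow_pos_of_pos hpow _
      have : (0 : ℝ) < J := lt_of_lt_of_le h5 (Nat.le_ceil _)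
      exact this.ne'
    rw [width, ← hJ, mul_div_cancel₀ _ hJne]
    exact Real.exp_log (Real.log_pos hx1)
  have hblock : ∀ k : ℕ, ((S.filter (fun a => g a = k)).card : ℝ) ≤ Y * (1 / 2) ^ k * B := by
    intro k
    set Sk := S.filter (fun a => g a = k) with hSk
    set V := Y * (1 / 2) ^ k with hVdef
    have hwin : ∀ a ∈ Sk, V / 2 < (v a : ℝ) ∧ (v a : ℝ) ≤ V := by
      intro a ha
      obtain ⟨haS, hgk⟩ := mem_filter.mp ha
      have hp : (0 : ℝ) < v a := by exact_mod_cast hvpos a haS
      have h1 : 1 ≤ Y / v a := (one_le_div hp).mpr (hvY a haS)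
      have hfl : ⌊Y / v a⌋₊ ≠ 0 := (Nat.floor_pos.mpr h1).ne'
      have hlo : (2 : ℝ) ^ k ≤ Y / v a := by
        have h2 : 2 ^ k ≤ ⌊Y / v a⌋₊ := by
          rw [← hgk]; exact Nat.pow_log_le_self 2 hfl
        calc (2 : ℝ) ^ k ≤ (⌊Y / v a⌋₊ : ℝ) := by exact_mod_cast h2
          _ ≤ _ := Nat.floor_le (by linarith)
      have hhi : Y / v a < (2 : ℝ) ^ (k + 1) := by
        have h2 : ⌊Y / v a⌋₊ < 2 ^ (k + 1) := by
          rw [← hgk]; exact Nat.lt_pow_succ_log_self one_lt_two _
        refine lt_of_lt_of_le (Nat.lt_floor_add_one _) ?_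
        exact_mod_cast h2
      rw [le_div_iff₀ hp] at hlo
      rw [div_lt_iff₀ hp, pow_succ] at hhi
      have h2k : (0 : ℝ) < 2 ^ k := by positivity
      rw [hVdef, one_div, inv_pow, ← div_eq_mul_inv, le_div_iff₀ h2k, div_div, div_lt_iff₀ (by positivity)]
      constructor <;> linarith
    have key := lists_le (s := eta x - ((cutCell x : ℝ) + 1)) hx hCx hSx (⌊goodLen x⌋₊ + 2)
      (maxLen x + 1) (some V) (Sk.image f) (fun b hb => by
        obtain ⟨a, ha, rfl⟩ := mem_image.mp hb
        obtain ⟨hp, hp', h1, h2, hlt, hbig, hq1, hq2, hdis, hgood, hs, hval, hYv, hsq⟩ :=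
          hS a (mem_filter.mp ha).1
        have hJ0 : cutCell x < J := by
          have := hx.cut
          rcases Nat.eq_zero_or_pos (cutCell x) with h0 | h0
          · rw [h0]
            have h5 : 0 < llx x ^ (1 / 5 : ℝ) := Real.rpow_pos_of_pos hpow _
            have : (0 : ℝ) < J := lt_of_lt_of_le h5 (Nat.le_ceil _)
            exact_mod_cast this
          · omega
        have hlow : ∀ p : ℕ, x ^ (1 / (3 * (maxLen x : ℝ))) ≤ (p : ℝ) →
            Real.exp ((J : ℝ) * width x) ≤ 3 * (maxLen x : ℝ) * Real.log p := by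
          intro p hp
          rw [hxJ]
          have hN1 : (1 : ℝ) ≤ maxLen x := by exact_mod_cast hx.len_pos
          have h3 := Real.log_le_log (Real.rpow_pos_of_pos (by linarith) _) hp
          rw [Real.log_rpow (by linarith)] at h3
          rw [div_mul_eq_mul_div, div_le_iff₀ (by linarith), one_mul] at h3
          linarith
        have hrow : ∀ p : ℕ, Normal x J p → x ^ (1 / (3 * (maxLen x : ℝ))) ≤ (p : ℝ) →
            (p : ℝ) ≤ Y + 1 → RowOK x J p := fun p hn hlo hhi =>
          ⟨hn, hJ0, le_rfl, hll p hn.prime.two_le (by linarith),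
            fun r _ => cell_le_numCells x r, hlow p hlo⟩
        have hp1Y : (a.1.1 : ℝ) ≤ Y + 1 := by
          have h3 := confValue_pos hx h1
          have h4 : a.1.1 - 1 ≤ v a := Nat.le_mul_of_pos_right _ h3
          have h5 : ((a.1.1 - 1 : ℕ) : ℝ) ≤ v a := by exact_mod_cast h4
          rw [Nat.cast_sub hp.prime.one_le] at h5
          push_cast at h5
          linarith [hvY a (mem_filter.mp ha).1]
        have hlt' : (a.2.1 : ℝ) ≤ a.1.1 := by exact_mod_cast hlt.le
        refine ⟨⟨?_, ?_, h1.part, h2.part, ?_, ?_, ?_⟩, ?_, ?_, ?_, fun V' hV => ?_⟩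
        · intro q hq
          rcases List.mem_cons.mp hq with rfl | hq
          · exact hrow _ hp (hbig.trans hlt') hp1Y
          · obtain ⟨q', hq', rfl⟩ := List.mem_map.mp hq
            exact h1.rowOK hx hq'
        · intro q hq
          rcases List.mem_cons.mp hq with rfl | hq
          · exact hrow _ hp' hbig (hlt'.trans hp1Y)
          · obtain ⟨q', hq', rfl⟩ := List.mem_map.mp hq
            exact h2.rowOK hx hq'
        · rw [hrv, hrv']; exact hval
        · rw [hrv]; exact hsq
        · intro p hpm q hqm hpq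
          rcases List.mem_cons.mp hpm with rfl | hpm <;> rcases List.mem_cons.mp hqm with rfl | hqm
          · exact hlt.ne' hpq
          · obtain ⟨q', hq', rfl⟩ := List.mem_map.mp hqm
            exact absurd hpq (hlt.trans' (hq2 q' hq')).ne'
          · obtain ⟨p', hp'', rfl⟩ := List.mem_map.mp hpm
            exact absurd hpq (hq1 p' hp'').ne
          · obtain ⟨p', hp'', rfl⟩ := List.mem_map.mp hpm
            obtain ⟨q', hq', rfl⟩ := List.mem_map.mp hqm
            simp only at hpq
            exact hdis hp'' (hpq ▸ hq')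
        · simp only [hf, List.length_cons, List.length_map]
          have := Nat.le_floor (hlen _ _ h1 hgood)
          omega
        · simp only [hf, List.length_cons, List.length_map]
          have := h2.short
          omega
        · have := mainList_le (x := x) J hJ0 le_rfl
            ((J, a.1.1) :: a.1.2.1.map fun q => (cell x q, q)) a.1.2.1
            (by simp [List.map_map, Function.comp_def]) (fun r _ => cell_le_numCells x r)
          simp only [hf]
          linarith
        · simp only [Option.mem_def, Option.some.injEq] at hV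
          subst hV
          rw [hrv]
          exact ⟨by simp [hf], by simp [hf, hJ], hwin a ha⟩)
    rw [sum_image hfinj.injOn] at key
    simp only [Option.isSome_some, if_true] at key
    have h1 : ((Sk.card : ℕ) : ℝ) ≤ V * ∑ a ∈ Sk, (1 : ℝ) / (rowsVal (f a).1.1 (f a).1.2 : ℝ) := by
      rw [mul_sum, Finset.cast_card]
      refine sum_le_sum fun a ha => ?_
      rw [hrv, ← mul_div_assoc, mul_one, le_div_iff₀ (by exact_mod_cast hvpos a (mem_filter.mp ha).1),
        one_mul]
      exact (hwin a ha).2
    refine h1.trans (mul_le_mul_of_nonneg_left key ?_)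
    rw [hVdef]; positivity
  have hsum : (S.card : ℝ) ≤ 2 * Y * B := by
    rw [card_eq_sum_card_fiberwise (f := g) (t := S.image g) (fun a ha => mem_image_of_mem _ ha),
      Nat.cast_sum]
    calc ∑ k ∈ S.image g, ((S.filter (fun a => g a = k)).card : ℝ)
        ≤ ∑ k ∈ S.image g, Y * (1 / 2) ^ k * B := sum_le_sum fun k _ => hblock k
      _ ≤ ∑ k ∈ range ((S.image g).sup id + 1), Y * (1 / 2) ^ k * B := by
          refine sum_le_sum_of_subset_of_nonneg (fun k hk => mem_range.mpr
            (Nat.lt_succ_of_le (le_sup (f := id) hk))) fun k _ _ => by positivity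
      _ ≤ 2 * Y * B := by
          rw [← sum_mul, ← mul_sum]
          refine mul_le_mul_of_nonneg_right ?_ hB0
          rw [mul_comm (2 : ℝ) Y]
          exact mul_le_mul_of_nonneg_left (sum_geometric_two_le _) hY0.le
  refine hsum.trans ?_
  have hlogx : 0 < Real.log x := Real.log_pos hx1
  have hN1 : (1 : ℝ) ≤ maxLen x := by exact_mod_cast hx.len_pos
  have hgainJ : 2 * gain x J = Real.exp (Real.log (6 * (maxLen x : ℝ) * llx x)) / Real.log x := by
    rw [gain, Real.exp_neg, hxJ, Real.exp_log (by positivity)]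
    ring
  rw [hB, show 2 * Y * (gain x J * Real.exp (-((eta x - ((cutCell x : ℝ) + 1)) * width x)
      + ((cutCell x : ℝ) + 1) * width x
      + totErr x C (K * llx x ^ e) (⌊goodLen x⌋₊ + 2) (maxLen x + 1)))
    = Y * ((2 * gain x J) * Real.exp (-((eta x - ((cutCell x : ℝ) + 1)) * width x)
      + ((cutCell x : ℝ) + 1) * width x
      + totErr x C (K * llx x ^ e) (⌊goodLen x⌋₊ + 2) (maxLen x + 1))) by ring, hgainJ,
    div_mul_eq_mul_div, ← mul_div_assoc, mul_div_right_comm, ← Real.exp_add]
  refine mul_le_mul_of_nonneg_left (Real.exp_le_exp.mpr ?_) (by positivity)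
  have hgl : 0 ≤ goodLen x := Real.rpow_nonneg hpow.le _
  have := herr (⌊goodLen x⌋₊ + 2) (maxLen x + 1)
    (by push_cast; linarith [Nat.floor_le hgl]) le_rfl
  have hη : 0 ≤ eta x * width x :=
    mul_nonneg (mul_nonneg (Nat.cast_nonneg _) (Real.rpow_nonneg hpow.le _)) hx.width_pos.le
  linarith

end Vale.Agent.P031
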