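import Vale.Agent.P031.MajorantCore

/-!
# P031: the exponent of the majorant lemma

The tilts are `z = 1 / k` in a cell below which `k` primes of side one lie, and `1 / (n + 1)` in
the small cells.  Euler products, sieve gains and tilt costs add up to the negative of the slack.
-/

namespace Vale.Agent.P031

open Finset

/-- The number of levels above `j`. -/
def upCnt {m : ℕ} (lev : Fin m → ℕ) (j : ℕ) : ℕ := (univ.filter (fun i => j < lev i)).card

/-- The number of levels equal to `j`. -/
def eqCnt {m : ℕ} (lev : Fin m → ℕ) (j : ℕ) : ℕ := (univ.filter (fun i => lev i = j)).card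

/-- `t log t - t`. -/
noncomputable def psi (t : ℕ) : ℝ := (t : ℝ) * Real.log t - t

theorem psi_zero : psi 0 = 0 := by simp [psi]

theorem psi_succ (t : ℕ) : psi (t + 1) = -(1 - ent t) := by
  simp [psi, ent]
  ring

/-- The cost of the tilt in a cell. -/
noncomputable def tiltCost (j0 n : ℕ) (lev : Fin n → ℕ) (j : ℕ) : ℝ :=
  if j ≤ j0 then Real.log ((n : ℝ) + 1) else Real.log (max (upCnt lev j : ℝ) 1)

theorem tiltCost_nonneg (j0 n : ℕ) (lev : Fin n → ℕ) (j : ℕ) : 0 ≤ tiltCost j0 n lev j := by
  unfold tiltCost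
  split
  · exact Real.log_nonneg (by linarith [(Nat.cast_nonneg n : (0 : ℝ) ≤ n)])
  · exact Real.log_nonneg (le_max_right _ _)

theorem tiltCost_le (j0 n : ℕ) (lev : Fin n → ℕ) (j : ℕ) :
    tiltCost j0 n lev j ≤ Real.log ((n : ℝ) + 1) := by
  unfold tiltCost
  split
  · exact le_rfl
  · refine Real.log_le_log (lt_max_of_lt_right one_pos) (max_le ?_ ?_)
    · have : (upCnt lev j : ℝ) ≤ n := by
        exact_mod_cast (card_filter_le _ _).trans (by simp)
      linarith
    · linarith [(Nat.cast_nonneg n : (0 : ℝ) ≤ n)]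

theorem exp_list_sum (l : List ℕ) (c : ℕ → ℝ) :
    (l.map fun r => Real.exp (-c r)).prod = Real.exp (-(l.map c).sum) := by
  induction l with
  | nil => simp
  | cons r l ih =>
    rw [List.map_cons, List.prod_cons, ih, List.map_cons, List.sum_cons, ← Real.exp_add]
    congr 1
    ring

/-- The tilt cost of one shifted prime. -/
theorem RowOK.cost {x : ℝ} {ℓ q : ℕ} (h : RowOK x ℓ q) (c : ℕ → ℝ) (c0 : ℝ) (hc : ∀ j, 0 ≤ c j)
    (hsmall : ∀ j ≤ cutCell x, c j = c0) :
    ((q - 1).primeFactorsList.map fun r => c (cell x r)).sum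
      ≤ (∑ j ∈ range (numCells x + 1),
          (if cutCell x < j ∧ j < ℓ then c j else 0) * (width x + devBd x))
        + c ℓ * (4 * width x) + c0 * (5 * ((cutCell x : ℝ) + 1) * width x) := by
  classical
  have hc0 : 0 ≤ c0 := hsmall 0 (Nat.zero_le _) ▸ hc 0
  set l := (q - 1).primeFactorsList with hl
  have hne : q - 1 ≠ 0 := by have := h.normal.prime.two_le; omega
  rw [sum_list_map_count]
  have hsplit := sum_filter_add_sum_filter_not l.toFinset (fun r => cell x r ≤ cutCell x)
    (fun r => l.count r • c (cell x r))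
  rw [← hsplit]
  have hA : ∑ r ∈ l.toFinset.filter (fun r => cell x r ≤ cutCell x), l.count r • c (cell x r)
      ≤ c0 * (5 * ((cutCell x : ℝ) + 1) * width x) := by
    have e : ∑ r ∈ l.toFinset.filter (fun r => cell x r ≤ cutCell x), l.count r • c (cell x r)
        = c0 * (omegaSmall x (q - 1) : ℝ) := by
      have e2 : omegaSmall x (q - 1)
          = ∑ r ∈ l.toFinset.filter (fun r => cell x r ≤ cutCell x), l.count r := by
        simp only [omegaSmall, ← hl]
        rw [← List.sum_toFinset_count_eq_length]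
        have e3 : (l.filter (fun r => decide (cell x r ≤ cutCell x))).toFinset
            = l.toFinset.filter (fun r => cell x r ≤ cutCell x) := by
          rw [List.toFinset_filter]
          simp
        rw [e3]
        refine sum_congr rfl fun r hr => List.count_filter ?_
        simpa using (mem_filter.mp hr).2
      rw [e2, Nat.cast_sum, mul_sum]
      refine sum_congr rfl fun r hr => ?_
      rw [hsmall _ (mem_filter.mp hr).2, nsmul_eq_mul, mul_comm]
    rw [e]
    exact mul_le_mul_of_nonneg_left h.normal.small hc0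
  have hB : ∑ r ∈ l.toFinset.filter (fun r => ¬ cell x r ≤ cutCell x), l.count r • c (cell x r)
      ≤ (∑ j ∈ range (numCells x + 1),
          (if cutCell x < j ∧ j < ℓ then c j else 0) * (width x + devBd x))
        + c ℓ * (4 * width x) := by
    have e : ∀ r ∈ l.toFinset.filter (fun r => ¬ cell x r ≤ cutCell x),
        l.count r • c (cell x r) = c (cell x r) := by
      intro r hr
      obtain ⟨hr1, hr2⟩ := mem_filter.mp hr
      rw [List.mem_toFinset, hl] at hr1
      have hp := Nat.prime_of_mem_primeFactorsList hr1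
      have h1 : ¬ r ^ 2 ∣ q - 1 := h.normal.sq r hp (by
        have := halfCell_le_cutCell x; omega)
      have h2 : l.count r = 1 := by
        have h3 : 0 < l.count r := List.count_pos_iff.mpr (hl ▸ hr1)
        rcases Nat.lt_or_ge (l.count r) 2 with h4 | h4
        · omega
        · exfalso
          apply h1
          rw [hl, Nat.primeFactorsList_count_eq] at h4
          exact (hp.pow_dvd_iff_le_factorization hne).mpr h4
      rw [h2, one_smul]
    rw [sum_congr rfl e]
    have hmaps : ∀ r ∈ l.toFinset.filter (fun r => ¬ cell x r ≤ cutCell x),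
        cell x r ∈ range (numCells x + 1) := fun r _ =>
      mem_range.mpr (by have := cell_le_numCells x r; omega)
    rw [← sum_fiberwise_of_maps_to hmaps]
    have hℓ : ℓ ∈ range (numCells x + 1) := mem_range.mpr (by have := h.le; omega)
    have hone : ∑ j ∈ range (numCells x + 1),
        ((if cutCell x < j ∧ j < ℓ then c j else 0) * (width x + devBd x)
          + (if j = ℓ then c ℓ * (4 * width x) else 0))
        = (∑ j ∈ range (numCells x + 1),
            (if cutCell x < j ∧ j < ℓ then c j else 0) * (width x + devBd x))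
          + c ℓ * (4 * width x) := by
      rw [sum_add_distrib, sum_ite_eq' _ ℓ, if_pos hℓ]
    rw [← hone]
    refine sum_le_sum fun j _ => ?_
    set Sj := (l.toFinset.filter (fun r => ¬ cell x r ≤ cutCell x)).filter (fun r => cell x r = j)
      with hSj
    have hcard : (Sj.card : ℝ) ≤ omegaIn x j (q - 1) := by
      refine Nat.cast_le.mpr (card_le_card fun r hr => ?_)
      simp only [hSj, mem_filter, List.mem_toFinset] at hr
      exact mem_filter.mpr ⟨List.mem_toFinset.mpr hr.1.1, hr.2⟩
    have esum : ∑ r ∈ Sj, c (cell x r) = Sj.card * c j := by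
      rw [sum_congr rfl (fun r hr => by rw [(mem_filter.mp hr).2]), sum_const, nsmul_eq_mul]
    rw [esum]
    rcases Sj.eq_empty_or_nonempty with hE | ⟨r0, hr0⟩
    · rw [hE]
      simp only [card_empty, Nat.cast_zero, zero_mul]
      have h1 : 0 ≤ width x + devBd x ∨ ¬ (cutCell x < j ∧ j < ℓ) := by
        by_cases hj : cutCell x < j ∧ j < ℓ
        · left
          have := h.normal.dev j (by have := halfCell_le_cutCell x; omega) hj.2
          have := abs_le.mp this
          linarith [(Nat.cast_nonneg (omegaIn x j (q - 1)) : (0 : ℝ) ≤ _)]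
        · exact Or.inr hj
      have h2 : (0 : ℝ) ≤ if j = ℓ then c ℓ * (4 * width x) else 0 := by
        split
        · exact mul_nonneg (hc ℓ)
            (le_trans (Nat.cast_nonneg _) h.normal.top)
        · exact le_rfl
      rcases h1 with h1 | h1
      · have : (0 : ℝ) ≤ (if cutCell x < j ∧ j < ℓ then c j else 0) * (width x + devBd x) :=
          mul_nonneg (by split <;> simp [hc]) h1
        linarith
      · rw [if_neg h1]; linarith
    · simp only [hSj, mem_filter, List.mem_toFinset] at hr0
      have hj1 : cutCell x < j := by have := hr0.1.2; have := hr0.2; omega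
      have hj2 : j ≤ ℓ := hr0.2 ▸ h.cellLe r0 (List.mem_toFinset.mpr hr0.1.1)
      rcases hj2.eq_or_lt with heq | hlt
      · subst heq
        rw [if_neg (by omega), zero_mul, zero_add, if_pos rfl, mul_comm]
        exact mul_le_mul_of_nonneg_left (hcard.trans h.normal.top) (hc j)
      · rw [if_pos ⟨hj1, hlt⟩, if_neg (by omega), add_zero, mul_comm]
        refine mul_le_mul_of_nonneg_left (hcard.trans ?_) (hc j)
        have := h.normal.dev j (by have := halfCell_le_cutCell x; omega) hlt
        have := abs_le.mp this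
        linarith
  linarith

/-- The error term of the exponent. -/
noncomputable def errTerm (x C : ℝ) (n k : ℕ) : ℝ :=
  ((k : ℝ) + (n : ℝ) * ((k : ℝ) + 1)) * width x
    + C * ((numCells x : ℝ) + 1) * ((n : ℝ) + 1) * ((k : ℝ) + 1)
    + 2 * ((n : ℝ) + 1) * ((k : ℝ) + 1)
    + Real.log ((n : ℝ) + 1) * (n : ℝ)
        * (devBd x * ((numCells x : ℝ) + 1) + 4 * width x
          + 5 * ((cutCell x : ℝ) + 1) * width x)
    + Real.log ((n : ℝ) + 1) * smallOmega x
    + ((n : ℝ) + k) * Real.log (3 * (maxLen x : ℝ) * llx x)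

/-- `∑ ψ` over the big cells. -/
noncomputable def mainExp (x : ℝ) {n : ℕ} (lev : Fin n → ℕ) : ℝ :=
  ∑ j ∈ Finset.Ioc (cutCell x) (numCells x), psi (upCnt lev j)

theorem optCount {m : ℕ} (x : ℝ) (lev : Fin m → ℕ) (j : ℕ) :
    (∑ i : Option (Fin m), if j ≤ levOpt x lev i then (1 : ℝ) else 0)
      = (if j ≤ cutCell x then 1 else 0) + ∑ i : Fin m, if j ≤ lev i then (1 : ℝ) else 0 := by
  rw [Fintype.sum_option]
  rfl

theorem upCnt_add_eqCnt {m : ℕ} (lev : Fin m → ℕ) (j : ℕ) :
    (∑ i : Fin m, if j ≤ lev i then (1 : ℝ) else 0) = (upCnt lev j : ℝ) + (eqCnt lev j : ℝ) := by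
  simp only [upCnt, eqCnt, ← sum_boole, ← sum_add_distrib]
  refine sum_congr rfl fun i _ => ?_
  rcases lt_trichotomy j (lev i) with h | h | h
  · simp [h.le, h, h.ne']
  · simp [h]
  · simp [not_le.mpr h, not_lt.mpr h.le, h.ne]

theorem sum_upCnt {m : ℕ} (lev : Fin m → ℕ) (N : ℕ) (h : ∀ i, lev i ≤ N) :
    (∑ j ∈ range (N + 1), (upCnt lev j : ℝ)) = ∑ i, (lev i : ℝ) := by
  simp only [upCnt, ← sum_boole]
  rw [sum_comm]
  refine sum_congr rfl fun i _ => ?_
  rw [sum_boole]
  congr 1
  rw [show (range (N + 1)).filter (fun j => j < lev i) = range (lev i) by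
    ext j; have := h i; simp only [mem_filter, mem_range]; omega, card_range]

theorem sum_eqCnt_le {m : ℕ} (lev : Fin m → ℕ) (N : ℕ) :
    (∑ j ∈ range (N + 1), (eqCnt lev j : ℝ)) ≤ m := by
  simp only [eqCnt, ← sum_boole]
  rw [sum_comm]
  calc (∑ i : Fin m, ∑ j ∈ range (N + 1), if lev i = j then (1 : ℝ) else 0)
      ≤ ∑ _i : Fin m, (1 : ℝ) := sum_le_sum fun i _ => by
        rw [sum_ite_eq]; split <;> simp
    _ = m := by simp

/-- The cell inequality. -/
theorem cell_term_le {x : ℝ} {n k : ℕ} (lev : Fin n → ℕ) (lev' : Fin k → ℕ)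
    (hlev : ∀ i, cutCell x < lev i) (hlev' : ∀ l, cutCell x < lev' l) (j : ℕ) :
    Real.exp (-tiltCost (cutCell x) n lev j)
        * (∑ i : Option (Fin n), if j ≤ levOpt x lev i then (1 : ℝ) else 0)
        * (∑ l : Option (Fin k), if j ≤ levOpt x lev' l then (1 : ℝ) else 0)
      - (upCnt lev j : ℝ) - (upCnt lev' j : ℝ)
      + (if cutCell x < j then (upCnt lev j : ℝ) * tiltCost (cutCell x) n lev j else 0)
    ≤ (if j ≤ cutCell x then 1 else 0)
      + (if cutCell x < j then psi (upCnt lev j) else 0)
      + (eqCnt lev' j : ℝ) + (eqCnt lev j : ℝ) * ((k : ℝ) + 1) := by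
  rw [optCount, optCount, upCnt_add_eqCnt, upCnt_add_eqCnt]
  by_cases hj : j ≤ cutCell x
  · have e1 : eqCnt lev j = 0 := by
      simp only [eqCnt, card_eq_zero, filter_eq_empty_iff]
      intro i _ h; have := hlev i; omega
    have e2 : eqCnt lev' j = 0 := by
      simp only [eqCnt, card_eq_zero, filter_eq_empty_iff]
      intro i _ h; have := hlev' i; omega
    have e3 : upCnt lev j = n := by
      simp only [upCnt]
      rw [filter_true_of_mem fun i _ => lt_of_le_of_lt hj (hlev i)]
      simp
    have e4 : upCnt lev' j = k := by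
      simp only [upCnt]
      rw [filter_true_of_mem fun i _ => lt_of_le_of_lt hj (hlev' i)]
      simp
    simp only [if_pos hj, if_neg (not_lt.mpr hj), e1, e2, e3, e4, tiltCost, Nat.cast_zero,
      add_zero, zero_mul]
    rw [Real.exp_neg, Real.exp_log (by positivity)]
    have hn : (0 : ℝ) < (n : ℝ) + 1 := by positivity
    rw [show ((n : ℝ) + 1)⁻¹ * (1 + n) = 1 by rw [add_comm (1 : ℝ), inv_mul_cancel₀ hn.ne'],
      one_mul]
    have hn0 : (0 : ℝ) ≤ n := Nat.cast_nonneg n
    linarith
  · have hj' : cutCell x < j := by omega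
    have hC : (upCnt lev' j : ℝ) + (eqCnt lev' j : ℝ) ≤ (k : ℝ) := by
      rw [← upCnt_add_eqCnt]
      calc (∑ i : Fin k, if j ≤ lev' i then (1 : ℝ) else 0) ≤ ∑ _i : Fin k, (1 : ℝ) :=
            sum_le_sum fun i _ => by split <;> simp
        _ = k := by simp
    simp only [if_neg hj, if_pos hj', tiltCost, zero_add]
    have hK' : (0 : ℝ) ≤ upCnt lev' j := Nat.cast_nonneg _
    have he : (0 : ℝ) ≤ eqCnt lev j := Nat.cast_nonneg _
    have he' : (0 : ℝ) ≤ eqCnt lev' j := Nat.cast_nonneg _
    rcases Nat.eq_zero_or_pos (upCnt lev j) with h0 | h0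
    · rw [h0, psi_zero]
      simp only [Nat.cast_zero, zero_add, zero_mul, sub_zero,
        max_eq_right (zero_le_one (α := ℝ)), Real.log_one, neg_zero, Real.exp_zero, one_mul]
      nlinarith
    · have h1 : (1 : ℝ) ≤ upCnt lev j := by exact_mod_cast h0
      rw [max_eq_left h1, Real.exp_neg, Real.exp_log (by linarith), psi]
      set a := (upCnt lev j : ℝ)
      set e := (eqCnt lev j : ℝ)
      set b := (upCnt lev' j : ℝ) + (eqCnt lev' j : ℝ) with hb
      have h2 : a⁻¹ * (a + e) * b ≤ b + e * ((k : ℝ) + 1) := by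
        have h5 : a⁻¹ * a = 1 := inv_mul_cancel₀ (by linarith)
        rw [show a⁻¹ * (a + e) * b = a⁻¹ * a * b + a⁻¹ * e * b by ring, h5, one_mul]
        refine add_le_add le_rfl ?_
        have h3 : a⁻¹ * e ≤ e := by
          refine mul_le_of_le_one_left he ?_
          exact inv_le_one_of_one_le₀ h1
        have h4 : 0 ≤ a⁻¹ * e := by positivity
        have hb0 : 0 ≤ b := by rw [hb]; positivity
        nlinarith
      linarith

theorem sum_gain_log {x : ℝ} (hx : ParamOK x) {n k : ℕ} (Λ : Own n k → ℕ) :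
    ∏ o, gain x (Λ o) = Real.exp (((n : ℝ) + k) * Real.log (3 * (maxLen x : ℝ) * llx x)
      - width x * (∑ i, (Λ (Sum.inl i) : ℝ) + ∑ l, (Λ (Sum.inr l) : ℝ))) := by
  have h1 : (1 : ℝ) ≤ maxLen x := by exact_mod_cast hx.len_pos
  have := hx.L_pos
  set A := Real.log (3 * (maxLen x : ℝ) * llx x) with hA
  have hg : ∀ o, gain x (Λ o) = Real.exp (A - (Λ o : ℝ) * width x) := fun o => by
    rw [sub_eq_add_neg, Real.exp_add, hA, Real.exp_log (by positivity)]
    rfl
  rw [prod_congr rfl fun o _ => hg o, ← Real.exp_sum]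
  congr 1
  rw [Fintype.sum_sum_type]
  simp only [sum_sub_distrib, sum_const, card_univ, Fintype.card_fin, nsmul_eq_mul, ← sum_mul]
  ring

/-- The bound for fixed lengths and levels. -/
theorem levels_le {x C K : ℝ} (hx : ParamOK x) (hC : CellBd x C) (hS : SieveBd x K) {n k : ℕ}
    (Λ : Own n k → ℕ) (win : Option (Own n k × ℝ)) (S : Finset (Rep n k))
    (hval : ∀ a ∈ S, Valid x Λ a ∧ InWindow win a) :
    ∑ a ∈ S, (1 : ℝ) / (repVal a : ℝ)
      ≤ (Fintype.card (Shp n k) : ℝ) * K ^ (n + k) * winGain x Λ win *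
        Real.exp (width x * mainExp x (fun i => Λ (Sum.inl i))
          + ((cutCell x : ℝ) + 1) * width x + errTerm x C n k) := by
  classical
  have hw0 : 0 ≤ winGain x Λ win := by
    cases win with
    | none => exact zero_le_one
    | some w => exact (gain_pos hx _).le
  have hK0 : 0 ≤ K ^ (n + k) := pow_nonneg (by linarith [hS.1]) _
  rcases S.eq_empty_or_nonempty with rfl | ⟨a0, ha0⟩
  · simp only [sum_empty]
    positivity
  have hrow0 := (hval a0 ha0).1.rows
  set lev : Fin n → ℕ := fun i => Λ (Sum.inl i) with hlev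
  set lev' : Fin k → ℕ := fun l => Λ (Sum.inr l) with hlev'
  set j0 := cutCell x with hj0
  set J := numCells x with hJ
  set c := tiltCost j0 n lev with hc
  set Lg := Real.log ((n : ℝ) + 1) with hLg
  set z : ℕ → ℝ := fun j => Real.exp (-c j) with hz
  set U : ℝ := (∑ i, ((∑ j ∈ range (J + 1),
      (if j0 < j ∧ j < lev i then c j else 0) * (width x + devBd x))
      + c (lev i) * (4 * width x) + Lg * (5 * ((j0 : ℝ) + 1) * width x)))
      + Lg * smallOmega x with hU
  have hcsmall : ∀ j ≤ j0, c j = Lg := fun j hj => by simp [hc, tiltCost, hj, hLg]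
  have hwv : ∀ a ∈ S, Real.exp (-U) ≤ wprod (fun r => z (cell x r)) (repVal a) := by
    intro a ha
    obtain ⟨hv, -⟩ := hval a ha
    obtain ⟨hp, -⟩ := rowVal_pos hx hv
    rw [repVal, wprod_prod _ _ _ (fun i _ => (hp i).ne'), Fintype.prod_option]
    have hq : ∀ m : ℕ, wprod (fun r => z (cell x r)) m
        = Real.exp (-(m.primeFactorsList.map fun r => c (cell x r)).sum) :=
      fun m => exp_list_sum _ _
    simp only [hq]
    rw [← Real.exp_sum, ← Real.exp_add]
    refine Real.exp_le_exp.mpr ?_
    rw [sum_neg_distrib, ← neg_add, neg_le_neg_iff, hU, add_comm (((rowVal a none).primeFactorsList.map _).sum)]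
    refine add_le_add (sum_le_sum fun i _ => ?_) ?_
    · exact (hv.rows (Sum.inl i)).cost c Lg (tiltCost_nonneg _ _ _) hcsmall
    · obtain ⟨hm, hall⟩ := hv.left.prime_props hx
      show ((a.2.1).primeFactorsList.map fun r => c (cell x r)).sum ≤ _
      have e : (a.2.1).primeFactorsList.map (fun r => c (cell x r))
          = (a.2.1).primeFactorsList.map (fun _ => Lg) :=
        List.map_congr_left fun r hr => hcsmall _ (hall r
          (List.mem_toFinset.mpr hr)).1
      rw [e, List.map_const', List.sum_replicate, nsmul_eq_mul, mul_comm]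
      exact mul_le_mul_of_nonneg_left hv.left.omega (by
        rw [hLg]; exact Real.log_nonneg (by linarith [(Nat.cast_nonneg n : (0 : ℝ) ≤ n)]))
  have hmain := core_le (U := U) hx hC hS z (fun j => Real.exp_pos _)
    (fun j => Real.exp_le_one_iff.mpr (neg_nonpos.mpr (tiltCost_nonneg _ _ _ j))) Λ win S
    (fun a ha => ⟨(hval a ha).1, (hval a ha).2, hwv a ha⟩)
  refine hmain.trans ?_
  rw [sum_gain_log hx Λ]
  set A := Real.log (3 * (maxLen x : ℝ) * llx x) with hA
  have hN : ∀ p q r s t : ℝ, p * (Real.exp q * Real.exp r * (s * Real.exp t * winGain x Λ win))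
      = p * s * winGain x Λ win * Real.exp (q + r + t) := by
    intro p q r s t
    rw [Real.exp_add, Real.exp_add]
    ring
  rw [hN]
  refine mul_le_mul_of_nonneg_left (Real.exp_le_exp.mpr ?_) (by positivity)
  -- the exponent
  set Rw : ℕ → ℝ := fun j => ∑ i : Option (Fin n), if j ≤ levOpt x lev i then (1 : ℝ) else 0
    with hRw
  set Cl : ℕ → ℝ := fun j => ∑ l : Option (Fin k), if j ≤ levOpt x lev' l then (1 : ℝ) else 0
    with hCl
  have hcutJ : j0 ≤ J := by have := hx.cut; omega
  have hlo : ∀ i, levOpt x lev i ≤ J := by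
    rintro (_ | i)
    · exact hcutJ
    · exact (hrow0 _).le
  have hEul : (∑ e : Ent n k, ∑ j ∈ range (entCap x Λ e + 1), z j)
      = ∑ j ∈ range (J + 1), z j * Rw j * Cl j := by
    have e1 : ∀ e : Ent n k, ∑ j ∈ range (entCap x Λ e + 1), z j = ∑ j ∈ range (J + 1),
        z j * ((if j ≤ levOpt x lev e.1 then (1 : ℝ) else 0)
          * (if j ≤ levOpt x lev' e.2 then (1 : ℝ) else 0)) := by
      intro e
      have hcap : entCap x Λ e ≤ J := (min_le_left _ _).trans (hlo e.1)
      rw [show range (entCap x Λ e + 1)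
          = (range (J + 1)).filter (fun j => j ≤ levOpt x lev e.1 ∧ j ≤ levOpt x lev' e.2) by
        ext j
        have : entCap x Λ e = min (levOpt x lev e.1) (levOpt x lev' e.2) := rfl
        simp only [mem_filter, mem_range]
        omega, sum_filter]
      refine sum_congr rfl fun j _ => ?_
      by_cases h1 : j ≤ levOpt x lev e.1 <;> by_cases h2 : j ≤ levOpt x lev' e.2 <;> simp [h1, h2]
    rw [sum_congr rfl fun e _ => e1 e, sum_comm]
    refine sum_congr rfl fun j _ => ?_
    rw [← mul_sum, Fintype.sum_prod_type, hRw, hCl, mul_assoc, sum_mul_sum]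
  have hwd := hx.width_pos
  have hC0 := hC.1
  have hLg0 : 0 ≤ Lg := by
    rw [hLg]; exact Real.log_nonneg (by linarith [(Nat.cast_nonneg n : (0 : ℝ) ≤ n)])
  have hdev : 0 ≤ devBd x := Real.rpow_nonneg (by linarith [hx.L_pos]) _
  -- Euler part
  have hE : ∑ e : Ent n k, ((∑ j ∈ range (entCap x Λ e + 1), z j) * (width x + C) + 2)
      ≤ width x * (∑ j ∈ range (J + 1), z j * Rw j * Cl j)
        + C * ((J : ℝ) + 1) * ((n : ℝ) + 1) * ((k : ℝ) + 1)
        + 2 * ((n : ℝ) + 1) * ((k : ℝ) + 1) := by
    rw [sum_add_distrib, ← sum_mul, hEul]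
    have hb : ∑ j ∈ range (J + 1), z j * Rw j * Cl j
        ≤ ((J : ℝ) + 1) * ((n : ℝ) + 1) * ((k : ℝ) + 1) := by
      calc ∑ j ∈ range (J + 1), z j * Rw j * Cl j
          ≤ ∑ _j ∈ range (J + 1), 1 * ((n : ℝ) + 1) * ((k : ℝ) + 1) := by
            refine sum_le_sum fun j _ => ?_
            have h1 : Rw j ≤ (n : ℝ) + 1 := by
              calc Rw j ≤ ∑ _i : Option (Fin n), (1 : ℝ) :=
                    sum_le_sum fun i _ => by split <;> simp
                _ = (n : ℝ) + 1 := by simp
            have h2 : Cl j ≤ (k : ℝ) + 1 := by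
              calc Cl j ≤ ∑ _i : Option (Fin k), (1 : ℝ) :=
                    sum_le_sum fun i _ => by split <;> simp
                _ = (k : ℝ) + 1 := by simp
            have h3 : z j ≤ 1 :=
              Real.exp_le_one_iff.mpr (neg_nonpos.mpr (tiltCost_nonneg _ _ _ j))
            have h4 : 0 ≤ Rw j := sum_nonneg fun i _ => by split <;> simp
            have h5 : 0 ≤ Cl j := sum_nonneg fun i _ => by split <;> simp
            exact mul_le_mul (mul_le_mul h3 h1 h4 zero_le_one) h2 h5 (by positivity)
        _ = _ := by simp; ring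
    simp only [sum_const, card_univ, Fintype.card_prod, Fintype.card_option, Fintype.card_fin,
      nsmul_eq_mul]
    push_cast
    nlinarith [mul_le_mul_of_nonneg_left hb hC0]
  -- tilt part
  have hUb : U ≤ width x * (∑ j ∈ range (J + 1),
        (if j0 < j then (upCnt lev j : ℝ) * c j else 0))
      + Lg * (n : ℝ) * (devBd x * ((J : ℝ) + 1) + 4 * width x + 5 * ((j0 : ℝ) + 1) * width x)
      + Lg * smallOmega x := by
    rw [hU]
    refine add_le_add ?_ le_rfl
    rw [sum_add_distrib, sum_add_distrib]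
    have h1 : ∑ i, ∑ j ∈ range (J + 1),
        (if j0 < j ∧ j < lev i then c j else 0) * (width x + devBd x)
        = (width x + devBd x) *
          ∑ j ∈ range (J + 1), (if j0 < j then (upCnt lev j : ℝ) * c j else 0) := by
      rw [sum_comm, mul_sum]
      refine sum_congr rfl fun j _ => ?_
      rw [← sum_mul, mul_comm]
      congr 1
      by_cases hj : j0 < j
      · simp only [hj, true_and, if_true]
        rw [upCnt, ← sum_boole, sum_mul]
        refine sum_congr rfl fun i _ => ?_
        split <;> simp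
      · simp [hj]
    have h2 : ∑ j ∈ range (J + 1), (if j0 < j then (upCnt lev j : ℝ) * c j else 0)
        ≤ Lg * (n : ℝ) * ((J : ℝ) + 1) := by
      calc ∑ j ∈ range (J + 1), (if j0 < j then (upCnt lev j : ℝ) * c j else 0)
          ≤ ∑ _j ∈ range (J + 1), Lg * (n : ℝ) := by
            refine sum_le_sum fun j _ => ?_
            split
            · rw [mul_comm Lg]
              refine mul_le_mul ?_ (tiltCost_le _ _ _ j) (tiltCost_nonneg _ _ _ j) (Nat.cast_nonneg _)
              exact_mod_cast (card_filter_le _ _).trans (by simp)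
            · positivity
        _ = _ := by simp; ring
    have h3 : ∑ i, c (lev i) * (4 * width x) ≤ Lg * (n : ℝ) * (4 * width x) := by
      calc ∑ i, c (lev i) * (4 * width x) ≤ ∑ _i : Fin n, Lg * (4 * width x) :=
            sum_le_sum fun i _ =>
              mul_le_mul_of_nonneg_right (tiltCost_le _ _ _ _) (by positivity)
        _ = _ := by simp; ring
    simp only [sum_const, card_univ, Fintype.card_fin, nsmul_eq_mul]
    rw [h1]
    nlinarith [mul_le_mul_of_nonneg_left h2 hdev]
  -- cells
  have hcells : ∑ j ∈ range (J + 1), z j * Rw j * Cl j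
      + ∑ j ∈ range (J + 1), (if j0 < j then (upCnt lev j : ℝ) * c j else 0)
      - (∑ i, (lev i : ℝ) + ∑ l, (lev' l : ℝ))
      ≤ mainExp x lev + ((j0 : ℝ) + 1) + (k : ℝ) + (n : ℝ) * ((k : ℝ) + 1) := by
    rw [← sum_upCnt lev J (fun i => (hrow0 _).le), ← sum_upCnt lev' J (fun l => (hrow0 _).le),
      ← sum_add_distrib, ← sum_add_distrib, ← sum_sub_distrib]
    refine le_trans (sum_le_sum (g := fun j => (if j ≤ j0 then (1 : ℝ) else 0)
      + (if j0 < j then psi (upCnt lev j) else 0) + (eqCnt lev' j : ℝ)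
      + (eqCnt lev j : ℝ) * ((k : ℝ) + 1)) fun j _ => ?_) ?_
    · have := cell_term_le (x := x) lev lev' (fun i => (hrow0 _).gt) (fun l => (hrow0 _).gt) j
      linarith
    · rw [sum_add_distrib, sum_add_distrib, sum_add_distrib]
      have a1 : (∑ j ∈ range (J + 1), if j ≤ j0 then (1 : ℝ) else 0) = (j0 : ℝ) + 1 := by
        rw [sum_boole, show (range (J + 1)).filter (fun j => j ≤ j0) = range (j0 + 1) by
          ext j; simp only [mem_filter, mem_range]; omega, card_range]
        push_cast; rfl
      have a2 : (∑ j ∈ range (J + 1), if j0 < j then psi (upCnt lev j) else 0)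
          = mainExp x lev := by
        rw [← sum_filter, mainExp]
        refine sum_congr ?_ fun _ _ => rfl
        ext j; simp only [mem_filter, mem_range, mem_Ioc]; omega
      have a3 := sum_eqCnt_le lev' J
      have a4 : ∑ j ∈ range (J + 1), (eqCnt lev j : ℝ) * ((k : ℝ) + 1)
          ≤ (n : ℝ) * ((k : ℝ) + 1) := by
        rw [← sum_mul]
        exact mul_le_mul_of_nonneg_right (sum_eqCnt_le lev J) (by positivity)
      linarith
  have := mul_le_mul_of_nonneg_left hcells hwd.le
  simp only [errTerm, ← hLg, ← hA, ← hJ, ← hj0]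
  linarith

end Vale.Agent.P031
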