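import Vale.Agent.P031.MajorantParam

/-!
# P031: from counting bounds to the sieve input of the majorant lemma

A bound `A X / (log X) ^ (m + 1)` for the number of primes up to `X` with given forms gives
harmonic bounds above `exp T` and in dyadic windows.
-/

namespace Vale.Agent.P031

open Finset Filter

theorem sum_inv_pow_succ_le (m k₀ : ℕ) (hk₀ : 1 ≤ k₀) (hm : 1 ≤ m) : ∀ n : ℕ,
    ∑ k ∈ Ico k₀ (k₀ + n), 1 / ((k : ℝ) + 1) ^ (m + 1)
      ≤ 1 / (k₀ : ℝ) ^ m - 1 / ((k₀ + n : ℕ) : ℝ) ^ m := by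
  intro n
  induction n with
  | zero => simp
  | succ n ih =>
    rw [show k₀ + (n + 1) = k₀ + n + 1 by ring, sum_Ico_succ_top (by omega)]
    set a : ℝ := ((k₀ + n : ℕ) : ℝ) with ha
    have ha1 : 1 ≤ a := by rw [ha]; exact_mod_cast (by omega : 1 ≤ k₀ + n)
    have step : 1 / (a + 1) ^ (m + 1) ≤ 1 / a ^ m - 1 / (a + 1) ^ m := by
      have h1 : 0 < a ^ m := by positivity
      have h2 : 0 < (a + 1) ^ m := by positivity
      rw [div_sub_div _ _ h1.ne' h2.ne', div_le_div_iff₀ (by positivity) (by positivity), pow_succ]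
      have h3 : a ^ m * (a + 1) ≤ a * (a + 1) ^ m := by
        obtain ⟨j, rfl⟩ := Nat.exists_eq_add_of_le hm
        rw [pow_add, pow_one, pow_add, pow_one]
        have : a ^ j ≤ (a + 1) ^ j := pow_le_pow_left₀ (by linarith) (by linarith) _
        nlinarith [mul_le_mul_of_nonneg_left this (show 0 ≤ a * (a + 1) by positivity)]
      nlinarith [mul_le_mul_of_nonneg_left h3 h2.le]
    rw [show ((k₀ + n + 1 : ℕ) : ℝ) = a + 1 by rw [ha]; push_cast; ring]
    linarith

/-- Harmonic bounds from a counting bound. -/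
theorem sum_inv_le_of_count {S : Finset ℕ} {A T : ℝ} {m : ℕ} (hA : 0 ≤ A) (hT : 2 ≤ T)
    (hm : 1 ≤ m) (hm2 : m ≤ 2) (hS : ∀ R ∈ S, Real.exp T ≤ (R : ℝ))
    (hcount : ∀ X : ℝ, 3 ≤ X → ((S.filter (fun R : ℕ => (R : ℝ) ≤ X)).card : ℝ)
      ≤ A * X / Real.log X ^ (m + 1)) :
    (∑ R ∈ S, (1 : ℝ) / R) ≤ 12 * A / T ^ m ∧
      ∀ X : ℝ, (∀ R ∈ S, X / 2 < (R : ℝ) ∧ (R : ℝ) ≤ X) →
        (∑ R ∈ S, (1 : ℝ) / R) ≤ 12 * A / T ^ (m + 1) := by
  have hE : (3 : ℝ) ≤ Real.exp T := by
    have := Real.add_one_le_exp T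
    linarith
  refine ⟨?_, fun X hX => ?_⟩
  · set key : ℕ → ℕ := fun R => ⌊Real.log R⌋₊ with hkey
    set k₀ := ⌊T⌋₊ with hk
    have hk1 : 1 ≤ k₀ := Nat.one_le_floor_iff _ |>.mpr (by linarith)
    set n := S.sup key + 1 with hn
    have hlog : ∀ R ∈ S, T ≤ Real.log R := fun R hR => by
      have h := hS R hR
      exact (Real.le_log_iff_exp_le (lt_of_lt_of_le (Real.exp_pos T) h)).mpr h
    have hmaps : ∀ R ∈ S, key R ∈ Ico k₀ (k₀ + n) := fun R hR => by
      refine mem_Ico.mpr ⟨Nat.floor_le_floor (hlog R hR), ?_⟩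
      have := le_sup (f := key) hR
      omega
    rw [← sum_fiberwise_of_maps_to hmaps]
    calc ∑ k ∈ Ico k₀ (k₀ + n), ∑ R ∈ S.filter (fun R => key R = k), (1 : ℝ) / R
        ≤ ∑ k ∈ Ico k₀ (k₀ + n), (A * Real.exp 1) * (1 / ((k : ℝ) + 1) ^ (m + 1)) := by
          refine sum_le_sum fun k hk' => ?_
          set Sk := S.filter (fun R => key R = k) with hSk
          have hk1' : 1 ≤ k := le_trans hk1 (mem_Ico.mp hk').1
          have hbd : ∀ R ∈ Sk, Real.exp k ≤ (R : ℝ) ∧ (R : ℝ) ≤ Real.exp (k + 1) := by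
            intro R hR
            obtain ⟨hR1, hR2⟩ := mem_filter.mp hR
            have hRpos : (0 : ℝ) < R := lt_of_lt_of_le (Real.exp_pos T) (hS R hR1)
            have h1 : (k : ℝ) ≤ Real.log R := by
              rw [← hR2]; exact Nat.floor_le (by linarith [hlog R hR1])
            have h2 : Real.log R ≤ k + 1 := by
              rw [← hR2]; exact (Nat.lt_floor_add_one _).le
            exact ⟨(Real.le_log_iff_exp_le hRpos).mp h1, (Real.log_le_iff_le_exp hRpos).mp h2⟩
          have h3 : (3 : ℝ) ≤ Real.exp ((k : ℝ) + 1) := by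
            have := Real.add_one_le_exp ((k : ℝ) + 1)
            have : (1 : ℝ) ≤ k := by exact_mod_cast hk1'
            linarith
          have hc : (Sk.card : ℝ) ≤ A * Real.exp (k + 1) / ((k : ℝ) + 1) ^ (m + 1) := by
            refine le_trans ?_ (le_of_le_of_eq (hcount _ h3) (by rw [Real.log_exp]))
            refine Nat.cast_le.mpr (card_le_card fun R hR => ?_)
            exact mem_filter.mpr ⟨(mem_filter.mp hR).1, (hbd R hR).2⟩
          calc ∑ R ∈ Sk, (1 : ℝ) / R ≤ ∑ _R ∈ Sk, Real.exp (-(k : ℝ)) := sum_le_sum fun R hR => by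
                rw [Real.exp_neg, one_div]
                exact inv_anti₀ (Real.exp_pos _) (hbd R hR).1
            _ = Sk.card * Real.exp (-(k : ℝ)) := by rw [sum_const, nsmul_eq_mul]
            _ ≤ A * Real.exp (k + 1) / ((k : ℝ) + 1) ^ (m + 1) * Real.exp (-(k : ℝ)) :=
                mul_le_mul_of_nonneg_right hc (Real.exp_pos _).le
            _ = _ := by
                rw [Real.exp_add, Real.exp_neg]
                field_simp
      _ = (A * Real.exp 1) * ∑ k ∈ Ico k₀ (k₀ + n), 1 / ((k : ℝ) + 1) ^ (m + 1) := by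
          rw [mul_sum]
      _ ≤ (A * Real.exp 1) * (1 / (k₀ : ℝ) ^ m) := by
          refine mul_le_mul_of_nonneg_left ?_ (by positivity)
          refine (sum_inv_pow_succ_le m k₀ hk1 hm n).trans ?_
          have : 0 ≤ 1 / ((k₀ + n : ℕ) : ℝ) ^ m := by positivity
          linarith
      _ ≤ 12 * A / T ^ m := by
          have h1 : T / 2 ≤ (k₀ : ℝ) := by
            have h := Nat.lt_floor_add_one T
            rw [← hk] at h
            linarith
          have h2 : 1 / (k₀ : ℝ) ^ m ≤ 2 ^ m / T ^ m := by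
            rw [div_le_div_iff₀ (pow_pos (by linarith) _) (by positivity), one_mul, ← mul_pow]
            exact pow_le_pow_left₀ (by linarith) (by linarith) _
          have h3 : (2 : ℝ) ^ m ≤ 4 := by
            calc (2 : ℝ) ^ m ≤ 2 ^ 2 := pow_le_pow_right₀ (by norm_num) hm2
              _ = 4 := by norm_num
          have h4 : Real.exp 1 * 2 ^ m ≤ 12 := by
            have := Real.exp_one_lt_d9
            nlinarith [Real.exp_pos 1]
          calc A * Real.exp 1 * (1 / (k₀ : ℝ) ^ m) ≤ A * Real.exp 1 * (2 ^ m / T ^ m) :=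
                mul_le_mul_of_nonneg_left h2 (by positivity)
            _ = A * (Real.exp 1 * 2 ^ m) / T ^ m := by ring
            _ ≤ A * 12 / T ^ m := by gcongr
            _ = _ := by ring
  · rcases S.eq_empty_or_nonempty with rfl | ⟨R₀, hR₀⟩
    · simp only [sum_empty]; positivity
    have hX1 : Real.exp T ≤ X := (hS R₀ hR₀).trans (hX R₀ hR₀).2
    have hXpos : 0 < X := lt_of_lt_of_le (Real.exp_pos T) hX1
    have hlogX : T ≤ Real.log X := (Real.le_log_iff_exp_le hXpos).mpr hX1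
    have hc := hcount X (hE.trans hX1)
    rw [filter_true_of_mem fun R hR => (hX R hR).2] at hc
    calc ∑ R ∈ S, (1 : ℝ) / R ≤ ∑ _R ∈ S, 2 / X := sum_le_sum fun R hR => by
          have := (hX R hR).1
          rw [div_le_div_iff₀ (by linarith) hXpos]
          linarith
      _ = S.card * (2 / X) := by rw [sum_const, nsmul_eq_mul]
      _ ≤ A * X / Real.log X ^ (m + 1) * (2 / X) :=
          mul_le_mul_of_nonneg_right hc (by positivity)
      _ = 2 * A / Real.log X ^ (m + 1) := by field_simp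
      _ ≤ 2 * A / T ^ (m + 1) := by gcongr
      _ ≤ 12 * A / T ^ (m + 1) := by gcongr; norm_num

/-- The sieve in counting form. -/
def CountSieve : Prop :=
  ∃ C : ℝ, ∃ e : ℕ, 1 ≤ C ∧ ∀ᶠ x : ℝ in atTop, ∀ F : Finset ℕ, F.Nonempty → F.card ≤ 2 →
    (∀ a ∈ F, 0 < a ∧ ll a ≤ llx x + 1) → ∀ X : ℝ, 3 ≤ X → ∀ S : Finset ℕ,
    (∀ R ∈ S, R.Prime ∧ (∀ a ∈ F, (a * R + 1).Prime) ∧ (R : ℝ) ≤ X) →
    (S.card : ℝ) ≤ C * llx x ^ e * X / Real.log X ^ (F.card + 1)

theorem majorantSieve_of (h : CountSieve) : MajorantSieve := by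
  obtain ⟨C, e, hC, hev⟩ := h
  refine ⟨12 * C, e, by linarith, ?_⟩
  filter_upwards [hev, tendsto_llx.eventually_ge_atTop 1] with x hx hL
  refine ⟨one_le_mul_of_one_le_of_one_le (by linarith) (one_le_pow₀ hL), ?_⟩
  intro F hF hF2 hll T hT S hS
  have hA : 0 ≤ C * llx x ^ e := by
    have := one_le_pow₀ (n := e) hL
    nlinarith
  have := sum_inv_le_of_count (S := S) (A := C * llx x ^ e) hA hT hF.card_pos hF2
    (fun R hR => (hS R hR).2.2) (fun X hX3 => hx F hF hF2 hll X hX3 _ fun R hR => by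
      obtain ⟨hR1, hR2⟩ := mem_filter.mp hR
      exact ⟨(hS R hR1).1, (hS R hR1).2.1, hR2⟩)
  simp only [show (12 : ℝ) * (C * llx x ^ e) = 12 * C * llx x ^ e by ring] at this
  exact this

end Vale.Agent.P031
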