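import Vale.Agent.P031.SelbergSieve
import Vale.Agent.P031.MajorantSieveGlue

/-!
# P031: the sieve in counting form

`majorantSieve` discharges the sieve input of the majorant lemma.
-/

namespace Vale.Agent.P031.Selberg

open Finset Filter

theorem harmonic_le_good (P : Finset ℕ) (y : ℕ) : (∀ p ∈ P, p.Prime) →
    ∑ n ∈ Icc 1 y, (1 : ℝ) / n ≤ (∏ p ∈ P, ((p : ℝ) / (p - 1))) *
      ∑ n ∈ (Icc 1 y).filter (fun n => ∀ p ∈ P, ¬ p ∣ n), (1 : ℝ) / n := by
  classical
  induction P using Finset.induction with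
  | empty => intro _; simp
  | insert p P hp ih =>
    intro h
    have hpp := h p (mem_insert_self p P)
    have hP : ∀ q ∈ P, q.Prime := fun q hq => h q (mem_insert_of_mem hq)
    refine (ih hP).trans ?_
    rw [prod_insert hp, mul_comm ((p : ℝ) / (p - 1)), mul_assoc]
    refine mul_le_mul_of_nonneg_left ?_ (prod_nonneg fun q hq => ?_)
    swap
    · have : (2 : ℝ) ≤ q := by exact_mod_cast (hP q hq).two_le
      exact div_nonneg (Nat.cast_nonneg q) (by linarith)
    set G := (Icc 1 y).filter (fun n => ∀ q ∈ P, ¬ q ∣ n) with hG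
    set A := ∑ n ∈ G, (1 : ℝ) / n with hA
    set A' := ∑ n ∈ (Icc 1 y).filter (fun n => ∀ q ∈ insert p P, ¬ q ∣ n), (1 : ℝ) / n with hA'
    have hset : G.filter (fun n => ¬ p ∣ n)
        = (Icc 1 y).filter (fun n => ∀ q ∈ insert p P, ¬ q ∣ n) := by
      rw [hG, filter_filter]
      refine filter_congr fun n _ => ?_
      rw [forall_mem_insert, and_comm]
    have hdiv : ∑ n ∈ G.filter (fun n => p ∣ n), (1 : ℝ) / n ≤ (1 / p) * A := by
      have e : ∀ n ∈ G.filter (fun n => p ∣ n), (1 : ℝ) / n = 1 / p * (1 / ((n / p : ℕ) : ℝ)) := by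
        intro n hn
        rw [div_mul_div_comm, one_mul, ← Nat.cast_mul, Nat.mul_div_cancel' (mem_filter.mp hn).2]
      have hinj : Set.InjOn (fun n => n / p) (G.filter (fun n => p ∣ n) : Set ℕ) := by
        intro a ha b hb hab
        simp only at hab
        rw [← Nat.mul_div_cancel' (mem_filter.mp (mem_coe.mp ha)).2,
          ← Nat.mul_div_cancel' (mem_filter.mp (mem_coe.mp hb)).2, hab]
      rw [sum_congr rfl e, ← mul_sum, ← sum_image (f := fun m : ℕ => (1 : ℝ) / m) hinj]
      refine mul_le_mul_of_nonneg_left (sum_le_sum_of_subset_of_nonneg (fun m hm => ?_)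
        fun _ _ _ => by positivity) (by positivity)
      obtain ⟨n, hn, rfl⟩ := mem_image.mp hm
      obtain ⟨hnG, hpn⟩ := mem_filter.mp hn
      obtain ⟨hny, hnP⟩ := mem_filter.mp hnG
      obtain ⟨hn1, hn2⟩ := mem_Icc.mp hny
      refine mem_filter.mpr ⟨mem_Icc.mpr ⟨?_, (Nat.div_le_self n p).trans hn2⟩, fun q hq hd => ?_⟩
      · exact Nat.div_pos (Nat.le_of_dvd (by omega) hpn) hpp.pos
      · exact hnP q hq (hd.trans (Nat.div_dvd_of_dvd hpn))
    have hsum : A = ∑ n ∈ G.filter (fun n => p ∣ n), (1 : ℝ) / n + A' := by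
      rw [hA, hA', ← hset, sum_filter_add_sum_filter_not]
    have hp2 : (2 : ℝ) ≤ p := by exact_mod_cast hpp.two_le
    rw [div_mul_eq_mul_div, le_div_iff₀ (by linarith)]
    have h1 : A * p ≤ 1 / p * A * p + A' * p := by
      rw [← add_mul]
      exact mul_le_mul_of_nonneg_right (by linarith) (by linarith)
    have h2 : 1 / (p : ℝ) * A * p = A := by field_simp
    rw [h2] at h1
    linarith

theorem log_le_goodSum (E y : ℕ) (hE : 0 < E) :
    Real.log ((y + 1 : ℕ) : ℝ) ≤ (∏ p ∈ E.primeFactors, ((p : ℝ) / (p - 1))) *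
      ∑ a ∈ goodUpTo E y, (1 : ℝ) / a := by
  have h : Real.log ((y + 1 : ℕ) : ℝ) ≤ ∑ n ∈ Icc 1 y, (1 : ℝ) / n := by
    refine (log_add_one_le_harmonic y).trans (le_of_eq ?_)
    simp [harmonic_eq_sum_Icc]
  refine h.trans ((harmonic_le_good E.primeFactors y fun p hp => Nat.prime_of_mem_primeFactors hp).trans ?_)
  refine mul_le_mul_of_nonneg_left (sum_le_sum_of_subset_of_nonneg (fun n hn => ?_)
    fun _ _ _ => by positivity) (prod_nonneg fun p hp => ?_)
  · obtain ⟨h1, h2⟩ := mem_filter.mp hn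
    refine mem_filter.mpr ⟨h1, fun p hp hd => ?_⟩
    exact h2 p (Nat.mem_primeFactors.mpr ⟨Nat.prime_of_mem_primeFactors hp, hd, hE.ne'⟩)
      (Nat.dvd_of_mem_primeFactors hp)
  · have : (2 : ℝ) ≤ p := by exact_mod_cast (Nat.prime_of_mem_primeFactors hp).two_le
    exact div_nonneg (Nat.cast_nonneg p) (by linarith)

theorem prod_ratio_le : ∃ C : ℝ, 1 ≤ C ∧ ∀ P : Finset ℕ, (∀ p ∈ P, p.Prime) →
    ∏ p ∈ P, ((p : ℝ) / (p - 1)) ≤ C * (1 + Real.log P.card) ^ 8 := by
  obtain ⟨C, hC⟩ := P028.mertens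
  refine ⟨Real.exp 1 * max C 1, one_le_mul_of_one_le_of_one_le (Real.one_le_exp zero_le_one)
    (le_max_right _ _), fun P hP => ?_⟩
  set w := P.card with hw
  have hge : ∀ p : ℕ, p.Prime → (1 : ℝ) ≤ (p : ℝ) / (p - 1) := fun p hp => by
    have : (2 : ℝ) ≤ p := by exact_mod_cast hp.two_le
    rw [le_div_iff₀ (by linarith)]; linarith
  have hlog : 0 ≤ Real.log w := Real.log_natCast_nonneg w
  rw [← prod_filter_mul_prod_filter_not P (fun p => p ≤ w)]
  have h1 : ∏ p ∈ P.filter (fun p => p ≤ w), ((p : ℝ) / (p - 1))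
      ≤ max C 1 * (1 + Real.log w) ^ 8 := by
    refine le_trans (prod_le_prod_of_subset_of_one_le (t := (Ioc 0 w).filter Nat.Prime)
      (fun p hp => ?_) (fun p hp => zero_le_one.trans (hge p (hP p (mem_filter.mp hp).1)))
      fun p hp _ => hge p (mem_filter.mp hp).2) ?_
    · obtain ⟨h1, h2⟩ := mem_filter.mp hp
      exact mem_filter.mpr ⟨mem_Ioc.mpr ⟨(hP p h1).pos, h2⟩, hP p h1⟩
    · refine (hC 0 w (Nat.zero_le w)).trans ?_
      simp only [Nat.cast_zero, zero_add, Real.log_one, add_zero, div_one]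
      exact mul_le_mul_of_nonneg_right (le_max_left _ _) (by positivity)
  have h2 : ∏ p ∈ P.filter (fun p => ¬ p ≤ w), ((p : ℝ) / (p - 1)) ≤ Real.exp 1 := by
    rcases Nat.eq_zero_or_pos w with hw0 | hw0
    · rw [card_eq_zero.mp hw0]; simp
    have hwr : (0 : ℝ) < w := by exact_mod_cast hw0
    calc ∏ p ∈ P.filter (fun p => ¬ p ≤ w), ((p : ℝ) / (p - 1))
        ≤ ∏ _p ∈ P.filter (fun p => ¬ p ≤ w), Real.exp (1 / w) := by
          refine prod_le_prod (fun p hp => zero_le_one.trans (hge p (hP p (mem_filter.mp hp).1)))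
            fun p hp => ?_
          have hpw : (w : ℝ) + 1 ≤ p := by
            exact_mod_cast (show w + 1 ≤ p by have := (mem_filter.mp hp).2; omega)
          have hd : (0 : ℝ) < (p : ℝ) - 1 := by linarith
          calc (p : ℝ) / (p - 1) = 1 + 1 / ((p : ℝ) - 1) := by field_simp; ring
            _ ≤ 1 + 1 / w := by gcongr; linarith
            _ ≤ Real.exp (1 / w) := by linarith [Real.add_one_le_exp (1 / (w : ℝ))]
      _ = Real.exp ((P.filter (fun p => ¬ p ≤ w)).card * (1 / w)) := by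
          rw [prod_const, ← Real.exp_nat_mul]
      _ ≤ Real.exp 1 := by
          refine Real.exp_le_exp.mpr ?_
          rw [mul_one_div, div_le_one hwr]
          exact_mod_cast card_filter_le P _
  calc _ ≤ (max C 1 * (1 + Real.log w) ^ 8) * Real.exp 1 :=
        mul_le_mul h1 h2 (prod_nonneg fun p hp =>
          zero_le_one.trans (hge p (hP p (mem_filter.mp hp).1))) (by positivity)
    _ = _ := by ring

theorem log_discr_le {F : Finset ℕ} {B : ℝ} (hF : F.card ≤ 2) (hB : 1 ≤ B)
    (hpos : ∀ a ∈ F, 0 < a) (ha : ∀ a ∈ F, Real.log a ≤ B) :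
    Real.log (discr F) ≤ 9 * B := by
  rw [discr, Nat.cast_mul, Nat.cast_mul, Nat.cast_prod, Nat.cast_prod]
  set D := (F ×ˢ F).filter (fun q => q.1 < q.2) with hD
  have hq : ∀ q ∈ D, 0 < q.2 - q.1 := fun q hq => by have := (mem_filter.mp hq).2; omega
  have hne1 : (∏ a ∈ F, (a : ℝ)) ≠ 0 := prod_ne_zero_iff.mpr fun a h => by
    exact_mod_cast (hpos a h).ne'
  have hne2 : (∏ q ∈ D, ((q.2 - q.1 : ℕ) : ℝ)) ≠ 0 := prod_ne_zero_iff.mpr fun q h => by
    exact_mod_cast (hq q h).ne'
  rw [Real.log_mul (mul_ne_zero (by norm_num) hne1) hne2, Real.log_mul (by norm_num) hne1,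
    Real.log_prod fun a h => by exact_mod_cast (hpos a h).ne',
    Real.log_prod fun q h => by exact_mod_cast (hq q h).ne']
  have h6 : Real.log ((6 : ℕ) : ℝ) ≤ 3 * B := by
    have h := Real.log_le_log (by norm_num) (show ((6 : ℕ) : ℝ) ≤ 2 ^ 3 by norm_num)
    rw [Real.log_pow] at h
    have := Real.log_two_lt_d9
    push_cast at h ⊢
    linarith
  have h1 : ∑ a ∈ F, Real.log (a : ℝ) ≤ 2 * B := by
    refine (sum_le_card_nsmul F _ B ha).trans ?_
    rw [nsmul_eq_mul]
    exact mul_le_mul_of_nonneg_right (by exact_mod_cast hF) (by linarith)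
  have h2 : ∑ q ∈ D, Real.log ((q.2 - q.1 : ℕ) : ℝ) ≤ 4 * B := by
    refine (sum_le_card_nsmul D _ B fun q h => ?_).trans ?_
    · refine le_trans ?_ (ha q.2 (mem_product.mp (mem_filter.mp h).1).2)
      exact Real.log_le_log (by exact_mod_cast hq q h) (by exact_mod_cast Nat.sub_le _ _)
    · rw [nsmul_eq_mul]
      refine mul_le_mul_of_nonneg_right ?_ (by linarith)
      have : D.card ≤ 4 := (card_filter_le _ _).trans (by
        rw [card_product]; exact Nat.mul_le_mul hF hF)
      exact_mod_cast this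
  linarith

theorem sqrt_le_div_log_pow {X : ℝ} (hX : 3 ≤ X) : Real.sqrt X ≤ 48 * X / Real.log X ^ 3 := by
  have ht : 0 < Real.log X := Real.log_pos (by linarith)
  have h := Real.pow_div_factorial_le_exp (Real.log X / 2) (by linarith) 3
  have hs : Real.exp (Real.log X / 2) = Real.sqrt X := by
    rw [← Real.sqrt_mul_self (Real.exp_pos (Real.log X / 2)).le, ← Real.exp_add, add_halves,
      Real.exp_log (by linarith)]
  rw [hs] at h
  norm_num [Nat.factorial] at h
  rw [le_div_iff₀ (by positivity)]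
  calc Real.sqrt X * Real.log X ^ 3 ≤ Real.sqrt X * (48 * Real.sqrt X) :=
        mul_le_mul_of_nonneg_left (by nlinarith) (Real.sqrt_nonneg X)
    _ = 48 * X := by rw [mul_left_comm, Real.mul_self_sqrt (by linarith)]

theorem countSieve : CountSieve := by
  obtain ⟨C, hC, hprod⟩ := prod_ratio_le
  set K := C * 7 ^ 8 with hK
  have hK1 : 1 ≤ K := by rw [hK]; nlinarith
  refine ⟨144 + 2 * (60 * K) ^ 3, 24, by nlinarith [pow_pos (show 0 < 60 * K by linarith) 3], ?_⟩
  filter_upwards [tendsto_llx.eventually_ge_atTop 1] with x hL F hFne hF2 hFa X hX S hS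
  set L := llx x with hLdef
  have hpos : ∀ a ∈ F, 0 < a := fun a ha => (hFa a ha).1
  -- the product over the bad primes
  set E := discr F with hE
  have hE0 : 0 < E := discr_pos hpos
  set B := Real.exp (L + 1) with hB
  have hB1 : 1 ≤ B := Real.one_le_exp (by linarith)
  have hlogB : ∀ a ∈ F, Real.log (a : ℝ) ≤ B := fun a ha => by
    rcases Nat.lt_or_ge a 2 with h | h
    · have : a = 1 := by have := hpos a ha; omega
      rw [this]; simp only [Nat.cast_one, Real.log_one]; positivity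
    · have hl : 0 < Real.log (a : ℝ) := Real.log_pos (by exact_mod_cast h)
      exact (Real.log_le_iff_le_exp hl).mp (hFa a ha).2
  set M := ∏ p ∈ E.primeFactors, ((p : ℝ) / (p - 1)) with hM
  have hM1 : 1 ≤ M := one_le_prod fun p hp => by
    have : (2 : ℝ) ≤ p := by exact_mod_cast (Nat.prime_of_mem_primeFactors hp).two_le
    rw [le_div_iff₀ (by linarith)]; linarith
  have hMK : M ≤ K * L ^ 8 := by
    refine (hprod _ fun p hp => Nat.prime_of_mem_primeFactors hp).trans ?_
    have hw : 1 + Real.log (E.primeFactors.card : ℝ) ≤ 7 * L := by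
      rcases Nat.eq_zero_or_pos E.primeFactors.card with h0 | h0
      · rw [h0, Nat.cast_zero, Real.log_zero]; linarith
      have h1 : (E.primeFactors.card : ℝ) ≤ 32 * B := by
        refine (P028.card_primeFactors_le hE0).trans ?_
        linarith [log_discr_le hF2 hB1 hpos hlogB]
      have h2 := Real.log_le_log (by exact_mod_cast h0) h1
      rw [Real.log_mul (by norm_num) (by positivity), hB, Real.log_exp] at h2
      have h32 : Real.log 32 = 5 * Real.log 2 := by
        rw [show (32 : ℝ) = 2 ^ 5 by norm_num, Real.log_pow]; norm_num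
      have := Real.log_two_lt_d9
      linarith
    have hn : 0 ≤ 1 + Real.log (E.primeFactors.card : ℝ) := by
      linarith [Real.log_natCast_nonneg E.primeFactors.card]
    calc C * (1 + Real.log (E.primeFactors.card : ℝ)) ^ 8 ≤ C * (7 * L) ^ 8 :=
          mul_le_mul_of_nonneg_left (pow_le_pow_left₀ hn hw 8) (by linarith)
      _ = _ := by rw [hK]; ring
  -- the parameters
  set t := Real.log X with ht
  have ht1 : 1 ≤ t := by
    rw [ht, Real.le_log_iff_exp_le (by linarith)]
    linarith [Real.exp_one_lt_d9]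
  set κ := F.card + 1 with hκ
  have hκ3 : κ ≤ 3 := by omega
  set u : ℝ := X ^ (1 / 60 : ℝ) with hu
  have hu1 : 1 ≤ u := Real.one_le_rpow (by linarith) (by norm_num)
  set y := ⌊u⌋₊ with hy
  have hy1 : 1 ≤ y := Nat.one_le_floor_iff _ |>.mpr hu1
  set z := y ^ κ with hz
  have hz1 : 1 ≤ z := Nat.one_le_pow _ _ hy1
  set N := ⌊X⌋₊ + 1 with hN
  have hyu : (y : ℝ) ≤ u := Nat.floor_le (by linarith)
  have hlogy : t / 60 ≤ Real.log ((y + 1 : ℕ) : ℝ) := by
    have h := Real.log_le_log (by linarith) (Nat.lt_floor_add_one u).le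
    rw [hu, Real.log_rpow (by linarith), ← hu, ← hy] at h
    push_cast
    linarith
  have hz10 : (z : ℝ) ^ 10 ≤ Real.sqrt X := by
    calc (z : ℝ) ^ 10 = (y : ℝ) ^ (κ * 10) := by rw [hz, Nat.cast_pow, ← pow_mul]
      _ ≤ u ^ (κ * 10) := pow_le_pow_left₀ (Nat.cast_nonneg y) hyu _
      _ ≤ u ^ 30 := pow_le_pow_right₀ hu1 (by omega)
      _ = Real.sqrt X := by
          rw [Real.sqrt_eq_rpow, hu, ← Real.rpow_natCast, ← Real.rpow_mul (by linarith)]
          norm_num
  -- the main term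
  have hsum : (t / (60 * M)) ^ κ ≤ selbergSum F hF2 z N := by
    refine le_trans ?_ selbergSum_ge
    refine le_trans (pow_le_pow_left₀ (by positivity) ?_ κ) (pow_goodSum_le E y κ)
    have h := hlogy.trans (log_le_goodSum E y hE0)
    rw [← hM] at h
    rw [div_le_iff₀ (by positivity)]
    linarith
  have hN2 : (N : ℝ) ≤ 2 * X := by
    have := Nat.floor_le (show 0 ≤ X by linarith)
    rw [hN]; push_cast; linarith
  have hmain : (N : ℝ) / selbergSum F hF2 z N ≤ 2 * (60 * K) ^ 3 * L ^ 24 * X / t ^ κ := by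
    refine (div_le_div₀ (by positivity) hN2 (by positivity) hsum).trans ?_
    rw [div_pow, div_div_eq_mul_div]
    refine div_le_div_of_nonneg_right ?_ (by positivity)
    have h60 : 1 ≤ 60 * M := by linarith
    calc 2 * X * (60 * M) ^ κ ≤ 2 * X * (60 * (K * L ^ 8)) ^ 3 := by
          refine mul_le_mul_of_nonneg_left ((pow_le_pow_right₀ h60 hκ3).trans ?_) (by linarith)
          exact pow_le_pow_left₀ (by linarith) (by linarith) 3
      _ = _ := by ring
  have hsq : Real.sqrt X ≤ 48 * X / t ^ κ := by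
    refine (sqrt_le_div_log_pow hX).trans ?_
    exact div_le_div_of_nonneg_left (by linarith) (by positivity) (pow_le_pow_right₀ ht1 hκ3)
  have hbd := card_prime_forms_le (hF := hF2) hpos (N := N) hz1 S fun R hR => by
    obtain ⟨h1, h2, h3⟩ := hS R hR
    refine ⟨h1, h2, Nat.lt_succ_of_le (Nat.le_floor h3)⟩
  have hzz : (z : ℝ) + 1 ≤ 2 * (z : ℝ) ^ 10 := by
    have h1 : (1 : ℝ) ≤ z := by exact_mod_cast hz1
    have := le_self_pow₀ h1 (show (10 : ℕ) ≠ 0 by norm_num)
    linarith
  have hL24 : 1 ≤ L ^ 24 := one_le_pow₀ hL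
  have hXt : 0 ≤ X / t ^ κ := by positivity
  calc (S.card : ℝ) ≤ 3 * Real.sqrt X + 2 * (60 * K) ^ 3 * L ^ 24 * X / t ^ κ := by linarith
    _ ≤ 144 * L ^ 24 * (X / t ^ κ) + 2 * (60 * K) ^ 3 * L ^ 24 * X / t ^ κ := by
        refine add_le_add ?_ le_rfl
        calc 3 * Real.sqrt X ≤ 3 * (48 * X / t ^ κ) := by linarith
          _ = 144 * 1 * (X / t ^ κ) := by ring
          _ ≤ _ := by gcongr
    _ = _ := by ring

end Vale.Agent.P031.Selberg

namespace Vale.Agent.P031

/-- The sieve input of the majorant lemma. -/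
theorem majorantSieve : MajorantSieve := majorantSieve_of Selberg.countSieve

end Vale.Agent.P031
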