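import Vale.Agent.P031.Majorant
import Vale.Agent.P031.SelbergCount
import Vale.Agent.P031.CellMass

/-!
# P031: the majorant pins, unconditionally
-/

namespace Vale.Agent.P031

theorem innerMajorantPin : InnerMajorantPin := innerMajorantPin_of cellMassPin majorantSieve

theorem outerMajorantPin : OuterMajorantPin := outerMajorantPin_of cellMassPin majorantSieve

end Vale.Agent.P031
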