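import Vale.Agent.P031.NormalTail
import Vale.Agent.P031.NormalMertens
import Vale.Agent.P031.MajorantParam
import Vale.Agent.P031.SelbergCount

/-!
# P031: almost all primes have normal anatomy

The pins `AbnormalMassPin`, `AbnormalCountPin` and `HalfDevPin`.
-/

namespace Vale.Agent.P031

open Finset Filter

/-- Further facts used in the assembly. -/
structure NormBig (x C : ℝ) : Prop where
  L_ge : 1000 ≤ llx x
  ok : NormOK x C
  smooth : Real.exp 32 * (Real.log (llx x) + 2 * C + 1) + 4 * Real.exp 32 ^ 2 + 80 + 3 * C ≤ llx x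
  square : 4 * llx x + 8 ≤ Real.exp (halfCell x * width x)
  size : 16 * llx x ^ 2 ≤ Real.exp ((cutCell x : ℝ) * width x - 1)
  mid : llx x ^ (47 / 50 : ℝ) / 8 ≤ ((cutCell x : ℝ) - halfCell x) * width x
  mid' : ((cutCell x : ℝ) - halfCell x) * width x ≤ llx x

theorem eventually_normBig (C : ℝ) (hC : 0 ≤ C) : ∀ᶠ x : ℝ in atTop, NormBig x C := by
  set W := Real.exp 32 with hW
  filter_upwards [tendsto_llx.eventually_ge_atTop 1000, eventually_paramOK,
    eventually_pow_le (2 * C + 505) (show (1 / 2 + 1 / 250 : ℝ) < 4 / 5 by norm_num),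
    eventually_pow_le (2 * (504 + 3 * C + 517)) (show (1 / 250 : ℝ) < 4 / 5 by norm_num),
    eventually_pow_le 2 (show (1 / 5 : ℝ) < 4 / 5 by norm_num),
    eventually_pow_le 2 (show (1 / 2 : ℝ) < 4 / 5 by norm_num),
    eventually_pow_le (W * (251 + 2 * C) + 4 * W ^ 2 + 80 + 3 * C) (show (1 / 250 : ℝ) < 1 by norm_num),
    eventually_pow_le 2 (show (0 : ℝ) < 7 / 50 by norm_num)]
    with x hL hp h1 h2 h3 h4 h5 h6
  have hL1 : 1 ≤ llx x := by linarith
  obtain ⟨hJ1, hJ2, hW1, hW2, hC1, hC2, -, -, -⟩ := param_bounds hL1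
  set L := llx x with hLdef
  have hL0 : 0 < L := by linarith
  have hδ1 : (1 : ℝ) ≤ L ^ (1 / 250 : ℝ) := Real.one_le_rpow hL1 (by norm_num)
  have hlog := log_le_small hL1
  have hlog0 : 0 ≤ Real.log L := Real.log_nonneg hL1
  have hCδ : C * 1 ≤ C * L ^ (1 / 250 : ℝ) := mul_le_mul_of_nonneg_left hδ1 hC
  have h45 : (1 : ℝ) ≤ L ^ (4 / 5 : ℝ) := Real.one_le_rpow hL1 (by norm_num)
  rw [Real.rpow_one] at h5
  rw [Real.rpow_zero, mul_one] at h6
  have hJpos : (0 : ℝ) < numCells x := lt_of_lt_of_le (Real.rpow_pos_of_pos hL0 _) hJ1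
  have hsq : devBd x * devBd x = L := by
    show L ^ (1 / 2 : ℝ) * L ^ (1 / 2 : ℝ) = L
    rw [← Real.rpow_add hL0]; norm_num
  have hJw : (numCells x : ℝ) * width x = L := by
    rw [width, ← hLdef]; field_simp
  have hw1 : 1 ≤ width x := by linarith
  have hcut2 : (2 : ℝ) ≤ cutCell x := h6.trans hC1
  have hcut2' : 2 ≤ cutCell x := by exact_mod_cast hcut2
  have hhalf : 1 ≤ halfCell x := by unfold halfCell; omega
  have hhalfR : (1 : ℝ) ≤ halfCell x := by exact_mod_cast hhalf
  have hhalf2 : (halfCell x : ℝ) ≤ ((cutCell x : ℝ) + 1) / 2 := by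
    have : 2 * halfCell x ≤ cutCell x + 1 := by unfold halfCell; omega
    have : (2 : ℝ) * halfCell x ≤ cutCell x + 1 := by exact_mod_cast this
    linarith
  have hcutJ : 2 * cutCell x ≤ numCells x := hp.cut
  have hJN : 0 < numCells x := by exact_mod_cast hJpos
  have h94 : L ^ (47 / 50 : ℝ) = L ^ (7 / 50 : ℝ) * L ^ (4 / 5 : ℝ) := by
    rw [← Real.rpow_add hL0]; norm_num
  refine ⟨hL, ⟨by linarith, hw1, hJw, hsq, Real.rpow_pos_of_pos hL0 _, ?_, ?_, ?_, ?_, hhalf,
    by omega⟩, ?_, ?_, ?_, ?_, ?_⟩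
  · show L ^ (1 / 2 : ℝ) ≤ _
    linarith
  · calc devBd x * (2 * C + 5 + 2 * Real.log L)
        ≤ L ^ (1 / 2 : ℝ) * ((2 * C + 505) * L ^ (1 / 250 : ℝ)) :=
          mul_le_mul_of_nonneg_left (by linarith only [hlog, hCδ, hδ1])
            (Real.rpow_nonneg hL0.le _)
      _ = (2 * C + 505) * L ^ (1 / 2 + 1 / 250 : ℝ) := by rw [Real.rpow_add hL0]; ring
      _ ≤ L ^ (4 / 5 : ℝ) := h1
      _ ≤ 4 * width x := by linarith
  · linarith only [hlog, hCδ, hδ1, h2, hW1]
  · linarith only [hJ2, h3, hW1]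
  · calc W * (Real.log L + 2 * C + 1) + 4 * W ^ 2 + 80 + 3 * C
        ≤ (W * (251 + 2 * C) + 4 * W ^ 2 + 80 + 3 * C) * L ^ (1 / 250 : ℝ) := by
          have hW0 : 0 < W := Real.exp_pos _
          have h7 : W * (Real.log L + 2 * C + 1) ≤ W * ((251 + 2 * C) * L ^ (1 / 250 : ℝ)) :=
            mul_le_mul_of_nonneg_left (by linarith only [hlog, hCδ, hδ1]) hW0.le
          have h8 : (4 * W ^ 2 + 80 + 3 * C) * 1 ≤ (4 * W ^ 2 + 80 + 3 * C) * L ^ (1 / 250 : ℝ) :=
            mul_le_mul_of_nonneg_left hδ1 (by positivity)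
          linarith only [h7, h8]
      _ ≤ L := h5
  · have h7 := log_mul_pow_le hL1 (show (1 : ℝ) ≤ 12 by norm_num) 1
    rw [pow_one] at h7
    norm_num at h7
    have h9 : width x ≤ (halfCell x : ℝ) * width x := le_mul_of_one_le_left (by linarith) hhalfR
    have h8 : Real.log (12 * L) ≤ halfCell x * width x := by
      linarith only [h7, h9, h2, hW1, hδ1, hCδ, hC]
    have := (Real.log_le_iff_le_exp (by positivity)).mp h8
    linarith
  · have h7 := log_mul_pow_le hL1 (show (1 : ℝ) ≤ 16 by norm_num) 2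
    norm_num at h7
    have h9 : 2 * width x ≤ (cutCell x : ℝ) * width x :=
      mul_le_mul_of_nonneg_right hcut2 (by linarith)
    have h8 : Real.log (16 * L ^ 2) ≤ (cutCell x : ℝ) * width x - 1 := by
      linarith only [h7, h9, h2, hW1, hδ1, hCδ, hC, hw1]
    exact (Real.log_le_iff_le_exp (by positivity)).mp h8
  · rw [h94]
    have : (cutCell x : ℝ) / 4 ≤ (cutCell x : ℝ) - halfCell x := by linarith
    calc L ^ (7 / 50 : ℝ) * L ^ (4 / 5 : ℝ) / 8
        ≤ (cutCell x : ℝ) * (2 * width x) / 8 := by gcongr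
      _ = (cutCell x : ℝ) / 4 * width x := by ring
      _ ≤ _ := mul_le_mul_of_nonneg_right this (by linarith)
  · have h7 : (cutCell x : ℝ) ≤ numCells x := by exact_mod_cast (by omega : cutCell x ≤ numCells x)
    calc ((cutCell x : ℝ) - halfCell x) * width x ≤ (numCells x : ℝ) * width x :=
          mul_le_mul_of_nonneg_right (by linarith) (by linarith)
      _ = L := hJw

/-- Powers of `L` are beaten by `exp (-J / 8)` and `exp (-L)`. -/
theorem eventually_small (c : ℝ) (N : ℕ) : ∀ᶠ x : ℝ in atTop,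
    c * llx x ^ N * (Real.exp (-((numCells x : ℝ) / 8)) + Real.exp (-llx x)) ≤ epsN x := by
  set a : ℝ := max (2 * c) 1 with ha
  filter_upwards [tendsto_llx.eventually_ge_atTop 1,
    eventually_pow_le (8 * (1 + (a + 250 * N))) (show (3 / 20 : ℝ) < 1 / 5 by norm_num)]
    with x hL h1
  set L := llx x with hLdef
  obtain ⟨hJ1, -, -, -, -, -, -, -, -⟩ := param_bounds hL
  have hlog := log_mul_pow_le hL (le_max_right (2 * c) 1) N
  have hp : L ^ (1 / 250 : ℝ) ≤ L ^ (3 / 20 : ℝ) :=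
    Real.rpow_le_rpow_of_exponent_le hL (by norm_num)
  have hp5 : L ^ (1 / 5 : ℝ) ≤ L := by
    calc L ^ (1 / 5 : ℝ) ≤ L ^ (1 : ℝ) := Real.rpow_le_rpow_of_exponent_le hL (by norm_num)
      _ = L := Real.rpow_one _
  have hpos : 0 < a * L ^ N := mul_pos (lt_of_lt_of_le one_pos (le_max_right _ _))
    (pow_pos (by linarith) _)
  have h5nn : 0 ≤ L ^ (1 / 5 : ℝ) := Real.rpow_nonneg (by linarith) _
  have hsum : Real.exp (-((numCells x : ℝ) / 8)) + Real.exp (-L)
      ≤ 2 * Real.exp (-(L ^ (1 / 5 : ℝ) / 8)) := by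
    have e1 := Real.exp_le_exp.mpr (show -((numCells x : ℝ) / 8) ≤ -(L ^ (1 / 5 : ℝ) / 8) by linarith)
    have e2 := Real.exp_le_exp.mpr (show -L ≤ -(L ^ (1 / 5 : ℝ) / 8) by linarith)
    linarith
  rcases le_or_gt c 0 with hc | hc
  · refine le_trans (mul_nonpos_of_nonpos_of_nonneg (mul_nonpos_of_nonpos_of_nonneg hc
      (pow_nonneg (by linarith) _)) (by positivity)) (Real.exp_pos _).le
  calc c * L ^ N * (Real.exp (-((numCells x : ℝ) / 8)) + Real.exp (-L))
      ≤ c * L ^ N * (2 * Real.exp (-(L ^ (1 / 5 : ℝ) / 8))) :=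
        mul_le_mul_of_nonneg_left hsum (by positivity)
    _ = 2 * c * L ^ N * Real.exp (-(L ^ (1 / 5 : ℝ) / 8)) := by ring
    _ ≤ a * L ^ N * Real.exp (-(L ^ (1 / 5 : ℝ) / 8)) := by
        gcongr
        exact le_max_left _ _
    _ ≤ epsN x := by
        rw [← Real.exp_log hpos, ← Real.exp_add, epsN, ← hLdef]
        refine Real.exp_le_exp.mpr ?_
        have h2 : 0 ≤ a + 250 * (N : ℝ) := by
          have : (0 : ℝ) ≤ a := le_trans zero_le_one (le_max_right _ _)
          positivity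
        have := mul_le_mul_of_nonneg_left hp h2
        nlinarith

theorem Piece.tiltMass {x U C K : ℝ} {Q : ℕ} {S : Finset ℕ} (h : Piece x U Q S)
    (hM : MertensWith C) (hS : SieveBd x K) :
    TiltBd x Q S (fun q => (1 : ℝ) / ((q - 1 : ℕ) : ℝ))
      (2 * Real.exp (11 + C) * K * llx x) := by
  intro S' hsub hbig w hw0 hw
  refine le_trans (le_of_eq (sum_congr rfl fun q _ => ?_))
    ((h.subset hsub).sieved hM hS hbig w hw0 hw).1
  simp only [wdiv, wprod]
  ring

theorem Piece.tiltCount {x U C K X : ℝ} {Q : ℕ} {S : Finset ℕ} (h : Piece x U Q S)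
    (hM : MertensWith C) (hS : SieveBd x K) (hX : 0 ≤ X)
    (hSX : ∀ q ∈ S, ((q - 1 : ℕ) : ℝ) ≤ X) :
    TiltBd x Q S (fun _ => (1 : ℝ)) (2 * X * (2 * Real.exp (11 + C) * K * llx x ^ 2 / U)) := by
  classical
  intro S' hsub hbig w hw0 hw
  set B := 2 * Real.exp (11 + C) * K * llx x ^ 2 / U
    * Real.exp (∑ r ∈ primeSet Q, (w r - 1) / r) with hB
  have hB0 : 0 ≤ B := by
    have := hS.1
    have := h.U_pos
    positivity
  set key : ℕ → ℕ := fun q => Nat.log 2 ⌊X / ((q - 1 : ℕ) : ℝ)⌋₊ with hkey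
  have hwin : ∀ q ∈ S', X / 2 ^ key q / 2 < ((q - 1 : ℕ) : ℝ) ∧
      ((q - 1 : ℕ) : ℝ) ≤ X / 2 ^ key q := by
    intro q hq
    have hp := h.prime q (hsub hq)
    have hpos : (0 : ℝ) < ((q - 1 : ℕ) : ℝ) := by
      exact_mod_cast (by have := hp.one_lt; omega : 0 < q - 1)
    set n := ⌊X / ((q - 1 : ℕ) : ℝ)⌋₊ with hn
    have hn1 : 1 ≤ n := (Nat.one_le_floor_iff _).mpr (by rw [le_div_iff₀ hpos, one_mul]; exact hSX q (hsub hq))
    have h1 : ((2 : ℝ) ^ key q) ≤ n := by exact_mod_cast Nat.pow_log_le_self 2 (by omega : n ≠ 0)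
    have h2 : (n : ℝ) + 1 ≤ (2 : ℝ) ^ (key q + 1) := by
      exact_mod_cast Nat.lt_pow_succ_log_self (by norm_num : 1 < 2) n
    have h3 := Nat.floor_le (div_nonneg hX hpos.le)
    have h4 := Nat.lt_floor_add_one (X / ((q - 1 : ℕ) : ℝ))
    rw [← hn] at h3 h4
    constructor
    · have h5 : X / ((q - 1 : ℕ) : ℝ) < 2 ^ (key q + 1) := lt_of_lt_of_le h4 h2
      rw [div_lt_iff₀ hpos] at h5
      rw [div_div, div_lt_iff₀ (by positivity)]
      rw [pow_succ] at h5
      linarith
    · have h5 : (2 : ℝ) ^ key q ≤ X / ((q - 1 : ℕ) : ℝ) := h1.trans h3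
      rw [le_div_iff₀ hpos] at h5
      rw [le_div_iff₀ (by positivity)]
      linarith
  set n₀ := S'.sup key + 1 with hn₀
  rw [← sum_fiberwise_of_maps_to (g := key) (t := range n₀) (fun q hq => mem_range.mpr (by
    have := le_sup (f := key) hq; omega))]
  calc ∑ i ∈ range n₀, ∑ q ∈ S'.filter (fun q => key q = i), (1 : ℝ) * wprod w (q - 1)
      ≤ ∑ i ∈ range n₀, X * B * (1 / 2 : ℝ) ^ i := by
        refine sum_le_sum fun i _ => ?_
        set Si := S'.filter (fun q => key q = i) with hSi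
        have hsi : Si ⊆ S := (filter_subset _ _).trans hsub
        have hw' : ∀ q ∈ Si, X / 2 ^ i / 2 < ((q - 1 : ℕ) : ℝ) ∧
            ((q - 1 : ℕ) : ℝ) ≤ X / 2 ^ i := fun q hq => by
          obtain ⟨hq1, hq2⟩ := mem_filter.mp hq
          rw [← hq2]; exact hwin q hq1
        have h1 := ((h.subset hsi).sieved hM hS (fun q hq => hbig q (mem_filter.mp hq).1) w hw0 hw).2
          (X / 2 ^ i) hw'
        rw [← hB] at h1
        have hwd : ∀ q ∈ Si, (1 : ℝ) * wprod w (q - 1) ≤ X / 2 ^ i * wdiv w (q - 1) := by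
          intro q hq
          have hle := (hw' q hq).2
          have hpos : (0 : ℝ) < ((q - 1 : ℕ) : ℝ) := by
            have := (h.prime q (hsi hq)).one_lt
            exact_mod_cast (by omega : 0 < q - 1)
          have hwp : 0 ≤ wprod w (q - 1) := List.prod_nonneg fun y hy => by
            obtain ⟨r, _, rfl⟩ := List.mem_map.mp hy
            exact hw0 r
          rw [one_mul, wdiv, ← mul_div_assoc, le_div_iff₀ hpos]
          simp only [wprod] at hwp ⊢
          nlinarith
        refine (sum_le_sum hwd).trans ?_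
        rw [← mul_sum]
        calc X / 2 ^ i * ∑ q ∈ Si, wdiv w (q - 1) ≤ X / 2 ^ i * B :=
              mul_le_mul_of_nonneg_left h1 (by positivity)
          _ = _ := by rw [one_div_pow]; ring
    _ = X * B * ∑ i ∈ range n₀, (1 / 2 : ℝ) ^ i := by rw [mul_sum]
    _ ≤ X * B * 2 := mul_le_mul_of_nonneg_left (sum_geometric_two_le _) (by positivity)
    _ = _ := by rw [hB]; ring

/-- Split a piece into smooth, square and good primes. -/
theorem Piece.split_le {x U C M : ℝ} {Q : ℕ} {S : Finset ℕ} (h : Piece x U Q S)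
    (hM : MertensWith C) (hx : NormBig x C) (v : ℕ → ℝ) (hM0 : 0 ≤ M) (_hv0 : ∀ q, 0 ≤ v q)
    (hv : ∀ q ∈ S, v q ≤ M * ((1 : ℝ) / ((q - 1 : ℕ) : ℝ))) {G : ℝ}
    (hgood : ∀ S' ⊆ S, (∀ q ∈ S', HasLarge x q ∧ SqOK x (q - 1)) → ∑ q ∈ S', v q ≤ G) :
    ∑ q ∈ S, v q ≤ M * (2 * Real.exp (-(2 * llx x))) + G := by
  classical
  set A := S.filter (fun q => ¬ HasLarge x q) with hA
  set B := (S.filter (fun q => HasLarge x q)).filter (fun q => ¬ SqOK x (q - 1)) with hB
  set G' := (S.filter (fun q => HasLarge x q)).filter (fun q => SqOK x (q - 1)) with hG'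
  have e : ∑ q ∈ S, v q = ∑ q ∈ A, v q + ∑ q ∈ B, v q + ∑ q ∈ G', v q := by
    rw [← sum_filter_add_sum_filter_not S (fun q => HasLarge x q) v,
      ← sum_filter_add_sum_filter_not (S.filter (fun q => HasLarge x q)) (fun q => SqOK x (q - 1)) v]
    ring
  have hA1 : ∑ q ∈ A, v q ≤ M * Real.exp (-(2 * llx x)) := by
    refine (sum_le_sum fun q hq => hv q (mem_filter.mp hq).1).trans ?_
    rw [← mul_sum]
    exact mul_le_mul_of_nonneg_left ((h.subset (filter_subset _ _)).smooth hM hx.smooth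
      fun q hq => (mem_filter.mp hq).2) hM0
  have hB1 : ∑ q ∈ B, v q ≤ M * Real.exp (-(2 * llx x)) := by
    refine (sum_le_sum fun q hq => hv q (mem_filter.mp (mem_filter.mp hq).1).1).trans ?_
    rw [← mul_sum]
    refine mul_le_mul_of_nonneg_left (square_le B (lt_of_lt_of_le one_pos hx.ok.width_ge) hx.ok.half
      h.ll_cap (by linarith [hx.L_ge]) hx.square fun q hq => ?_) hM0
    obtain ⟨hq1, hq2⟩ := mem_filter.mp hq
    exact ⟨h.prime q (mem_filter.mp hq1).1, h.le_Q q (mem_filter.mp hq1).1, hq2⟩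
  have hG1 : ∑ q ∈ G', v q ≤ G := hgood _ ((filter_subset _ _).trans (filter_subset _ _))
    fun q hq => ⟨(mem_filter.mp (mem_filter.mp hq).1).2, (mem_filter.mp hq).2⟩
  linarith

/-- Cut primes in high cells into pieces of one size. -/
theorem sum_le_of_pieces {x C : ℝ} (hx : NormBig x C) (S : Finset ℕ) (v : ℕ → ℝ) {G : ℝ}
    (hG : 0 ≤ G) (hS : ∀ q ∈ S, q.Prime ∧ cutCell x < cell x q ∧ ll q ≤ llx x + 1)
    (h : ∀ (U : ℝ) (Q : ℕ) (S' : Finset ℕ), S' ⊆ S → Q ∈ S' → Piece x U Q S' →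
      ∑ q ∈ S', v q ≤ G) :
    ∑ q ∈ S, v q ≤ 2 * llx x * G := by
  classical
  set L := llx x with hL
  have hw : 0 < width x := lt_of_lt_of_le one_pos hx.ok.width_ge
  set key : ℕ → ℕ := fun q => ⌊ll q⌋₊ with hkey
  have hmaps : ∀ q ∈ S, key q ∈ range (⌊L + 1⌋₊ + 1) := fun q hq =>
    mem_range.mpr (Nat.lt_succ_of_le (Nat.floor_le_floor (hS q hq).2.2))
  rw [← sum_fiberwise_of_maps_to hmaps]
  refine (sum_le_card_nsmul _ _ G fun m _ => ?_).trans ?_
  · set S' := S.filter (fun q => key q = m) with hS'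
    rcases S'.eq_empty_or_nonempty with h0 | hne
    · rw [h0, sum_empty]; exact hG
    obtain ⟨Q, hQ, hsup⟩ := exists_mem_eq_sup S' hne id
    refine h (Real.exp (m : ℝ)) Q S' (filter_subset _ _) hQ ?_
    have hllQ : ∀ q ∈ S', (cutCell x : ℝ) * width x ≤ ll q ∧ (m : ℝ) ≤ ll q ∧ ll q < (m : ℝ) + 1 := by
      intro q hq
      obtain ⟨hq1, hq2⟩ := mem_filter.mp hq
      obtain ⟨-, hc, -⟩ := hS q hq1
      have h1 := cell_le_iff hw (j := cell x q) (by omega) le_rfl
      have h2 : ((cutCell x : ℝ) + 1) * width x ≤ (cell x q : ℝ) * width x :=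
        mul_le_mul_of_nonneg_right (by exact_mod_cast hc) hw.le
      have h0 : 0 ≤ ll q := le_trans (by positivity) h1
      refine ⟨by nlinarith, ?_, ?_⟩
      · rw [← hq2]; exact Nat.floor_le h0
      · rw [← hq2]; exact Nat.lt_floor_add_one _
    refine ⟨by linarith [hx.L_ge], ?_, fun q hq => (hS q (mem_filter.mp hq).1).1, fun q hq => ?_,
      fun q hq => ?_, ?_, (hS Q (mem_filter.mp hQ).1).2.2⟩
    · obtain ⟨h1, -, h3⟩ := hllQ Q hQ
      exact hx.size.trans (Real.exp_le_exp.mpr (by linarith))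
    · have hq1 : (1 : ℝ) < q := by exact_mod_cast (hS q (mem_filter.mp hq).1).1.one_lt
      exact (Real.le_log_iff_exp_le (Real.log_pos hq1)).mp (hllQ q hq).2.1
    · have : q ≤ S'.sup id := le_sup (f := id) hq
      rw [hsup] at this
      exact this
    · rw [Real.log_exp]
      linarith [(hllQ Q hQ).2.2]
  · rw [card_range, nsmul_eq_mul]
    refine mul_le_mul_of_nonneg_right ?_ hG
    push_cast
    have := Nat.floor_le (show (0 : ℝ) ≤ L + 1 by linarith [hx.L_ge])
    linarith [hx.L_ge]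

theorem abnormalMassPin : AbnormalMassPin := by
  classical
  obtain ⟨C, hM⟩ := normalMertens
  obtain ⟨K, e, hK, hsieve⟩ := majorantSieve
  set A := 2 * Real.exp (11 + C) with hA
  have hA0 : 0 < A := by rw [hA]; positivity
  filter_upwards [eventually_normBig C hM.1, hsieve,
    eventually_small (max 4 (24 * A * K * Real.exp 1)) (e + 3)] with x hx hs hsmall
  intro ℓ hℓ hℓJ
  set L := llx x with hL
  have hL1 : 1000 ≤ L := hx.L_ge
  have hKL : 0 ≤ K * L ^ e := by positivity
  have hw : 0 < width x := lt_of_lt_of_le one_pos hx.ok.width_ge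
  set Φ := A * (K * L ^ e) * L with hΦ
  set J := (numCells x : ℝ) with hJ
  set G := 2 * Real.exp (-(2 * L)) + Φ * (2 * (J + 1)) * Real.exp (-(J / 8) + 1) with hG
  have hJ0 : 0 ≤ J := Nat.cast_nonneg _
  refine (sum_le_of_pieces hx _ _ (G := G) (by positivity) (fun q hq => ?_)
    fun U Q S' hsub hQ hP => ?_).trans ?_
  · obtain ⟨hq1, -⟩ := mem_filter.mp hq
    obtain ⟨-, hp, hc, hll⟩ := mem_filter.mp hq1
    exact ⟨hp, hc ▸ hℓ, hll⟩
  · refine (hP.split_le hM hx _ zero_le_one (fun q => by positivity) (fun q _ => (one_mul _).ge)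
      (G := Φ * (2 * (J + 1)) * Real.exp (-(J / 8) + 1)) fun S'' hs2 hS'' => ?_).trans
      (le_of_eq (by rw [hG, one_mul]))
    obtain ⟨hQ1, -⟩ := mem_filter.mp (hsub hQ)
    obtain ⟨-, hQp, hQc, -⟩ := mem_filter.mp hQ1
    refine good_abnormal_le hM hx.ok ((hP.subset hs2).tiltMass hM hs) (by positivity)
      (fun q => by positivity) hℓ hℓJ hQp.two_le hP.ll_cap ?_ fun q hq => ?_
    · have := cell_le_iff hw (j := ℓ) (by omega) hQc.ge
      have := Real.log_nonneg (show (1 : ℝ) ≤ llx x by linarith)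
      linarith
    · exact ⟨hP.prime q (hs2 hq), (hS'' q hq).1, (hS'' q hq).2,
        (mem_filter.mp (hsub (hs2 hq))).2⟩
  · have hJL : J ≤ L := by
      have := mul_le_mul_of_nonneg_left hx.ok.width_ge hJ0
      rw [mul_one, hJ, hx.ok.len] at this
      exact this
    have he : Real.exp (-(2 * L)) ≤ Real.exp (-L) := Real.exp_le_exp.mpr (by linarith)
    set c := max 4 (24 * A * K * Real.exp 1) with hc
    have hc1 : 4 * L ≤ c * L ^ (e + 3) :=
      mul_le_mul (le_max_left _ _) (le_self_pow₀ (by linarith) (by omega)) (by linarith) (by positivity)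
    have hc2 : 2 * L * (Φ * (2 * (J + 1))) * Real.exp 1 ≤ c * L ^ (e + 3) := by
      calc 2 * L * (Φ * (2 * (J + 1))) * Real.exp 1 ≤ 2 * L * (Φ * (2 * (6 * L))) * Real.exp 1 := by
            gcongr; linarith
        _ = 24 * A * K * Real.exp 1 * L ^ (e + 3) := by rw [hΦ]; ring
        _ ≤ _ := mul_le_mul_of_nonneg_right (le_max_right _ _) (by positivity)
    have e1 := mul_le_mul hc1 he (Real.exp_pos _).le (le_trans (by linarith) hc1)
    have e2 := mul_le_mul_of_nonneg_right hc2 (Real.exp_pos (-(J / 8))).le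
    refine le_trans (le_of_eq ?_) (le_trans (add_le_add e1 e2)
      (le_trans (le_of_eq (by ring)) hsmall))
    rw [hG, Real.exp_add]
    ring

/-- `√X log X` is negligible against `X` when `log X` is large. -/
theorem sqrt_mul_log_le {X L : ℝ} (hX : 0 < X) (hl : 4 * L + 12 ≤ Real.log X) :
    3 * Real.sqrt X * Real.log X ≤ Real.exp (-L) * X := by
  set l := Real.log X with hldef
  have hs : Real.sqrt X = Real.exp (l / 2) := by
    rw [← Real.exp_log (Real.sqrt_pos.mpr hX), Real.log_sqrt hX.le]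
  have hXe : Real.exp (l / 2) * Real.exp (l / 2) = X := by
    rw [← Real.exp_add, add_halves, hldef, Real.exp_log hX]
  have e1 : Real.exp (l / 4) * Real.exp (l / 4) = Real.exp (l / 2) := by
    rw [← Real.exp_add]; congr 1; ring
  have e2 : l / 4 ≤ Real.exp (l / 4) := by linarith only [Real.add_one_le_exp (l / 4)]
  have h12 : (12 : ℝ) ≤ Real.exp 3 := by
    have := Real.exp_one_gt_d9
    rw [show (3 : ℝ) = 1 + 1 + 1 by norm_num, Real.exp_add, Real.exp_add]
    nlinarith [Real.exp_pos 1]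
  have e3 : 12 * Real.exp L ≤ Real.exp (l / 4) := by
    calc 12 * Real.exp L ≤ Real.exp 3 * Real.exp L :=
          mul_le_mul_of_nonneg_right h12 (Real.exp_pos _).le
      _ ≤ Real.exp (l / 4) := by
          rw [← Real.exp_add]; exact Real.exp_le_exp.mpr (by linarith only [hl])
  have h4 := mul_le_mul e2 e3 (by positivity) (Real.exp_pos _).le
  rw [e1] at h4
  have key : 3 * l ≤ Real.exp (-L) * Real.exp (l / 2) := by
    rw [Real.exp_neg, ← div_eq_inv_mul, le_div_iff₀ (Real.exp_pos _)]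
    linarith only [h4]
  calc 3 * Real.sqrt X * l = 3 * l * Real.exp (l / 2) := by rw [hs]; ring
    _ ≤ Real.exp (-L) * Real.exp (l / 2) * Real.exp (l / 2) :=
        mul_le_mul_of_nonneg_right key (Real.exp_pos _).le
    _ = _ := by rw [mul_assoc, hXe]

theorem abnormalCountPin : AbnormalCountPin := by
  classical
  obtain ⟨C, hM⟩ := normalMertens
  obtain ⟨K, e, hK, hsieve⟩ := majorantSieve
  set A := 2 * Real.exp (11 + C) with hA
  have hA0 : 0 < A := by rw [hA]; positivity
  filter_upwards [eventually_normBig C hM.1, hsieve,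
    eventually_small (max 5 (48 * A * K * Real.exp 1)) (e + 3), eventually_gt_atTop 1]
    with x hx hs hsmall hx1
  intro X hX1 hX2 S hS
  set L := llx x with hL
  have hL1 : 1000 ≤ L := hx.L_ge
  have hexpL : Real.exp L = Real.log x := Real.exp_log (Real.log_pos hx1)
  have hx0 : (0 : ℝ) < x := by linarith
  have hX0 : 0 < X := lt_of_lt_of_le (Real.rpow_pos_of_pos hx0 _) hX1
  set l := Real.log X with hl
  have hl1 : Real.exp L / L ≤ l := by
    have := Real.log_le_log (Real.rpow_pos_of_pos hx0 _) hX1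
    rw [Real.log_rpow hx0] at this
    rw [hexpL, div_eq_mul_one_div, mul_comm]
    exact this
  have hl2 : l ≤ 2 * Real.exp L := by
    have := Real.log_le_log hX0 hX2
    rw [Real.log_rpow hx0] at this
    rw [hexpL]; exact this
  have hcube : 32 * L ^ 3 ≤ Real.exp L := by
    have h := Real.pow_div_factorial_le_exp L (by linarith) 4
    have h2 : L ^ 4 / (Nat.factorial 4 : ℕ) = L ^ 3 * (L / 24) := by
      norm_num [Nat.factorial]
      ring
    rw [h2] at h
    have : L ^ 3 * 32 ≤ L ^ 3 * (L / 24) :=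
      mul_le_mul_of_nonneg_left (by linarith) (by positivity)
    linarith
  have hl3 : 32 * L ^ 2 ≤ l := by
    refine le_trans ?_ hl1
    rw [le_div_iff₀ (by linarith)]
    linarith
  have hl0 : 0 < l := by nlinarith
  have hl4 : 1 ≤ l := by nlinarith
  set U := l / 2 with hU
  set J := (numCells x : ℝ) with hJ
  have hJ0 : 0 ≤ J := Nat.cast_nonneg _
  set Φ := 2 * X * (A * (K * L ^ e) * L ^ 2 / U) with hΦ
  have hΦ0 : 0 ≤ Φ := by rw [hΦ]; positivity
  set S1 := S.filter (fun p : ℕ => (p : ℝ) ≤ Real.sqrt X + 1) with hS1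
  set S2 := S.filter (fun p : ℕ => ¬ (p : ℝ) ≤ Real.sqrt X + 1) with hS2
  have hcard : (S.card : ℝ) = S1.card + S2.card := by
    exact_mod_cast (card_filter_add_card_filter_not _).symm
  have hsX : 1 ≤ Real.sqrt X := by
    have : 1 ≤ X := by
      by_contra hc
      have := Real.log_neg hX0 (not_le.mp hc)
      linarith
    exact Real.one_le_sqrt.mpr this
  have hS1c : (S1.card : ℝ) ≤ 3 * Real.sqrt X := by
    have hsub : S1 ⊆ range (⌊Real.sqrt X + 1⌋₊ + 1) := fun p hp =>
      mem_range.mpr (Nat.lt_succ_of_le (Nat.le_floor (mem_filter.mp hp).2))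
    have h1 : (S1.card : ℝ) ≤ ((⌊Real.sqrt X + 1⌋₊ + 1 : ℕ) : ℝ) := by
      exact_mod_cast (card_le_card hsub).trans (card_range _).le
    push_cast at h1
    have := Nat.floor_le (show (0 : ℝ) ≤ Real.sqrt X + 1 by linarith)
    linarith
  have hS2c : (S2.card : ℝ) ≤ X * (2 * Real.exp (-(2 * L)))
      + Φ * (2 * (J + 1)) * Real.exp (-(J / 8) + 1) := by
    rcases S2.eq_empty_or_nonempty with h0 | hne
    · rw [h0]; simp only [card_empty, Nat.cast_zero]; positivity
    obtain ⟨Q, hQ, hsup⟩ := exists_mem_eq_sup S2 hne id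
    have hmem : ∀ p ∈ S2, p.Prime ∧ U ≤ Real.log p ∧ Real.log p ≤ l + 1 ∧
        ((p - 1 : ℕ) : ℝ) ≤ X ∧ ¬ Normal x (numCells x) p := by
      intro p hp
      obtain ⟨hp1, hp2⟩ := mem_filter.mp hp
      obtain ⟨hpr, hle, hnn⟩ := hS p hp1
      rw [not_le] at hp2
      have hpos : (0 : ℝ) < p := by exact_mod_cast hpr.pos
      refine ⟨hpr, ?_, ?_, ?_, hnn⟩
      · rw [hU, hl, ← Real.log_sqrt hX0.le]
        exact Real.log_le_log (by linarith) (by linarith)
      · have h2 : (p : ℝ) ≤ 2 * X := by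
          have : 1 ≤ X := by nlinarith [Real.sq_sqrt hX0.le]
          linarith
        have := Real.log_le_log hpos h2
        rw [Real.log_mul (by norm_num) hX0.ne'] at this
        linarith [Real.log_two_lt_d9]
      · rw [Nat.cast_sub hpr.one_le, Nat.cast_one]
        linarith
    have hUpos : 0 < U := by linarith
    obtain ⟨hQp, hQU, hQl, -, -⟩ := hmem Q hQ
    have hQ0 : 0 < Real.log Q := lt_of_lt_of_le hUpos hQU
    have hllQ1 : ll Q ≤ Real.log U + 2 := by
      have h1 := Real.log_le_log hQ0 (show Real.log Q ≤ 4 * U by linarith)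
      rw [Real.log_mul (by norm_num) hUpos.ne'] at h1
      have h4 : Real.log (4 : ℝ) ≤ 2 := by
        rw [show (4 : ℝ) = 2 ^ 2 by norm_num, Real.log_pow]
        push_cast
        linarith [Real.log_two_lt_d9]
      show Real.log (Real.log Q) ≤ _
      linarith
    have hllQ2 : ll Q ≤ L + 1 := by
      show Real.log (Real.log Q) ≤ _
      rw [Real.log_le_iff_le_exp hQ0, Real.exp_add]
      have h1 := Real.exp_one_gt_d9
      nlinarith [Real.add_one_le_exp L]
    have hllQ3 : J * width x - (2 * Real.log L + 2) ≤ ll Q := by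
      rw [hJ, hx.ok.len]
      have h1 : Real.log (Real.exp L / (2 * L)) ≤ ll Q := by
        refine Real.log_le_log (by positivity) (le_trans ?_ hQU)
        rw [hU, mul_comm 2 L, ← div_div]
        linarith
      rw [Real.log_div (Real.exp_pos _).ne' (by positivity), Real.log_exp,
        Real.log_mul (by norm_num) (by linarith)] at h1
      linarith [Real.log_two_lt_d9, Real.log_nonneg (show (1 : ℝ) ≤ L by linarith)]
    have hP : Piece x U Q S2 := ⟨by linarith, by linarith, fun p hp => (hmem p hp).1,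
      fun p hp => (hmem p hp).2.1, fun p hp => by
        have : p ≤ S2.sup id := le_sup (f := id) hp
        rw [hsup] at this
        exact this, hllQ1, hllQ2⟩
    have h1 := hP.split_le hM hx (fun _ => (1 : ℝ)) (M := X) hX0.le (fun _ => zero_le_one)
      (fun p hp => by
        have := (hmem p hp).1.one_lt
        have hpos : (0 : ℝ) < ((p - 1 : ℕ) : ℝ) := by exact_mod_cast (by omega : 0 < p - 1)
        rw [mul_one_div, le_div_iff₀ hpos, one_mul]
        exact (hmem p hp).2.2.2.1)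
      (G := Φ * (2 * (J + 1)) * Real.exp (-(J / 8) + 1)) fun S'' hs2 hS'' => by
        refine good_abnormal_le hM hx.ok ((hP.subset hs2).tiltCount hM hs hX0.le
          fun p hp => (hmem p (hs2 hp)).2.2.2.1) hΦ0 (fun _ => zero_le_one) hx.ok.cut le_rfl
          hQp.two_le hP.ll_cap hllQ3 fun p hp => ?_
        exact ⟨(hmem p (hs2 hp)).1, (hS'' p hp).1, (hS'' p hp).2, (hmem p (hs2 hp)).2.2.2.2⟩
    simp only [sum_const, nsmul_eq_mul, mul_one] at h1
    exact h1
  have hJL : J ≤ L := by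
    have := mul_le_mul_of_nonneg_left hx.ok.width_ge hJ0
    rw [mul_one, hJ, hx.ok.len] at this
    exact this
  set c := max 5 (48 * A * K * Real.exp 1) with hc
  have hLp : (1 : ℝ) ≤ L ^ (e + 3) := one_le_pow₀ (by linarith)
  rw [le_div_iff₀ hl0, hcard]
  have t1 : 3 * Real.sqrt X * l ≤ Real.exp (-L) * X :=
    sqrt_mul_log_le hX0 (show 4 * L + 12 ≤ l by nlinarith only [hl3, hL1])
  have t2 : X * (2 * Real.exp (-(2 * L))) * l ≤ 4 * Real.exp (-L) * X := by
    have e1 : Real.exp (-(2 * L)) * Real.exp L = Real.exp (-L) := by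
      rw [← Real.exp_add]; ring_nf
    calc X * (2 * Real.exp (-(2 * L))) * l ≤ X * (2 * Real.exp (-(2 * L))) * (2 * Real.exp L) :=
          mul_le_mul_of_nonneg_left hl2 (by positivity)
      _ = 4 * (Real.exp (-(2 * L)) * Real.exp L) * X := by ring
      _ = _ := by rw [e1]
  have t3 : Φ * (2 * (J + 1)) * Real.exp (-(J / 8) + 1) * l
      ≤ c * L ^ (e + 3) * Real.exp (-(J / 8)) * X := by
    calc Φ * (2 * (J + 1)) * Real.exp (-(J / 8) + 1) * l
        = (4 * A * K * L ^ e * L ^ 2 * (2 * (J + 1)) * Real.exp 1) * Real.exp (-(J / 8)) * X := by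
          rw [hΦ, hU, Real.exp_add]; field_simp; ring
      _ ≤ (4 * A * K * L ^ e * L ^ 2 * (2 * (6 * L)) * Real.exp 1) * Real.exp (-(J / 8)) * X := by
          gcongr; linarith
      _ = (48 * A * K * Real.exp 1) * L ^ (e + 3) * Real.exp (-(J / 8)) * X := by ring
      _ ≤ _ := by gcongr; exact le_max_right _ _
  have t4 : 5 * Real.exp (-L) * X ≤ c * L ^ (e + 3) * Real.exp (-L) * X := by
    gcongr
    calc (5 : ℝ) = 5 * 1 := by ring
      _ ≤ _ := mul_le_mul (le_max_left _ _) hLp zero_le_one (by positivity)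
  have t5 := mul_le_mul_of_nonneg_right hsmall hX0.le
  have t6 : ((S1.card : ℝ) + S2.card) * l ≤ (3 * Real.sqrt X + (X * (2 * Real.exp (-(2 * L)))
      + Φ * (2 * (J + 1)) * Real.exp (-(J / 8) + 1))) * l :=
    mul_le_mul_of_nonneg_right (add_le_add hS1c hS2c) hl0.le
  linarith

theorem halfDevPin : HalfDevPin := by
  classical
  obtain ⟨C, hM⟩ := normalMertens
  obtain ⟨K, e, hK, hsieve⟩ := majorantSieve
  set A := 2 * Real.exp (11 + C) with hA
  have hA0 : 0 < A := by rw [hA]; positivity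
  set c := max 4 (2 * A * K * Real.exp (C + 2)) with hc
  filter_upwards [eventually_normBig C hM.1, hsieve,
    eventually_pow_le (320 * (2 * c + 250 * ((e + 3 : ℕ) : ℝ)))
      (show (1 / 250 : ℝ) < 47 / 50 by norm_num)] with x hx hs hpow
  intro S hS
  set L := llx x with hL
  have hL1 : 1000 ≤ L := hx.L_ge
  have hw : 0 < width x := lt_of_lt_of_le one_pos hx.ok.width_ge
  set Φ := A * (K * L ^ e) * L with hΦ
  set M := ((cutCell x : ℝ) - halfCell x) * width x with hMd
  set E := Real.exp (-(3 / 20 * M)) with hE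
  set G := 2 * Real.exp (-(2 * L)) + Φ * (E * (Real.exp (C + 2) * L)) with hG
  refine le_trans (sum_le_sum fun q hq => ?_)
    ((sum_le_of_pieces hx S (fun q => (1 : ℝ) / ((q - 1 : ℕ) : ℝ)) (G := G) (by positivity)
      (fun q hq => ⟨(hS q hq).1, (hS q hq).2.1, (hS q hq).2.2.1⟩)
      fun U Q S' hsub hQ hP => ?_).trans ?_)
  · have h1 := (hS q hq).1.one_lt
    refine one_div_le_one_div_of_le ?_ ?_
    · exact_mod_cast (by omega : 0 < q - 1)
    · exact_mod_cast Nat.sub_le q 1
  · refine (hP.split_le hM hx _ zero_le_one (fun q => by positivity) (fun q _ => (one_mul _).ge)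
      (G := Φ * (E * (Real.exp (C + 2) * L))) fun S'' hs2 hS'' => ?_).trans
      (le_of_eq (by rw [hG, one_mul]))
    obtain ⟨hQp, hQc, -⟩ := hS Q (hsub hQ)
    have hlo : (cutCell x : ℝ) * width x ≤ ll Q := by
      have h1 := cell_le_iff hw (j := cell x Q) (by omega) le_rfl
      have h2 : (cutCell x : ℝ) * width x ≤ (cell x Q : ℝ) * width x :=
        mul_le_mul_of_nonneg_right (by exact_mod_cast hQc.le) hw.le
      linarith
    refine (half_dev_le hM hx.ok ((hP.subset hs2).tiltMass hM hs) (by positivity)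
      (fun q => by positivity) hQp.two_le hlo fun q hq => ⟨(hS'' q hq).1, (hS'' q hq).2,
        (hS q (hsub (hs2 hq))).2.2.2⟩).trans (le_of_eq ?_)
    rw [show -(3 / 20 * M) + C + 2 + Real.log L = -(3 / 20 * M) + ((C + 2) + Real.log L) by ring,
      Real.exp_add (-(3 / 20 * M)), Real.exp_add (C + 2), Real.exp_log (by linarith)]
  · have hm1 : L ^ (47 / 50 : ℝ) / 8 ≤ M := hx.mid
    have hm2 : M ≤ L := hx.mid'
    have he : Real.exp (-(2 * L)) ≤ E := Real.exp_le_exp.mpr (by linarith)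
    have hc1 : 4 * L ≤ c * L ^ (e + 3) :=
      mul_le_mul (le_max_left _ _) (le_self_pow₀ (by linarith) (by omega)) (by linarith) (by positivity)
    have e1 := mul_le_mul hc1 he (Real.exp_pos _).le (le_trans (by linarith) hc1)
    have e2 : 2 * L * (Φ * (E * (Real.exp (C + 2) * L))) ≤ c * L ^ (e + 3) * E := by
      calc 2 * L * (Φ * (E * (Real.exp (C + 2) * L)))
          = 2 * A * K * Real.exp (C + 2) * L ^ (e + 3) * E := by rw [hΦ]; ring
        _ ≤ _ := by gcongr; exact le_max_right _ _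
    refine le_trans (le_of_eq (show 2 * L * G
      = 4 * L * Real.exp (-(2 * L)) + 2 * L * (Φ * (E * (Real.exp (C + 2) * L))) by rw [hG]; ring))
      (le_trans (add_le_add e1 e2) ?_)
    have hc4 : 4 ≤ c := le_max_left _ _
    have hpos : 0 < 2 * c * L ^ (e + 3) := by positivity
    rw [show c * L ^ (e + 3) * E + c * L ^ (e + 3) * E = 2 * c * L ^ (e + 3) * E by ring,
      ← Real.exp_log hpos, hE, ← Real.exp_add]
    refine Real.exp_le_exp.mpr ?_
    have hlog := log_mul_pow_le (show (1 : ℝ) ≤ L by linarith) (show (1 : ℝ) ≤ 2 * c by linarith)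
      (e + 3)
    linarith

end Vale.Agent.P031
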