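import Vale.Agent.P031.NormalTools

/-!
# P031: sieved sums over primes with weights on the factors of `q - 1`

`q - 1 = b R` with `R` the largest prime factor: the sum over `R` is bounded by the sieve, the sum
over `b` by an Euler product.  Primes with `q - 1` smooth or divisible by a big square are few.
-/

namespace Vale.Agent.P031

open Finset

/-- The largest prime factor of `q - 1` is not small. -/
def HasLarge (x : ℝ) (q : ℕ) : Prop :=
  ∃ r ∈ (q - 1).primeFactors, Real.exp (Real.log (q : ℝ) / llx x) ≤ (r : ℝ)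

theorem le_of_ll_le {r Q : ℕ} (hQ : 2 ≤ Q) (h : ll r ≤ ll Q) : r ≤ Q := by
  by_contra hc
  rw [not_le] at hc
  have hQ' : (1 : ℝ) < Q := by exact_mod_cast (by omega : 1 < Q)
  have hlt : (Q : ℝ) < r := by exact_mod_cast hc
  have := Real.log_lt_log (Real.log_pos hQ') (Real.log_lt_log (by linarith) hlt)
  exact absurd h (not_le.mpr this)

/-- Sum over the largest prime factor first. -/
theorem fibre_sum_le (w : ℕ → ℝ) (hw0 : ∀ r, 0 ≤ w r) (hw : ∀ r, w r ≤ 3 / 2) {G : ℝ}
    (hG : 0 ≤ G) (S : Finset ℕ) (Q : ℕ)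
    (hS : ∀ q ∈ S, q.Prime ∧ q ≤ Q ∧ (q - 1).primeFactors.Nonempty)
    (hfib : ∀ b : ℕ, 0 < b → b ≤ Q → ∀ Rs : Finset ℕ,
      (∀ R ∈ Rs, R.Prime ∧ b * R + 1 ∈ S ∧ topPrime (b * R) = R) → ∑ R ∈ Rs, (1 : ℝ) / R ≤ G) :
    ∑ q ∈ S, wdiv w (q - 1) ≤
      3 / 2 * G * Real.exp ((∑ r ∈ primeSet Q, w r / r) + 9) := by
  classical
  set cof : ℕ → ℕ := fun q => (q - 1) / topPrime (q - 1) with hcof
  have facts : ∀ q ∈ S, (topPrime (q - 1)).Prime ∧ cof q * topPrime (q - 1) = q - 1
      ∧ 0 < cof q ∧ cof q ≤ Q ∧ cof q * topPrime (q - 1) + 1 = q := by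
    intro q hq
    obtain ⟨hp, hle, hne⟩ := hS q hq
    obtain ⟨hP, hd, h0⟩ := Nat.mem_primeFactors.mp (topPrime_mem hne)
    have e : cof q * topPrime (q - 1) = q - 1 := Nat.div_mul_cancel hd
    refine ⟨hP, e, ?_, ?_, ?_⟩
    · rcases Nat.eq_zero_or_pos (cof q) with h | h
      · rw [h, zero_mul] at e; exact absurd e.symm h0
      · exact h
    · have := Nat.div_le_self (q - 1) (topPrime (q - 1))
      simp only [hcof]; omega
    · rw [e]; have := hp.one_lt; omega
  have hwd : ∀ a, 0 ≤ wdiv w a := fun a =>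
    div_nonneg (List.prod_nonneg fun y hy => by
      obtain ⟨r, _, rfl⟩ := List.mem_map.mp hy
      exact hw0 r) (Nat.cast_nonneg a)
  have hterm : ∀ q ∈ S, wdiv w (q - 1)
      ≤ wdiv w (cof q) * (3 / 2 * (1 / (topPrime (q - 1) : ℝ))) := by
    intro q hq
    obtain ⟨hP, e, hb, -, -⟩ := facts q hq
    have e2 : wdiv w (q - 1) = wdiv w (cof q) * (w (topPrime (q - 1)) / topPrime (q - 1)) := by
      conv_lhs => rw [← e]
      have h := wprod_mul w hb.ne' hP.ne_zero
      simp only [wprod, Nat.primeFactorsList_prime hP, List.map_cons, List.map_nil,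
        List.prod_cons, List.prod_nil, mul_one] at h
      simp only [wdiv, h, Nat.cast_mul]
      rw [mul_div_mul_comm]
    rw [e2, mul_one_div]
    exact mul_le_mul_of_nonneg_left
      (div_le_div_of_nonneg_right (hw _) (Nat.cast_nonneg _)) (hwd _)
  refine (sum_le_sum hterm).trans ?_
  rw [← sum_fiberwise_of_maps_to (g := cof) (t := S.image cof) (fun q hq => mem_image_of_mem _ hq)]
  calc ∑ b ∈ S.image cof, ∑ q ∈ S.filter (fun q => cof q = b),
        wdiv w (cof q) * (3 / 2 * (1 / (topPrime (q - 1) : ℝ)))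
      ≤ ∑ b ∈ S.image cof, wdiv w b * (3 / 2 * G) := by
        refine sum_le_sum fun b hb => ?_
        obtain ⟨q₀, hq₀, rfl⟩ := mem_image.mp hb
        set Sb := S.filter (fun q => cof q = cof q₀) with hSb
        have e : ∀ q ∈ Sb, wdiv w (cof q) * (3 / 2 * (1 / (topPrime (q - 1) : ℝ)))
            = (wdiv w (cof q₀) * (3 / 2)) * (1 / (topPrime (q - 1) : ℝ)) := by
          intro q hq
          rw [(mem_filter.mp hq).2]; ring
        rw [sum_congr rfl e, ← mul_sum, ← mul_assoc]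
        refine mul_le_mul_of_nonneg_left ?_ (mul_nonneg (hwd _) (by norm_num))
        have inj : Set.InjOn (fun q => topPrime (q - 1)) (Sb : Set ℕ) := by
          intro u hu v hv huv
          have hu' := mem_filter.mp (mem_coe.mp hu)
          have hv' := mem_filter.mp (mem_coe.mp hv)
          have e1 := (facts u hu'.1).2.2.2.2
          have e2 := (facts v hv'.1).2.2.2.2
          simp only at huv
          rw [hu'.2, huv] at e1
          rw [hv'.2] at e2
          exact e1.symm.trans e2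
        rw [← sum_image (f := fun R : ℕ => (1 : ℝ) / R) inj]
        refine hfib _ (facts q₀ hq₀).2.2.1 (facts q₀ hq₀).2.2.2.1 _ fun R hR => ?_
        obtain ⟨q, hq, rfl⟩ := mem_image.mp hR
        obtain ⟨hq1, hq2⟩ := mem_filter.mp hq
        obtain ⟨hP, e, -, -, e'⟩ := facts q hq1
        rw [hq2] at e e'
        exact ⟨hP, by rw [e']; exact hq1, by rw [e]⟩
    _ = (∑ b ∈ S.image cof, wdiv w b) * (3 / 2 * G) := by rw [sum_mul]
    _ ≤ Real.exp ((∑ r ∈ primeSet Q, w r / r) + 9) * (3 / 2 * G) := by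
        refine mul_le_mul_of_nonneg_right ?_ (by positivity)
        have h := euler_le_bdd w (3 / 2) (primeSet Q) (S.image cof) hw0 (fun r _ => hw r)
          (fun r hr => by
            have h2 : (2 : ℝ) ≤ r := by exact_mod_cast (mem_filter.mp hr).2.two_le
            rw [div_le_iff₀ (by linarith)]
            linarith [hw r])
          (fun r hr => (mem_filter.mp hr).2)
          (fun b hb => by
            obtain ⟨q, hq, rfl⟩ := mem_image.mp hb
            obtain ⟨-, -, hb0, hbQ, -⟩ := facts q hq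
            refine ⟨hb0, fun r hr => ?_⟩
            obtain ⟨hrp, hrd, -⟩ := Nat.mem_primeFactors.mp hr
            rw [mem_primeSet (Nat.cast_nonneg _)]
            exact ⟨hrp, by exact_mod_cast (Nat.le_of_dvd hb0 hrd).trans hbQ⟩)
        norm_num at h ⊢
        exact h
    _ = _ := by ring

theorem sum_weight_le {C : ℝ} (hM : MertensWith C) (w : ℕ → ℝ) {Q : ℕ} {b : ℝ} (hb : 1 ≤ b)
    (hQ : ll Q ≤ b) :
    ∑ r ∈ primeSet Q, w r / r ≤ b + C + ∑ r ∈ primeSet Q, (w r - 1) / r := by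
  have e : ∀ r ∈ primeSet Q, w r / (r : ℝ) = 1 / (r : ℝ) + (w r - 1) / r := fun r _ => by ring
  rw [sum_congr rfl e, sum_add_distrib]
  refine add_le_add (mass_le_upto hM hb _ fun r hr => ?_) le_rfl
  obtain ⟨hp, hle⟩ := (mem_primeSet (Nat.cast_nonneg _)).mp hr
  exact ⟨hp, (ll_le_ll hp.two_le (by exact_mod_cast hle)).trans hQ⟩

/-- A set of primes of one size. -/
structure Piece (x U : ℝ) (Q : ℕ) (S : Finset ℕ) : Prop where
  L_ge : 64 ≤ llx x
  U_ge : 16 * llx x ^ 2 ≤ U
  prime : ∀ q ∈ S, q.Prime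
  log_ge : ∀ q ∈ S, U ≤ Real.log q
  le_Q : ∀ q ∈ S, q ≤ Q
  ll_Q : ll Q ≤ Real.log U + 2
  ll_cap : ll Q ≤ llx x + 1

theorem Piece.subset {x U : ℝ} {Q : ℕ} {S S' : Finset ℕ} (h : Piece x U Q S) (hs : S' ⊆ S) :
    Piece x U Q S' :=
  ⟨h.L_ge, h.U_ge, fun q hq => h.prime q (hs hq), fun q hq => h.log_ge q (hs hq),
    fun q hq => h.le_Q q (hs hq), h.ll_Q, h.ll_cap⟩

theorem Piece.U_pos {x U : ℝ} {Q : ℕ} {S : Finset ℕ} (h : Piece x U Q S) : 16 ≤ U := by
  nlinarith [h.U_ge, h.L_ge]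

theorem Piece.log_U {x U : ℝ} {Q : ℕ} {S : Finset ℕ} (h : Piece x U Q S) :
    0 ≤ Real.log U := Real.log_nonneg (by linarith [h.U_pos])

/-- The sieved bound: plain, and with all `q - 1` in one dyadic window. -/
theorem Piece.sieved {x U C K : ℝ} {Q : ℕ} {S : Finset ℕ} (h : Piece x U Q S)
    (hM : MertensWith C) (hS : SieveBd x K) (hbig : ∀ q ∈ S, HasLarge x q)
    (w : ℕ → ℝ) (hw0 : ∀ r, 0 ≤ w r) (hw : ∀ r, w r ≤ 3 / 2) :
    ∑ q ∈ S, wdiv w (q - 1) ≤
        2 * Real.exp (11 + C) * K * llx x * Real.exp (∑ r ∈ primeSet Q, (w r - 1) / r) ∧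
      ∀ X : ℝ, (∀ q ∈ S, X / 2 < ((q - 1 : ℕ) : ℝ) ∧ ((q - 1 : ℕ) : ℝ) ≤ X) →
        ∑ q ∈ S, wdiv w (q - 1) ≤
          2 * Real.exp (11 + C) * K * llx x ^ 2 / U
            * Real.exp (∑ r ∈ primeSet Q, (w r - 1) / r) := by
  classical
  set L := llx x with hL
  have hL0 : 0 < L := by linarith [h.L_ge]
  have hU := h.U_pos
  have hK : 0 ≤ K := by linarith [hS.1]
  set T := U / L with hT
  have hT2 : 2 ≤ T := by
    rw [hT, le_div_iff₀ hL0]; nlinarith [h.U_ge, h.L_ge]
  have hS' : ∀ q ∈ S, q.Prime ∧ q ≤ Q ∧ (q - 1).primeFactors.Nonempty := fun q hq =>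
    ⟨h.prime q hq, h.le_Q q hq, by
      obtain ⟨r, hr, -⟩ := hbig q hq
      exact ⟨r, hr⟩⟩
  -- facts on a fibre
  have fib : ∀ b : ℕ, 0 < b → b ≤ Q → ∀ Rs : Finset ℕ,
      (∀ R ∈ Rs, R.Prime ∧ b * R + 1 ∈ S ∧ topPrime (b * R) = R) →
      (∀ a ∈ ({b} : Finset ℕ), 0 < a ∧ ll a ≤ L + 1) ∧
      ∀ R ∈ Rs, R.Prime ∧ (∀ a ∈ ({b} : Finset ℕ), (a * R + 1).Prime) ∧ Real.exp T ≤ (R : ℝ) := by
    intro b hb hbQ Rs hRs
    refine ⟨fun a ha => ?_, fun R hR => ?_⟩
    · rw [mem_singleton] at ha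
      subst ha
      refine ⟨hb, ?_⟩
      rcases lt_or_ge a 2 with h2 | h2
      · have : a = 1 := by omega
        simp [this, ll]; linarith
      · exact (ll_le_ll h2 hbQ).trans h.ll_cap
    · obtain ⟨hp, hmem, htop⟩ := hRs R hR
      refine ⟨hp, fun a ha => by rw [mem_singleton] at ha; rw [ha]; exact h.prime _ hmem, ?_⟩
      obtain ⟨r, hr, hle⟩ := hbig _ hmem
      rw [Nat.add_sub_cancel] at hr
      have hrR : (r : ℝ) ≤ R := by
        rw [← htop]; exact_mod_cast le_sup (f := id) hr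
      refine le_trans (Real.exp_le_exp.mpr ?_) (hle.trans hrR)
      exact div_le_div_of_nonneg_right (h.log_ge _ hmem) hL0.le
  have hexp : (3 / 2 : ℝ) * Real.exp ((∑ r ∈ primeSet Q, w r / r) + 9)
      ≤ 2 * Real.exp (11 + C) * U * Real.exp (∑ r ∈ primeSet Q, (w r - 1) / r) := by
    have h1 := sum_weight_le hM w (b := Real.log U + 2) (by linarith [h.log_U]) h.ll_Q
    calc (3 / 2 : ℝ) * Real.exp ((∑ r ∈ primeSet Q, w r / r) + 9)
        ≤ 2 * Real.exp ((Real.log U + 2 + C + ∑ r ∈ primeSet Q, (w r - 1) / r) + 9) :=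
          mul_le_mul (by norm_num) (Real.exp_le_exp.mpr (by linarith)) (Real.exp_pos _).le
            (by norm_num)
      _ = _ := by
          rw [show Real.log U + 2 + C + (∑ r ∈ primeSet Q, (w r - 1) / r) + 9
            = (11 + C) + Real.log U + (∑ r ∈ primeSet Q, (w r - 1) / r) by ring,
            Real.exp_add, Real.exp_add, Real.exp_log (by linarith)]
          ring
  refine ⟨?_, fun X hX => ?_⟩
  · have h1 := fibre_sum_le w hw0 hw (G := K / T) (by positivity) S Q hS' fun b hb hbQ Rs hRs => by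
      obtain ⟨ha, hR⟩ := fib b hb hbQ Rs hRs
      have := ((hS.2 {b} (singleton_nonempty b) (by simp) ha T hT2 Rs hR).1)
      simpa using this
    refine h1.trans ?_
    have := mul_le_mul_of_nonneg_left hexp (show 0 ≤ K / T by positivity)
    calc 3 / 2 * (K / T) * Real.exp ((∑ r ∈ primeSet Q, w r / r) + 9)
        = K / T * (3 / 2 * Real.exp ((∑ r ∈ primeSet Q, w r / r) + 9)) := by ring
      _ ≤ K / T * (2 * Real.exp (11 + C) * U * Real.exp (∑ r ∈ primeSet Q, (w r - 1) / r)) := this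
      _ = _ := by rw [hT]; field_simp
  · have h1 := fibre_sum_le w hw0 hw (G := K / T ^ 2) (by positivity) S Q hS'
      fun b hb hbQ Rs hRs => by
      obtain ⟨ha, hR⟩ := fib b hb hbQ Rs hRs
      have := (hS.2 {b} (singleton_nonempty b) (by simp) ha T hT2 Rs hR).2 (X / b) fun R hRm => by
        obtain ⟨-, hmem, -⟩ := hRs R hRm
        obtain ⟨hlo, hhi⟩ := hX _ hmem
        rw [Nat.add_sub_cancel, Nat.cast_mul] at hlo hhi
        have hb' : (0 : ℝ) < b := by exact_mod_cast hb
        constructor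
        · rw [div_div, div_lt_iff₀ (by positivity)]; nlinarith
        · rw [le_div_iff₀ hb']; linarith
      simpa using this
    refine h1.trans ?_
    have := mul_le_mul_of_nonneg_left hexp (show 0 ≤ K / T ^ 2 by positivity)
    calc 3 / 2 * (K / T ^ 2) * Real.exp ((∑ r ∈ primeSet Q, w r / r) + 9)
        = K / T ^ 2 * (3 / 2 * Real.exp ((∑ r ∈ primeSet Q, w r / r) + 9)) := by ring
      _ ≤ K / T ^ 2
          * (2 * Real.exp (11 + C) * U * Real.exp (∑ r ∈ primeSet Q, (w r - 1) / r)) := this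
      _ = _ := by rw [hT]; field_simp

/-- Primes `q` with `q - 1` smooth have negligible mass (Rankin). -/
theorem Piece.smooth {x U C : ℝ} {Q : ℕ} {S : Finset ℕ} (h : Piece x U Q S) (hM : MertensWith C)
    (hL : Real.exp 32 * (Real.log (llx x) + 2 * C + 1) + 4 * Real.exp 32 ^ 2 + 80 + 3 * C ≤ llx x)
    (hbad : ∀ q ∈ S, ¬ HasLarge x q) :
    ∑ q ∈ S, (1 : ℝ) / ((q - 1 : ℕ) : ℝ) ≤ Real.exp (-(2 * llx x)) := by
  classical
  rcases S.eq_empty_or_nonempty with rfl | ⟨q₀, hq₀⟩
  · rw [sum_empty]; positivity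
  set L := llx x with hLdef
  have hL64 := h.L_ge
  have hL0 : (0 : ℝ) < L := by linarith
  have hU := h.U_pos
  set s : ℝ := 4 * L / U with hs
  have hs0 : 0 ≤ s := by rw [hs]; positivity
  have hs14 : s ≤ 1 / 4 := by
    rw [hs, div_le_iff₀ (by linarith)]; nlinarith [h.U_ge]
  set P := (primeSet Q).filter (fun r : ℕ => Real.log r ≤ 8 * U / L) with hP
  have hlogQ : ∀ r : ℕ, r.Prime → r ≤ Q → Real.log r ≤ 8 * U := by
    intro r hr hrQ
    have h1 : (1 : ℝ) < r := by exact_mod_cast hr.one_lt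
    have h2 := (ll_le_ll hr.two_le hrQ).trans h.ll_Q
    rw [ll, Real.log_le_iff_le_exp (Real.log_pos h1), Real.exp_add, Real.exp_log (by linarith)] at h2
    have h3 : Real.exp 2 ≤ 8 := by
      have := Real.exp_one_lt_d9
      rw [show (2 : ℝ) = 1 + 1 by norm_num, Real.exp_add]
      nlinarith [Real.exp_pos 1]
    nlinarith
  have hlogU : Real.log U ≤ L + 1 := by
    have h1 := h.log_ge q₀ hq₀
    have h2 := (ll_le_ll (h.prime q₀ hq₀).two_le (h.le_Q q₀ hq₀)).trans h.ll_cap
    exact (Real.log_le_log (by linarith) h1).trans h2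
  set w : ℕ → ℝ := fun r => (r : ℝ) ^ s with hw
  set W := Real.exp 32 with hW
  have hrs : ∀ r ∈ P, (r : ℝ) ^ s ≤ W := by
    intro r hr
    obtain ⟨hr1, hr2⟩ := mem_filter.mp hr
    have hp : r.Prime := (mem_filter.mp hr1).2
    rw [Real.rpow_def_of_pos (by exact_mod_cast hp.pos), hW]
    refine Real.exp_le_exp.mpr ?_
    calc Real.log r * s ≤ 8 * U / L * s := mul_le_mul_of_nonneg_right hr2 hs0
      _ = 32 := by rw [hs]; field_simp; norm_num
  -- each term
  have hterm : ∀ q ∈ S, (1 : ℝ) / ((q - 1 : ℕ) : ℝ) ≤ Real.exp (-(4 * L) + 1) * wdiv w (q - 1) := by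
    intro q hq
    have hp := h.prime q hq
    have hn0 : q - 1 ≠ 0 := by have := hp.one_lt; omega
    set n := q - 1 with hn
    have hnpos : (0 : ℝ) < n := by exact_mod_cast Nat.pos_of_ne_zero hn0
    have e : (n.primeFactorsList.map w).prod = (n : ℝ) ^ s := by
      have : ∀ l : List ℕ, (l.map w).prod = ((l.prod : ℕ) : ℝ) ^ s := by
        intro l
        induction l with
        | nil => simp
        | cons a l ih =>
          rw [List.map_cons, List.prod_cons, ih, List.prod_cons, Nat.cast_mul,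
            Real.mul_rpow (Nat.cast_nonneg _) (Nat.cast_nonneg _)]
      rw [this, Nat.prod_primeFactorsList hn0]
    have hlog : U - 1 ≤ Real.log n := by
      have h1 := h.log_ge q hq
      have h2 : (q : ℝ) ≤ 2 * n := by
        have : q ≤ 2 * n := by have := hp.two_le; omega
        exact_mod_cast this
      have h3 := Real.log_le_log (by exact_mod_cast hp.pos) h2
      rw [Real.log_mul (by norm_num) hnpos.ne'] at h3
      linarith [Real.log_two_lt_d9]
    simp only [wdiv, e]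
    rw [← mul_div_assoc]
    refine div_le_div_of_nonneg_right ?_ hnpos.le
    rw [Real.rpow_def_of_pos hnpos, ← Real.exp_add]
    refine Real.one_le_exp ?_
    have : (U - 1) * s ≤ Real.log n * s := mul_le_mul_of_nonneg_right hlog hs0
    have hUs : U * s = 4 * L := by rw [hs]; field_simp
    nlinarith
  refine (sum_le_sum hterm).trans ?_
  rw [← mul_sum]
  have hsupp : ∀ n ∈ S.image (fun q => q - 1), 0 < n ∧ n.primeFactors ⊆ P := by
    intro n hn
    obtain ⟨q, hq, rfl⟩ := mem_image.mp hn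
    have hp := h.prime q hq
    refine ⟨by have := hp.one_lt; omega, fun r hr => ?_⟩
    obtain ⟨hrp, hrd, hr0⟩ := Nat.mem_primeFactors.mp hr
    have hrQ : r ≤ Q := (Nat.le_of_dvd (Nat.pos_of_ne_zero hr0) hrd).trans
      ((Nat.sub_le q 1).trans (h.le_Q q hq))
    refine mem_filter.mpr ⟨(mem_primeSet (Nat.cast_nonneg _)).mpr
      ⟨hrp, by exact_mod_cast hrQ⟩, ?_⟩
    have hlt : (r : ℝ) < Real.exp (Real.log q / L) :=
      not_le.mp fun h' => hbad q hq ⟨r, hr, h'⟩
    have h1 := (Real.log_lt_iff_lt_exp (by exact_mod_cast hrp.pos)).mpr hlt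
    exact h1.le.trans (div_le_div_of_nonneg_right (hlogQ q hp (h.le_Q q hq)) hL0.le)
  have hinj : Set.InjOn (fun q => q - 1) (S : Set ℕ) := fun u hu v hv huv => by
    have := (h.prime u hu).one_lt
    have := (h.prime v hv).one_lt
    simp only at huv
    omega
  rw [← sum_image (f := wdiv w) hinj]
  have heu := euler_le_bdd w W P (S.image fun q => q - 1)
    (fun r => Real.rpow_nonneg (Nat.cast_nonneg r) _) hrs
    (fun r hr => by
      have hp : r.Prime := (mem_filter.mp (mem_filter.mp hr).1).2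
      have h2 : (2 : ℝ) ≤ r := by exact_mod_cast hp.two_le
      rw [div_le_iff₀ (by linarith)]
      calc (r : ℝ) ^ s ≤ (r : ℝ) ^ (1 / 2 : ℝ) :=
            Real.rpow_le_rpow_of_exponent_le (by linarith) (by linarith)
        _ = Real.sqrt r := (Real.sqrt_eq_rpow _).symm
        _ ≤ 3 / 4 * r := Real.sqrt_le_iff.mpr ⟨by linarith, by nlinarith⟩)
    (fun r hr => (mem_filter.mp (mem_filter.mp hr).1).2) hsupp
  refine (mul_le_mul_of_nonneg_left heu (Real.exp_pos _).le).trans ?_
  rw [← Real.exp_add]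
  refine Real.exp_le_exp.mpr ?_
  -- the exponent
  set b := Real.log (8 * U / L ^ 2) with hb
  have hU2 : 3 ≤ 8 * U / L ^ 2 := by
    rw [le_div_iff₀ (by positivity)]; nlinarith [h.U_ge]
  have hb1 : 1 ≤ b := by
    rw [hb, Real.le_log_iff_exp_le (by linarith)]
    linarith [Real.exp_one_lt_d9]
  have hlogL : 0 ≤ Real.log L := Real.log_nonneg (by linarith)
  have hbL : b + Real.log L = Real.log (8 * U / L) := by
    rw [hb, ← Real.log_mul (by positivity) hL0.ne']
    congr 1
    field_simp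
  have hbtop : b ≤ L + 4 := by
    have h8 : Real.log (8 * U / L ^ 2) ≤ Real.log (8 * U) := by
      refine Real.log_le_log (by linarith) (div_le_self (by linarith) ?_)
      nlinarith
    rw [Real.log_mul (by norm_num) (by linarith)] at h8
    have : Real.log (8 : ℝ) ≤ 3 := by
      rw [Real.log_le_iff_le_exp (by norm_num)]
      have := Real.exp_one_gt_d9
      rw [show (3 : ℝ) = 1 + 1 + 1 by norm_num, Real.exp_add, Real.exp_add]
      nlinarith [Real.exp_pos 1]
    linarith
  have hlow : ∑ r ∈ P.filter (fun r => ll r ≤ b), w r / r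
      ≤ (1 + 64 / L) * (b + C) := by
    have hm := mass_le_upto hM hb1 (P.filter (fun r => ll r ≤ b)) fun r hr =>
      ⟨(mem_filter.mp (mem_filter.mp (mem_filter.mp hr).1).1).2, (mem_filter.mp hr).2⟩
    calc ∑ r ∈ P.filter (fun r => ll r ≤ b), w r / r
        ≤ ∑ r ∈ P.filter (fun r => ll r ≤ b), (1 + 64 / L) * (1 / (r : ℝ)) := by
          refine sum_le_sum fun r hr => ?_
          obtain ⟨hr1, hr2⟩ := mem_filter.mp hr
          have hp : r.Prime := (mem_filter.mp (mem_filter.mp hr1).1).2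
          rw [mul_one_div]
          refine div_le_div_of_nonneg_right ?_ (Nat.cast_nonneg _)
          have h1 : Real.log r ≤ 8 * U / L ^ 2 := by
            have := (Real.log_le_iff_le_exp (Real.log_pos (by exact_mod_cast hp.one_lt))).mp hr2
            rwa [Real.exp_log (by linarith)] at this
          simp only [hw]
          rw [Real.rpow_def_of_pos (by exact_mod_cast hp.pos)]
          have h2 : Real.log r * s ≤ 32 / L := by
            calc Real.log r * s ≤ 8 * U / L ^ 2 * s := mul_le_mul_of_nonneg_right h1 hs0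
              _ = 32 / L := by rw [hs]; field_simp; norm_num
          refine (Real.exp_le_exp.mpr h2).trans ?_
          have h3 : 32 / L ≤ 1 / 2 := by rw [div_le_iff₀ hL0]; linarith
          have h4 := Real.exp_bound_div_one_sub_of_interval (show (0 : ℝ) ≤ 32 / L by positivity)
            (by linarith)
          refine h4.trans ?_
          rw [div_le_iff₀ (by linarith), show (64 : ℝ) / L = 2 * (32 / L) by ring]
          nlinarith [show (0 : ℝ) ≤ 32 / L by positivity]
      _ = (1 + 64 / L) * ∑ r ∈ P.filter (fun r => ll r ≤ b), (1 / (r : ℝ)) := by rw [mul_sum]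
      _ ≤ _ := mul_le_mul_of_nonneg_left hm (by positivity)
  have hhigh : ∑ r ∈ P.filter (fun r => ¬ ll r ≤ b), w r / r
      ≤ W * (Real.log L + 2 * C + 1) := by
    have hm := mass_le_window hM hb1 (b := b + Real.log L) (by linarith)
      (P.filter (fun r => ¬ ll r ≤ b)) fun r hr => by
        obtain ⟨hr1, hr2⟩ := mem_filter.mp hr
        have hp : r.Prime := (mem_filter.mp (mem_filter.mp hr1).1).2
        refine ⟨hp, (not_le.mp hr2).le, ?_⟩
        rw [hbL]
        exact Real.log_le_log (Real.log_pos (by exact_mod_cast hp.one_lt)) (mem_filter.mp hr1).2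
    calc ∑ r ∈ P.filter (fun r => ¬ ll r ≤ b), w r / r
        ≤ ∑ r ∈ P.filter (fun r => ¬ ll r ≤ b), W * (1 / (r : ℝ)) := sum_le_sum fun r hr => by
          rw [mul_one_div]
          exact div_le_div_of_nonneg_right (hrs r (mem_filter.mp hr).1) (Nat.cast_nonneg _)
      _ = W * ∑ r ∈ P.filter (fun r => ¬ ll r ≤ b), (1 / (r : ℝ)) := by rw [mul_sum]
      _ ≤ _ := mul_le_mul_of_nonneg_left (by linarith) (Real.exp_pos _).le
  have hsplit := sum_filter_add_sum_filter_not P (fun r => ll r ≤ b) (fun r => w r / (r : ℝ))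
  have h64 : (1 + 64 / L) * (b + C) ≤ (L + 4 + C) + 64 + (4 + C) := by
    have h1 : b + C ≤ L + 4 + C := by linarith
    calc (1 + 64 / L) * (b + C) ≤ (1 + 64 / L) * (L + 4 + C) :=
          mul_le_mul_of_nonneg_left h1 (by positivity)
      _ = (L + 4 + C) + 64 + 64 / L * (4 + C) := by field_simp; ring
      _ ≤ _ := by
          have : 64 / L * (4 + C) ≤ 1 * (4 + C) :=
            mul_le_mul_of_nonneg_right (by rw [div_le_one hL0]; linarith) (by linarith [hM.1])
          linarith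
  linarith [hM.1]

/-- Primes `q` with `q - 1` divisible by the square of a big prime have negligible mass. -/
theorem square_le {x : ℝ} {Q : ℕ} (S : Finset ℕ) (hw : 0 < width x) (hj : 1 ≤ halfCell x)
    (hQ : ll Q ≤ llx x + 1) (hL : 1 ≤ llx x)
    (hbig : 4 * llx x + 8 ≤ Real.exp (halfCell x * width x))
    (hS : ∀ q ∈ S, q.Prime ∧ q ≤ Q ∧ ¬ SqOK x (q - 1)) :
    ∑ q ∈ S, (1 : ℝ) / ((q - 1 : ℕ) : ℝ) ≤ Real.exp (-(2 * llx x)) := by
  classical
  rcases S.eq_empty_or_nonempty with rfl | ⟨q₀, hq₀⟩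
  · rw [sum_empty]; positivity
  set L := llx x with hLdef
  set t : ℝ := halfCell x * width x with ht
  set R0 := Real.exp (Real.exp t) with hR0
  have hR0pos : 2 ≤ R0 := by
    have := Real.add_one_le_exp (Real.exp t)
    linarith
  set m := ⌈R0⌉₊ - 1 with hm
  have hm1 : 1 ≤ m := by
    have h1 : (2 : ℝ) ≤ (⌈R0⌉₊ : ℝ) := hR0pos.trans (Nat.le_ceil _)
    have h2 : 2 ≤ ⌈R0⌉₊ := by exact_mod_cast h1
    omega
  set Rs := Ioc m (m + Q) with hRs
  set ks := Icc 1 Q with hks
  have hsub : S.image (fun q => q - 1) ⊆ (Rs ×ˢ ks).image (fun p => p.1 ^ 2 * p.2) := by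
    intro n hn
    obtain ⟨q, hq, rfl⟩ := mem_image.mp hn
    obtain ⟨hp, hle, hsq⟩ := hS q hq
    simp only [SqOK, not_forall, not_not] at hsq
    obtain ⟨r, hr, hcell, hd⟩ := hsq
    have hn0 : q - 1 ≠ 0 := by have := hp.one_lt; omega
    have hrle : r ≤ q - 1 :=
      le_trans (Nat.le_self_pow (by norm_num) r) (Nat.le_of_dvd (Nat.pos_of_ne_zero hn0) hd)
    have hr0 : R0 ≤ r := by
      have h1 : (halfCell x : ℝ) ≤ (⌊ll r / width x⌋₊ : ℝ) := by
        exact_mod_cast hcell.trans (min_le_right _ _)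
      have h2 : 0 ≤ ll r / width x := by
        by_contra hc
        rw [Nat.floor_of_nonpos (le_of_not_ge hc)] at h1
        have : (1 : ℝ) ≤ halfCell x := by exact_mod_cast hj
        simp at h1
        linarith
      have h3 := h1.trans (Nat.floor_le h2)
      rw [le_div_iff₀ hw, ← ht] at h3
      have h4 : (1 : ℝ) < r := by exact_mod_cast hr.one_lt
      have h5 := Real.exp_le_exp.mpr h3
      rw [ll, Real.exp_log (Real.log_pos h4)] at h5
      have h6 := Real.exp_le_exp.mpr h5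
      rwa [Real.exp_log (by linarith)] at h6
    refine mem_image.mpr ⟨(r, (q - 1) / r ^ 2), mem_product.mpr ⟨mem_Ioc.mpr ⟨?_, ?_⟩,
      mem_Icc.mpr ⟨?_, ?_⟩⟩, Nat.mul_div_cancel' hd⟩
    · have : ⌈R0⌉₊ ≤ r := Nat.ceil_le.mpr hr0
      omega
    · omega
    · exact Nat.div_pos (Nat.le_of_dvd (Nat.pos_of_ne_zero hn0) hd) (pow_pos hr.pos 2)
    · exact (Nat.div_le_self _ _).trans ((Nat.sub_le q 1).trans hle)
  have hinj : Set.InjOn (fun q => q - 1) (S : Set ℕ) := fun u hu v hv huv => by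
    have := (hS u hu).1.one_lt
    have := (hS v hv).1.one_lt
    simp only at huv
    omega
  rw [← sum_image (f := fun n : ℕ => (1 : ℝ) / n) hinj]
  refine le_trans (sum_le_sum_of_subset_of_nonneg hsub fun n _ _ => by positivity) ?_
  refine le_trans (sum_image_le_of_nonneg fun p _ => by positivity) ?_
  rw [sum_product]
  have e : ∀ r ∈ Rs, ∑ k ∈ ks, (1 : ℝ) / ((r ^ 2 * k : ℕ) : ℝ)
      = 1 / (r : ℝ) ^ 2 * ∑ k ∈ ks, (1 : ℝ) / k := by
    intro r _
    rw [mul_sum]
    refine sum_congr rfl fun k _ => ?_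
    push_cast
    rw [one_div_mul_one_div]
  rw [sum_congr rfl e, ← sum_mul]
  have h1 : ∑ r ∈ Rs, 1 / (r : ℝ) ^ 2 ≤ 1 / (m : ℝ) := by
    have key : ∀ n : ℕ, ∑ r ∈ Ioc m (m + n), 1 / (r : ℝ) ^ 2
        ≤ 1 / (m : ℝ) - 1 / ((m + n : ℕ) : ℝ) := by
      intro n
      induction n with
      | zero => simp
      | succ n ih =>
        rw [← add_assoc, sum_Ioc_succ_top (by omega)]
        set a : ℝ := ((m + n : ℕ) : ℝ) with ha
        have ha1 : 1 ≤ a := by rw [ha]; exact_mod_cast (by omega : 1 ≤ m + n)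
        rw [show ((m + n + 1 : ℕ) : ℝ) = a + 1 by rw [ha]; push_cast; ring]
        have : 1 / (a + 1) ^ 2 ≤ 1 / a - 1 / (a + 1) := by
          rw [div_sub_div _ _ (by positivity) (by positivity),
            div_le_div_iff₀ (by positivity) (by positivity)]
          nlinarith
        linarith
    have h0 : 0 ≤ 1 / ((m + Q : ℕ) : ℝ) := by positivity
    linarith [key Q]
  have h2 : ∑ k ∈ ks, (1 : ℝ) / k ≤ 1 + Real.exp (L + 1) := by
    have hh := harmonic_le_one_add_log Q
    simp only [harmonic_eq_sum_Icc, Rat.cast_sum, Rat.cast_inv, Rat.cast_natCast] at hh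
    have hQ1 : (1 : ℝ) < Q := by
      exact_mod_cast lt_of_lt_of_le (hS q₀ hq₀).1.one_lt (hS q₀ hq₀).2.1
    have := (Real.log_le_iff_le_exp (Real.log_pos hQ1)).mp hQ
    simp only [one_div, hks]
    linarith
  refine (mul_le_mul h1 h2 (sum_nonneg fun k _ => by positivity) (by positivity)).trans ?_
  have hmR : R0 / 2 ≤ (m : ℝ) := by
    have h1' : R0 ≤ (⌈R0⌉₊ : ℝ) := Nat.le_ceil _
    have h2' : ((⌈R0⌉₊ : ℕ) : ℝ) = (m : ℝ) + 1 := by
      have : ⌈R0⌉₊ = m + 1 := by
        have : 1 ≤ ⌈R0⌉₊ := Nat.one_le_ceil_iff.mpr (by linarith)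
        omega
      exact_mod_cast this
    linarith
  have hmpos : (0 : ℝ) < m := by exact_mod_cast hm1
  have hone : (1 : ℝ) ≤ Real.exp (L + 1) := Real.one_le_exp (by linarith)
  calc 1 / (m : ℝ) * (1 + Real.exp (L + 1)) ≤ 1 / (R0 / 2) * (2 * Real.exp (L + 1)) :=
        mul_le_mul (one_div_le_one_div_of_le (by positivity) hmR) (by linarith) (by positivity)
          (by positivity)
    _ = 4 * Real.exp (L + 1 - Real.exp t) := by
        rw [Real.exp_sub, hR0]; field_simp; ring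
    _ ≤ Real.exp 2 * Real.exp (L + 1 - Real.exp t) := by
        refine mul_le_mul_of_nonneg_right ?_ (Real.exp_pos _).le
        have := Real.exp_one_gt_d9
        rw [show (2 : ℝ) = 1 + 1 by norm_num, Real.exp_add]
        nlinarith
    _ ≤ Real.exp (-(2 * L)) := by
        rw [← Real.exp_add]; exact Real.exp_le_exp.mpr (by linarith)

end Vale.Agent.P031
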