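import Vale.Agent.P031.NormalSieve

/-!
# P031: the tails of the anatomy of `q - 1`

With a bound for weighted sums, each condition of normality fails on a small set only.
-/

namespace Vale.Agent.P031

open Finset

/-- A bound for the weighted sums over subsets of primes with a large prime factor of `q - 1`. -/
def TiltBd (x : ℝ) (Q : ℕ) (S : Finset ℕ) (v : ℕ → ℝ) (Φ : ℝ) : Prop :=
  ∀ S' : Finset ℕ, S' ⊆ S → (∀ q ∈ S', HasLarge x q) → ∀ w : ℕ → ℝ,
    (∀ r, 0 ≤ w r) → (∀ r, w r ≤ 3 / 2) →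
    ∑ q ∈ S', v q * wprod w (q - 1) ≤ Φ * Real.exp (∑ r ∈ primeSet Q, (w r - 1) / r)

/-- Facts on the parameters used for normality. -/
structure NormOK (x C : ℝ) : Prop where
  L_ge : 64 ≤ llx x
  width_ge : 1 ≤ width x
  len : (numCells x : ℝ) * width x = llx x
  dev_sq : devBd x * devBd x = llx x
  dev_pos : 0 < devBd x
  dev_le : devBd x ≤ width x
  gap : devBd x * (2 * C + 5 + 2 * Real.log (llx x)) ≤ 4 * width x
  gap' : 2 * Real.log (llx x) + 4 + 3 * C ≤ width x
  cells : (numCells x : ℝ) ≤ 2 * width x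
  half : 1 ≤ halfCell x
  cut : cutCell x < numCells x

/-- Markov with the weight `z` on the primes selected by `p`. -/
theorem tail_le {x Φ a μ z : ℝ} {Q : ℕ} {S S' : Finset ℕ} {v : ℕ → ℝ} (h : TiltBd x Q S v Φ)
    (hΦ : 0 ≤ Φ) (hv : ∀ q, 0 ≤ v q) (hsub : S' ⊆ S) (hbig : ∀ q ∈ S', HasLarge x q)
    (p : ℕ → Bool) (hz : 0 < z) (hz2 : z ≤ 3 / 2)
    (hcnt : ∀ q ∈ S', a * Real.log z
      ≤ (((q - 1).primeFactorsList.filter p).length : ℝ) * Real.log z)
    (hmass : (z - 1) * (∑ r ∈ (primeSet Q).filter (fun r => p r = true), (1 : ℝ) / r) ≤ μ) :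
    ∑ q ∈ S', v q ≤ Φ * Real.exp (μ - a * Real.log z) := by
  classical
  have hw0 : ∀ r, 0 ≤ tilt z p r := fun r => by unfold tilt; split <;> linarith
  have hw1 : ∀ r, tilt z p r ≤ 3 / 2 := fun r => by unfold tilt; split <;> linarith
  have h1 := h S' hsub hbig (tilt z p) hw0 hw1
  have e : ∑ r ∈ primeSet Q, (tilt z p r - 1) / (r : ℝ)
      = (z - 1) * ∑ r ∈ (primeSet Q).filter (fun r => p r = true), (1 : ℝ) / r := by
    rw [mul_sum, sum_filter]
    refine sum_congr rfl fun r _ => ?_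
    unfold tilt
    by_cases hp : p r = true
    · rw [if_pos hp, if_pos hp]; ring
    · rw [if_neg hp, if_neg hp]; simp
  have h2 : Real.exp (a * Real.log z) * ∑ q ∈ S', v q
      ≤ ∑ q ∈ S', v q * wprod (tilt z p) (q - 1) := by
    rw [mul_sum]
    refine sum_le_sum fun q hq => ?_
    rw [mul_comm]
    refine mul_le_mul_of_nonneg_left ?_ (hv q)
    rw [wprod_tilt, ← Real.rpow_natCast, Real.rpow_def_of_pos hz, mul_comm (Real.log z)]
    exact Real.exp_le_exp.mpr (hcnt q hq)
  have h3 : Φ * Real.exp (∑ r ∈ primeSet Q, (tilt z p r - 1) / (r : ℝ)) ≤ Φ * Real.exp μ :=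
    mul_le_mul_of_nonneg_left (Real.exp_le_exp.mpr (e ▸ hmass)) hΦ
  rw [Real.exp_sub, ← mul_div_assoc, le_div_iff₀ (Real.exp_pos _), mul_comm]
  linarith

theorem cell_le_iff {x : ℝ} (hw : 0 < width x) {j r : ℕ} (hj : 1 ≤ j) (h : j ≤ cell x r) :
    (j : ℝ) * width x ≤ ll r := by
  have h1 : (j : ℝ) ≤ (⌊ll r / width x⌋₊ : ℝ) := by exact_mod_cast h.trans (min_le_right _ _)
  have h2 : 0 ≤ ll r / width x := by
    by_contra hc
    rw [Nat.floor_of_nonpos (le_of_not_ge hc)] at h1
    have : (1 : ℝ) ≤ j := by exact_mod_cast hj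
    simp at h1
    linarith
  have h3 := h1.trans (Nat.floor_le h2)
  rwa [le_div_iff₀ hw] at h3

theorem ll_lt_of_cell_le {x : ℝ} (hw : 0 < width x) {j r : ℕ} (hj : j < numCells x)
    (h : cell x r ≤ j) : ll r < ((j : ℝ) + 1) * width x := by
  have h1 : ⌊ll r / width x⌋₊ ≤ j := by
    unfold cell at h
    omega
  have h2 := Nat.lt_floor_add_one (ll r / width x)
  have h3 : ll r / width x < (j : ℝ) + 1 := by
    have : (⌊ll r / width x⌋₊ : ℝ) ≤ j := by exact_mod_cast h1
    linarith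
  rwa [div_lt_iff₀ hw] at h3

theorem biUnion_sum_le {v : ℕ → ℝ} (hv : ∀ q, 0 ≤ v q) (t : Finset ℕ) (F : ℕ → Finset ℕ) :
    ∑ q ∈ t.biUnion F, v q ≤ ∑ i ∈ t, ∑ q ∈ F i, v q := by
  classical
  induction t using Finset.induction with
  | empty => simp
  | insert i t hi ih =>
    rw [biUnion_insert, sum_insert hi]
    have h := sum_union_inter (s₁ := F i) (s₂ := t.biUnion F) (f := v)
    linarith [sum_nonneg (s := F i ∩ t.biUnion F) fun q _ => hv q]

/-- Upper bound for the mass of one cell among the primes up to `Q`. -/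
theorem cell_mass_le {x C : ℝ} (hM : MertensWith C) (hx : NormOK x C) {Q j : ℕ}
    (hQ : ll Q ≤ llx x + 1) (hj : 1 ≤ j) (hjJ : j ≤ numCells x) :
    ∑ r ∈ (primeSet Q).filter (fun r => decide (cell x r = j) = true), (1 : ℝ) / r
      ≤ width x + 2 * C + 1 := by
  have hw : 0 < width x := lt_of_lt_of_le one_pos hx.width_ge
  have ha : 1 ≤ (j : ℝ) * width x := by
    have : (1 : ℝ) ≤ j := by exact_mod_cast hj
    nlinarith [hx.width_ge]
  refine le_trans (mass_le_window hM ha (b := ((j : ℝ) + 1) * width x) (by linarith) _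
    fun r hr => ?_) (le_of_eq (by ring))
  obtain ⟨hr1, hr2⟩ := mem_filter.mp hr
  rw [decide_eq_true_eq] at hr2
  obtain ⟨hp, hle⟩ := (mem_primeSet (Nat.cast_nonneg _)).mp hr1
  refine ⟨hp, cell_le_iff hw hj hr2.ge, ?_⟩
  rcases hjJ.eq_or_lt with h | h
  · have h1 := (ll_le_ll hp.two_le (by exact_mod_cast hle)).trans hQ
    rw [h, add_mul, one_mul, hx.len]
    linarith [hx.width_ge]
  · exact (ll_lt_of_cell_le hw h hr2.le).le

/-- Lower bound for the mass of the cells in `[a, b)` among the primes up to `Q`. -/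
theorem le_cell_mass {x C : ℝ} (hM : MertensWith C) (hx : NormOK x C) {Q a b : ℕ} (hQ2 : 2 ≤ Q)
    (ha : 1 ≤ a) (hb : b ≤ numCells x)
    (hlo : (b : ℝ) * width x - (2 * Real.log (llx x) + 2) ≤ ll Q) :
    ((b : ℝ) - a) * width x - (2 * C + 3 + 2 * Real.log (llx x))
      ≤ ∑ r ∈ (primeSet Q).filter (fun r => decide (a ≤ cell x r ∧ cell x r < b) = true),
          (1 : ℝ) / r := by
  have hw : 0 < width x := lt_of_lt_of_le one_pos hx.width_ge
  have ha' : 1 ≤ (a : ℝ) * width x := by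
    have : (1 : ℝ) ≤ a := by exact_mod_cast ha
    nlinarith [hx.width_ge]
  have hlogL : 0 ≤ Real.log (llx x) := Real.log_nonneg (by linarith [hx.L_ge])
  refine le_trans ?_ (le_mass_window hM ha'
    (b := min ((b : ℝ) * width x - 1) (ll Q)) _ fun r hp hlo' hhi => ?_)
  · have : (b : ℝ) * width x - (2 * Real.log (llx x) + 2) - 1
        ≤ min ((b : ℝ) * width x - 1) (ll Q) :=
      le_min (by linarith) (by linarith)
    linarith
  · refine mem_filter.mpr ⟨(mem_primeSet (Nat.cast_nonneg _)).mpr ⟨hp, ?_⟩, ?_⟩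
    · exact_mod_cast le_of_ll_le hQ2 (hhi.trans (min_le_right _ _))
    · rw [decide_eq_true_eq]
      have h1 : ll r < (b : ℝ) * width x := by
        have := hhi.trans (min_le_left _ _)
        linarith
      have h0 : 0 ≤ ll r / width x := div_nonneg (by linarith) hw.le
      have hfl : ⌊ll r / width x⌋₊ < b := by
        rw [Nat.floor_lt h0, div_lt_iff₀ hw]; exact h1
      have hfa : a ≤ ⌊ll r / width x⌋₊ := by
        refine Nat.le_floor ?_
        rw [le_div_iff₀ hw]; exact hlo'.le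
      unfold cell
      omega

/-- Primes with abnormal anatomy of `q - 1`, apart from smoothness and squares, are few. -/
theorem good_abnormal_le {x C Φ : ℝ} (hM : MertensWith C) (hx : NormOK x C) {Q ℓ : ℕ}
    {S : Finset ℕ} {v : ℕ → ℝ} (h : TiltBd x Q S v Φ) (hΦ : 0 ≤ Φ) (hv : ∀ q, 0 ≤ v q)
    (hℓ : cutCell x < ℓ) (hℓJ : ℓ ≤ numCells x) (hQ2 : 2 ≤ Q) (hQ : ll Q ≤ llx x + 1)
    (hlo : (ℓ : ℝ) * width x - (2 * Real.log (llx x) + 2) ≤ ll Q)
    (hS : ∀ q ∈ S, q.Prime ∧ HasLarge x q ∧ SqOK x (q - 1) ∧ ¬ Normal x ℓ q) :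
    ∑ q ∈ S, v q
      ≤ Φ * (2 * ((numCells x : ℝ) + 1)) * Real.exp (-((numCells x : ℝ) / 8) + 1) := by
  classical
  set J := numCells x with hJ
  set Δ := width x with hΔ
  set D := devBd x with hD
  set E := Real.exp (-((J : ℝ) / 8) + 1) with hE
  have hw : 0 < Δ := lt_of_lt_of_le one_pos hx.width_ge
  have hC := hM.1
  have hlogL : 0 ≤ Real.log (llx x) := Real.log_nonneg (by linarith [hx.L_ge])
  set δ := D / (4 * Δ) with hδ
  have hδ0 : 0 < δ := div_pos hx.dev_pos (by linarith)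
  have hδ4 : δ ≤ 1 / 4 := by rw [hδ, div_le_iff₀ (by linarith)]; linarith [hx.dev_le]
  have hδD : δ * D = (J : ℝ) / 4 := by
    rw [hδ, div_mul_eq_mul_div, hx.dev_sq, ← hx.len, ← hΔ, ← hJ]
    field_simp
  have hδ2 : δ ^ 2 * Δ = (J : ℝ) / 16 := by
    have : δ * Δ = D / 4 := by rw [hδ]; field_simp
    calc δ ^ 2 * Δ = δ * (δ * Δ) := by ring
      _ = δ * D / 4 := by rw [this]; ring
      _ = _ := by rw [hδD]; ring
  have hδG : δ * (2 * C + 5 + 2 * Real.log (llx x)) ≤ 1 := by
    rw [hδ, div_mul_eq_mul_div, div_le_iff₀ (by linarith)]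
    linarith [hx.gap]
  set up : ℕ → Finset ℕ := fun j =>
    S.filter (fun q => Δ + D < (omegaIn x j (q - 1) : ℝ)) with hup
  set dn : ℕ → Finset ℕ := fun j =>
    S.filter (fun q => (omegaIn x j (q - 1) : ℝ) < Δ - D) with hdn
  set top := S.filter (fun q => 4 * Δ < (omegaIn x ℓ (q - 1) : ℝ)) with htop
  set sml := S.filter
    (fun q => 5 * ((cutCell x : ℝ) + 1) * Δ < (omegaSmall x (q - 1) : ℝ)) with hsml
  have hcount : ∀ j, halfCell x ≤ j → ∀ q ∈ S,
      ((q - 1).primeFactorsList.filter (fun r => decide (cell x r = j))).length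
        = omegaIn x j (q - 1) := by
    intro j hj q hq
    rw [(hS q hq).2.2.1.filter_length _ fun r _ hr => by
      rw [decide_eq_true_eq] at hr; rwa [hr]]
    simp [omegaIn]
  have hsubF : ∀ {p : ℕ → Prop} [DecidablePred p], ∀ q ∈ S.filter p, HasLarge x q :=
    fun q hq => (hS q (mem_filter.mp hq).1).2.1
  have hupb : ∀ j ∈ Finset.Ico (halfCell x) ℓ, ∑ q ∈ up j, v q ≤ Φ * E := by
    intro j hj
    obtain ⟨hj1, hj2⟩ := mem_Ico.mp hj
    refine (tail_le h hΦ hv (filter_subset _ _) hsubF (fun r => decide (cell x r = j))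
      (z := 1 + δ) (a := Δ + D) (μ := δ * (Δ + 2 * C + 1)) (by linarith) (by linarith) ?_ ?_).trans
      (mul_le_mul_of_nonneg_left (Real.exp_le_exp.mpr ?_) hΦ)
    · intro q hq
      rw [hcount j hj1 q (mem_filter.mp hq).1]
      exact mul_le_mul_of_nonneg_right (mem_filter.mp hq).2.le (Real.log_nonneg (by linarith))
    · rw [add_sub_cancel_left]
      exact mul_le_mul_of_nonneg_left (cell_mass_le hM hx hQ (hx.half.trans hj1) (by omega)) hδ0.le
    · have hl : δ - δ ^ 2 ≤ Real.log (1 + δ) := by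
        have h1 := Real.log_le_sub_one_of_pos (inv_pos.mpr (show 0 < 1 + δ by linarith))
        rw [Real.log_inv] at h1
        have : (1 + δ)⁻¹ ≤ 1 - δ + δ ^ 2 := by
          rw [inv_le_iff_one_le_mul₀ (by linarith)]
          nlinarith [pow_pos hδ0 3]
        linarith
      have h2 := mul_le_mul_of_nonneg_left hl (show 0 ≤ Δ + D by linarith [hx.dev_pos])
      have h3 : δ ^ 2 * D ≤ δ ^ 2 * Δ := mul_le_mul_of_nonneg_left hx.dev_le (sq_nonneg _)
      have h4 : δ * (2 * C + 1) ≤ 1 :=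
        le_trans (mul_le_mul_of_nonneg_left (by linarith) hδ0.le) hδG
      nlinarith
  have hdnb : ∀ j ∈ Finset.Ico (halfCell x) ℓ, ∑ q ∈ dn j, v q ≤ Φ * E := by
    intro j hj
    obtain ⟨hj1, hj2⟩ := mem_Ico.mp hj
    refine (tail_le h hΦ hv (filter_subset _ _) hsubF (fun r => decide (cell x r = j))
      (z := 1 - δ) (a := Δ - D) (μ := -δ * (Δ - (2 * C + 3 + 2 * Real.log (llx x))))
      (by linarith) (by linarith) ?_ ?_).trans
      (mul_le_mul_of_nonneg_left (Real.exp_le_exp.mpr ?_) hΦ)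
    · intro q hq
      rw [hcount j hj1 q (mem_filter.mp hq).1]
      exact mul_le_mul_of_nonpos_right (mem_filter.mp hq).2.le
        (Real.log_nonpos (by linarith) (by linarith))
    · have hb : ((j + 1 : ℕ) : ℝ) * Δ - (2 * Real.log (llx x) + 2) ≤ ll Q := by
        have : ((j + 1 : ℕ) : ℝ) * Δ ≤ (ℓ : ℝ) * Δ :=
          mul_le_mul_of_nonneg_right (by exact_mod_cast hj2) hw.le
        linarith
      have h1 := le_cell_mass hM hx hQ2 (hx.half.trans hj1) (b := j + 1) (by omega) hb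
      rw [show (1 - δ) - 1 = -δ by ring]
      refine mul_le_mul_of_nonpos_left ?_ (by linarith)
      have e : (primeSet Q).filter (fun r => decide (cell x r = j) = true)
          = (primeSet Q).filter (fun r => decide (j ≤ cell x r ∧ cell x r < j + 1) = true) := by
        refine filter_congr fun r _ => ?_
        simp only [decide_eq_true_eq]
        omega
      rw [e]
      refine le_trans ?_ h1
      push_cast
      rw [← hΔ]
      linarith
    · have hl : -Real.log (1 - δ) ≤ δ + 2 * δ ^ 2 := by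
        have h1 := Real.log_le_sub_one_of_pos (inv_pos.mpr (show 0 < 1 - δ by linarith))
        rw [Real.log_inv] at h1
        have : (1 - δ)⁻¹ ≤ 1 + δ + 2 * δ ^ 2 := by
          rw [inv_le_iff_one_le_mul₀ (by linarith)]
          nlinarith [mul_nonneg (sq_nonneg δ) (show 0 ≤ 1 - 2 * δ by linarith)]
        linarith
      have h2 := mul_le_mul_of_nonneg_left hl (show 0 ≤ Δ - D by linarith [hx.dev_le])
      have h3 : 0 ≤ δ ^ 2 * D := mul_nonneg (sq_nonneg _) hx.dev_pos.le
      have h4 : δ * (2 * C + 3 + 2 * Real.log (llx x)) ≤ 1 :=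
        le_trans (mul_le_mul_of_nonneg_left (by linarith) hδ0.le) hδG
      nlinarith
  have hJ2 : (J : ℝ) / 8 ≤ Δ / 2 := by linarith [hx.cells]
  have hlog15 : (1 / 3 : ℝ) ≤ Real.log (3 / 2) := by
    have h1 := Real.log_le_sub_one_of_pos (show (0 : ℝ) < 2 / 3 by norm_num)
    have e : Real.log (2 / 3 : ℝ) = -Real.log (3 / 2) := by rw [← Real.log_inv]; norm_num
    linarith
  have htopb : ∑ q ∈ top, v q ≤ Φ * E := by
    have hℓ1 : halfCell x ≤ ℓ := le_trans (halfCell_le_cutCell x) hℓ.le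
    refine (tail_le h hΦ hv (filter_subset _ _) hsubF (fun r => decide (cell x r = ℓ))
      (z := 3 / 2) (a := 4 * Δ) (μ := 1 / 2 * (Δ + 2 * C + 1)) (by norm_num) le_rfl ?_ ?_).trans
      (mul_le_mul_of_nonneg_left (Real.exp_le_exp.mpr ?_) hΦ)
    · intro q hq
      rw [hcount ℓ hℓ1 q (mem_filter.mp hq).1]
      exact mul_le_mul_of_nonneg_right (mem_filter.mp hq).2.le (by linarith)
    · rw [show (3 / 2 : ℝ) - 1 = 1 / 2 by norm_num]
      exact mul_le_mul_of_nonneg_left (cell_mass_le hM hx hQ (hx.half.trans hℓ1) hℓJ) (by norm_num)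
    · nlinarith [hx.gap', mul_le_mul_of_nonneg_left hlog15 (show 0 ≤ 4 * Δ by linarith)]
  have hsmlb : ∑ q ∈ sml, v q ≤ Φ * E := by
    set M := ((cutCell x : ℝ) + 1) * Δ with hMd
    have hMΔ : Δ ≤ M := by
      have : (1 : ℝ) ≤ (cutCell x : ℝ) + 1 := by
        linarith [(Nat.cast_nonneg (cutCell x) : (0 : ℝ) ≤ cutCell x)]
      rw [hMd]; nlinarith
    refine (tail_le h hΦ hv (filter_subset _ _) hsubF (fun r => decide (cell x r ≤ cutCell x))
      (z := 3 / 2) (a := 5 * M) (μ := 1 / 2 * (M + C)) (by norm_num) le_rfl ?_ ?_).trans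
      (mul_le_mul_of_nonneg_left (Real.exp_le_exp.mpr ?_) hΦ)
    · intro q hq
      refine mul_le_mul_of_nonneg_right ?_ (by linarith)
      have := (mem_filter.mp hq).2
      rw [hMd]
      simp only [omegaSmall] at this
      linarith
    · rw [show (3 / 2 : ℝ) - 1 = 1 / 2 by norm_num]
      refine mul_le_mul_of_nonneg_left (mass_le_upto hM (by linarith [hx.width_ge]) _
        fun r hr => ?_) (by norm_num)
      obtain ⟨hr1, hr2⟩ := mem_filter.mp hr
      rw [decide_eq_true_eq] at hr2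
      exact ⟨(mem_filter.mp hr1).2, (ll_lt_of_cell_le hw hx.cut hr2).le⟩
    · nlinarith [hx.gap', mul_le_mul_of_nonneg_left hlog15 (show 0 ≤ 5 * M by linarith)]
  have hcover : S ⊆ ((Finset.Ico (halfCell x) ℓ).biUnion fun j => up j ∪ dn j) ∪ (top ∪ sml) := by
    intro q hq
    obtain ⟨hp, hl, hsq, hnn⟩ := hS q hq
    by_contra hc
    simp only [mem_union, mem_biUnion, not_or, not_exists, not_and] at hc
    refine hnn ⟨hp, fun j hj1 hj2 => ?_, ?_, ?_, hl, hsq⟩
    · obtain ⟨hu, hd⟩ := hc.1 j (mem_Ico.mpr ⟨hj1, hj2⟩)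
      simp only [hup, hdn, mem_filter, not_and, not_lt] at hu hd
      have := hu hq
      have := hd hq
      rw [abs_le, ← hΔ, ← hD]
      constructor <;> linarith
    · have := hc.2.1
      simp only [htop, mem_filter, not_and, not_lt] at this
      exact this hq
    · have := hc.2.2
      simp only [hsml, mem_filter, not_and, not_lt] at this
      exact this hq
  refine (sum_le_sum_of_subset_of_nonneg hcover fun q _ _ => hv q).trans ?_
  have hU : ∀ A B : Finset ℕ, ∑ q ∈ A ∪ B, v q ≤ ∑ q ∈ A, v q + ∑ q ∈ B, v q := fun A B => by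
    rw [← sum_union_inter]
    linarith [sum_nonneg (s := A ∩ B) fun q _ => hv q]
  refine (hU _ _).trans ?_
  have h1 : ∑ q ∈ (Finset.Ico (halfCell x) ℓ).biUnion (fun j => up j ∪ dn j), v q
      ≤ (J : ℝ) * (2 * (Φ * E)) := by
    refine (biUnion_sum_le hv _ _).trans ?_
    refine (sum_le_card_nsmul _ _ (2 * (Φ * E)) fun j hj => ?_).trans ?_
    · refine (hU _ _).trans ?_
      linarith [hupb j hj, hdnb j hj]
    · rw [nsmul_eq_mul]
      refine mul_le_mul_of_nonneg_right ?_ (by positivity)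
      have : (Finset.Ico (halfCell x) ℓ).card ≤ J := by simp; omega
      exact_mod_cast this
  have h2 : ∑ q ∈ top ∪ sml, v q ≤ 2 * (Φ * E) := by
    refine (hU _ _).trans ?_
    linarith
  calc _ ≤ (J : ℝ) * (2 * (Φ * E)) + 2 * (Φ * E) := add_le_add h1 h2
    _ = _ := by ring

/-- Primes with few factors in the middle cells. -/
theorem half_dev_le {x C Φ : ℝ} (hM : MertensWith C) (hx : NormOK x C) {Q : ℕ}
    {S : Finset ℕ} {v : ℕ → ℝ} (h : TiltBd x Q S v Φ) (hΦ : 0 ≤ Φ) (hv : ∀ q, 0 ≤ v q)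
    (hQ2 : 2 ≤ Q) (hlo : (cutCell x : ℝ) * width x ≤ ll Q)
    (hS : ∀ q ∈ S, HasLarge x q ∧ SqOK x (q - 1) ∧
      ((∑ j ∈ Finset.Ico (halfCell x) (cutCell x), omegaIn x j (q - 1) : ℕ) : ℝ)
        < (1 / 2 : ℝ) * ((cutCell x : ℝ) - halfCell x) * width x) :
    ∑ q ∈ S, v q ≤ Φ * Real.exp (-(3 / 20 * (((cutCell x : ℝ) - halfCell x) * width x))
      + C + 2 + Real.log (llx x)) := by
  classical
  set M := ((cutCell x : ℝ) - halfCell x) * width x with hMd
  have hlogL : 0 ≤ Real.log (llx x) := Real.log_nonneg (by linarith [hx.L_ge])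
  refine (tail_le h hΦ hv subset_rfl (fun q hq => (hS q hq).1)
    (fun r => decide (halfCell x ≤ cell x r ∧ cell x r < cutCell x))
    (z := 1 / 2) (a := M / 2) (μ := -(1 / 2) * (M - (2 * C + 3 + 2 * Real.log (llx x))))
    (by norm_num) (by norm_num) ?_ ?_).trans
    (mul_le_mul_of_nonneg_left (Real.exp_le_exp.mpr ?_) hΦ)
  · intro q hq
    obtain ⟨-, hsq, hdef⟩ := hS q hq
    refine mul_le_mul_of_nonpos_right ?_ (Real.log_nonpos (by norm_num) (by norm_num))
    rw [hsq.filter_length _ fun r _ hr => by rw [decide_eq_true_eq] at hr; exact hr.1]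
    have e : ((q - 1).primeFactors.filter
        (fun r => decide (halfCell x ≤ cell x r ∧ cell x r < cutCell x) = true)).card
        = ∑ j ∈ Finset.Ico (halfCell x) (cutCell x), omegaIn x j (q - 1) := by
      simp only [omegaIn]
      rw [card_eq_sum_card_fiberwise (f := cell x) (t := Finset.Ico (halfCell x) (cutCell x))]
      · refine sum_congr rfl fun j hj => ?_
        rw [filter_filter]
        congr 1
        refine filter_congr fun r _ => ?_
        simp only [decide_eq_true_eq]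
        have := mem_Ico.mp hj
        omega
      · intro r hr
        simp only [coe_filter, Set.mem_ofPred_eq, decide_eq_true_eq] at hr
        exact mem_coe.mpr (mem_Ico.mpr hr.2)
    rw [e, hMd]
    linarith
  · rw [show (1 / 2 : ℝ) - 1 = -(1 / 2) by norm_num]
    refine mul_le_mul_of_nonpos_left ?_ (by norm_num)
    have h1 := le_cell_mass hM hx hQ2 hx.half (b := cutCell x) hx.cut.le (by linarith)
    linarith
  · have h0 : 0 ≤ M := by
      have : (halfCell x : ℝ) ≤ cutCell x := by exact_mod_cast halfCell_le_cutCell x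
      have := hx.width_ge
      rw [hMd]
      exact mul_nonneg (by linarith) (by linarith)
    have h2 : Real.log (1 / 2 : ℝ) = -Real.log 2 := by rw [one_div, Real.log_inv]
    rw [h2]
    nlinarith [Real.log_two_lt_d9]

end Vale.Agent.P031
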