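import Vale.Agent.P031.Defs

/-!
# P031: interfaces between the blocks

Each pin is a proposition.  Its owner proves it as a theorem in a separate file.
-/

namespace Vale.Agent.P031

open Filter

/-- Mertens in cells: a cell below `J` has mass `Δ + O(1)`, the top cell has mass `O(1)`. -/
def CellMassPin : Prop :=
  ∃ C : ℝ, ∀ᶠ x : ℝ in atTop,
    (∀ j < numCells x, |(∑ r ∈ cellPrimes x j, (1 : ℝ) / r) - width x| ≤ C) ∧
    (∑ r ∈ cellPrimes x (numCells x), (1 : ℝ) / r) ≤ C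

open scoped Classical in
/-- Abnormal primes have small mass in each big cell. -/
def AbnormalMassPin : Prop :=
  ∀ᶠ x : ℝ in atTop, ∀ ℓ : ℕ, cutCell x < ℓ → ℓ ≤ numCells x →
    (∑ q ∈ (cellPrimes x ℓ).filter (fun q => ¬ Normal x ℓ q), (1 : ℝ) / ((q - 1 : ℕ) : ℝ)) ≤ epsN x

/-- Few top primes are abnormal. -/
def AbnormalCountPin : Prop :=
  ∀ᶠ x : ℝ in atTop, ∀ X : ℝ, x ^ (1 / llx x) ≤ X → X ≤ x ^ (2 : ℝ) → ∀ S : Finset ℕ,
    (∀ p ∈ S, p.Prime ∧ (p : ℝ) ≤ X + 1 ∧ ¬ Normal x (numCells x) p) →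
    (S.card : ℝ) ≤ epsN x * X / Real.log X

/-- Primes with at most half of the expected factors in cells `[j₁, j₀)` have small mass. -/
def HalfDevPin : Prop :=
  ∀ᶠ x : ℝ in atTop, ∀ S : Finset ℕ,
    (∀ q ∈ S, q.Prime ∧ cutCell x < cell x q ∧ ll q ≤ llx x + 1 ∧
      ((∑ j ∈ Finset.Ico (halfCell x) (cutCell x), omegaIn x j (q - 1) : ℕ) : ℝ)
        < (1 / 2 : ℝ) * ((cutCell x : ℝ) - halfCell x) * width x) →
    (∑ q ∈ S, (1 : ℝ) / q) ≤ Real.exp (-(((cutCell x : ℝ) - halfCell x) * width x / 8))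

/-- Two configurations with one value, side one having the larger top prime and top slack `≥ η`,
are rare. -/
def InnerMajorantPin : Prop :=
  ∀ᶠ x : ℝ in atTop, ∀ S : Finset ((List ℕ × ℕ) × (List ℕ × ℕ)),
    (∀ a ∈ S, IsConf x a.1.1 a.1.2 ∧ IsConf x a.2.1 a.2.2 ∧
      a.1.1 ≠ [] ∧ (∀ q' ∈ a.2.1, q' < a.1.1.getD 0 0) ∧
      List.Disjoint a.1.1 a.2.1 ∧ IsGood x a.1.1 ∧ eta x ≤ slackAt x a.1.1 0 ∧
      confValue a.1.1 a.1.2 = confValue a.2.1 a.2.2 ∧ SqOK x (confValue a.1.1 a.1.2)) →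
    (∑ a ∈ S, (1 : ℝ) / (confValue a.1.1 a.1.2 : ℝ)) ≤ Real.exp (-(eta x * width x / 2))

/-- Two representations `(p - 1) w = (p' - 1) w'`, the side of `p > p'` having top slack `≥ η`,
are rare. -/
def OuterMajorantPin : Prop :=
  ∀ c : ℝ, 1 ≤ c → ∀ᶠ x : ℝ in atTop, ∀ Y : ℝ, 0 < Y → Y ≤ c * x →
    ∀ S : Finset ((ℕ × List ℕ × ℕ) × (ℕ × List ℕ × ℕ)),
    (∀ a ∈ S,
      Normal x (numCells x) a.1.1 ∧ Normal x (numCells x) a.2.1 ∧
      IsConf x a.1.2.1 a.1.2.2 ∧ IsConf x a.2.2.1 a.2.2.2 ∧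
      a.2.1 < a.1.1 ∧ x ^ (1 / (3 * (maxLen x : ℝ))) ≤ (a.2.1 : ℝ) ∧
      (∀ q ∈ a.1.2.1, q < a.2.1) ∧ (∀ q ∈ a.2.2.1, q < a.2.1) ∧
      List.Disjoint a.1.2.1 a.2.2.1 ∧ IsGood x a.1.2.1 ∧
      eta x ≤ slack x (numCells x) a.1.2.1 ∧
      (a.1.1 - 1) * confValue a.1.2.1 a.1.2.2 = (a.2.1 - 1) * confValue a.2.2.1 a.2.2.2 ∧
      (((a.1.1 - 1) * confValue a.1.2.1 a.1.2.2 : ℕ) : ℝ) ≤ Y ∧
      SqOK x ((a.1.1 - 1) * confValue a.1.2.1 a.1.2.2)) →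
    (S.card : ℝ) ≤ Y / Real.log x * Real.exp (-(eta x * width x / 2))

/-- Configurations safe at levels `1, …, i` over suffixes that are determined by their values carry
almost distinct values. -/
def DistinctPin : Prop :=
  ∀ᶠ x : ℝ in atTop, ∀ i : ℕ, ∀ S : Finset (List ℕ × ℕ),
    (∀ a ∈ S, IsConf x a.1 a.2 ∧ IsGood x a.1 ∧ i ≤ a.1.length ∧
      ∀ l < i, eta x ≤ slackAt x a.1 l) →
    (∀ a ∈ S, ∀ b ∈ S, confValue (a.1.drop i) a.2 = confValue (b.1.drop i) b.2 →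
      a.1.drop i = b.1.drop i ∧ a.2 = b.2) →
    (∑ a ∈ S, (1 : ℝ) / (confValue a.1 a.2 : ℝ))
      ≤ mass (S.image (fun a => confValue a.1 a.2)) + Real.exp (-(eta x * width x / 4))

/-- Two good configurations with one value have close shapes. -/
def StabilityPin : Prop :=
  ∀ d : ℕ, ∀ᶠ x : ℝ in atTop, ∀ qs qs' : List ℕ, ∀ m m' : ℕ,
    IsConf x qs m → IsConf x qs' m' → IsGood x qs → IsGood x qs' →
    confValue qs m = confValue qs' m' →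
    |tailPhi x d qs - tailPhi x d qs'| ≤ errBd x ∧ |topGap x qs - topGap x qs'| ≤ errBd x

/-- The mass of safe values is at least one. -/
def SafeMassPin : Prop :=
  ∀ᶠ x : ℝ in atTop, 1 ≤ mass (safeVals x) ∧ mass (smallVals x) ≤ mass (safeVals x)

/-- Safe values are `x^{o(1)}`. -/
def SafeSmallPin : Prop :=
  ∀ δ : ℝ, 0 < δ → ∀ᶠ x : ℝ in atTop, ∀ w ∈ safeVals x, (w : ℝ) ≤ x ^ δ

/-- The band is negligible against the safe values. -/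
def BandPin : Prop :=
  ∀ δ : ℝ, 0 < δ → ∀ᶠ x : ℝ in atTop, mass (bandVals x) ≤ δ * mass (safeVals x)

/-- Upper bound: atypical values are negligible. -/
def UpperPin : Prop :=
  ∀ c : ℝ, 1 ≤ c → ∃ C : ℝ, ∀ δ : ℝ, 0 < δ → ∀ᶠ x : ℝ in atTop, ∀ Y : ℝ, x ≤ Y → Y ≤ c * x →
    (totCount Y : ℝ) ≤ mainTerm x Y + Y / Real.log x * (C * mass (bandVals x) + δ * mass (safeVals x))

/-- Lower bound: representations by safe values rarely collide. -/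
def LowerPin : Prop :=
  ∀ c : ℝ, 1 ≤ c → ∀ δ : ℝ, 0 < δ → ∀ᶠ x : ℝ in atTop, ∀ Y : ℝ, x ≤ Y → Y ≤ c * x →
    mainTerm x Y - Y / Real.log x * (δ * mass (safeVals x)) ≤ (totCount Y : ℝ)

end Vale.Agent.P031
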