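import Vale.Agent.P031.MajorantParam
import Vale.Agent.P031.BandTargets

/-!
# P031: safe values carry mass at least one and are `x ^ o(1)`
-/

namespace Vale.Agent.P031

open Finset Filter

/-- The width of the top gap. -/
theorem eventually_regime :
    ∀ᶠ x : ℝ in atTop, 1 ≤ llx x ∧ 1 ≤ eta x ∧ 3 * eta x + cutCell x ≤ numCells x := by
  filter_upwards [tendsto_llx.eventually_ge_atTop 1,
    eventually_pow_le 12 (show (7 / 50 : ℝ) < 1 / 5 by norm_num),
    (((tendsto_rpow_atTop (show (0 : ℝ) < 1 / 50 by norm_num)).comp tendsto_llx).eventually_ge_atTop 12)]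
    with x hL h1 h2
  obtain ⟨hJ1, -, -, -, -, hC2, -, -, -⟩ := param_bounds hL
  simp only [Function.comp] at h2
  have hL0 : 0 < llx x := by linarith
  have hneg : llx x ^ (-(1 / 50) : ℝ) ≤ 1 / 12 := by
    rw [Real.rpow_neg hL0.le]
    rw [← one_div]
    exact one_div_le_one_div_of_le (by norm_num) h2
  refine ⟨hL, ?_, ?_⟩
  · calc (1 : ℝ) ≤ llx x ^ ((1 / 5 : ℝ) + -(1 / 50)) := Real.one_le_rpow hL (by norm_num)
      _ = llx x ^ (1 / 5 : ℝ) * llx x ^ (-(1 / 50) : ℝ) := Real.rpow_add hL0 _ _
      _ ≤ eta x := mul_le_mul_of_nonneg_right hJ1 (Real.rpow_nonneg hL0.le _)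
  · have : eta x ≤ (numCells x : ℝ) * (1 / 12) :=
      mul_le_mul_of_nonneg_left hneg (Nat.cast_nonneg _)
    linarith

theorem safeMassPin : SafeMassPin := by
  classical
  filter_upwards [eventually_regime] with x hx
  obtain ⟨hL, hη, hJ⟩ := hx
  have hhalf : (halfCell x : ℝ) ≤ cutCell x := by exact_mod_cast halfCell_le_cutCell x
  have hsub : smallVals x ⊆ safeVals x := by
    intro m hm
    obtain ⟨hlt, hp⟩ := mem_filter.1 hm
    refine mem_filter.2 ⟨hlt, [], m, ⟨List.Pairwise.nil, by simp, by simp, by simp, by simp, hp⟩,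
      ?_, by simp [confValue]⟩
    have hs : slack x (numCells x) [] = (numCells x : ℝ) - halfCell x := by
      have hle : halfCell x ≤ numCells x := by exact_mod_cast (by linarith : (halfCell x : ℝ) ≤ numCells x)
      simp [slack, above, ent, Nat.cast_sub hle]
    refine ⟨⟨isGood_nil x, ?_⟩, ?_, ?_⟩
    · rw [hs]
      have : 0 ≤ eta1 x := eta1_nonneg (by linarith)
      linarith
    · rw [hs]; linarith
    · simp only [topGap]; linarith
  have hmem : 1 ∈ smallVals x := by
    have hp : SmallPart x 1 := by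
      refine ⟨⟨1, one_pos, Nat.totient_one, by simp⟩, ?_, ?_⟩
      · simpa using Real.one_le_exp (Real.exp_pos _).le
      · simpa [smallOmega] using Real.rpow_nonneg (by linarith : (0 : ℝ) ≤ llx x) _
    refine mem_filter.2 ⟨mem_range.2 ?_, hp⟩
    have := Band.confValue_lt_valueBd (x := x) (qs := []) (m := 1)
      ⟨List.Pairwise.nil, by simp, by simp, by simp, by simp, hp⟩
    simpa [confValue] using this
  have hmono : mass (smallVals x) ≤ mass (safeVals x) := Band.mass_mono hsub
  refine ⟨?_, hmono⟩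
  have h1 : (1 : ℝ) / ((1 : ℕ) : ℝ) ≤ mass (smallVals x) :=
    single_le_sum (f := fun w : ℕ => (1 : ℝ) / w) (fun w _ => by positivity) hmem
  have h2 : (1 : ℝ) ≤ mass (smallVals x) := by simpa using h1
  linarith

theorem safeSmallPin : SafeSmallPin := by
  classical
  intro δ hδ
  filter_upwards [eventually_regime, eventually_gt_atTop 1,
    eventually_pow_le 24 (show (47 / 50 : ℝ) < 1 by norm_num),
    eventually_pow_le 1 (show (3 / 50 : ℝ) < 1 by norm_num),
    eventually_pow_le 20000 (show (0 : ℝ) < 9 / 20 by norm_num),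
    tendsto_llx.eventually_ge_atTop (806 / δ), tendsto_llx.eventually_ge_atTop (2 * (2 / δ))]
    with x hx hx1 hcut hN hbig hδ1 hδ2
  obtain ⟨hL, hη, hJ⟩ := hx
  obtain ⟨-, -, hW1, hW2, -, hC2, hN', hηw, -⟩ := param_bounds hL
  rw [Real.rpow_one] at hcut hN
  set L := llx x with hLdef
  set Δ := width x
  have hL0 : 0 < L := by linarith
  have hlogx : 0 < Real.log x := Real.log_pos hx1
  have hexpL : Real.exp L = Real.log x := Real.exp_log hlogx
  have hΔ0 : 0 ≤ Δ := width_nonneg_of_llx (by linarith)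
  intro w hw
  obtain ⟨-, qs, m, hc, hs, rfl⟩ := mem_filter.1 hw
  -- the small part
  have hm : (m : ℝ) ≤ Real.exp (δ / 2 * Real.log x) := by
    refine hc.part.le.trans (Real.exp_le_exp.2 ?_)
    have h1 : 2 * (cutCell x : ℝ) * Δ ≤ L / 2 := by
      have h2 : (cutCell x : ℝ) * Δ ≤ 3 * L ^ (47 / 50 : ℝ) := by
        calc (cutCell x : ℝ) * Δ ≤ (3 * L ^ (7 / 50 : ℝ)) * L ^ (4 / 5 : ℝ) := by gcongr
          _ = 3 * L ^ (47 / 50 : ℝ) := by
              rw [mul_assoc, ← Real.rpow_add hL0]; norm_num
      linarith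
    have h3 : Real.exp (L / 2) * (L / 2) ≤ Real.exp L := by
      have h4 : L / 2 ≤ Real.exp (L / 2) := by linarith [Real.add_one_le_exp (L / 2)]
      have h5 : Real.exp (L / 2) * Real.exp (L / 2) = Real.exp L := by rw [← Real.exp_add]; ring_nf
      nlinarith [Real.exp_pos (L / 2)]
    have h6 : 1 ≤ δ / 2 * (L / 2) := by
      have := hδ2
      rw [← mul_div_assoc, div_le_iff₀ hδ] at this
      linarith
    refine (Real.exp_le_exp.2 h1).trans ?_
    rw [← hexpL]
    nlinarith [Real.exp_pos (L / 2)]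
  -- the primes
  set T : ℝ := δ / 2 * Real.log x / (401 * L)
  have hTpos : 0 ≤ T := by positivity
  have hq : ∀ q ∈ qs, ((q - 1 : ℕ) : ℝ) ≤ Real.exp T := by
    intro q hq
    have hne : qs ≠ [] := by rintro rfl; simp at hq
    obtain ⟨q0, tl, rfl⟩ := List.exists_cons_of_ne_nil hne
    have hle : q ≤ q0 := by
      rcases List.mem_cons.1 hq with h | h
      · exact h.le
      · exact ((List.pairwise_cons.1 hc.desc).1 q h).le
    have hp := (hc.normal q0 List.mem_cons_self).prime
    have hgap := hs.2.2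
    simp only [topGap] at hgap
    have hlt : cell x q0 < numCells x := by
      have : (cell x q0 : ℝ) < numCells x := by linarith
      exact_mod_cast this
    have hll : ll q0 ≤ ((cell x q0 : ℝ) + 1) * Δ := by
      have hfl : cell x q0 = ⌊ll q0 / Δ⌋₊ := by
        simp only [cell, Δ] at hlt ⊢
        omega
      have hwpos : 0 < Δ := by
        have : 0 < L ^ (4 / 5 : ℝ) := by positivity
        linarith
      have := Nat.lt_floor_add_one (ll q0 / Δ)
      rw [← hfl, div_lt_iff₀ hwpos] at this
      linarith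
    have hJw : (numCells x : ℝ) * Δ = L := by
      have : (0 : ℝ) < numCells x := by linarith [(Nat.cast_nonneg _ : (0 : ℝ) ≤ cutCell x)]
      simp only [Δ, width, ← hLdef]; field_simp
    have h7 : ((cell x q0 : ℝ) + 1) * Δ ≤ L - eta x * Δ := by
      calc ((cell x q0 : ℝ) + 1) * Δ ≤ ((numCells x : ℝ) - eta x) * Δ := by gcongr; linarith
        _ = L - eta x * Δ := by rw [sub_mul, hJw]
    have h8 : Real.log q0 ≤ Real.exp (L - eta x * Δ) :=
      (Real.log_le_iff_le_exp (Real.log_pos (by exact_mod_cast hp.one_lt))).1 (hll.trans h7)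
    have h9 : Real.exp (L - eta x * Δ) ≤ T := by
      rw [Real.exp_sub, hexpL, show T = Real.log x * (δ / 2 / (401 * L)) by ring, div_le_iff₀ (Real.exp_pos _)]
      have hη98 : L ^ (9 / 20 : ℝ) ≤ eta x * Δ := by
        rw [← hηw]; exact Real.rpow_le_rpow_of_exponent_le hL (by norm_num)
      have h12 : (802 : ℝ) / δ * L ≤ Real.exp (eta x * Δ) := by
        have h13 : (802 : ℝ) / δ ≤ L := by
          have : (802 : ℝ) / δ ≤ 806 / δ := by gcongr; norm_num
          linarith
        have h16 : Real.exp (L ^ (9 / 20 : ℝ)) ≤ Real.exp (eta x * Δ) := Real.exp_le_exp.2 hη98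
        have h17 : (L ^ (9 / 20 : ℝ)) ^ 5 / (Nat.factorial 5 : ℝ) ≤ Real.exp (L ^ (9 / 20 : ℝ)) :=
          Real.pow_div_factorial_le_exp _ (by positivity) 5
        have h18 : (L ^ (9 / 20 : ℝ)) ^ 5 = L ^ (9 / 4 : ℝ) := by
          rw [← Real.rpow_natCast, ← Real.rpow_mul hL0.le]; norm_num
        have h19 : L * L * 120 ≤ L ^ (9 / 4 : ℝ) := by
          have h20 : L ^ (9 / 4 : ℝ) = L * L * L ^ (1 / 4 : ℝ) := by
            rw [show (L * L) = L ^ (2 : ℝ) by rw [Real.rpow_two]; ring, ← Real.rpow_add hL0]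
            norm_num
          have h21 : (120 : ℝ) ≤ L ^ (1 / 4 : ℝ) := by
            have h22 : L ^ (9 / 20 : ℝ) = (L ^ (1 / 4 : ℝ)) ^ (9 / 5 : ℝ) := by
              rw [← Real.rpow_mul hL0.le]; norm_num
            by_contra hcon
            rw [not_le] at hcon
            rw [Real.rpow_zero, mul_one] at hbig
            have h23 : L ^ (9 / 20 : ℝ) ≤ (120 : ℝ) ^ (9 / 5 : ℝ) := by
              rw [h22]; exact Real.rpow_le_rpow (by positivity) hcon.le (by norm_num)
            have h24 : (120 : ℝ) ^ (9 / 5 : ℝ) ≤ (120 : ℝ) ^ (2 : ℝ) :=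
              Real.rpow_le_rpow_of_exponent_le (by norm_num) (by norm_num)
            norm_num at h24
            linarith
          rw [h20]
          exact mul_le_mul_of_nonneg_left h21 (by positivity)
        rw [h18] at h17
        norm_num [Nat.factorial] at h17
        have h25 : 802 / δ * L ≤ L * L := mul_le_mul_of_nonneg_right h13 hL0.le
        linarith
      have h26 : 1 ≤ δ / 2 / (401 * L) * Real.exp (eta x * Δ) := by
        have h27 := mul_le_mul_of_nonneg_left h12 (show 0 ≤ δ / 2 / (401 * L) by positivity)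
        have e : δ / 2 / (401 * L) * (802 / δ * L) = 1 := by field_simp; norm_num
        linarith
      calc Real.log x = Real.log x * 1 := (mul_one _).symm
        _ ≤ _ := by rw [mul_assoc]; exact mul_le_mul_of_nonneg_left h26 hlogx.le
    have hq0 : (q0 : ℝ) ≤ Real.exp T :=
      (Real.log_le_iff_le_exp (by exact_mod_cast hp.pos)).1 (h8.trans h9)
    refine le_trans ?_ hq0
    exact_mod_cast (Nat.sub_le q 1).trans hle
  have hprod : (((qs.map (fun q => q - 1)).prod : ℕ) : ℝ) ≤ Real.exp T ^ qs.length := by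
    clear hw hc hs
    induction qs with
    | nil => simp
    | cons a l ih =>
      rw [List.map_cons, List.prod_cons, Nat.cast_mul, List.length_cons, pow_succ']
      exact mul_le_mul (hq a List.mem_cons_self)
        (ih fun q h => hq q (List.mem_cons_of_mem _ h)) (Nat.cast_nonneg _) (Real.exp_pos _).le
  have hlen : (qs.length : ℝ) * T ≤ δ / 2 * Real.log x := by
    have h1 : (qs.length : ℝ) ≤ 401 * L := by
      calc (qs.length : ℝ) ≤ maxLen x := by exact_mod_cast hc.short
        _ ≤ 401 * L ^ (3 / 50 : ℝ) := hN'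
        _ ≤ 401 * L := by linarith
    calc (qs.length : ℝ) * T ≤ 401 * L * T := by gcongr
      _ = δ / 2 * Real.log x := by simp only [T]; field_simp
  rw [confValue, Nat.cast_mul]
  refine (mul_le_mul hprod hm (Nat.cast_nonneg _) (by positivity)).trans ?_
  rw [← Real.exp_nat_mul, ← Real.exp_add, Real.rpow_def_of_pos (by linarith)]
  refine Real.exp_le_exp.2 ?_
  linarith

end Vale.Agent.P031
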