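import Vale.Agent.P028.Arith

/-!
# P031: an upper bound sieve for primes with prime linear forms

For a finite set `F` of one or two multipliers the number of primes `R ≤ X` with all `a R + 1`
prime is `O(X (M / log X) ^ (|F| + 1))`, where `M` is the product of `p / (p - 1)` over the
primes dividing the discriminant.  The proof is Selberg's with crude remainder bounds.
-/

namespace Vale.Agent.P031.Selberg

open Finset ArithmeticFunction
open scoped ArithmeticFunction.Moebius ArithmeticFunction.Omega Pointwise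

/-- `κ ^ Ω(n) / n`. -/
noncomputable def omegaWeight (κ : ℝ) (n : ℕ) : ℝ := κ ^ Ω n / n

theorem omegaWeight_nonneg {κ : ℝ} (hκ : 0 ≤ κ) (n : ℕ) : 0 ≤ omegaWeight κ n :=
  div_nonneg (pow_nonneg hκ _) (Nat.cast_nonneg n)

/-- `κ ^ Ω(n) / n` as a homomorphism. -/
noncomputable def omegaHom (κ : ℝ) : ℕ →* ℝ where
  toFun := omegaWeight κ
  map_one' := by simp [omegaWeight]
  map_mul' := fun a b => by
    rcases eq_or_ne a 0 with rfl | ha
    · simp [omegaWeight]
    rcases eq_or_ne b 0 with rfl | hb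
    · simp [omegaWeight]
    rw [omegaWeight, omegaWeight, omegaWeight, cardFactors_mul ha hb, pow_add, Nat.cast_mul,
      mul_div_mul_comm]

theorem omegaHom_apply (κ : ℝ) (n : ℕ) : omegaHom κ n = omegaWeight κ n := rfl

theorem omegaWeight_prime (κ : ℝ) {p : ℕ} (hp : p.Prime) : omegaWeight κ p = κ / p := by
  rw [omegaWeight, cardFactors_apply_prime hp, pow_one]

/-- A finite sum of `κ ^ Ω(n) / n` over `P`-factored numbers is at most the Euler product. -/
theorem omegaWeight_euler {κ : ℝ} (hκ : 0 ≤ κ) (P T : Finset ℕ)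
    (hP : ∀ p ∈ P, p.Prime ∧ κ < p) (hT : ∀ n ∈ T, 0 < n ∧ n.primeFactors ⊆ P) :
    ∑ n ∈ T, omegaWeight κ n ≤ ∏ p ∈ P, (1 - κ / p)⁻¹ := by
  classical
  let χ : ℕ → ℝ := fun p => if p ∈ P then κ else 0
  let f : ℕ →* ℝ :=
    { toFun := fun n => (n.primeFactorsList.map χ).prod / n
      map_one' := by simp
      map_mul' := fun a b => by
        rcases eq_or_ne a 0 with rfl | ha
        · simp
        rcases eq_or_ne b 0 with rfl | hb
        · simp
        rw [((Nat.perm_primeFactorsList_mul ha hb).map χ).prod_eq, List.map_append,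
          List.prod_append, Nat.cast_mul, mul_div_mul_comm] }
  have hfp : ∀ p : ℕ, p.Prime → f p = χ p / p := fun p hp => by
    show (p.primeFactorsList.map χ).prod / (p : ℝ) = _
    simp [Nat.primeFactorsList_prime hp]
  have hlt : ∀ {p : ℕ}, p.Prime → ‖f p‖ < 1 := fun {p} hp => by
    rw [hfp p hp]
    simp only [χ]
    split
    · rw [Real.norm_eq_abs, abs_of_nonneg (by positivity), div_lt_one (by exact_mod_cast hp.pos)]
      exact (hP p (by assumption)).2
    · simp
  obtain ⟨-, hs⟩ := EulerProduct.summable_and_hasSum_factoredNumbers_prod_filter_prime_geometric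
    (f := f) hlt P
  have hnn : ∀ n, 0 ≤ f n := fun n => by
    refine div_nonneg (List.prod_nonneg fun y hy => ?_) (Nat.cast_nonneg n)
    obtain ⟨r, -, rfl⟩ := List.mem_map.mp hy
    simp only [χ]
    split <;> [exact hκ; exact le_rfl]
  have hmem : ∀ n ∈ T, n ∈ Nat.factoredNumbers P := fun n hn =>
    Nat.mem_factoredNumbers_of_primeFactors_subset (hT n hn).1.ne' (hT n hn).2
  have h := sum_le_hasSum (T.subtype (· ∈ Nat.factoredNumbers P)) (fun m _ => hnn m) hs
  rw [sum_subtype_eq_sum_filter, filter_true_of_mem hmem,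
    filter_true_of_mem fun p hp => (hP p hp).1] at h
  refine (le_of_eq ?_).trans (h.trans (le_of_eq ?_))
  · refine sum_congr rfl fun n hn => ?_
    show omegaWeight κ n = (n.primeFactorsList.map χ).prod / n
    have e : n.primeFactorsList.map χ = n.primeFactorsList.map fun _ => κ :=
      List.map_congr_left fun r hr => if_pos ((hT n hn).2 (List.mem_toFinset.mpr hr))
    rw [e, List.map_const', List.prod_replicate, omegaWeight, cardFactors_apply]
  · exact prod_congr rfl fun p hp => by rw [hfp p (hP p hp).1]; simp [χ, hp]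

/-- `∑_{a ∣ n} j ^ Ω(a) ≤ (j + 1) ^ Ω(n)`. -/
theorem sum_divisors_pow_le {j : ℝ} (hj : 0 ≤ j) : ∀ n : ℕ, 0 < n →
    ∑ a ∈ n.divisors, j ^ Ω a ≤ (j + 1) ^ Ω n := by
  intro n
  induction n using Nat.recOnMul with
  | zero => intro h; exact absurd h (lt_irrefl 0)
  | one => intro _; simp
  | prime p hp =>
    intro _
    rw [Nat.Prime.divisors hp, sum_pair hp.one_lt.ne, cardFactors_apply_prime hp]
    simp [add_comm]
  | mul a b iha ihb =>
    intro hab
    obtain ⟨ha, hb⟩ := CanonicallyOrderedAdd.mul_pos.mp hab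
    rw [Nat.divisors_mul, cardFactors_mul ha.ne' hb.ne', pow_add]
    refine le_trans ?_ (mul_le_mul (iha ha) (ihb hb) (sum_nonneg fun _ _ => pow_nonneg hj _)
      (pow_nonneg (by linarith) _))
    rw [sum_mul_sum, ← sum_product']
    refine le_trans (sum_le_sum_of_subset_of_nonneg (s := a.divisors * b.divisors)
      (t := (a.divisors ×ˢ b.divisors).image (fun q => q.1 * q.2)) (fun d hd => ?_)
      fun _ _ _ => pow_nonneg hj _) (le_trans (sum_image_le_of_nonneg fun _ _ => pow_nonneg hj _) ?_)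
    · obtain ⟨u, hu, v, hv, rfl⟩ := Finset.mem_mul.mp hd
      exact mem_image.mpr ⟨(u, v), mem_product.mpr ⟨hu, hv⟩, rfl⟩
    · refine le_of_eq (sum_congr rfl fun q hq => ?_)
      obtain ⟨h1, h2⟩ := mem_product.mp hq
      rw [cardFactors_mul (Nat.pos_of_mem_divisors h1).ne' (Nat.pos_of_mem_divisors h2).ne',
        pow_add]

/-- The numbers `1 ≤ n ≤ N` coprime to the bad primes. -/
def goodUpTo (E N : ℕ) : Finset ℕ :=
  (Icc 1 N).filter (fun n => ∀ p ∈ n.primeFactors, ¬ p ∣ E)

theorem pow_goodSum_le (E y : ℕ) : ∀ j : ℕ,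
    (∑ a ∈ goodUpTo E y, (1 : ℝ) / a) ^ j ≤ ∑ n ∈ goodUpTo E (y ^ j), omegaWeight (j : ℝ) n := by
  intro j
  induction j with
  | zero =>
    have h1 : 1 ∈ goodUpTo E (y ^ 0) := by simp [goodUpTo]
    refine le_trans ?_ (single_le_sum (fun n _ => omegaWeight_nonneg (by simp) n) h1)
    simp [omegaWeight]
  | succ j ih =>
    rw [pow_succ]
    refine (mul_le_mul_of_nonneg_right ih (sum_nonneg fun _ _ => by positivity)).trans ?_
    rw [sum_mul_sum, ← sum_product']
    set T := goodUpTo E (y ^ j) ×ˢ goodUpTo E y with hT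
    have hmaps : ∀ q ∈ T, q.1 * q.2 ∈ goodUpTo E (y ^ (j + 1)) := by
      intro q hq
      obtain ⟨h1, h2⟩ := mem_product.mp hq
      simp only [goodUpTo, mem_filter, mem_Icc] at h1 h2 ⊢
      refine ⟨⟨one_le_mul h1.1.1 h2.1.1, ?_⟩, fun p hp => ?_⟩
      · rw [pow_succ]; exact Nat.mul_le_mul h1.1.2 h2.1.2
      · rw [Nat.primeFactors_mul (by omega) (by omega), mem_union] at hp
        exact hp.elim (h1.2 p) (h2.2 p)
    rw [← sum_fiberwise_of_maps_to hmaps]
    refine sum_le_sum fun n hn => ?_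
    have hn0 : 0 < n := (mem_Icc.mp (mem_filter.mp hn).1).1
    have e : ∀ q ∈ T.filter (fun q => q.1 * q.2 = n),
        omegaWeight (j : ℝ) q.1 * (1 / (q.2 : ℝ)) = (j : ℝ) ^ Ω q.1 / n := by
      intro q hq
      rw [omegaWeight, ← (mem_filter.mp hq).2, Nat.cast_mul, div_mul_div_comm, mul_one]
    rw [sum_congr rfl e, ← sum_div, omegaWeight]
    refine div_le_div_of_nonneg_right ?_ (Nat.cast_nonneg n)
    have hinj : Set.InjOn Prod.fst (T.filter (fun q => q.1 * q.2 = n) : Set (ℕ × ℕ)) := by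
      intro q hq q' hq' h
      simp only [coe_filter, Set.mem_ofPred_eq] at hq hq'
      have h1 : 0 < q.1 := (mem_Icc.mp (mem_filter.mp (mem_product.mp hq.1).1).1).1
      refine Prod.ext h (Nat.eq_of_mul_eq_mul_left h1 ?_)
      have h2 := hq'.2
      rw [← h] at h2
      rw [hq.2, h2]
    rw [← sum_image (f := fun a => (j : ℝ) ^ Ω a) hinj, Nat.cast_succ]
    refine le_trans (sum_le_sum_of_subset_of_nonneg (fun a ha => ?_) fun _ _ _ => by positivity)
      (sum_divisors_pow_le (Nat.cast_nonneg j) n hn0)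
    obtain ⟨q, hq, rfl⟩ := mem_image.mp ha
    exact Nat.mem_divisors.mpr ⟨(mem_filter.mp hq).2 ▸ dvd_mul_right _ _, hn0.ne'⟩

theorem prod_primeFactors_pow_le (n : ℕ) : ∀ (k : ℕ), k ≤ 16 → 0 < n →
    k ^ n.primeFactors.card ≤ n ^ 4 := by
  intro k hk hn
  calc k ^ n.primeFactors.card ≤ 16 ^ n.primeFactors.card := Nat.pow_le_pow_left hk _
    _ = ∏ _p ∈ n.primeFactors, 2 ^ 4 := by simp
    _ ≤ ∏ p ∈ n.primeFactors, p ^ 4 := prod_le_prod' fun p hp =>
        Nat.pow_le_pow_left (Nat.prime_of_mem_primeFactors hp).two_le 4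
    _ = (∏ p ∈ n.primeFactors, p) ^ 4 := prod_pow _ _ _
    _ ≤ n ^ 4 := Nat.pow_le_pow_left (Nat.le_of_dvd hn (Nat.prod_primeFactors_dvd n)) 4

/-- The value of the polynomial `n ∏ (a n + 1)`. -/
def formVal (F : Finset ℕ) (n : ℕ) : ℕ := n * ∏ a ∈ F, (a * n + 1)

theorem formVal_strictMono (F : Finset ℕ) : StrictMono (formVal F) := by
  intro m n h
  refine Nat.mul_lt_mul_of_lt_of_le h (prod_le_prod' fun a _ => ?_) (prod_pos fun a _ => by omega)
  have := Nat.mul_le_mul_left a h.le
  omega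

/-- The discriminant. -/
def discr (F : Finset ℕ) : ℕ :=
  6 * (∏ a ∈ F, a) * ∏ q ∈ (F ×ˢ F).filter (fun q => q.1 < q.2), (q.2 - q.1)

theorem discr_pos {F : Finset ℕ} (hF : ∀ a ∈ F, 0 < a) : 0 < discr F := by
  refine Nat.mul_pos (Nat.mul_pos (by norm_num) (prod_pos hF)) (prod_pos fun q hq => ?_)
  have := (mem_filter.mp hq).2
  omega

theorem formVal_modEq (F : Finset ℕ) {d m n : ℕ} (h : m ≡ n [MOD d]) :
    formVal F m ≡ formVal F n [MOD d] := by
  classical
  refine Nat.ModEq.mul h ?_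
  induction F using Finset.induction with
  | empty => rfl
  | insert a s ha ih =>
    rw [prod_insert ha, prod_insert ha]
    exact ((h.mul_left a).add_right 1).mul ih

/-- The residues `r < d` with `d ∣ formVal F r`. -/
def formRoots (F : Finset ℕ) (d : ℕ) : Finset ℕ :=
  (range d).filter (fun r => d ∣ formVal F r)

theorem mem_formRoots_iff (F : Finset ℕ) {d n : ℕ} (hd : 0 < d) :
    n % d ∈ formRoots F d ↔ d ∣ formVal F n := by
  have h := formVal_modEq F (Nat.mod_modEq n d)
  simp only [formRoots, mem_filter, mem_range, Nat.mod_lt n hd, true_and]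
  exact h.dvd_iff dvd_rfl

theorem card_formRoots_mul (F : Finset ℕ) {p d : ℕ} (hp : 0 < p) (hd : 0 < d)
    (hpd : Nat.Coprime p d) :
    (formRoots F (p * d)).card = (formRoots F p).card * (formRoots F d).card := by
  rw [← card_product]
  refine card_bij (fun r _ => (r % p, r % d)) (fun r hr => ?_) (fun r hr r' hr' h => ?_)
    (fun q hq => ?_)
  · have h := (mem_filter.mp hr).2
    exact mem_product.mpr ⟨(mem_formRoots_iff F hp).mpr (dvd_trans (dvd_mul_right p d) h),
      (mem_formRoots_iff F hd).mpr (dvd_trans (dvd_mul_left d p) h)⟩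
  · simp only [Prod.mk.injEq] at h
    have h1 : r ≡ r' [MOD p * d] := (Nat.modEq_and_modEq_iff_modEq_mul hpd).mp ⟨h.1, h.2⟩
    exact h1.eq_of_lt_of_lt (mem_range.mp (mem_filter.mp hr).1) (mem_range.mp (mem_filter.mp hr').1)
  · obtain ⟨h1, h2⟩ := mem_product.mp hq
    set c := Nat.chineseRemainder hpd q.1 q.2 with hc
    have hlt : (c : ℕ) < p * d := Nat.chineseRemainder_lt_mul hpd _ _ hp.ne' hd.ne'
    have e1 : (c : ℕ) % p = q.1 := by
      rw [c.2.1, Nat.mod_eq_of_lt (mem_range.mp (mem_filter.mp h1).1)]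
    have e2 : (c : ℕ) % d = q.2 := by
      rw [c.2.2, Nat.mod_eq_of_lt (mem_range.mp (mem_filter.mp h2).1)]
    refine ⟨c, mem_filter.mpr ⟨mem_range.mpr hlt, ?_⟩, by simp [e1, e2]⟩
    exact hpd.mul_dvd_of_dvd_of_dvd ((mem_formRoots_iff F hp).mp (by rw [e1]; exact h1))
      ((mem_formRoots_iff F hd).mp (by rw [e2]; exact h2))

theorem card_formRoots_prime (F : Finset ℕ) {p : ℕ} (hp : p.Prime) (hE : ¬ p ∣ discr F) :
    (formRoots F p).card = F.card + 1 := by
  classical
  have := Fact.mk hp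
  have ha : ∀ a ∈ F, (a : ZMod p) ≠ 0 := fun a ha h => hE (dvd_mul_of_dvd_left
    (dvd_mul_of_dvd_right (dvd_trans ((ZMod.natCast_eq_zero_iff _ _).mp h)
      (dvd_prod_of_mem _ ha)) _) _)
  have hne : ∀ a ∈ F, ∀ b ∈ F, a < b → (a : ZMod p) ≠ b := fun a ha b hb hab h => hE (by
    refine dvd_mul_of_dvd_right ?_ _
    refine dvd_trans ?_ (dvd_prod_of_mem (fun q : ℕ × ℕ => q.2 - q.1)
      (mem_filter.mpr ⟨mem_product.mpr ⟨(show (a, b).1 ∈ F from ha), hb⟩, hab⟩))
    rw [← ZMod.natCast_eq_zero_iff, Nat.cast_sub hab.le, h, sub_self])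
  set Z : Finset (ZMod p) := insert 0 (F.image fun a : ℕ => -((a : ZMod p))⁻¹) with hZ
  have hinj : Set.InjOn (fun a : ℕ => -((a : ZMod p))⁻¹) (F : Set ℕ) := by
    intro a ha b hb h
    have h' : (a : ZMod p) = b := inv_injective (neg_injective h)
    rcases lt_trichotomy a b with h1 | h1 | h1
    · exact absurd h' (hne a ha b hb h1)
    · exact h1
    · exact absurd h'.symm (hne b hb a ha h1)
  have hcard : Z.card = F.card + 1 := by
    rw [hZ, card_insert_of_notMem, card_image_of_injOn hinj]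
    intro h
    obtain ⟨a, ha', h'⟩ := mem_image.mp h
    exact ha a ha' (inv_eq_zero.mp (neg_eq_zero.mp h'))
  rw [← hcard]
  have hiff : ∀ r : ℕ, p ∣ formVal F r ↔ (r : ZMod p) ∈ Z := by
    intro r
    rw [← ZMod.natCast_eq_zero_iff, formVal, Nat.cast_mul, Nat.cast_prod, mul_eq_zero,
      prod_eq_zero_iff, hZ, mem_insert, mem_image]
    refine or_congr Iff.rfl ⟨fun ⟨a, haF, h⟩ => ⟨a, haF, ?_⟩, fun ⟨a, haF, h⟩ => ⟨a, haF, ?_⟩⟩
    · push_cast at h
      field_simp [ha a haF]
      linear_combination -h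
    · push_cast
      rw [← h, mul_neg, mul_inv_cancel₀ (ha a haF)]
      ring
  refine card_bij (fun r _ => (r : ZMod p)) (fun r hr => (hiff r).mp (mem_filter.mp hr).2)
    (fun r hr r' hr' h => ?_) (fun b hb => ?_)
  · exact ((ZMod.natCast_eq_natCast_iff r r' p).mp h).eq_of_lt_of_lt
      (mem_range.mp (mem_filter.mp hr).1) (mem_range.mp (mem_filter.mp hr').1)
  · refine ⟨b.val, mem_filter.mpr ⟨mem_range.mpr b.val_lt, (hiff _).mpr ?_⟩, ZMod.natCast_zmod_val b⟩
    rwa [ZMod.natCast_zmod_val]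

theorem card_formRoots_squarefree (F : Finset ℕ) : ∀ (s : Finset ℕ),
    (∀ p ∈ s, p.Prime ∧ ¬ p ∣ discr F) →
    (formRoots F (∏ p ∈ s, p)).card = (F.card + 1) ^ s.card := by
  intro s
  induction s using Finset.induction with
  | empty => intro _; simp [formRoots]
  | insert p s hp ih =>
    intro h
    have hpp := h p (mem_insert_self p s)
    have hs : ∀ q ∈ s, q.Prime ∧ ¬ q ∣ discr F := fun q hq => h q (mem_insert_of_mem hq)
    have hcop : Nat.Coprime p (∏ q ∈ s, q) := Nat.Coprime.prod_right fun q hq =>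
      (Nat.coprime_primes hpp.1 (hs q hq).1).mpr fun e => hp (e ▸ hq)
    rw [prod_insert hp, card_insert_of_notMem hp, card_formRoots_mul F hpp.1.pos
      (prod_pos fun q hq => (hs q hq).1.pos) hcop, card_formRoots_prime F hpp.1 hpp.2, ih hs,
      pow_succ']

/-- Counting multiples in an interval. -/
theorem abs_multiples_sub_le (F : Finset ℕ) {d : ℕ} (hd : 0 < d) (N : ℕ) :
    |((((range N).filter (fun n => d ∣ formVal F n)).card : ℕ) : ℝ)
        - (formRoots F d).card * ((N : ℝ) / d)| ≤ (formRoots F d).card := by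
  have hmaps : ∀ n ∈ (range N).filter (fun n => d ∣ formVal F n), n % d ∈ formRoots F d :=
    fun n hn => (mem_formRoots_iff F hd).mpr (mem_filter.mp hn).2
  rw [card_eq_sum_card_fiberwise hmaps, Nat.cast_sum,
    show ((formRoots F d).card : ℝ) * ((N : ℝ) / d) = ∑ _r ∈ formRoots F d, (N : ℝ) / d by simp,
    ← sum_sub_distrib]
  refine (abs_sum_le_sum_abs _ _).trans ?_
  refine (sum_le_sum (g := fun _ => (1 : ℝ)) fun r hr => ?_).trans (le_of_eq (by simp))
  have hr' : r < d := mem_range.mp (mem_filter.mp hr).1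
  have hset : ((range N).filter (fun n => d ∣ formVal F n)).filter (fun n => n % d = r)
      = (range N).filter (fun n => n % d = r) := by
    ext n
    simp only [mem_filter, mem_range]
    constructor
    · tauto
    · rintro ⟨h1, h2⟩
      exact ⟨⟨h1, (mem_formRoots_iff F hd).mp (h2 ▸ hr)⟩, h2⟩
  rw [hset]
  have hc : ((range N).filter (fun n => n % d = r)).card = Nat.count (fun n => n ≡ r [MOD d]) N := by
    rw [Nat.count_eq_card_filter_range]
    congr 1
    ext n
    simp [Nat.ModEq, Nat.mod_eq_of_lt hr']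
  have hd' : (0 : ℝ) < d := by exact_mod_cast hd
  rw [hc, Nat.count_modEq_card N hd r, Nat.mod_eq_of_lt hr', abs_le]
  have h1 : (N : ℝ) / d = (N / d : ℕ) + ((N % d : ℕ) : ℝ) / d := by
    have h := congrArg (Nat.cast : ℕ → ℝ) (Nat.div_add_mod N d)
    push_cast at h
    field_simp
    linarith
  have h2 : 0 ≤ ((N % d : ℕ) : ℝ) / d := by positivity
  have h3 : ((N % d : ℕ) : ℝ) / d ≤ 1 := by
    rw [div_le_one hd']; exact_mod_cast (Nat.mod_lt N hd).le
  push_cast
  split <;> constructor <;> linarith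

end Vale.Agent.P031.Selberg
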