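import Vale.Agent.P031.SelbergForms

/-!
# P031: Selberg's bound with crude remainders
-/

namespace Vale.Agent.P031.Selberg

open Finset ArithmeticFunction
open scoped ArithmeticFunction.Moebius ArithmeticFunction.Omega

/-- The sifting primes. -/
def siftPrimes (F : Finset ℕ) (z : ℕ) : Finset ℕ :=
  (range (z + 1)).filter (fun p => p.Prime ∧ ¬ p ∣ discr F)

theorem siftPrimes_gt {F : Finset ℕ} (hF : F.card ≤ 2) {z p : ℕ} (h : p ∈ siftPrimes F z) :
    p.Prime ∧ ((F.card + 1 : ℕ) : ℝ) < p := by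
  obtain ⟨-, hp, hd⟩ := mem_filter.mp h
  refine ⟨hp, ?_⟩
  have h2 := hp.two_le
  have : p ≠ 2 ∧ p ≠ 3 := by
    constructor <;> rintro rfl <;> exact hd (dvd_mul_of_dvd_left (dvd_mul_of_dvd_left (by norm_num) _) _)
  exact_mod_cast (show F.card + 1 < p by omega)

theorem sq_prod_siftPrimes (F : Finset ℕ) (z : ℕ) : Squarefree (∏ p ∈ siftPrimes F z, p) := by
  refine Finset.squarefree_prod_of_pairwise_isCoprime ?_ fun p hp => (mem_filter.mp hp).2.1.squarefree
  intro p hp q hq hne
  exact Nat.coprime_iff_isRelPrime.mp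
    ((Nat.coprime_primes (mem_filter.mp hp).2.1 (mem_filter.mp hq).2.1).mpr hne)

theorem primeFactors_prod_siftPrimes (F : Finset ℕ) (z : ℕ) :
    (∏ p ∈ siftPrimes F z, p).primeFactors = siftPrimes F z :=
  Nat.primeFactors_prod fun p hp => (mem_filter.mp hp).2.1

theorem mem_siftPrimes_of_dvd {F : Finset ℕ} {z p : ℕ} (hp : p.Prime)
    (h : p ∣ ∏ p ∈ siftPrimes F z, p) : p ∈ siftPrimes F z := by
  rw [← primeFactors_prod_siftPrimes F z]
  exact Nat.mem_primeFactors.mpr ⟨hp, h, (sq_prod_siftPrimes F z).ne_zero⟩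

/-- The sieve problem for the values of `formVal F` below `N`. -/
noncomputable def formSieve (F : Finset ℕ) (hF : F.card ≤ 2) (z N : ℕ) : BoundingSieve where
  support := (range N).image (formVal F)
  prodPrimes := ∏ p ∈ siftPrimes F z, p
  prodPrimes_squarefree := sq_prod_siftPrimes F z
  weights := fun _ => 1
  weights_nonneg := fun _ => zero_le_one
  totalMass := N
  nu := prodPrimeFactors fun p => ((F.card + 1 : ℕ) : ℝ) / p
  nu_mult := IsMultiplicative.prodPrimeFactors _
  nu_pos_of_prime := fun p hp _ => by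
    rw [ArithmeticFunction.prodPrimeFactors_apply hp.ne_zero, hp.primeFactors, prod_singleton]
    have := hp.pos
    positivity
  nu_lt_one_of_prime := fun p hp hd => by
    rw [ArithmeticFunction.prodPrimeFactors_apply hp.ne_zero, hp.primeFactors, prod_singleton,
      div_lt_one (by exact_mod_cast hp.pos)]
    exact (siftPrimes_gt hF (mem_siftPrimes_of_dvd hp hd)).2

variable {F : Finset ℕ} {hF : F.card ≤ 2} {z N : ℕ}

theorem formSieve_nu {d : ℕ} (hd : d ≠ 0) :
    (formSieve F hF z N).nu d = ∏ p ∈ d.primeFactors, ((F.card + 1 : ℕ) : ℝ) / p :=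
  ArithmeticFunction.prodPrimeFactors_apply hd

theorem primeFactors_subset {d : ℕ} (hd : d ∣ (formSieve F hF z N).prodPrimes) :
    d.primeFactors ⊆ siftPrimes F z := fun p hp =>
  mem_siftPrimes_of_dvd (Nat.prime_of_mem_primeFactors hp)
    ((Nat.dvd_of_mem_primeFactors hp).trans hd)

theorem abs_rem_le {d : ℕ} (hd : d ∣ (formSieve F hF z N).prodPrimes) :
    |(formSieve F hF z N).rem d| ≤ ((F.card + 1 : ℕ) : ℝ) ^ d.primeFactors.card := by
  classical
  have hsq : Squarefree d := Squarefree.squarefree_of_dvd hd (sq_prod_siftPrimes F z)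
  have hd0 : 0 < d := Nat.pos_of_ne_zero hsq.ne_zero
  have hprod : ∏ p ∈ d.primeFactors, p = d := Nat.prod_primeFactors_of_squarefree hsq
  have hρ : (formRoots F d).card = (F.card + 1) ^ d.primeFactors.card := by
    conv_lhs => rw [← hprod]
    exact card_formRoots_squarefree F _ fun p hp => (mem_filter.mp (primeFactors_subset hd hp)).2
  have hnu : (formSieve F hF z N).nu d = ((formRoots F d).card : ℝ) / d := by
    rw [formSieve_nu hd0.ne', prod_div_distrib, prod_const, hρ, Nat.cast_pow, ← Nat.cast_prod, hprod]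
  have hms : (formSieve F hF z N).multSum d
      = (((range N).filter (fun n => d ∣ formVal F n)).card : ℝ) := by
    show (∑ n ∈ (range N).image (formVal F), if d ∣ n then (1 : ℝ) else 0) = _
    rw [sum_image ((formVal_strictMono F).injective.injOn), sum_boole]
  have h := abs_multiples_sub_le F hd0 N
  rw [BoundingSieve.rem, hms, hnu, show (formSieve F hF z N).totalMass = (N : ℝ) from rfl,
    show ((formRoots F d).card : ℝ) / d * N = (formRoots F d).card * ((N : ℝ) / d) by ring]
  refine h.trans (le_of_eq ?_)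
  rw [hρ, Nat.cast_pow]

/-- `∑ g(l)` over sifting divisors up to `z`. -/
noncomputable def selbergSum (F : Finset ℕ) (hF : F.card ≤ 2) (z N : ℕ) : ℝ :=
  ∑ l ∈ (formSieve F hF z N).prodPrimes.divisors.filter (fun l => l ≤ z),
    (formSieve F hF z N).selbergTerms l

theorem selbergSum_ge :
    ∑ n ∈ goodUpTo (discr F) z, omegaWeight ((F.card + 1 : ℕ) : ℝ) n
      ≤ selbergSum F hF z N := by
  classical
  set κ : ℝ := ((F.card + 1 : ℕ) : ℝ) with hκ
  set s := formSieve F hF z N with hs
  have hmaps : ∀ n ∈ goodUpTo (discr F) z,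
      ∏ p ∈ n.primeFactors, p ∈ s.prodPrimes.divisors.filter (fun l => l ≤ z) := by
    intro n hn
    simp only [goodUpTo, mem_filter, mem_Icc] at hn
    refine mem_filter.mpr ⟨Nat.mem_divisors.mpr ⟨?_, s.prodPrimes_squarefree.ne_zero⟩,
      (Nat.le_of_dvd hn.1.1 (Nat.prod_primeFactors_dvd n)).trans hn.1.2⟩
    refine prod_dvd_prod_of_subset _ _ _ fun p hp => mem_filter.mpr
      ⟨mem_range.mpr ?_, Nat.prime_of_mem_primeFactors hp, hn.2 p hp⟩
    have := Nat.le_of_mem_primeFactors hp
    omega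
  rw [← sum_fiberwise_of_maps_to hmaps]
  refine sum_le_sum fun l hl => ?_
  obtain ⟨hld, hlz⟩ := mem_filter.mp hl
  have hdvd := Nat.dvd_of_mem_divisors hld
  have hsql : Squarefree l := Squarefree.squarefree_of_dvd hdvd s.prodPrimes_squarefree
  have hl0 : 0 < l := Nat.pos_of_ne_zero hsql.ne_zero
  set T := (goodUpTo (discr F) z).filter (fun n => ∏ p ∈ n.primeFactors, p = l) with hT
  have hfac : ∀ n ∈ T, l * (n / l) = n := fun n hn =>
    Nat.mul_div_cancel' ((mem_filter.mp hn).2 ▸ Nat.prod_primeFactors_dvd n)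
  have hpos : ∀ n ∈ T, 0 < n := fun n hn =>
    (mem_Icc.mp (mem_filter.mp (mem_filter.mp hn).1).1).1
  rw [BoundingSieve.selbergTerms_apply, formSieve_nu hl0.ne']
  have e : ∀ n ∈ T, omegaWeight κ n = omegaWeight κ l * omegaWeight κ (n / l) := fun n hn => by
    rw [← omegaHom_apply, ← omegaHom_apply, ← omegaHom_apply, ← map_mul, hfac n hn]
  rw [sum_congr rfl e, ← mul_sum]
  have hlw : omegaWeight κ l = ∏ p ∈ l.primeFactors, κ / p := by
    conv_lhs => rw [← Nat.prod_primeFactors_of_squarefree hsql, ← omegaHom_apply, map_prod]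
    exact prod_congr rfl fun p hp => omegaWeight_prime κ (Nat.prime_of_mem_primeFactors hp)
  rw [hlw]
  refine mul_le_mul_of_nonneg_left ?_ (prod_nonneg fun p _ => by positivity)
  have hinj : Set.InjOn (fun n => n / l) (T : Set ℕ) := by
    intro a ha b hb h
    simp only at h
    rw [← hfac a (mem_coe.mp ha), ← hfac b (mem_coe.mp hb), h]
  rw [← sum_image (f := fun m => omegaWeight κ m) hinj]
  refine (omegaWeight_euler (by positivity) l.primeFactors _
    (fun p hp => siftPrimes_gt hF (primeFactors_subset hdvd hp)) fun m hm => ?_).trans ?_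
  · obtain ⟨n, hn, rfl⟩ := mem_image.mp hm
    have hn0 := hpos n hn
    have h1 : 0 < n / l := by
      rcases Nat.eq_zero_or_pos (n / l) with h | h
      · rw [← hfac n hn, h, mul_zero] at hn0; exact absurd hn0 (lt_irrefl 0)
      · exact h
    refine ⟨h1, fun p hp => ?_⟩
    have hpn : p ∈ n.primeFactors := by
      refine Nat.mem_primeFactors.mpr ⟨Nat.prime_of_mem_primeFactors hp, ?_, hn0.ne'⟩
      rw [← hfac n hn]
      exact dvd_mul_of_dvd_right (Nat.dvd_of_mem_primeFactors hp) _
    rw [← (mem_filter.mp hn).2, Nat.primeFactors_prod fun q hq => Nat.prime_of_mem_primeFactors hq]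
    exact hpn
  · refine le_of_eq (prod_congr rfl fun p hp => ?_)
    have hpp := Nat.prime_of_mem_primeFactors hp
    rw [formSieve_nu hpp.ne_zero, hpp.primeFactors, prod_singleton]

theorem selbergSum_pos (hz : 1 ≤ z) : 0 < selbergSum F hF z N := by
  refine lt_of_lt_of_le ?_ selbergSum_ge
  refine sum_pos' (fun n _ => omegaWeight_nonneg (by positivity) n) ⟨1, ?_, ?_⟩
  · simp [goodUpTo, hz]
  · simp [omegaWeight]

/-- The values of the quadratic form's variables. -/
noncomputable def yVal (F : Finset ℕ) (hF : F.card ≤ 2) (z N : ℕ) (l : ℕ) : ℝ :=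
  if l ≤ z then (μ l : ℝ) * (formSieve F hF z N).selbergTerms l / selbergSum F hF z N else 0

/-- The weights. -/
noncomputable def wVal (F : Finset ℕ) (hF : F.card ≤ 2) (z N : ℕ) (d : ℕ) : ℝ :=
  ((formSieve F hF z N).nu d)⁻¹ * ∑ m ∈ (formSieve F hF z N).prodPrimes.divisors,
    if d ∣ m then (μ (m / d) : ℝ) * yVal F hF z N m else 0

theorem sum_moebius_real (n : ℕ) : (∑ e ∈ n.divisors, (μ e : ℝ)) = if n = 1 then 1 else 0 := by
  have h : ∑ e ∈ n.divisors, μ e = if n = 1 then (1 : ℤ) else 0 := by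
    rw [← coe_mul_zeta_apply, moebius_mul_coe_zeta, one_apply]
  have := congrArg (fun t : ℤ => (t : ℝ)) h
  push_cast at this
  exact this

theorem inversion {l : ℕ} (hl : l ∣ (formSieve F hF z N).prodPrimes) :
    (∑ d ∈ (formSieve F hF z N).prodPrimes.divisors,
      if l ∣ d then (formSieve F hF z N).nu d * wVal F hF z N d else 0) = yVal F hF z N l := by
  classical
  set s := formSieve F hF z N with hs
  set P := s.prodPrimes with hP
  have hP0 : P ≠ 0 := s.prodPrimes_squarefree.ne_zero
  have e : ∀ d ∈ P.divisors, (if l ∣ d then s.nu d * wVal F hF z N d else 0)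
      = ∑ m ∈ P.divisors, if l ∣ d ∧ d ∣ m then (μ (m / d) : ℝ) * yVal F hF z N m else 0 := by
    intro d hd
    by_cases h : l ∣ d
    · rw [if_pos h, wVal, ← hs, ← mul_assoc,
        mul_inv_cancel₀ (BoundingSieve.nu_ne_zero (Nat.dvd_of_mem_divisors hd)), one_mul]
      simp [h, hP]
    · simp [h]
  rw [sum_congr rfl e, sum_comm,
    show yVal F hF z N l = ∑ m ∈ P.divisors, if m = l then yVal F hF z N m else 0 by
      rw [sum_ite_eq' _ l, if_pos (Nat.mem_divisors.mpr ⟨hl, hP0⟩)]]
  refine sum_congr rfl fun m hm => ?_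
  rw [← sum_filter]
  have hmP := Nat.dvd_of_mem_divisors hm
  have hm0 : m ≠ 0 := ne_zero_of_dvd_ne_zero hP0 hmP
  by_cases hlm : l ∣ m
  · have hl0 : 0 < l := Nat.pos_of_ne_zero (ne_zero_of_dvd_ne_zero hP0 hl)
    obtain ⟨k, rfl⟩ := hlm
    have hk0 : k ≠ 0 := fun h => hm0 (by rw [h, mul_zero])
    have hset : P.divisors.filter (fun d => l ∣ d ∧ d ∣ l * k) = k.divisors.image (fun e => l * e) := by
      ext d
      simp only [mem_filter, mem_image, Nat.mem_divisors]
      constructor
      · rintro ⟨-, ⟨e, rfl⟩, h2⟩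
        exact ⟨e, ⟨(Nat.mul_dvd_mul_iff_left hl0).mp h2, hk0⟩, rfl⟩
      · rintro ⟨e, ⟨he, -⟩, rfl⟩
        exact ⟨⟨(Nat.mul_dvd_mul_left l he).trans hmP, hP0⟩, dvd_mul_right l e,
          Nat.mul_dvd_mul_left l he⟩
    rw [hset, sum_image (fun a _ b _ h => Nat.eq_of_mul_eq_mul_left hl0 h)]
    have e2 : ∀ e ∈ k.divisors, (μ (l * k / (l * e)) : ℝ) * yVal F hF z N (l * k)
        = (μ (k / e) : ℝ) * yVal F hF z N (l * k) := fun e _ => by
      rw [Nat.mul_div_mul_left _ _ hl0]
    rw [sum_congr rfl e2, ← sum_mul, Nat.sum_div_divisors k (fun e => (μ e : ℝ)), sum_moebius_real]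
    by_cases hk1 : k = 1
    · subst hk1; simp
    · rw [if_neg hk1, zero_mul, if_neg]
      intro h
      exact hk1 (Nat.eq_of_mul_eq_mul_left hl0 (h.trans (mul_one l).symm))
  · rw [filter_false_of_mem (fun d _ h => hlm (h.1.trans h.2)), sum_empty, if_neg]
    rintro rfl
    exact hlm dvd_rfl

theorem wVal_one (hz : 1 ≤ z) : wVal F hF z N 1 = 1 := by
  classical
  set s := formSieve F hF z N with hs
  rw [wVal, ← hs, s.nu_mult.map_one, inv_one, one_mul]
  simp only [one_dvd, if_true, Nat.div_one, yVal]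
  have e : ∀ m ∈ s.prodPrimes.divisors,
      (μ m : ℝ) * (if m ≤ z then (μ m : ℝ) * s.selbergTerms m / selbergSum F hF z N else 0)
      = (if m ≤ z then s.selbergTerms m else 0) / selbergSum F hF z N := by
    intro m hm
    have hsq : Squarefree m :=
      Squarefree.squarefree_of_dvd (Nat.dvd_of_mem_divisors hm) s.prodPrimes_squarefree
    have h1 : (μ m : ℝ) * (μ m : ℝ) = 1 := by
      rw [← pow_two]
      exact_mod_cast moebius_sq_eq_one_of_squarefree hsq
    split
    · rw [← mul_div_assoc, ← mul_assoc, h1, one_mul]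
    · simp
  rw [sum_congr rfl e, ← sum_div, ← sum_filter]
  exact div_self (selbergSum_pos (hF := hF) (N := N) hz).ne'

theorem abs_wVal_le (hz : 1 ≤ z) {d : ℕ} (hd : d ∣ (formSieve F hF z N).prodPrimes) :
    |wVal F hF z N d| ≤ if d ≤ z then (4 : ℝ) ^ d.primeFactors.card else 0 := by
  classical
  set s := formSieve F hF z N with hs
  set S := selbergSum F hF z N with hS
  have hSpos : 0 < S := selbergSum_pos hz
  have hP0 : s.prodPrimes ≠ 0 := s.prodPrimes_squarefree.ne_zero
  have hd0 : 0 < d := Nat.pos_of_ne_zero (ne_zero_of_dvd_ne_zero hP0 hd)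
  rw [wVal, ← hs, abs_mul, abs_inv, abs_of_pos (BoundingSieve.nu_pos_of_dvd_prodPrimes hd)]
  by_cases hdz : d ≤ z
  · rw [if_pos hdz]
    set M := s.prodPrimes.divisors.filter (fun m => d ∣ m ∧ m ≤ z) with hM
    have h1 : |∑ m ∈ s.prodPrimes.divisors,
        if d ∣ m then (μ (m / d) : ℝ) * yVal F hF z N m else 0| ≤ ∑ m ∈ M, s.selbergTerms m / S := by
      refine (abs_sum_le_sum_abs _ _).trans ?_
      rw [hM, sum_filter]
      refine sum_le_sum fun m hm => ?_
      have hg := (BoundingSieve.selbergTerms_pos (Nat.dvd_of_mem_divisors hm) (s := s)).le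
      by_cases h : d ∣ m
      · by_cases h' : m ≤ z
        · rw [if_pos h, if_pos ⟨h, h'⟩, yVal, if_pos h', abs_mul, abs_div, abs_mul,
            abs_of_nonneg hg, abs_of_pos hSpos]
          have hμ : ∀ k : ℕ, |(μ k : ℝ)| ≤ 1 := fun k => by exact_mod_cast abs_moebius_le_one
          calc |(μ (m / d) : ℝ)| * (|(μ m : ℝ)| * s.selbergTerms m / S)
              ≤ 1 * (1 * s.selbergTerms m / S) := by gcongr <;> exact hμ _
            _ = _ := by ring
        · rw [if_pos h, if_neg (fun h'' => h' h''.2), yVal, if_neg h']; simp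
      · rw [if_neg h, if_neg (fun h'' => h h''.1)]; simp
    have hcop : ∀ m ∈ M, Nat.Coprime d (m / d) := by
      intro m hm
      obtain ⟨hm1, hdm, -⟩ := mem_filter.mp hm
      refine Nat.coprime_of_squarefree_mul ?_
      rw [Nat.mul_div_cancel' hdm]
      exact Squarefree.squarefree_of_dvd (Nat.dvd_of_mem_divisors hm1) s.prodPrimes_squarefree
    have h2 : ∑ m ∈ M, s.selbergTerms m ≤ s.selbergTerms d * S := by
      have e : ∀ m ∈ M, s.selbergTerms m = s.selbergTerms d * s.selbergTerms (m / d) := fun m hm => by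
        rw [← BoundingSieve.selbergTerms_isMultiplicative.map_mul_of_coprime (hcop m hm),
          Nat.mul_div_cancel' (mem_filter.mp hm).2.1]
      rw [sum_congr rfl e, ← mul_sum]
      refine mul_le_mul_of_nonneg_left ?_ (BoundingSieve.selbergTerms_pos hd).le
      have hinj : Set.InjOn (fun m => m / d) (M : Set ℕ) := by
        intro a ha b hb h
        simp only at h
        rw [← Nat.mul_div_cancel' (mem_filter.mp (mem_coe.mp ha)).2.1,
          ← Nat.mul_div_cancel' (mem_filter.mp (mem_coe.mp hb)).2.1, h]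
      rw [← sum_image (f := fun e => s.selbergTerms e) hinj, hS, selbergSum, ← hs]
      refine sum_le_sum_of_subset_of_nonneg (fun e he => ?_) fun e he _ =>
        (BoundingSieve.selbergTerms_pos (Nat.dvd_of_mem_divisors (mem_filter.mp he).1)).le
      obtain ⟨m, hm, rfl⟩ := mem_image.mp he
      obtain ⟨hm1, hdm, hmz⟩ := mem_filter.mp hm
      exact mem_filter.mpr ⟨Nat.mem_divisors.mpr
        ⟨(Nat.div_dvd_of_dvd hdm).trans (Nat.dvd_of_mem_divisors hm1), hP0⟩,
        (Nat.div_le_self m d).trans hmz⟩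
    calc (s.nu d)⁻¹ * |_| ≤ (s.nu d)⁻¹ * ∑ m ∈ M, s.selbergTerms m / S :=
          mul_le_mul_of_nonneg_left h1 (inv_nonneg.mpr (BoundingSieve.nu_pos_of_dvd_prodPrimes hd).le)
      _ ≤ (s.nu d)⁻¹ * s.selbergTerms d := by
          refine mul_le_mul_of_nonneg_left ?_
            (inv_nonneg.mpr (BoundingSieve.nu_pos_of_dvd_prodPrimes hd).le)
          rw [← sum_div, div_le_iff₀ hSpos]
          exact h2
      _ = ∏ p ∈ d.primeFactors, (1 - s.nu p)⁻¹ := by
          rw [BoundingSieve.selbergTerms_apply, ← mul_assoc,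
            inv_mul_cancel₀ (BoundingSieve.nu_ne_zero hd), one_mul]
      _ ≤ 4 ^ d.primeFactors.card := by
          rw [← prod_const]
          have hp : ∀ p ∈ d.primeFactors, 0 < 1 - s.nu p ∧ 1 ≤ 4 * (1 - s.nu p) := by
            intro p hp
            have hpp := Nat.prime_of_mem_primeFactors hp
            obtain ⟨-, hgt⟩ := siftPrimes_gt hF (primeFactors_subset hd hp)
            have hgt' : ((F.card + 1 : ℕ) : ℝ) + 1 ≤ p := by
              exact_mod_cast (by exact_mod_cast hgt : F.card + 1 < p)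
            have hpr : (0 : ℝ) < p := by exact_mod_cast hpp.pos
            have h3 : ((F.card + 1 : ℕ) : ℝ) ≤ 3 := by exact_mod_cast (by omega : F.card + 1 ≤ 3)
            rw [hs, formSieve_nu hpp.ne_zero, hpp.primeFactors, prod_singleton, one_sub_div hpr.ne']
            refine ⟨div_pos (by linarith) hpr, ?_⟩
            rw [← mul_div_assoc, one_le_div hpr]
            linarith
          refine prod_le_prod (fun p h => inv_nonneg.mpr (hp p h).1.le) fun p h => ?_
          rw [inv_le_iff_one_le_mul₀ (hp p h).1]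
          exact (hp p h).2
  · rw [if_neg hdz]
    refine le_of_eq ?_
    rw [sum_eq_zero, abs_zero, mul_zero]
    intro m hm
    by_cases h : d ∣ m
    · have hm0 : 0 < m := Nat.pos_of_ne_zero (ne_zero_of_dvd_ne_zero hP0 (Nat.dvd_of_mem_divisors hm))
      have := Nat.le_of_dvd hm0 h
      rw [if_pos h, yVal, if_neg (by omega), mul_zero]
    · rw [if_neg h]

theorem main_le (hz : 1 ≤ z) :
    (formSieve F hF z N).mainSum (BoundingSieve.lambdaSquared (wVal F hF z N))
      = 1 / selbergSum F hF z N := by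
  classical
  set s := formSieve F hF z N with hs
  set S := selbergSum F hF z N with hS
  have hSpos : 0 < S := selbergSum_pos hz
  rw [BoundingSieve.mainSum_lambdaSquared_eq_sum_mul_sum_sq]
  have e : ∀ l ∈ s.prodPrimes.divisors, (s.selbergTerms l)⁻¹ *
      (∑ d ∈ s.prodPrimes.divisors, if l ∣ d then s.nu d * wVal F hF z N d else 0) ^ 2
      = (if l ≤ z then s.selbergTerms l else 0) / S ^ 2 := by
    intro l hl
    have hld := Nat.dvd_of_mem_divisors hl
    rw [inversion hld, yVal]
    have hg := BoundingSieve.selbergTerms_pos hld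
    have h1 : (μ l : ℝ) ^ 2 = 1 := by
      exact_mod_cast moebius_sq_eq_one_of_squarefree
        (Squarefree.squarefree_of_dvd hld s.prodPrimes_squarefree)
    split
    · rw [div_pow, mul_pow, h1, one_mul, ← hs, ← hS, sq (s.selbergTerms l), ← mul_div_assoc,
        ← mul_assoc, inv_mul_cancel₀ hg.ne', one_mul]
    · simp
  rw [sum_congr rfl e, ← sum_div, ← sum_filter,
    show ∑ l ∈ s.prodPrimes.divisors.filter (fun l => l ≤ z), s.selbergTerms l = S from rfl]
  field_simp

theorem err_le (hz : 1 ≤ z) :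
    (formSieve F hF z N).errSum (BoundingSieve.lambdaSquared (wVal F hF z N)) ≤ (z : ℝ) ^ 10 := by
  classical
  set s := formSieve F hF z N with hs
  set P := s.prodPrimes with hP
  set κ : ℝ := ((F.card + 1 : ℕ) : ℝ) with hκ
  have hP0 : P ≠ 0 := s.prodPrimes_squarefree.ne_zero
  set w := wVal F hF z N with hw
  have hκ1 : 1 ≤ κ := by rw [hκ]; exact_mod_cast (by omega : 1 ≤ F.card + 1)
  have h1 : s.errSum (BoundingSieve.lambdaSquared w) ≤ ∑ d ∈ P.divisors, ∑ d1 ∈ P.divisors,
      ∑ d2 ∈ P.divisors, if d = d1.lcm d2 then |w d1| * |w d2| * |s.rem d| else 0 := by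
    refine sum_le_sum fun d hd => ?_
    have hsub : d.divisors ⊆ P.divisors := Nat.divisors_subset_of_dvd hP0 (Nat.dvd_of_mem_divisors hd)
    rw [BoundingSieve.lambdaSquared]
    refine (mul_le_mul_of_nonneg_right (abs_sum_le_sum_abs _ _) (abs_nonneg _)).trans ?_
    rw [sum_mul]
    refine le_trans (sum_le_sum fun d1 _ => ?_)
      (sum_le_sum_of_subset_of_nonneg hsub fun _ _ _ => sum_nonneg fun _ _ => by split <;> positivity)
    refine (mul_le_mul_of_nonneg_right (abs_sum_le_sum_abs _ _) (abs_nonneg _)).trans ?_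
    rw [sum_mul]
    refine le_trans (sum_le_sum fun d2 _ => ?_)
      (sum_le_sum_of_subset_of_nonneg hsub fun _ _ _ => by split <;> positivity)
    split
    · rw [abs_mul]
    · simp
  refine h1.trans ?_
  rw [sum_comm]
  have e : ∀ d1 ∈ P.divisors, ∑ d ∈ P.divisors, ∑ d2 ∈ P.divisors,
      (if d = d1.lcm d2 then |w d1| * |w d2| * |s.rem d| else 0)
      ≤ ∑ d2 ∈ P.divisors, ((|w d1| * κ ^ d1.primeFactors.card) * (|w d2| * κ ^ d2.primeFactors.card)) := by
    intro d1 hd1
    rw [sum_comm]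
    refine sum_le_sum fun d2 hd2 => ?_
    have hl : d1.lcm d2 ∣ P :=
      Nat.lcm_dvd (Nat.dvd_of_mem_divisors hd1) (Nat.dvd_of_mem_divisors hd2)
    rw [sum_ite_eq' _ (d1.lcm d2), if_pos (Nat.mem_divisors.mpr ⟨hl, hP0⟩),
      mul_mul_mul_comm, ← pow_add]
    refine mul_le_mul_of_nonneg_left ((abs_rem_le hl).trans (pow_le_pow_right₀ hκ1 ?_)) (by positivity)
    have d10 := ne_zero_of_dvd_ne_zero hP0 (Nat.dvd_of_mem_divisors hd1)
    have d20 := ne_zero_of_dvd_ne_zero hP0 (Nat.dvd_of_mem_divisors hd2)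
    refine le_trans (card_le_card ?_) (card_union_le _ _)
    rw [← Nat.primeFactors_mul d10 d20]
    exact Nat.primeFactors_mono (Nat.lcm_dvd_mul _ _) (mul_ne_zero d10 d20)
  refine (sum_le_sum e).trans ?_
  rw [← sum_mul_sum]
  have h3 : ∑ d ∈ P.divisors, |w d| * κ ^ d.primeFactors.card ≤ (z : ℝ) ^ 5 := by
    calc ∑ d ∈ P.divisors, |w d| * κ ^ d.primeFactors.card
        ≤ ∑ d ∈ P.divisors, if d ≤ z then (z : ℝ) ^ 4 else 0 := by
          refine sum_le_sum fun d hd => ?_
          have hdd := Nat.dvd_of_mem_divisors hd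
          refine (mul_le_mul_of_nonneg_right (abs_wVal_le hz hdd) (by positivity)).trans ?_
          by_cases hdz : d ≤ z
          · rw [if_pos hdz, if_pos hdz, ← mul_pow, hκ]
            have h4 := prod_primeFactors_pow_le d (4 * (F.card + 1)) (by omega)
              (Nat.pos_of_ne_zero (ne_zero_of_dvd_ne_zero hP0 hdd))
            have h5 : (4 * (F.card + 1)) ^ d.primeFactors.card ≤ z ^ 4 :=
              h4.trans (Nat.pow_le_pow_left hdz 4)
            exact_mod_cast h5
          · rw [if_neg hdz, if_neg hdz, zero_mul]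
      _ = ((P.divisors.filter (fun d => d ≤ z)).card : ℝ) * (z : ℝ) ^ 4 := by
          rw [← sum_filter, sum_const, nsmul_eq_mul]
      _ ≤ (z : ℝ) * (z : ℝ) ^ 4 := by
          refine mul_le_mul_of_nonneg_right ?_ (by positivity)
          have : (P.divisors.filter (fun d => d ≤ z)).card ≤ z := by
            refine (card_le_card (t := Icc 1 z) fun d hd => ?_).trans (by simp)
            exact mem_Icc.mpr ⟨Nat.pos_of_mem_divisors (mem_filter.mp hd).1, (mem_filter.mp hd).2⟩
          exact_mod_cast this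
      _ = (z : ℝ) ^ 5 := by ring
  calc _ ≤ (z : ℝ) ^ 5 * (z : ℝ) ^ 5 :=
        mul_le_mul h3 h3 (sum_nonneg fun _ _ => by positivity) (by positivity)
    _ = _ := by ring

/-- Selberg's bound for the prime forms. -/
theorem card_prime_forms_le (hF : F.card ≤ 2) (hpos : ∀ a ∈ F, 0 < a) (hz : 1 ≤ z)
    (S : Finset ℕ) (hS : ∀ R ∈ S, R.Prime ∧ (∀ a ∈ F, (a * R + 1).Prime) ∧ R < N) :
    (S.card : ℝ) ≤ z + 1 + (N : ℝ) / selbergSum F hF z N + (z : ℝ) ^ 10 := by
  classical
  set s := formSieve F hF z N with hs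
  have hup := BoundingSieve.siftedSum_le_mainSum_errSum_of_upperMoebius (s := s) _
    (BoundingSieve.upperMoebius_lambdaSquared (wVal F hF z N) (wVal_one hz))
  rw [main_le hz, show s.totalMass = (N : ℝ) from rfl, mul_one_div] at hup
  have hbig : ((S.filter (fun R => z < R)).card : ℝ) ≤ s.siftedSum := by
    show _ ≤ ∑ d ∈ (range N).image (formVal F),
      if Nat.Coprime s.prodPrimes d then (1 : ℝ) else 0
    rw [sum_image ((formVal_strictMono F).injective.injOn), sum_boole]
    refine Nat.cast_le.mpr (card_le_card fun R hR => ?_)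
    obtain ⟨hR1, hR2⟩ := mem_filter.mp hR
    obtain ⟨hp, hforms, hN⟩ := hS R hR1
    refine mem_filter.mpr ⟨mem_range.mpr hN, ?_⟩
    show Nat.Coprime (∏ p ∈ siftPrimes F z, p) (formVal F R)
    refine Nat.Coprime.prod_left fun p hpm => ?_
    obtain ⟨hpz, hpp, -⟩ := mem_filter.mp hpm
    have hpz' : p ≤ z := by have := mem_range.mp hpz; omega
    refine Nat.Coprime.mul_right ((Nat.coprime_primes hpp hp).mpr (by omega))
      (Nat.Coprime.prod_right fun a ha => (Nat.coprime_primes hpp (hforms a ha)).mpr ?_)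
    have : R ≤ a * R := Nat.le_mul_of_pos_left R (hpos a ha)
    omega
  have hsmall : ((S.filter (fun R => ¬ z < R)).card : ℝ) ≤ (z : ℝ) + 1 := by
    have : (S.filter (fun R => ¬ z < R)).card ≤ z + 1 := by
      refine (card_le_card (t := range (z + 1)) fun R hR => ?_).trans (by simp)
      exact mem_range.mpr (by have := (mem_filter.mp hR).2; omega)
    exact_mod_cast this
  have hsplit : (S.card : ℝ)
      = (S.filter (fun R => z < R)).card + (S.filter (fun R => ¬ z < R)).card := by
    exact_mod_cast (card_filter_add_card_filter_not (s := S) (p := fun R => z < R)).symm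
  have := err_le (F := F) (hF := hF) (N := N) hz
  rw [← hs] at this
  linarith

end Vale.Agent.P031.Selberg
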