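import Vale.Agent.P031.Geometry
import Vale.Agent.P031.Pins

/-!
# P031: stability

Two good configurations with one value have the same number of primes above almost every cell, so
their shapes are close.
-/

namespace Vale.Agent.P031

open Finset Filter

/-- Number of prime factors, with multiplicity, in cell `j`. -/
noncomputable def stabCount (x : ℝ) (j n : ℕ) : ℕ :=
  n.primeFactorsList.countP (fun r => decide (cell x r = j))

theorem stabCount_mul {x : ℝ} {j a b : ℕ} (ha : a ≠ 0) (hb : b ≠ 0) :
    stabCount x j (a * b) = stabCount x j a + stabCount x j b := by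
  simp only [stabCount]
  rw [(Nat.perm_primeFactorsList_mul ha hb).countP_eq, List.countP_append]

theorem stabCount_eq_zero {x : ℝ} {j n : ℕ}
    (h : ∀ r : ℕ, r.Prime → r ∣ n → cell x r ≠ j) : stabCount x j n = 0 := by
  simp only [stabCount, List.countP_eq_zero, decide_eq_true_eq]
  exact fun r hr => h r (Nat.prime_of_mem_primeFactorsList hr) (Nat.dvd_of_mem_primeFactorsList hr)

/-- Without big squares, multiplicities do not matter. -/
theorem stabCount_eq_omegaIn {x : ℝ} {j n : ℕ} (hn : n ≠ 0) (hsq : SqOK x n)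
    (hj : halfCell x ≤ j) : stabCount x j n = omegaIn x j n := by
  have hnd : (n.primeFactorsList.filter (fun r => decide (cell x r = j))).Nodup := by
    rw [List.nodup_iff_count_le_one]
    intro r
    by_cases hr : r ∈ n.primeFactorsList.filter (fun r => decide (cell x r = j))
    · rw [List.mem_filter, decide_eq_true_eq] at hr
      have hp := Nat.prime_of_mem_primeFactorsList hr.1
      rw [List.count_filter (by simpa using hr.2), Nat.primeFactorsList_count_eq]
      by_contra hlt
      exact hsq r hp (hr.2 ▸ hj) ((hp.pow_dvd_iff_le_factorization hn).2 (by omega))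
    · simp [List.count_eq_zero.2 hr]
  simp only [stabCount, omegaIn, List.countP_eq_length_filter]
  rw [← List.toFinset_card_of_nodup hnd]
  congr 1
  ext r
  simp

theorem totient_prime_le {n r : ℕ} (hn : 0 < n) (hr : r.Prime) (h : r ∣ n.totient) :
    ∃ p ∈ n.primeFactors, r ≤ p := by
  rw [Nat.totient_eq_prod_factorization hn.ne', Finsupp.prod, Nat.support_factorization] at h
  obtain ⟨p, hp, hd⟩ := (Prime.dvd_finsetProd_iff hr.prime _).1 h
  refine ⟨p, hp, ?_⟩
  have hpp := Nat.prime_of_mem_primeFactors hp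
  rcases hr.dvd_mul.1 hd with hd | hd
  · exact le_of_eq ((Nat.prime_dvd_prime_iff_eq hr hpp).1 (hr.dvd_of_dvd_pow hd))
  · have := Nat.le_of_dvd (by have := hpp.two_le; omega) hd
    omega

theorem SmallPart.ne_zero {x : ℝ} {m : ℕ} (h : SmallPart x m) : m ≠ 0 := by
  obtain ⟨n, hn, rfl, -⟩ := h.isTot
  exact (Nat.totient_pos.2 hn).ne'

theorem SmallPart.cell_le {x : ℝ} (hx : 0 ≤ llx x) {m r : ℕ} (h : SmallPart x m)
    (hr : r.Prime) (hd : r ∣ m) : cell x r ≤ cutCell x := by
  obtain ⟨n, hn, rfl, hs⟩ := h.isTot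
  obtain ⟨p, hp, hrp⟩ := totient_prime_le hn hr hd
  exact (cell_le_cell hx hr.two_le hrp).trans (hs p hp)

theorem confValue_nil (m : ℕ) : confValue [] m = m := by simp [confValue]

theorem confValue_cons (q : ℕ) (qs : List ℕ) (m : ℕ) :
    confValue (q :: qs) m = (q - 1) * confValue qs m := by
  simp [confValue, mul_assoc]

theorem stabCount_confValue {x : ℝ} (hx : 0 ≤ llx x) {j : ℕ} (hj : cutCell x < j) {m : ℕ}
    (hm : SmallPart x m) : ∀ {qs : List ℕ},
    (∀ q ∈ qs, Normal x (cell x q) q) → (∀ q ∈ qs, cell x q ≠ j) →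
    confValue qs m ≠ 0 ∧ |(stabCount x j (confValue qs m) : ℝ) - above x qs j * width x|
      ≤ above x qs j * devBd x := by
  intro qs
  induction qs with
  | nil =>
    intro _ _
    have h0 : stabCount x j m = 0 := stabCount_eq_zero fun r hr hd => by
      have := hm.cell_le hx hr hd
      omega
    simp [confValue_nil, hm.ne_zero, h0, above_nil]
  | cons q qs ih =>
    intro hN hne
    obtain ⟨hv, hb⟩ := ih (fun a ha => hN a (List.mem_cons_of_mem _ ha))
      (fun a ha => hne a (List.mem_cons_of_mem _ ha))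
    have hq := hN q List.mem_cons_self
    have hq2 := hq.prime.two_le
    have hq1 : q - 1 ≠ 0 := by omega
    rw [confValue_cons]
    refine ⟨Nat.mul_ne_zero hq1 hv, ?_⟩
    rw [stabCount_mul hq1 hv, above_cons]
    rcases lt_or_gt_of_ne (hne q List.mem_cons_self) with hlt | hgt
    · have h0 : stabCount x j (q - 1) = 0 := stabCount_eq_zero fun r hr hd => by
        have h1 : r ≤ q - 1 := Nat.le_of_dvd (by omega) hd
        have h2 := cell_le_cell hx hr.two_le (show r ≤ q by omega)
        omega
      simpa [h0, if_neg (not_lt.2 hlt.le)] using hb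
    · have hj' : halfCell x ≤ j := (halfCell_le_cutCell x).trans hj.le
      rw [stabCount_eq_omegaIn hq1 hq.sq hj', if_pos hgt]
      push_cast
      have h1 := abs_le.1 (hq.dev j hj' hgt)
      have h2 := abs_le.1 hb
      rw [abs_le]
      constructor <;> nlinarith

/-- The exceptional cells. -/
noncomputable def stabExcept (x : ℝ) (qs qs' : List ℕ) : Finset ℕ :=
  Finset.range (cutCell x + 1) ∪ ((qs.map (cell x)).toFinset ∪ (qs'.map (cell x)).toFinset)

theorem card_stabExcept_le (x : ℝ) (qs qs' : List ℕ) :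
    (stabExcept x qs qs').card ≤ cutCell x + 1 + (qs.length + qs'.length) := by
  refine (Finset.card_union_le _ _).trans (Nat.add_le_add (by simp) ?_)
  refine (Finset.card_union_le _ _).trans (Nat.add_le_add ?_ ?_) <;>
    exact (List.toFinset_card_le _).trans (by simp)

theorem above_eq_of_not_mem {x : ℝ} (hx : 0 ≤ llx x) {qs qs' : List ℕ} {m m' j : ℕ}
    (hc : IsConf x qs m) (hc' : IsConf x qs' m') (hv : confValue qs m = confValue qs' m')
    (hsmall : ((qs.length : ℝ) + qs'.length) * devBd x < width x)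
    (hj : j ∉ stabExcept x qs qs') : above x qs j = above x qs' j := by
  simp only [stabExcept, Finset.mem_union, Finset.mem_range, List.mem_toFinset, List.mem_map,
    not_or, not_exists, not_and, not_lt] at hj
  obtain ⟨hj0, hj1, hj2⟩ := hj
  have h1 := (stabCount_confValue hx (show cutCell x < j by omega) hc.part hc.normal hj1).2
  have h2 := (stabCount_confValue hx (show cutCell x < j by omega) hc'.part hc'.normal hj2).2
  rw [hv] at h1
  set k := above x qs j with hk
  set k' := above x qs' j with hk'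
  have hkl : (k : ℝ) ≤ qs.length := by exact_mod_cast above_le_length x qs j
  have hkl' : (k' : ℝ) ≤ qs'.length := by exact_mod_cast above_le_length x qs' j
  have hD : 0 ≤ devBd x := Real.rpow_nonneg hx _
  have h1' := abs_le.1 h1
  have h2' := abs_le.1 h2
  have hdiff : |((k : ℝ) - k') * width x| < width x := by
    have h3 : ((k : ℝ) + k') * devBd x ≤ ((qs.length : ℝ) + qs'.length) * devBd x :=
      mul_le_mul_of_nonneg_right (by linarith) hD
    rw [abs_lt]
    constructor <;> nlinarith
  have hw : 0 < width x := lt_of_le_of_lt (abs_nonneg _) hdiff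
  rw [abs_mul, abs_of_pos hw, mul_lt_iff_lt_one_left hw] at hdiff
  by_contra hne
  have : (1 : ℝ) ≤ |(k : ℝ) - k'| := by
    have h4 : (1 : ℤ) ≤ |(k : ℤ) - k'| := Int.one_le_abs (sub_ne_zero.2 (by exact_mod_cast hne))
    exact_mod_cast h4
  linarith

theorem ent_le_mul_log (n : ℕ) : ent n ≤ ((n : ℝ) + 1) * Real.log ((n : ℝ) + 1) := by
  simp [ent]

theorem tailPhi_sub_le {x : ℝ} {d : ℕ} {qs qs' : List ℕ} {N : ℝ}
    (hl : (qs.length : ℝ) ≤ N) (hl' : (qs'.length : ℝ) ≤ N)
    (h : ∀ j, j ∉ stabExcept x qs qs' → above x qs j = above x qs' j) :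
    |tailPhi x d qs - tailPhi x d qs'|
      ≤ ((cutCell x : ℝ) + 1 + 2 * N) * (((d : ℝ) + N + 1) * Real.log ((d : ℝ) + N + 1)) := by
  have hN : 0 ≤ N := le_trans (Nat.cast_nonneg _) hl
  set B : ℝ := ((d : ℝ) + N + 1) * Real.log ((d : ℝ) + N + 1) with hB
  have hB0 : 0 ≤ B := mul_nonneg (by positivity) (Real.log_nonneg (by linarith [d.cast_nonneg (α := ℝ)]))
  have hbd : ∀ (l : List ℕ) (j : ℕ), (l.length : ℝ) ≤ N → ent (d + above x l j) ≤ B := by
    intro l j hln
    refine (ent_le_mul_log _).trans ?_
    have h1 : ((d + above x l j : ℕ) : ℝ) + 1 ≤ (d : ℝ) + N + 1 := by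
      have : (above x l j : ℝ) ≤ l.length := by exact_mod_cast above_le_length x l j
      push_cast
      linarith
    have hp : (1 : ℝ) ≤ ((d + above x l j : ℕ) : ℝ) + 1 :=
      le_add_of_nonneg_left (Nat.cast_nonneg _)
    exact mul_le_mul h1 (Real.log_le_log (by linarith) h1) (Real.log_nonneg hp) (by linarith)
  unfold tailPhi
  rw [← Finset.sum_sub_distrib]
  refine (Finset.abs_sum_le_sum_abs _ _).trans ?_
  have hterm : ∀ j ∈ Finset.Ico (halfCell x) (numCells x),
      |ent (d + above x qs j) - ent d - (ent (d + above x qs' j) - ent d)|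
        ≤ if j ∈ stabExcept x qs qs' then B else 0 := by
    intro j _
    by_cases hj : j ∈ stabExcept x qs qs'
    · rw [if_pos hj, sub_sub_sub_cancel_right]
      have e1 := hbd qs j hl
      have e2 := hbd qs' j hl'
      have e3 := ent_nonneg (d + above x qs j)
      have e4 := ent_nonneg (d + above x qs' j)
      rw [abs_le]
      constructor <;> linarith
    · rw [if_neg hj, h j hj]
      simp
  refine (Finset.sum_le_sum hterm).trans ?_
  rw [← Finset.sum_filter, Finset.sum_const, nsmul_eq_mul]
  refine mul_le_mul_of_nonneg_right ?_ hB0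
  have hcard := (Finset.card_le_card (show (Finset.Ico (halfCell x) (numCells x)).filter
      (fun j => j ∈ stabExcept x qs qs') ⊆ stabExcept x qs qs' from
        fun a ha => (Finset.mem_filter.1 ha).2)).trans (card_stabExcept_le x qs qs')
  have : (((Finset.Ico (halfCell x) (numCells x)).filter
      (fun j => j ∈ stabExcept x qs qs')).card : ℝ) ≤ (cutCell x : ℝ) + 1 + (qs.length + qs'.length) := by
    exact_mod_cast hcard
  linarith

/-- The cell of the first prime, or `j₁` for the empty list. -/
noncomputable def headCell (x : ℝ) : List ℕ → ℕ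
  | [] => halfCell x
  | q :: _ => cell x q

theorem topGap_eq (x : ℝ) (qs : List ℕ) :
    topGap x qs = (numCells x : ℝ) - headCell x qs := by
  cases qs <;> simp [topGap, headCell]

theorem headCell_le {x : ℝ} {qs qs' : List ℕ} (hsh' : Shape x qs')
    (h : ∀ j, j ∉ stabExcept x qs qs' → above x qs j = above x qs' j) :
    headCell x qs ≤ max (cutCell x + 1) (headCell x qs') + (qs.length + qs'.length) := by
  cases qs with
  | nil =>
    have e : headCell x [] = halfCell x := rfl
    have := halfCell_le_cutCell x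
    omega
  | cons q qs =>
    have e : headCell x (q :: qs) = cell x q := rfl
    rw [e]
    set a := max (cutCell x + 1) (headCell x qs') with ha
    have hsub : Finset.Ico a (cell x q)
        ⊆ ((q :: qs).map (cell x)).toFinset ∪ (qs'.map (cell x)).toFinset := by
      intro j hj
      rw [Finset.mem_Ico] at hj
      by_contra hn
      have hnot : j ∉ stabExcept x (q :: qs) qs' := by
        intro hm
        rcases Finset.mem_union.1 hm with h1 | h2
        · rw [Finset.mem_range] at h1
          omega
        · exact hn h2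
      have he := h j hnot
      have h0 : above x qs' j = 0 := by
        refine above_eq_zero fun p hp => ?_
        cases qs' with
        | nil => simp at hp
        | cons p' ps =>
          have e' : headCell x (p' :: ps) = cell x p' := rfl
          rcases List.mem_cons.1 hp with rfl | hp
          · omega
          · have := hsh'.head_ge p hp
            omega
      rw [above_cons, if_pos hj.2, h0] at he
      omega
    have hcard := (Finset.card_le_card hsub).trans (Finset.card_union_le _ _)
    rw [Nat.card_Ico] at hcard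
    have h1 := List.toFinset_card_le ((q :: qs).map (cell x))
    have h2 := List.toFinset_card_le (qs'.map (cell x))
    simp only [List.length_map] at h1 h2
    omega

/-- The parameters leave room. -/
theorem eventually_stability_room (d : ℕ) : ∀ᶠ x : ℝ in atTop, 0 ≤ llx x ∧
    2 * goodLen x * devBd x < width x ∧
    ((cutCell x : ℝ) + 1 + 2 * goodLen x)
      * (((d : ℝ) + goodLen x + 1) * Real.log ((d : ℝ) + goodLen x + 1)) ≤ errBd x ∧
    (cutCell x : ℝ) + 1 + 2 * goodLen x ≤ errBd x := by
  have hlog := (isLittleO_log_rpow_atTop (by norm_num : (0 : ℝ) < 1 / 200)).bound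
    (show (0 : ℝ) < 1 / (12 * (d + 2)) by positivity)
  have hbig := (tendsto_rpow_atTop (by norm_num : (0 : ℝ) < 1 / 200)).eventually_ge_atTop
    (12 * ((d : ℝ) + 2) * (Real.log ((d : ℝ) + 2) + 1) + 6)
  filter_upwards [tendsto_llx.eventually hlog, tendsto_llx.eventually hbig,
    tendsto_llx.eventually_ge_atTop 4] with x hl hb h4
  have hL : (0 : ℝ) < llx x := by linarith
  have hL1 : (1 : ℝ) ≤ llx x := by linarith
  set L := llx x with hLdef
  have hbase : ∀ {a b : ℝ}, a ≤ b → L ^ a ≤ L ^ b := fun h =>
    Real.rpow_le_rpow_of_exponent_le hL1 h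
  have hJ : (numCells x : ℝ) ≤ 2 * L ^ (1 / 5 : ℝ) := by
    have h1 := (Nat.ceil_lt_add_one (Real.rpow_nonneg hL.le (1 / 5 : ℝ))).le
    have h2 : (1 : ℝ) ≤ L ^ (1 / 5 : ℝ) := Real.one_le_rpow hL1 (by norm_num)
    unfold numCells
    rw [← hLdef]
    linarith
  have hJpos : (0 : ℝ) < numCells x :=
    lt_of_lt_of_le (Real.rpow_pos_of_pos hL (1 / 5 : ℝ)) (Nat.le_ceil _)
  have hb6 : (6 : ℝ) ≤ L ^ (1 / 200 : ℝ) := by
    have : 0 ≤ 12 * ((d : ℝ) + 2) * (Real.log ((d : ℝ) + 2) + 1) := by
      have := Real.log_nonneg (show (1 : ℝ) ≤ (d : ℝ) + 2 by linarith [d.cast_nonneg (α := ℝ)])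
      positivity
    linarith
  refine ⟨hL.le, ?_, ?_⟩
  · have h1 : L / (2 * L ^ (1 / 5 : ℝ)) ≤ width x := by
      rw [width, ← hLdef]
      gcongr
    have h2 : 2 * goodLen x * devBd x < L / (2 * L ^ (1 / 5 : ℝ)) := by
      rw [lt_div_iff₀ (by positivity), goodLen, devBd, ← hLdef]
      calc 2 * L ^ (1 / 40 : ℝ) * L ^ (1 / 2 : ℝ) * (2 * L ^ (1 / 5 : ℝ))
          = 4 * L ^ (29 / 40 : ℝ) := by
            rw [show (29 / 40 : ℝ) = 1 / 40 + 1 / 2 + 1 / 5 by norm_num, Real.rpow_add hL,
              Real.rpow_add hL]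
            ring
        _ < L ^ (1 / 200 : ℝ) * L ^ (29 / 40 : ℝ) :=
            mul_lt_mul_of_pos_right (by linarith) (Real.rpow_pos_of_pos hL _)
        _ ≤ L := by
            rw [← Real.rpow_add hL]
            calc L ^ ((1 / 200 : ℝ) + 29 / 40) ≤ L ^ (1 : ℝ) := hbase (by norm_num)
              _ = L := Real.rpow_one L
    linarith
  · have hcut : (cutCell x : ℝ) + 1 + 2 * goodLen x ≤ 6 * L ^ (7 / 50 : ℝ) := by
      have h1 : (cutCell x : ℝ) ≤ (numCells x : ℝ) * L ^ (-(3 / 50) : ℝ) + 1 :=
        (Nat.ceil_lt_add_one (by positivity)).le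
      have h2 : (numCells x : ℝ) * L ^ (-(3 / 50) : ℝ) ≤ 2 * L ^ (7 / 50 : ℝ) := by
        calc (numCells x : ℝ) * L ^ (-(3 / 50) : ℝ)
            ≤ 2 * L ^ (1 / 5 : ℝ) * L ^ (-(3 / 50) : ℝ) :=
              mul_le_mul_of_nonneg_right hJ (Real.rpow_nonneg hL.le _)
          _ = 2 * L ^ (7 / 50 : ℝ) := by
              rw [mul_assoc, ← Real.rpow_add hL]
              norm_num
      have h3 : L ^ (1 / 40 : ℝ) ≤ L ^ (7 / 50 : ℝ) := hbase (by norm_num)
      have h4' : (1 : ℝ) ≤ L ^ (7 / 50 : ℝ) := Real.one_le_rpow hL1 (by norm_num)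
      rw [goodLen, ← hLdef]
      linarith
    have hN : (d : ℝ) + goodLen x + 1 ≤ ((d : ℝ) + 2) * L ^ (1 / 40 : ℝ) := by
      have h1 : (1 : ℝ) ≤ L ^ (1 / 40 : ℝ) := Real.one_le_rpow hL1 (by norm_num)
      rw [goodLen, ← hLdef]
      nlinarith [d.cast_nonneg (α := ℝ)]
    have hlogN : Real.log ((d : ℝ) + goodLen x + 1) ≤ Real.log ((d : ℝ) + 2) + Real.log L := by
      have hp : (0 : ℝ) < (d : ℝ) + goodLen x + 1 := by
        rw [goodLen, ← hLdef]
        positivity
      refine (Real.log_le_log hp hN).trans ?_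
      rw [Real.log_mul (by positivity) (by positivity), Real.log_rpow hL]
      have := Real.log_nonneg hL1
      linarith
    have hl1 : Real.log L ≤ 1 / (12 * ((d : ℝ) + 2)) * L ^ (1 / 200 : ℝ) := by
      simpa [abs_of_nonneg (Real.log_nonneg hL1), abs_of_nonneg (Real.rpow_nonneg hL.le _)]
        using hl
    have hd2 : (0 : ℝ) < (d : ℝ) + 2 := by positivity
    have hmain : 6 * ((d : ℝ) + 2) * (Real.log ((d : ℝ) + 2) + Real.log L) ≤ L ^ (1 / 200 : ℝ) := by
      have h1 : ((d : ℝ) + 2) * Real.log L ≤ L ^ (1 / 200 : ℝ) / 12 := by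
        calc ((d : ℝ) + 2) * Real.log L
            ≤ ((d : ℝ) + 2) * (1 / (12 * ((d : ℝ) + 2)) * L ^ (1 / 200 : ℝ)) :=
              mul_le_mul_of_nonneg_left hl1 hd2.le
          _ = L ^ (1 / 200 : ℝ) / 12 := by field_simp
      linarith
    refine ⟨?_, ?_⟩
    · calc ((cutCell x : ℝ) + 1 + 2 * goodLen x)
            * (((d : ℝ) + goodLen x + 1) * Real.log ((d : ℝ) + goodLen x + 1))
          ≤ 6 * L ^ (7 / 50 : ℝ)
            * (((d : ℝ) + 2) * L ^ (1 / 40 : ℝ) * (Real.log ((d : ℝ) + 2) + Real.log L)) := by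
            have hg : 0 ≤ goodLen x := Real.rpow_nonneg hL.le _
            have hlg : 0 ≤ Real.log ((d : ℝ) + goodLen x + 1) :=
              Real.log_nonneg (by linarith [d.cast_nonneg (α := ℝ)])
            gcongr
        _ = (6 * ((d : ℝ) + 2) * (Real.log ((d : ℝ) + 2) + Real.log L))
            * L ^ (33 / 200 : ℝ) := by
            rw [show (33 / 200 : ℝ) = 7 / 50 + 1 / 40 by norm_num, Real.rpow_add hL]
            ring
        _ ≤ L ^ (1 / 200 : ℝ) * L ^ (33 / 200 : ℝ) :=
            mul_le_mul_of_nonneg_right hmain (Real.rpow_nonneg hL.le _)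
        _ = errBd x := by
            rw [errBd, ← hLdef, ← Real.rpow_add hL]
            norm_num
    · calc (cutCell x : ℝ) + 1 + 2 * goodLen x ≤ 6 * L ^ (7 / 50 : ℝ) := hcut
        _ ≤ L ^ (1 / 200 : ℝ) * L ^ (7 / 50 : ℝ) :=
            mul_le_mul_of_nonneg_right hb6 (Real.rpow_nonneg hL.le _)
        _ ≤ errBd x := by
            rw [errBd, ← hLdef, ← Real.rpow_add hL]
            exact hbase (by norm_num)

/-- Two good configurations with one value have close shapes. -/
theorem stabilityPin : StabilityPin := by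
  intro d
  filter_upwards [eventually_length_le_goodLen, eventually_stability_room d] with x hlen hroom
  obtain ⟨hx, hsmall, herr, herr2⟩ := hroom
  intro qs qs' m m' hc hc' hg hg' hv
  have hl := hlen qs m hc hg
  have hl' := hlen qs' m' hc' hg'
  have hD : 0 ≤ devBd x := Real.rpow_nonneg hx _
  have hsmall' : ((qs.length : ℝ) + qs'.length) * devBd x < width x :=
    lt_of_le_of_lt (mul_le_mul_of_nonneg_right (by linarith) hD) hsmall
  have h : ∀ j, j ∉ stabExcept x qs qs' → above x qs j = above x qs' j :=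
    fun j hj => above_eq_of_not_mem hx hc hc' hv hsmall' hj
  have h' : ∀ j, j ∉ stabExcept x qs' qs → above x qs' j = above x qs j := by
    intro j hj
    refine (h j ?_).symm
    simpa [stabExcept, Finset.union_comm, and_comm] using hj
  refine ⟨(tailPhi_sub_le hl hl' h).trans herr, ?_⟩
  have e1 := headCell_le (hc'.shape hx) h
  have e2 := headCell_le (hc.shape hx) h'
  have b1 : halfCell x ≤ headCell x qs := by
    cases qs with
    | nil => simp [headCell]
    | cons q qs => exact (hc.shape hx).above_half q List.mem_cons_self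
  have b2 : halfCell x ≤ headCell x qs' := by
    cases qs' with
    | nil => simp [headCell]
    | cons q qs' => exact (hc'.shape hx).above_half q List.mem_cons_self
  have e1' : headCell x qs ≤ headCell x qs' + (cutCell x + 1 + (qs.length + qs'.length)) := by
    omega
  have e2' : headCell x qs' ≤ headCell x qs + (cutCell x + 1 + (qs.length + qs'.length)) := by
    omega
  have f1 : (headCell x qs : ℝ)
      ≤ headCell x qs' + ((cutCell x : ℝ) + 1 + (qs.length + qs'.length)) := by exact_mod_cast e1'
  have f2 : (headCell x qs' : ℝ)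
      ≤ headCell x qs + ((cutCell x : ℝ) + 1 + (qs.length + qs'.length)) := by exact_mod_cast e2'
  rw [topGap_eq, topGap_eq, abs_le]
  constructor <;> linarith

end Vale.Agent.P031
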