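import Vale.Agent.P031.UpperExcl

/-!
# P031: the upper bound

Every value up to `Y` is excluded by one of X0-X5 or is `(p - 1) w` with `w` the value of a full
configuration and `p` a prime at most `Y / w + 1`.
-/

namespace Vale.Agent.P031

open Finset Filter

/-- What a preimage outside X0 and X1 gives. -/
structure UpRep (x : ℝ) (p : ℕ) (qs : List ℕ) (m : ℕ) : Prop where
  prime : p.Prime
  p_log : topLog x ≤ Real.log p
  desc : qs.Pairwise (fun a b => b < a)
  big : ∀ q ∈ qs, q ∈ bigPrimes x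
  lt : ∀ q ∈ qs, q < p
  short : qs.length ≤ maxLen x
  m_le : (m : ℝ) ≤ Real.exp (Real.exp (2 * (cutCell x : ℝ) * width x))
  isTot : ∃ n : ℕ, 0 < n ∧ n.totient = m ∧ ∀ r ∈ n.primeFactors, cell x r ≤ cutCell x

theorem log_list_prod_le {t : ℝ} : ∀ {l : List ℕ}, (∀ a ∈ l, 0 < a ∧ Real.log (a : ℝ) ≤ t) →
    0 < l.prod ∧ Real.log (l.prod : ℝ) ≤ l.length * t := by
  intro l
  induction l with
  | nil => intro _; simp
  | cons a l ih =>
    intro h
    obtain ⟨h1, h2⟩ := ih fun b hb => h b (List.mem_cons_of_mem _ hb)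
    obtain ⟨ha, hal⟩ := h a List.mem_cons_self
    refine ⟨by rw [List.prod_cons]; exact Nat.mul_pos ha h1, ?_⟩
    rw [List.prod_cons, Nat.cast_mul,
      Real.log_mul (by exact_mod_cast ha.ne') (by exact_mod_cast h1.ne'), List.length_cons,
      Nat.cast_add, Nat.cast_one]
    linarith

theorem countP_not_mul_le {x : ℝ} :
    ∀ {qs : List ℕ}, (∀ q ∈ qs, q ∈ bigPrimes x) →
    ((qs.countP (fun q => !decide (q ∈ deficient x)) : ℕ) : ℝ)
        * ((1 / 2 : ℝ) * ((cutCell x : ℝ) - halfCell x) * width x)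
      ≤ ((∑ j ∈ Finset.Ico (halfCell x) (cutCell x),
          (qs.map (fun q => omegaIn x j (q - 1))).sum : ℕ) : ℝ) := by
  intro qs
  induction qs with
  | nil => simp
  | cons q qs ih =>
    intro h
    have h' := ih fun a ha => h a (List.mem_cons_of_mem _ ha)
    obtain ⟨hq1, hq2⟩ := mem_filter.1 (h q List.mem_cons_self)
    simp only [List.map_cons, List.sum_cons, sum_add_distrib, List.countP_cons]
    rw [Nat.cast_add, Nat.cast_add]
    by_cases hd : q ∈ deficient x
    · simp only [hd, decide_true, Bool.not_true, Bool.false_eq_true, if_false, Nat.cast_zero,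
        add_zero]
      linarith [(∑ j ∈ Finset.Ico (halfCell x) (cutCell x), omegaIn x j (q - 1)).cast_nonneg
        (α := ℝ)]
    · have h2 : (1 / 2 : ℝ) * ((cutCell x : ℝ) - halfCell x) * width x
          ≤ ((∑ j ∈ Finset.Ico (halfCell x) (cutCell x), omegaIn x j (q - 1) : ℕ) : ℝ) := by
        by_contra hlt
        exact hd (mem_filter.2 ⟨hq1, hq2, not_le.1 hlt⟩)
      simp only [hd, decide_false, Bool.not_false, if_true, Nat.cast_one]
      linarith

theorem small_log_le {x C : ℝ} (hR : UpperRoom x C) {r : ℕ} (hr : r.Prime)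
    (hc : cell x r ≤ cutCell x) : Real.log r ≤ Real.exp (((cutCell x : ℝ) + 1) * width x) :=
  log_le_exp_of_ll_le hr.two_le (ll_lt_of_cell hR.width_pos
    (by have := hR.cut_lt; omega) hc).le

theorem exists_upRep {x c C Y : ℝ} (h : UpperCtx x c C Y) {n : ℕ} (hn : 0 < n)
    (hY : (n.totient : ℝ) ≤ Y) (hbig : Real.exp (Real.exp (llx x) / 2) < (n.totient : ℝ))
    (hsqn : ∀ r : ℕ, r.Prime → cutCell x < cell x r → ¬ r ^ 2 ∣ n)
    (hsm : (bigOmegaSmall x n : ℝ) < 20 * llx x)
    (hdef : ((n.primeFactors.filter (fun q => q ∈ deficient x)).card : ℝ) < (maxLen x : ℝ) / 2)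
    (hSq : SqOK x n.totient) (hom : (n.totient.primeFactors.card : ℝ) < 8 * llx x) :
    ∃ p qs m, UpRep x p qs m ∧ (p - 1) * confValue qs m = n.totient := by
  have hR := h.room
  set lb := n.primeFactorsList.filter (fun r => decide (cutCell x < cell x r)) with hlb
  set ls := n.primeFactorsList.filter (fun r => !decide (cutCell x < cell x r)) with hls
  have hbl : ∀ {r}, r ∈ lb → r.Prime ∧ r ∣ n ∧ cutCell x < cell x r := by
    intro r hr
    rw [hlb, List.mem_filter, decide_eq_true_eq] at hr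
    exact ⟨Nat.prime_of_mem_primeFactorsList hr.1, Nat.dvd_of_mem_primeFactorsList hr.1, hr.2⟩
  have hsl : ∀ {r}, r ∈ ls → r.Prime ∧ r ∣ n ∧ cell x r ≤ cutCell x := by
    intro r hr
    rw [hls, List.mem_filter, Bool.not_eq_true', decide_eq_false_iff_not, not_lt] at hr
    exact ⟨Nat.prime_of_mem_primeFactorsList hr.1, Nat.dvd_of_mem_primeFactorsList hr.1, hr.2⟩
  have hnd : lb.Nodup := by
    rw [List.nodup_iff_count_le_one]
    intro r
    by_cases hr : r ∈ lb
    · obtain ⟨hp, -, hc⟩ := hbl hr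
      rw [hlb, List.count_filter (by simpa using hc), Nat.primeFactorsList_count_eq]
      by_contra hlt
      exact hsqn r hp hc ((hp.pow_dvd_iff_le_factorization hn.ne').2 (by omega))
    · simp [List.count_eq_zero.2 hr]
  have hasc : lb.Pairwise (fun a b => a < b) := by
    have h1 : lb.Pairwise (fun a b => a ≤ b) :=
      List.Pairwise.filter _ (List.sortedLE_iff_pairwise.1 (Nat.primeFactorsList_sorted n))
    exact (h1.and hnd).imp fun {a b} hab => lt_of_le_of_ne hab.1 hab.2
  set Q := lb.reverse with hQ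
  have hQd : Q.Pairwise (fun a b => b < a) := List.pairwise_reverse.2 hasc
  have hQm : ∀ {r}, r ∈ Q → r.Prime ∧ r ∣ n ∧ cutCell x < cell x r :=
    fun hr => hbl (List.mem_reverse.1 hr)
  have hQbig : ∀ q ∈ Q, q ∈ bigPrimes x := by
    intro q hq
    obtain ⟨hp, hd, hc⟩ := hQm hq
    refine mem_filter.2 ⟨h.mem_allPrimes_of_le hp ?_, hc⟩
    exact (Nat.cast_le.2 (Nat.le_of_dvd hn hd)).trans (h.preimage_le hn hY)
  set s := ls.prod with hs
  have hprod : n = Q.prod * s := by
    have hp : (lb ++ ls).Perm n.primeFactorsList :=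
      List.filter_append_perm (fun r => decide (cutCell x < cell x r)) n.primeFactorsList
    rw [hQ, List.prod_reverse, hs, ← List.prod_append, hp.prod_eq,
      Nat.prod_primeFactorsList hn.ne']
  have hlen : ls.length = bigOmegaSmall x n := by
    rw [hls, bigOmegaSmall, List.countP_eq_length_filter]
    congr 1
    refine List.filter_congr fun r _ => ?_
    by_cases hc : cutCell x < cell x r <;> simp [hc, not_le.2]
    omega
  have hslog := log_list_prod_le (t := Real.exp (((cutCell x : ℝ) + 1) * width x))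
    (l := ls) fun a ha => ⟨(hsl ha).1.pos, small_log_le hR (hsl ha).1 (hsl ha).2.2⟩
  have hs0 : 0 < s := hslog.1
  have hsle : Real.log (s : ℝ) ≤ Real.exp (2 * (cutCell x : ℝ) * width x) := by
    refine hslog.2.trans ?_
    rw [hlen]
    refine (mul_le_mul_of_nonneg_right hsm.le (Real.exp_pos _).le).trans ?_
    have hw1 := h.width_one
    have hh : (halfCell x : ℝ) + 3 ≤ (cutCell x : ℝ) - 1 := by
      have h1 : halfCell x + 4 ≤ cutCell x := by
        have := hR.cut_ge
        unfold halfCell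
        omega
      have h2 : (halfCell x : ℝ) + 4 ≤ cutCell x := by exact_mod_cast h1
      linarith
    have h4 : (4 : ℝ) ≤ Real.exp (3 * width x) := by linarith [Real.add_one_le_exp (3 * width x)]
    have h24 : 20 * llx x ≤ Real.exp (((cutCell x : ℝ) - 1) * width x) := by
      refine le_trans ?_ (Real.exp_le_exp.2 (mul_le_mul_of_nonneg_right hh hR.width_pos.le))
      rw [add_mul, Real.exp_add]
      refine le_trans ?_ (mul_le_mul hR.half_huge h4 (by norm_num) (Real.exp_pos _).le)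
      linarith [hR.L_ge]
    calc 20 * llx x * Real.exp (((cutCell x : ℝ) + 1) * width x)
        ≤ Real.exp (((cutCell x : ℝ) - 1) * width x)
            * Real.exp (((cutCell x : ℝ) + 1) * width x) :=
          mul_le_mul_of_nonneg_right h24 (Real.exp_pos _).le
      _ = Real.exp (2 * (cutCell x : ℝ) * width x) := by rw [← Real.exp_add]; ring_nf
  have hsm' : (s.totient : ℝ) ≤ Real.exp (Real.exp (2 * (cutCell x : ℝ) * width x)) := by
    have : (s.totient : ℝ) ≤ s := by exact_mod_cast Nat.totient_le s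
    refine this.trans ?_
    rw [← Real.exp_log (show (0 : ℝ) < s by exact_mod_cast hs0)]
    exact Real.exp_le_exp.2 hsle
  have hsprime : ∀ r : ℕ, r.Prime → r ∣ s → cell x r ≤ cutCell x := by
    intro r hr hd
    obtain ⟨a, ha, hda⟩ := (Prime.dvd_prod_iff hr.prime).1 hd
    rw [(Nat.prime_dvd_prime_iff_eq hr (hsl ha).1).1 hda]
    exact (hsl ha).2.2
  have htot : n.totient = confValue Q s.totient := by
    have := totient_list (s := s) hQd fun q hq =>
      ⟨(hQm hq).1, fun hd => absurd (hsprime q (hQm hq).1 hd) (not_le.2 (hQm hq).2.2)⟩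
    rwa [← hprod] at this
  have hQ2 : ∀ q ∈ Q, 2 ≤ q := fun q hq => (hQm hq).1.two_le
  have hm0 : 0 < s.totient := Nat.totient_pos.2 hs0
  have hQlen : Q.length ≤ maxLen x + 1 := by
    by_contra hlt
    have hdefc : (Q.countP (fun q => decide (q ∈ deficient x)) : ℕ)
        ≤ (n.primeFactors.filter (fun q => q ∈ deficient x)).card := by
      rw [List.countP_eq_length_filter,
        ← List.toFinset_card_of_nodup ((List.nodup_reverse.2 hnd).filter _)]
      refine card_le_card fun r hr => ?_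
      rw [List.mem_toFinset, List.mem_filter, decide_eq_true_eq] at hr
      exact mem_filter.2 ⟨(hQm hr.1).1.mem_primeFactors (hQm hr.1).2.1 hn.ne', hr.2⟩
    have hsum : Q.countP (fun q => decide (q ∈ deficient x))
        + Q.countP (fun q => !decide (q ∈ deficient x)) = Q.length := by
      have := List.length_eq_countP_add_countP (fun q => decide (q ∈ deficient x)) (l := Q)
      simpa using this.symm
    have h1 : (maxLen x : ℝ) / 2 ≤ (Q.countP (fun q => !decide (q ∈ deficient x)) : ℕ) := by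
      have h2 : (maxLen x : ℝ) + 2 ≤ Q.length := by
        exact_mod_cast (show maxLen x + 2 ≤ Q.length by omega)
      have h3 : ((Q.countP (fun q => decide (q ∈ deficient x)) : ℕ) : ℝ) < (maxLen x : ℝ) / 2 :=
        lt_of_le_of_lt (Nat.cast_le.2 hdefc) hdef
      rw [← hsum] at h2
      push_cast at h2
      linarith
    have h4 := countP_not_mul_le hQbig
    have h5 : (∑ j ∈ Finset.Ico (halfCell x) (cutCell x),
        (Q.map (fun q => omegaIn x j (q - 1))).sum) ≤ n.totient.primeFactors.card := by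
      refine le_trans (sum_le_sum fun j hj => ?_)
        (sum_omegaIn_le (x := x) (halfCell x) (cutCell x) n.totient)
      rw [htot, omegaIn_confValue (mem_Ico.1 hj).1 hQ2 hm0 (htot ▸ hSq)]
      exact Nat.le_add_right _ _
    have hG : 0 ≤ (1 / 2 : ℝ) * ((cutCell x : ℝ) - halfCell x) * width x := by
      have := cut_sub_half hR
      have : 0 ≤ (cutCell x : ℝ) - halfCell x := by
        linarith [(cutCell x).cast_nonneg (α := ℝ)]
      have := hR.width_pos
      positivity
    have h6 := (mul_le_mul_of_nonneg_right h1 hG).trans (h4.trans (Nat.cast_le.2 h5))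
    have h7 := half_len_mul hR
    linarith [hR.L_ge]
  have hnlog : Real.exp (llx x) / 2 ≤ Real.log (n : ℝ) := by
    have h1 : (n.totient : ℝ) ≤ n := by exact_mod_cast Nat.totient_le n
    rw [← Real.log_exp (Real.exp (llx x) / 2)]
    exact Real.log_le_log (Real.exp_pos _) (hbig.le.trans h1)
  have hssmall : Real.log (s : ℝ) ≤ Real.exp (llx x) / 100000 := by
    refine hsle.trans ?_
    rw [le_div_iff₀ (by norm_num)]
    refine le_trans ?_ hR.small_part
    exact mul_le_mul_of_nonneg_left (by linarith [hR.L_ge]) (Real.exp_pos _).le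
  have hsplit : Real.log (n : ℝ) = Real.log (Q.prod : ℝ) + Real.log (s : ℝ) := by
    have hQ0 : 0 < Q.prod := Nat.pos_of_ne_zero fun h0 => by
      rw [hprod, h0, zero_mul] at hn
      exact absurd hn (lt_irrefl 0)
    conv_lhs => rw [hprod]
    rw [Nat.cast_mul, Real.log_mul (by exact_mod_cast hQ0.ne') (by exact_mod_cast hs0.ne')]
  cases hQe : Q with
  | nil =>
    rw [hQe] at hsplit
    simp only [List.prod_nil, Nat.cast_one, Real.log_one, zero_add] at hsplit
    linarith [Real.exp_pos (llx x)]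
  | cons p qs =>
    have hpQ : p ∈ Q := by rw [hQe]; exact List.mem_cons_self
    obtain ⟨hpd, hqd⟩ := List.pairwise_cons.1 (hQe ▸ hQd)
    refine ⟨p, qs, s.totient,
      { prime := (hQm hpQ).1
        p_log := ?_
        desc := hqd
        big := fun q hq => hQbig q (by rw [hQe]; exact List.mem_cons_of_mem _ hq)
        lt := hpd
        short := ?_
        m_le := hsm'
        isTot := ⟨s, hs0, rfl, fun r hr => hsprime r (Nat.prime_of_mem_primeFactors hr)
          (Nat.dvd_of_mem_primeFactors hr)⟩ }, ?_⟩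
    · have hl := (log_list_prod_le (t := Real.log (p : ℝ)) (l := Q) fun a ha => by
        refine ⟨(hQm ha).1.pos, Real.log_le_log (by exact_mod_cast (hQm ha).1.pos) ?_⟩
        rw [hQe, List.mem_cons] at ha
        rcases ha with rfl | ha
        · exact le_rfl
        · exact_mod_cast (hpd a ha).le).2
      have hN := len_pos h
      have hlp : 0 ≤ Real.log (p : ℝ) := Real.log_nonneg (by exact_mod_cast (hQm hpQ).1.one_lt.le)
      have hQl : (Q.length : ℝ) ≤ (maxLen x : ℝ) + 1 := by exact_mod_cast hQlen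
      have h1 := mul_le_mul_of_nonneg_right hQl hlp
      have h2 : ((maxLen x : ℝ) + 1) * Real.log p ≤ 3 / 2 * maxLen x * Real.log p :=
        mul_le_mul_of_nonneg_right (by linarith) hlp
      rw [topLog, div_le_iff₀ (by linarith)]
      linarith [Real.exp_pos (llx x)]
    · rw [hQe, List.length_cons] at hQlen
      omega
    · rw [htot, hQe, confValue_cons']

/-- The value of a representation. -/
theorem upRep_facts {x : ℝ} {p : ℕ} {qs : List ℕ} {m : ℕ} (hr : UpRep x p qs m) :
    (∀ q ∈ qs, 2 ≤ q) ∧ qs.Nodup ∧ 0 < m ∧ 0 < p - 1 := by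
  refine ⟨fun q hq => (allPrimes_prime (mem_filter.1 (hr.big q hq)).1).two_le,
    hr.desc.imp fun {a b} h => (Nat.ne_of_lt h).symm, ?_, by have := hr.prime.two_le; omega⟩
  obtain ⟨n, hn, rfl, -⟩ := hr.isTot
  exact Nat.totient_pos.2 hn

theorem mem_prefixes {x : ℝ} {l : List ℕ} (hb : ∀ q ∈ l, q ∈ bigPrimes x)
    (hl : l.length ≤ maxLen x) : l.toFinset ∈ prefixes x :=
  mem_filter.2 ⟨mem_powerset.2 fun q hq => hb q (List.mem_toFinset.1 hq),
    (List.toFinset_card_le l).trans hl⟩

theorem empty_mem_prefixes (x : ℝ) : (∅ : Finset ℕ) ∈ prefixes x := by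
  simp [prefixes]

theorem prime_le_cut_of_dvd {x : ℝ} (hx : 0 ≤ llx x) {m r : ℕ}
    (h : ∃ n : ℕ, 0 < n ∧ n.totient = m ∧ ∀ r ∈ n.primeFactors, cell x r ≤ cutCell x)
    (hr : r.Prime) (hd : r ∣ m) : cell x r ≤ cutCell x := by
  obtain ⟨n, hn, rfl, hs⟩ := h
  rw [Nat.totient_eq_prod_factorization hn.ne', Finsupp.prod, Nat.support_factorization] at hd
  obtain ⟨a, ha, hd⟩ := (Prime.dvd_finsetProd_iff hr.prime _).1 hd
  have hap := Nat.prime_of_mem_primeFactors ha
  refine (cell_le_cell hx hr.two_le ?_).trans (hs a ha)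
  rcases hr.dvd_mul.1 hd with hd | hd
  · exact le_of_eq ((Nat.prime_dvd_prime_iff_eq hr hap).1 (hr.dvd_of_dvd_pow hd))
  · have := Nat.le_of_dvd (by have := hap.two_le; omega) hd
    omega

theorem confValue_lt_valueBd' {x : ℝ} {qs : List ℕ} {m : ℕ}
    (hb : ∀ q ∈ qs, q ∈ bigPrimes x) (hl : qs.length ≤ maxLen x)
    (hle : (m : ℝ) ≤ Real.exp (Real.exp (2 * (cutCell x : ℝ) * width x))) :
    confValue qs m < valueBd x ∧ m < valueBd x := by
  set A := ⌈Real.exp (Real.exp (llx x + 1))⌉₊ with hA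
  set B := ⌈Real.exp (Real.exp (2 * (cutCell x : ℝ) * width x))⌉₊ with hB
  have hA1 : 1 ≤ A := Nat.ceil_pos.2 (Real.exp_pos _)
  have hmB : m ≤ B := Nat.cast_le.1 (hle.trans (Nat.le_ceil _))
  have hprod : ∀ l : List ℕ, (∀ q ∈ l, q ∈ bigPrimes x) →
      (l.map (fun q => q - 1)).prod ≤ A ^ l.length := by
    intro l
    induction l with
    | nil => simp
    | cons q l ih =>
      intro h
      rw [List.map_cons, List.prod_cons, List.length_cons, pow_succ']
      have hq := mem_range.1 (mem_filter.1 (mem_filter.1 (h q List.mem_cons_self)).1).1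
      exact Nat.mul_le_mul (by omega) (ih fun a ha => h a (List.mem_cons_of_mem _ ha))
  have h1 : confValue qs m ≤ A ^ maxLen x * B :=
    Nat.mul_le_mul ((hprod qs hb).trans (Nat.pow_le_pow_right hA1 hl)) hmB
  have h2 : m ≤ A ^ maxLen x * B :=
    hmB.trans (Nat.le_mul_of_pos_left _ (Nat.pow_pos hA1))
  unfold valueBd
  rw [← hA, ← hB]
  omega

/-- `(p - 1) w` is at most `Y`, in the form needed for `primesTo`. -/
theorem top_mul_le {Y : ℝ} {p a b v : ℕ} (hp : 1 ≤ p) (hv : (p - 1) * a * b = v)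
    (hY : (v : ℝ) ≤ Y) : ((p : ℝ) - 1) * ((a : ℝ) * b) ≤ Y := by
  refine le_trans (le_of_eq ?_) hY
  rw [← hv, Nat.cast_mul, Nat.cast_mul, Nat.cast_sub hp, Nat.cast_one, mul_assoc]

/-- The suffix of a level with slack below `-η₁` has a bad profile. -/
theorem badProf_suffix {x c C Y : ℝ} (h : UpperCtx x c C Y) {qs : List ℕ} {m : ℕ}
    (hc : IsConf x qs m) (hsq : SqOK x (confValue qs m)) (hY : (confValue qs m : ℝ) ≤ Y)
    {i : ℕ} (hi : i < qs.length) (hbad : slackAt x qs i < -eta1 x) :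
    confValue (qs.drop i) m ∈ badValues x Y := by
  classical
  have hx : 0 ≤ llx x := by linarith [h.room.L_ge]
  have h2 : ∀ q ∈ qs, 2 ≤ q := fun q hq => (hc.normal q hq).prime.two_le
  have hm : 0 < m := by
    obtain ⟨n, hn, rfl, -⟩ := hc.part.isTot
    exact Nat.totient_pos.2 hn
  have hd2 : ∀ q ∈ qs.drop i, 2 ≤ q := fun q hq => h2 q (List.mem_of_mem_drop hq)
  have hpos := confValue_pos' hd2 hm
  have hdvd : confValue (qs.drop i) m ∣ confValue qs m := by
    conv_rhs => rw [← List.take_append_drop i qs, confValue_append']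
    exact dvd_mul_left _ _
  have hle : confValue (qs.drop i) m ≤ confValue qs m :=
    Nat.le_of_dvd (confValue_pos' h2 hm) hdvd
  have hleY : (confValue (qs.drop i) m : ℝ) ≤ Y := (Nat.cast_le.2 hle).trans hY
  refine mem_filter.2 ⟨mem_range.2 (Nat.lt_succ_of_le (Nat.le_floor hleY)), hpos, ?_⟩
  set q := qs.getD i 0 with hq
  have hqi : q = qs[i] := by rw [hq, List.getD_eq_getElem?_getD, List.getElem?_eq_getElem hi]; rfl
  have hcons : qs.drop i = q :: qs.drop (i + 1) := by rw [hqi, List.drop_eq_getElem_cons hi]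
  have hsh := (hc.shape hx).drop i
  rw [hcons] at hsh
  refine ⟨cell x q, cell_le_numCells x q, above x (qs.drop (i + 1)), fun j => ?_, hbad, ?_, ?_⟩
  · refine (above_le_length _ _ _).trans ?_
    rw [List.length_drop]
    have := hc.short
    omega
  · intro r hr
    have hrp := Nat.prime_of_mem_primeFactors hr
    have hrd := Nat.dvd_of_mem_primeFactors hr
    refine ⟨?_, h.mem_allPrimes_of_le hrp
      (((Nat.cast_le.2 (Nat.le_of_dvd hpos hrd)).trans hleY).trans h.Y_le_preBd)⟩
    rcases prime_dvd_confValue hrp hrd with ⟨a, ha, hda⟩ | hrm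
    · have hale : cell x a ≤ cell x q := by
        rw [hcons, List.mem_cons] at ha
        rcases ha with rfl | ha
        · exact le_rfl
        · exact hsh.head_ge a ha
      have := Nat.le_of_dvd (by have := hd2 a ha; omega) hda
      exact (cell_le_cell hx hrp.two_le (by omega)).trans hale
    · refine (prime_le_cut_of_dvd hx hc.part.isTot hrp hrm).trans ?_
      refine (hc.big q ?_).le
      rw [hqi]
      exact List.getElem_mem hi
  · intro j hj
    obtain ⟨hj1, hj2⟩ := mem_Ico.1 hj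
    have hsum := omegaIn_confValue hj1 hd2 hm (hsq.of_dvd hdvd)
    have hcnt := count_mul_le_sum hj1 (qs := qs.drop i) fun a ha =>
      hc.normal a (List.mem_of_mem_drop ha)
    have hab : (above x (qs.drop i) j : ℝ) = (above x (qs.drop (i + 1)) j : ℝ) + 1 := by
      rw [hcons, above_cons, if_pos hj2]
      push_cast
      rfl
    rw [hab] at hcnt
    rw [hsum, Nat.cast_add]
    nlinarith [(omegaIn x j m).cast_nonneg (α := ℝ),
      (above x (qs.drop (i + 1)) j).cast_nonneg (α := ℝ)]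

/-- Removing a large prime from `p - 1` leaves a bad profile when the top slack is below `-η₁`. -/
theorem badProf_top {x c C Y : ℝ} (h : UpperCtx x c C Y) {p : ℕ} (hp : Normal x (numCells x) p)
    {qs : List ℕ} {m : ℕ} (hc : IsConf x qs m) (hsq : SqOK x ((p - 1) * confValue qs m))
    (hY : (((p - 1) * confValue qs m : ℕ) : ℝ) ≤ Y)
    (hbad : slack x (numCells x) qs < -eta1 x) {R : ℕ} (hR : R.Prime) (hRd : R ∣ p - 1) :
    (p - 1) * confValue qs m / R ∈ badValues x Y := by
  classical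
  have h2 : ∀ q ∈ qs, 2 ≤ q := fun q hq => (hc.normal q hq).prime.two_le
  have hm : 0 < m := by
    obtain ⟨n, hn, rfl, -⟩ := hc.part.isTot
    exact Nat.totient_pos.2 hn
  have hp1 : p - 1 ≠ 0 := by have := hp.prime.two_le; omega
  have hw0 := confValue_pos' h2 hm
  set v := (p - 1) * confValue qs m with hv
  have hv0 : 0 < v := Nat.mul_pos (Nat.pos_of_ne_zero hp1) hw0
  have hRv : R ∣ v := hRd.mul_right _
  have hpos : 0 < v / R := Nat.div_pos (Nat.le_of_dvd hv0 hRv) hR.pos
  have hleY : ((v / R : ℕ) : ℝ) ≤ Y := (Nat.cast_le.2 (Nat.div_le_self v R)).trans hY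
  refine mem_filter.2 ⟨mem_range.2 (Nat.lt_succ_of_le (Nat.le_floor hleY)), hpos, ?_⟩
  refine ⟨numCells x, le_rfl, above x qs, fun j => (above_le_length _ _ _).trans
    (hc.short.trans (Nat.le_succ _)), hbad, ?_, ?_⟩
  · intro r hr
    exact ⟨cell_le_numCells x r, h.mem_allPrimes_of_le (Nat.prime_of_mem_primeFactors hr)
      (((Nat.cast_le.2 (Nat.le_of_dvd hpos (Nat.dvd_of_mem_primeFactors hr))).trans hleY).trans
        h.Y_le_preBd)⟩
  · intro j hj
    obtain ⟨hj1, hj2⟩ := mem_Ico.1 hj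
    have hsum := upper_omegaIn_mul hp1 hw0.ne' hsq hj1
    rw [omegaIn_confValue hj1 h2 hm (hsq.of_dvd (dvd_mul_left _ _))] at hsum
    have hcnt := count_mul_le_sum hj1 (qs := qs) hc.normal
    have htop := (abs_le.1 (hp.dev j hj1 hj2)).1
    have hlose : omegaIn x j v ≤ omegaIn x j (v / R) + 1 := by
      unfold omegaIn
      refine (card_le_card (t := insert R ((v / R).primeFactors.filter
        (fun r => cell x r = j))) fun r hr => ?_).trans (card_insert_le _ _)
      obtain ⟨hr1, hr2⟩ := mem_filter.1 hr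
      rcases eq_or_ne r R with rfl | hne
      · exact mem_insert_self _ _
      · refine mem_insert_of_mem (mem_filter.2 ⟨?_, hr2⟩)
        have hrp := Nat.prime_of_mem_primeFactors hr1
        refine hrp.mem_primeFactors ?_ hpos.ne'
        have hd : r ∣ R * (v / R) := by
          rw [Nat.mul_div_cancel' hRv]
          exact Nat.dvd_of_mem_primeFactors hr1
        exact (hrp.dvd_mul.1 hd).resolve_left fun hd' =>
          hne ((Nat.prime_dvd_prime_iff_eq hrp hR).1 hd')
    have hlose' : (omegaIn x j v : ℝ) ≤ omegaIn x j (v / R) + 1 := by exact_mod_cast hlose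
    have hv' : (omegaIn x j v : ℝ) = (omegaIn x j (p - 1) : ℝ)
        + (((qs.map (fun q => omegaIn x j (q - 1))).sum : ℕ) : ℝ) + (omegaIn x j m : ℝ) := by
      rw [hv, hsum]
      push_cast
      ring
    nlinarith [(omegaIn x j m).cast_nonneg (α := ℝ), (above x qs j).cast_nonneg (α := ℝ)]

/-- At most two primes of a full configuration are in the two top cells. -/
theorem top_count_le {x C : ℝ} (hR : UpperRoom x C) {qs : List ℕ}
    (hfull : -eta1 x ≤ slack x (numCells x) qs) :
    qs.countP (fun q => decide (numCells x - 1 ≤ cell x q)) ≤ 2 := by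
  by_contra hlt
  have hJ := hR.J_ge
  have hh := halfCell_le_cutCell x
  have hcut := hR.cut_lt
  have hterm : ∀ j ∈ Finset.Ico (halfCell x) (numCells x),
      1 - ent (above x qs j) ≤ if j < numCells x - 1 then (-3 / 2 : ℝ) else 1 := by
    intro j _
    split_ifs with hj
    · have h3 : 3 ≤ above x qs j :=
        (show 3 ≤ qs.countP (fun q => decide (numCells x - 1 ≤ cell x q)) by omega).trans
          (List.countP_mono_left fun q _ hq => by
            simp only [decide_eq_true_eq] at hq ⊢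
            omega)
      have := ent_mono h3
      have h25 : (2.5 : ℝ) ≤ ent 3 := by
        rw [ent_eq_sum]
        simpa [Finset.sum_range_succ] using inc_three
      norm_num at h25
      linarith
    · linarith [ent_nonneg (above x qs j)]
  have hsum : slack x (numCells x) qs
      ≤ ∑ j ∈ Finset.Ico (halfCell x) (numCells x),
          if j < numCells x - 1 then (-3 / 2 : ℝ) else 1 := sum_le_sum hterm
  rw [show numCells x = numCells x - 1 + 1 by omega, Finset.sum_Ico_succ_top (by omega)] at hsum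
  simp only [Nat.add_sub_cancel, lt_irrefl, if_false] at hsum
  rw [sum_ite_of_true (fun j hj => (mem_Ico.1 hj).2), sum_const, Nat.card_Ico, nsmul_eq_mul] at hsum
  rw [show numCells x - 1 + 1 = numCells x by omega] at hsum
  have h34 : 3 * (numCells x : ℝ) ≤ 4 * ((numCells x - 1 - halfCell x : ℕ) : ℝ) := by
    exact_mod_cast (show 3 * numCells x ≤ 4 * (numCells x - 1 - halfCell x) by omega)
  have hJ' : (20 : ℝ) ≤ numCells x := by exact_mod_cast hJ
  linarith [hR.eta_le]

/-- The value of a full configuration leaves room for the largest prime. -/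
theorem full_value_le {x c C Y : ℝ} (h : UpperCtx x c C Y) {p : ℕ} {qs : List ℕ} {m : ℕ}
    (hr : UpRep x p qs m) (hfull : -eta1 x ≤ slack x (numCells x) qs)
    (hY : (((p - 1) * confValue qs m : ℕ) : ℝ) ≤ Y) :
    Real.exp (Real.exp (llx x) / 10) * (confValue qs m : ℝ) ≤ Y := by
  have hR := h.room
  obtain ⟨h2, -, hm, hp1⟩ := upRep_facts hr
  have hw : (0 : ℝ) < confValue qs m := by exact_mod_cast confValue_pos' h2 hm
  have hp2 : (2 : ℝ) ≤ p := by exact_mod_cast hr.prime.two_le
  have hlp : 0 ≤ Real.log (p : ℝ) := Real.log_nonneg (by linarith)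
  set ε := Real.exp (llx x - width x) with hε
  have hsmallq : ∀ q ∈ qs, ¬ numCells x - 1 ≤ cell x q → Real.log (q : ℝ) ≤ ε := by
    intro q hq hcq
    refine log_le_exp_of_ll_le (h2 q hq) ?_
    have hj := ll_lt_of_cell hR.width_pos (j := numCells x - 2) (r := q)
      (by have := hR.J_ge; omega) (by omega)
    have e : ((numCells x - 2 : ℕ) : ℝ) + 1 = (numCells x : ℝ) - 1 := by
      rw [Nat.cast_sub (by have := hR.J_ge; omega)]
      push_cast
      ring
    rw [e, sub_mul, hR.J_width, one_mul] at hj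
    exact hj.le
  have hprod : ∀ l : List ℕ, (∀ q ∈ l, q ∈ qs) →
      Real.log (((l.map (fun q => q - 1)).prod : ℕ) : ℝ)
        ≤ (l.countP (fun q => decide (numCells x - 1 ≤ cell x q)) : ℕ) * Real.log p
          + l.length * ε := by
    intro l
    induction l with
    | nil => simp
    | cons q l ih =>
      intro hl
      have hih := ih fun a ha => hl a (List.mem_cons_of_mem _ ha)
      have hq := hl q List.mem_cons_self
      have hq2 := h2 q hq
      have hpos : 0 < (l.map (fun q => q - 1)).prod := by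
        refine List.prod_pos fun a ha => ?_
        obtain ⟨b, hb, rfl⟩ := List.mem_map.1 ha
        have := h2 b (hl b (List.mem_cons_of_mem _ hb))
        omega
      rw [List.map_cons, List.prod_cons, Nat.cast_mul,
        Real.log_mul (by exact_mod_cast (show q - 1 ≠ 0 by omega)) (by exact_mod_cast hpos.ne'),
        List.countP_cons, List.length_cons]
      have hq1 : Real.log ((q - 1 : ℕ) : ℝ) ≤ Real.log (q : ℝ) :=
        Real.log_le_log (by exact_mod_cast (show 0 < q - 1 by omega))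
          (by exact_mod_cast Nat.sub_le q 1)
      have hε0 : 0 ≤ ε := (Real.exp_pos _).le
      by_cases hcq : numCells x - 1 ≤ cell x q
      · have hqp : Real.log (q : ℝ) ≤ Real.log p :=
          Real.log_le_log (by exact_mod_cast (show 0 < q by omega))
            (by exact_mod_cast (hr.lt q hq).le)
        simp only [hcq, decide_true, if_true, Nat.cast_add, Nat.cast_one]
        linarith
      · have := hsmallq q hq hcq
        simp only [hcq, decide_false, Bool.false_eq_true, if_false, add_zero, Nat.cast_add,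
          Nat.cast_one]
        linarith
  have h1 := hprod qs fun q hq => hq
  have hcount := top_count_le hR hfull
  have hcount' : ((qs.countP (fun q => decide (numCells x - 1 ≤ cell x q)) : ℕ) : ℝ) ≤ 2 := by
    exact_mod_cast hcount
  have hlen : (qs.length : ℝ) * ε ≤ Real.exp (llx x) / 100 := by
    have h3 : (qs.length : ℝ) ≤ maxLen x := by exact_mod_cast hr.short
    refine (mul_le_mul_of_nonneg_right h3 (Real.exp_pos _).le).trans ?_
    rw [sub_eq_add_neg, Real.exp_add, le_div_iff₀ (by norm_num)]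
    calc (maxLen x : ℝ) * (Real.exp (llx x) * Real.exp (-width x)) * 100
        = Real.exp (llx x) * (Real.exp (-width x) * (100 * maxLen x)) := by ring
      _ ≤ Real.exp (llx x) := mul_le_of_le_one_right (Real.exp_pos _).le hR.top_cell
  have hmlog : Real.log (m : ℝ) ≤ Real.exp (llx x) / 100 := by
    refine ((Real.log_le_log (by exact_mod_cast hm) hr.m_le).trans_eq (Real.log_exp _)).trans ?_
    rw [le_div_iff₀ (by norm_num)]
    refine le_trans ?_ hR.small_part
    exact mul_le_mul_of_nonneg_left (by linarith [hR.L_ge]) (Real.exp_pos _).le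
  have hlogw : Real.log (confValue qs m : ℝ) ≤ 2 * Real.log p + Real.exp (llx x) / 50 := by
    have hp0 : 0 < (qs.map (fun q => q - 1)).prod :=
      Nat.pos_of_ne_zero fun h0 => by simp [confValue, h0] at hw
    rw [confValue, Nat.cast_mul, Real.log_mul (by exact_mod_cast hp0.ne')
      (by exact_mod_cast hm.ne')]
    have := mul_le_mul_of_nonneg_right hcount' hlp
    linarith
  have hvlog : Real.log (p : ℝ) - 1 + Real.log (confValue qs m : ℝ) ≤ Real.log Y := by
    have hp' : Real.log (p : ℝ) - 1 ≤ Real.log ((p - 1 : ℕ) : ℝ) := by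
      rw [Nat.cast_pred hr.prime.pos]
      have h3 : Real.log (p : ℝ) ≤ Real.log 2 + Real.log ((p : ℝ) - 1) := by
        rw [← Real.log_mul (by norm_num) (by linarith)]
        exact Real.log_le_log (by linarith) (by linarith)
      linarith [Real.log_two_lt_d9]
    have h4 : Real.log (((p - 1) * confValue qs m : ℕ) : ℝ) ≤ Real.log Y :=
      Real.log_le_log (by exact_mod_cast Nat.mul_pos hp1 (confValue_pos' h2 hm)) hY
    rw [Nat.cast_mul, Real.log_mul (by exact_mod_cast hp1.ne') hw.ne'] at h4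
    linarith
  rw [← Real.exp_log hw, ← Real.exp_add, ← Real.exp_log h.Y_pos]
  refine Real.exp_le_exp.2 ?_
  have := h.log_Y
  have := h.exp_big
  by_contra hlt
  linarith [hR.L_ge]

/-- The totient values up to `Y`. -/
noncomputable def totals (Y : ℝ) : Finset ℕ :=
  open scoped Classical in
  (Finset.range (⌊Y⌋₊ + 1)).filter (fun v => 0 < v ∧ ∃ n : ℕ, 0 < n ∧ n.totient = v)

theorem totCount_eq {Y : ℝ} (hY : 0 ≤ Y) : totCount Y = (totals Y).card := by
  classical
  rw [totCount, ← Set.ncard_coe_finset]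
  congr 1
  ext v
  simp only [totals, coe_filter, mem_range, Set.mem_ofPred_eq, Nat.lt_succ_iff, Nat.le_floor_iff hY]
  tauto

theorem card_band_le {x c C Y : ℝ} (h : UpperCtx x c C Y) (V : Finset ℕ)
    (hV : ∀ v ∈ V, ∃ w ∈ (bandVals x).filter
      (fun w : ℕ => 0 < w ∧ Real.exp (Real.exp (llx x) / 10) * (w : ℝ) ≤ Y),
      ∃ p ∈ Nat.primesLE ⌊Y / (w : ℝ) + 1⌋₊, (p - 1) * w = v) :
    (V.card : ℝ) ≤ Y / Real.exp (llx x) * (120 * mass (bandVals x)) := by
  have hE := h.exp_big
  refine (card_le_reps _ (fun w : ℕ => Nat.primesLE ⌊Y / (w : ℝ) + 1⌋₊) (fun (p w : ℕ) => (p - 1) * w) V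
    (fun w => Y / Real.exp (llx x) * 120 * ((1 : ℝ) / w)) hV ?_).trans ?_
  · intro w hw
    obtain ⟨-, hw0, hle⟩ := mem_filter.1 hw
    have hw0' : (0 : ℝ) < w := by exact_mod_cast hw0
    have hX : Real.exp (Real.exp (llx x) / 10) ≤ Y / w := (le_div_iff₀ hw0').2 hle
    have h4 : 4 ≤ Y / w := by
      linarith [Real.add_one_le_exp (Real.exp (llx x) / 10), h.room.L_ge]
    have hlog : Real.exp (llx x) / 10 ≤ Real.log (Y / w) := by
      rw [← Real.log_exp (Real.exp (llx x) / 10)]
      exact Real.log_le_log (Real.exp_pos _) hX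
    rw [Nat.primesLE_card_eq_primeCounting]
    refine (primeCounting_succ_le h4).trans ?_
    calc 12 * (Y / w) / Real.log (Y / w) ≤ 12 * (Y / w) / (Real.exp (llx x) / 10) :=
          div_le_div_of_nonneg_left (by linarith) (by positivity) hlog
      _ = Y / Real.exp (llx x) * 120 * ((1 : ℝ) / w) := by field_simp; ring
  · rw [← mul_sum, mass, ← mul_assoc]
    refine mul_le_mul_of_nonneg_left ?_
      (mul_nonneg (div_nonneg h.Y_pos.le (Real.exp_pos _).le) (by norm_num))
    exact sum_le_sum_of_subset_of_nonneg (filter_subset _ _) fun w _ _ => by positivity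

theorem card_main_le {x Y : ℝ} (V : Finset ℕ)
    (hV : ∀ v ∈ V, ∃ w ∈ safeVals x, ∃ p ∈ Nat.primesLE ⌊Y / (w : ℝ) + 1⌋₊, (p - 1) * w = v) :
    (V.card : ℝ) ≤ mainTerm x Y :=
  card_le_reps _ (fun w : ℕ => Nat.primesLE ⌊Y / (w : ℝ) + 1⌋₊) (fun (p w : ℕ) => (p - 1) * w) V _ hV
    fun w _ => by rw [Nat.primesLE_card_eq_primeCounting]

/-- Excluded by X2 to X5. -/
def LateExcl (x Y : ℝ) (v : ℕ) : Prop :=
  (∃ t ∈ prefixes x ×ˢ badSmall x Y,
    ∃ p ∈ primesTo Y ((setValue t.1 : ℝ) * t.2) (topLog x), (p - 1) * setValue t.1 * t.2 = v) ∨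
  (∃ t ∈ prefixes x ×ˢ smallVals x,
    ∃ p ∈ abnormalTop x Y ((setValue t.1 : ℝ) * t.2), (p - 1) * setValue t.1 * t.2 = v) ∨
  (∃ t ∈ (prefixes x).filter (fun S => ∃ a ∈ S, a ∈ abnormalBig x) ×ˢ smallVals x,
    ∃ p ∈ primesTo Y ((setValue t.1 : ℝ) * t.2) (topLog x), (p - 1) * setValue t.1 * t.2 = v) ∨
  (∃ t ∈ prefixes x ×ˢ badValues x Y,
    ∃ p ∈ primesTo Y ((setValue t.1 : ℝ) * t.2) (topLog x), (p - 1) * setValue t.1 * t.2 = v) ∨
  (∃ t ∈ prefixes x ×ˢ badValues x Y,
    ∃ p ∈ primesTo Y ((setValue t.1 : ℝ) * t.2) (topLog x / llx x), p * setValue t.1 * t.2 = v)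

/-- Counted by the main term. -/
def MainRep (x Y : ℝ) (v : ℕ) : Prop :=
  ∃ w ∈ safeVals x, ∃ p ∈ Nat.primesLE ⌊Y / (w : ℝ) + 1⌋₊, (p - 1) * w = v

/-- Counted by the band term. -/
def BandRep (x Y : ℝ) (v : ℕ) : Prop :=
  open scoped Classical in
  ∃ w ∈ (bandVals x).filter
      (fun w : ℕ => 0 < w ∧ Real.exp (Real.exp (llx x) / 10) * (w : ℝ) ≤ Y),
    ∃ p ∈ Nat.primesLE ⌊Y / (w : ℝ) + 1⌋₊, (p - 1) * w = v

/-- A representation is counted or excluded. -/
theorem classify {x c C Y : ℝ} (h : UpperCtx x c C Y) {p : ℕ} {qs : List ℕ} {m : ℕ}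
    (hr : UpRep x p qs m) (hsq : SqOK x ((p - 1) * confValue qs m))
    (hY : (((p - 1) * confValue qs m : ℕ) : ℝ) ≤ Y) :
    LateExcl x Y ((p - 1) * confValue qs m) ∨ MainRep x Y ((p - 1) * confValue qs m) ∨
      BandRep x Y ((p - 1) * confValue qs m) := by
  classical
  have hR := h.room
  have hx : 0 ≤ llx x := by linarith [hR.L_ge]
  obtain ⟨h2, hnd, hm, hp1⟩ := upRep_facts hr
  set v := (p - 1) * confValue qs m with hv
  have hset : (p - 1) * setValue qs.toFinset * m = v := by
    rw [hv, setValue_toFinset hnd]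
    simp [confValue, mul_assoc]
  have hpre := mem_prefixes hr.big hr.short
  have hset0 := setValue_pos hpre
  have hmY : (m : ℝ) ≤ Y := by
    refine le_trans ?_ hY
    exact_mod_cast Nat.le_of_dvd (Nat.mul_pos hp1 (confValue_pos' h2 hm))
      ((dvd_mul_left m _).trans (dvd_mul_left (confValue qs m) _))
  have hmem : p ∈ primesTo Y ((setValue qs.toFinset : ℝ) * (m : ℝ)) (topLog x) :=
    mem_primesTo (mul_pos (by exact_mod_cast hset0) (by exact_mod_cast hm)) hr.prime hr.p_log
      (top_mul_le hr.prime.one_lt.le hset hY)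
  by_cases hom : (ArithmeticFunction.cardFactors m : ℝ) ≤ smallOmega x
  swap
  · refine Or.inl (Or.inl ⟨(qs.toFinset, m), mem_product.2 ⟨hpre, ?_⟩, p, hmem, hset⟩)
    refine mem_filter.2 ⟨mem_range.2 (Nat.lt_succ_of_le (Nat.le_floor hmY)), hm,
      fun r hr' => ⟨?_, prime_le_cut_of_dvd hx hr.isTot (Nat.prime_of_mem_primeFactors hr')
        (Nat.dvd_of_mem_primeFactors hr')⟩, ?_⟩
    · exact h.mem_allPrimes_of_le (Nat.prime_of_mem_primeFactors hr')
        (((Nat.cast_le.2 (Nat.le_of_dvd hm (Nat.dvd_of_mem_primeFactors hr'))).trans hmY).trans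
          h.Y_le_preBd)
    · rw [ArithmeticFunction.cardFactors_apply] at hom
      exact not_le.1 hom
  have hsmall : SmallPart x m := ⟨hr.isTot, hr.m_le, hom⟩
  have hmv : m ∈ smallVals x := mem_filter.2
    ⟨mem_range.2 (confValue_lt_valueBd' hr.big hr.short hr.m_le).2, hsmall⟩
  by_cases hpN : Normal x (numCells x) p
  swap
  · exact Or.inl (Or.inr (Or.inl
      ⟨(qs.toFinset, m), mem_product.2 ⟨hpre, hmv⟩, p, mem_filter.2 ⟨hmem, hpN⟩, hset⟩))
  by_cases hqN : ∀ q ∈ qs, Normal x (cell x q) q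
  swap
  · push Not at hqN
    obtain ⟨q, hq, hqn⟩ := hqN
    refine Or.inl (Or.inr (Or.inr (Or.inl
      ⟨(qs.toFinset, m), mem_product.2 ⟨mem_filter.2 ⟨hpre, q, List.mem_toFinset.2 hq, ?_⟩, hmv⟩,
        p, hmem, hset⟩)))
    exact mem_filter.2 ⟨hr.big q hq, hqn⟩
  have hconf : IsConf x qs m :=
    { desc := hr.desc
      big := fun q hq => (mem_filter.1 (hr.big q hq)).2
      capped := fun q hq => (mem_filter.1 (mem_filter.1 (hr.big q hq)).1).2.2
      normal := hqN
      short := hr.short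
      part := hsmall }
  have hwY : (confValue qs m : ℝ) ≤ Y :=
    (Nat.cast_le.2 (Nat.le_mul_of_pos_left _ hp1)).trans hY
  by_cases hgood : IsGood x qs
  swap
  · unfold IsGood at hgood
    push Not at hgood
    obtain ⟨i, hi, hbad⟩ := hgood
    have hmv' := badProf_suffix h hconf (hsq.of_dvd (dvd_mul_left _ _)) hwY hi hbad
    have hpre' := mem_prefixes (l := qs.take i) (fun q hq => hr.big q (List.mem_of_mem_take hq))
      (by rw [List.length_take]; have := hr.short; omega)
    have hset' : (p - 1) * setValue (qs.take i).toFinset * confValue (qs.drop i) m = v := by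
      rw [hv, setValue_toFinset (hnd.sublist (List.take_sublist i qs)), mul_assoc,
        ← confValue_append', List.take_append_drop]
    refine Or.inl (Or.inr (Or.inr (Or.inr (Or.inl
      ⟨((qs.take i).toFinset, confValue (qs.drop i) m), mem_product.2 ⟨hpre', hmv'⟩, p, ?_,
        hset'⟩))))
    have h0 : 0 < confValue (qs.drop i) m :=
      confValue_pos' (fun q hq => h2 q (List.mem_of_mem_drop hq)) hm
    exact mem_primesTo (mul_pos (by exact_mod_cast setValue_pos hpre') (by exact_mod_cast h0))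
      hr.prime hr.p_log (top_mul_le hr.prime.one_lt.le hset' hY)
  by_cases htop : -eta1 x ≤ slack x (numCells x) qs
  swap
  · obtain ⟨R, hRm, hRlarge⟩ := hpN.large
    have hRp := Nat.prime_of_mem_primeFactors hRm
    have hRd := Nat.dvd_of_mem_primeFactors hRm
    have hbv := badProf_top h hpN hconf hsq hY (not_le.1 htop) hRp hRd
    have hdiv : R * (v / R) = v := Nat.mul_div_cancel' (hRd.mul_right _)
    have hRlog : topLog x / llx x ≤ Real.log (R : ℝ) := by
      refine le_trans (div_le_div_of_nonneg_right hr.p_log hx) ?_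
      rw [← Real.log_exp (Real.log (p : ℝ) / llx x)]
      exact Real.log_le_log (Real.exp_pos _) hRlarge
    refine Or.inl (Or.inr (Or.inr (Or.inr (Or.inr
      ⟨(∅, v / R), mem_product.2 ⟨empty_mem_prefixes x, hbv⟩, R, ?_, ?_⟩))))
    · have h0 : 0 < v / R := (mem_filter.1 hbv).2.1
      have he : (setValue (∅ : Finset ℕ) : ℝ) = 1 := by simp [setValue]
      refine mem_primesTo ?_ hRp hRlog ?_
      · simp only [he, one_mul]
        exact_mod_cast h0
      · simp only [he, one_mul]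
        have h1 : ((R : ℝ)) * ((v / R : ℕ) : ℝ) ≤ Y := by
          rw [← Nat.cast_mul, hdiv]
          exact hY
        nlinarith [(v / R).cast_nonneg (α := ℝ)]
    · simp [setValue, hdiv]
  have hfull : IsFull x qs := ⟨hgood, htop⟩
  have hw0 := confValue_pos' h2 hm
  have hlt := (confValue_lt_valueBd' hr.big hr.short hr.m_le).1
  have hp' : p ∈ Nat.primesLE ⌊Y / (confValue qs m : ℝ) + 1⌋₊ := by
    refine (mem_filter.1 (mem_primesTo (lp := topLog x) (by exact_mod_cast hw0) hr.prime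
      hr.p_log ?_)).1
    refine le_trans (le_of_eq ?_) hY
    rw [Nat.cast_mul, Nat.cast_pred hr.prime.pos]
  by_cases hsafe : confValue qs m ∈ safeVals x
  · exact Or.inr (Or.inl ⟨_, hsafe, p, hp', rfl⟩)
  · refine Or.inr (Or.inr ⟨_, mem_filter.2 ⟨?_, hw0, full_value_le h hr htop hY⟩, p, hp', rfl⟩)
    exact mem_filter.2 ⟨mem_range.2 hlt, ⟨qs, m, hconf, hfull, rfl⟩, hsafe⟩

theorem card_late_le {x c C Y : ℝ} (h : UpperCtx x c C Y)
    (hCount : ∀ X : ℝ, x ^ (1 / llx x) ≤ X → X ≤ x ^ (2 : ℝ) → ∀ S : Finset ℕ,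
      (∀ p ∈ S, p.Prime ∧ (p : ℝ) ≤ X + 1 ∧ ¬ Normal x (numCells x) p) →
      (S.card : ℝ) ≤ epsN x * X / Real.log X)
    (hAb : ∑ q ∈ abnormalBig x, (1 : ℝ) / ((q - 1 : ℕ) : ℝ) ≤ ((numCells x : ℝ) + 1) * epsN x)
    (V : Finset ℕ) (hV : ∀ v ∈ V, LateExcl x Y v) :
    (V.card : ℝ) ≤ upErr x Y * (3 + 2 * mass (smallVals x)) := by
  classical
  have hx : 0 < llx x := by linarith [h.room.L_ge]
  have htl := topLog_ge h
  set A₁ := V.filter (fun v => ∃ t ∈ prefixes x ×ˢ badSmall x Y,
    ∃ p ∈ primesTo Y ((setValue t.1 : ℝ) * t.2) (topLog x), (p - 1) * setValue t.1 * t.2 = v)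
  set A₂ := V.filter (fun v => ∃ t ∈ prefixes x ×ˢ smallVals x,
    ∃ p ∈ abnormalTop x Y ((setValue t.1 : ℝ) * t.2), (p - 1) * setValue t.1 * t.2 = v)
  set A₃ := V.filter (fun v => ∃ t ∈ (prefixes x).filter
      (fun S => ∃ a ∈ S, a ∈ abnormalBig x) ×ˢ smallVals x,
    ∃ p ∈ primesTo Y ((setValue t.1 : ℝ) * t.2) (topLog x), (p - 1) * setValue t.1 * t.2 = v)
  set A₄ := V.filter (fun v => ∃ t ∈ prefixes x ×ˢ badValues x Y,
    ∃ p ∈ primesTo Y ((setValue t.1 : ℝ) * t.2) (topLog x), (p - 1) * setValue t.1 * t.2 = v)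
  set A₅ := V.filter (fun v => ∃ t ∈ prefixes x ×ˢ badValues x Y,
    ∃ p ∈ primesTo Y ((setValue t.1 : ℝ) * t.2) (topLog x / llx x), p * setValue t.1 * t.2 = v)
  have hsub : V ⊆ A₁ ∪ A₂ ∪ A₃ ∪ A₄ ∪ A₅ := by
    intro v hv
    simp only [mem_union]
    rcases hV v hv with h' | h' | h' | h' | h'
    · exact Or.inl (Or.inl (Or.inl (Or.inl (mem_filter.2 ⟨hv, h'⟩))))
    · exact Or.inl (Or.inl (Or.inl (Or.inr (mem_filter.2 ⟨hv, h'⟩))))
    · exact Or.inl (Or.inl (Or.inr (mem_filter.2 ⟨hv, h'⟩)))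
    · exact Or.inl (Or.inr (mem_filter.2 ⟨hv, h'⟩))
    · exact Or.inr (mem_filter.2 ⟨hv, h'⟩)
  have e1 := excl_smallOmega h A₁ fun v hv => (mem_filter.1 hv).2
  have e2 := excl_abnormalTop h hCount A₂ fun v hv => (mem_filter.1 hv).2
  have e3 := excl_abnormalBig h hAb A₃ fun v hv => (mem_filter.1 hv).2
  have e4 := excl_profile h (fun p t => (p - 1) * setValue t.1 * t.2) (lp := topLog x)
    (by linarith [h.room.L_ge]) (by nlinarith [h.room.L_ge]) A₄ fun v hv => (mem_filter.1 hv).2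
  have e5 := excl_profile h (fun p t => p * setValue t.1 * t.2) (lp := topLog x / llx x)
    ((le_div_iff₀ hx).2 (by linarith)) (le_of_eq (by field_simp)) A₅
    fun v hv => (mem_filter.1 hv).2
  have hc : (V.card : ℝ) ≤ (A₁.card : ℝ) + A₂.card + A₃.card + A₄.card + A₅.card := by
    have h1 := card_le_card hsub
    have h2 := card_union_le (A₁ ∪ A₂ ∪ A₃ ∪ A₄) A₅
    have h3 := card_union_le (A₁ ∪ A₂ ∪ A₃) A₄
    have h4 := card_union_le (A₁ ∪ A₂) A₃
    have h5 := card_union_le A₁ A₂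
    exact_mod_cast (show V.card ≤ A₁.card + A₂.card + A₃.card + A₄.card + A₅.card by omega)
  linarith

/-- Excluded by X0 and X1. -/
def EarlyExcl (x Y : ℝ) (v : ℕ) : Prop :=
  (v : ℝ) ≤ Real.exp (Real.exp (llx x) / 2) ∨
  (∃ r : ℕ, r.Prime ∧ halfCell x ≤ cell x r ∧ r ^ 2 ∣ v) ∨
  8 * llx x ≤ (v.primeFactors.card : ℝ) ∨
  (∃ n : ℕ, 0 < n ∧ (n : ℝ) ≤ preBd x Y ∧ n.totient = v ∧
    ((∃ r : ℕ, r.Prime ∧ halfCell x ≤ cell x r ∧ r ^ 2 ∣ n) ∨
      20 * llx x ≤ (bigOmegaSmall x n : ℝ) ∨
      (maxLen x : ℝ) / 2 ≤ ((n.primeFactors.filter (fun q => q ∈ deficient x)).card : ℝ)))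

theorem card_early_le {x c C Y : ℝ} (h : UpperCtx x c C Y)
    (hHalf : (∑ q ∈ deficient x, (1 : ℝ) / q)
      ≤ Real.exp (-(((cutCell x : ℝ) - halfCell x) * width x / 8)))
    (V : Finset ℕ) (hV : ∀ v ∈ V, 0 < v ∧ (v : ℝ) ≤ Y ∧ EarlyExcl x Y v) :
    (V.card : ℝ) ≤ upErr x Y * 6 := by
  classical
  set Ns := (Finset.range (⌊preBd x Y⌋₊ + 1)).filter (fun n : ℕ => 0 < n)
  set B₁ := V.filter (fun v : ℕ => (v : ℝ) ≤ Real.exp (Real.exp (llx x) / 2))
  set B₂ := V.filter (fun v => ∃ r : ℕ, r.Prime ∧ halfCell x ≤ cell x r ∧ r ^ 2 ∣ v)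
  set B₃ := V.filter (fun v => 8 * llx x ≤ (v.primeFactors.card : ℝ))
  set N₁ := Ns.filter (fun n => ∃ r : ℕ, r.Prime ∧ halfCell x ≤ cell x r ∧ r ^ 2 ∣ n)
  set N₂ := Ns.filter (fun n => 20 * llx x ≤ (bigOmegaSmall x n : ℝ))
  set N₃ := Ns.filter (fun n =>
    (maxLen x : ℝ) / 2 ≤ ((n.primeFactors.filter (fun q => q ∈ deficient x)).card : ℝ))
  have hNs : ∀ n ∈ Ns, 0 < n ∧ (n : ℝ) ≤ preBd x Y := fun n hn => by
    obtain ⟨h1, h2⟩ := mem_filter.1 hn
    exact ⟨h2, (Nat.cast_le.2 (Nat.lt_succ_iff.1 (mem_range.1 h1))).trans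
      (Nat.floor_le (le_trans h.Y_pos.le h.Y_le_preBd))⟩
  have hsub : V ⊆ B₁ ∪ B₂ ∪ B₃ ∪ (N₁ ∪ N₂ ∪ N₃).image Nat.totient := by
    intro v hv
    simp only [mem_union, mem_image]
    rcases (hV v hv).2.2 with h' | h' | h' | ⟨n, hn, hle, htot, h'⟩
    · exact Or.inl (Or.inl (Or.inl (mem_filter.2 ⟨hv, h'⟩)))
    · exact Or.inl (Or.inl (Or.inr (mem_filter.2 ⟨hv, h'⟩)))
    · exact Or.inl (Or.inr (mem_filter.2 ⟨hv, h'⟩))
    · have hmem : n ∈ Ns := mem_filter.2 ⟨mem_range.2 (Nat.lt_succ_of_le (Nat.le_floor hle)), hn⟩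
      refine Or.inr ⟨n, ?_, htot⟩
      rcases h' with h' | h' | h'
      · exact Or.inl (Or.inl (mem_filter.2 ⟨hmem, h'⟩))
      · exact Or.inl (Or.inr (mem_filter.2 ⟨hmem, h'⟩))
      · exact Or.inr (mem_filter.2 ⟨hmem, h'⟩)
  have e1 := excl_tiny h B₁ fun v hv => ⟨(hV v (mem_filter.1 hv).1).1, (mem_filter.1 hv).2⟩
  have e2 := excl_square h B₂ fun v hv =>
    ⟨(hV v (mem_filter.1 hv).1).1, (hV v (mem_filter.1 hv).1).2.1.trans h.Y_le_preBd,
      (mem_filter.1 hv).2⟩
  have e3 := excl_omega h B₃ fun v hv =>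
    ⟨(hV v (mem_filter.1 hv).1).1, (hV v (mem_filter.1 hv).1).2.1, (mem_filter.1 hv).2⟩
  have e4 := excl_square h N₁ fun n hn =>
    ⟨(hNs n (mem_filter.1 hn).1).1, (hNs n (mem_filter.1 hn).1).2, (mem_filter.1 hn).2⟩
  have e5 := excl_smooth h N₂ fun n hn =>
    ⟨(hNs n (mem_filter.1 hn).1).1, (hNs n (mem_filter.1 hn).1).2, (mem_filter.1 hn).2⟩
  have e6 := excl_deficient h hHalf N₃ fun n hn =>
    ⟨(hNs n (mem_filter.1 hn).1).1, (hNs n (mem_filter.1 hn).1).2, (mem_filter.1 hn).2⟩
  have hc : (V.card : ℝ) ≤ (B₁.card : ℝ) + B₂.card + B₃.card + N₁.card + N₂.card + N₃.card := by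
    have h1 := card_le_card hsub
    have h2 := card_union_le (B₁ ∪ B₂ ∪ B₃) ((N₁ ∪ N₂ ∪ N₃).image Nat.totient)
    have h3 := card_union_le (B₁ ∪ B₂) B₃
    have h4 := card_union_le B₁ B₂
    have h5 : ((N₁ ∪ N₂ ∪ N₃).image Nat.totient).card ≤ (N₁ ∪ N₂ ∪ N₃).card := card_image_le
    have h6 := card_union_le (N₁ ∪ N₂) N₃
    have h7 := card_union_le N₁ N₂
    exact_mod_cast (show V.card ≤ B₁.card + B₂.card + B₃.card + N₁.card + N₂.card + N₃.card by omega)
  linarith

theorem total_count_le {x c C Y : ℝ} (h : UpperCtx x c C Y)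
    (hHalf : (∑ q ∈ deficient x, (1 : ℝ) / q)
      ≤ Real.exp (-(((cutCell x : ℝ) - halfCell x) * width x / 8)))
    (hCount : ∀ X : ℝ, x ^ (1 / llx x) ≤ X → X ≤ x ^ (2 : ℝ) → ∀ S : Finset ℕ,
      (∀ p ∈ S, p.Prime ∧ (p : ℝ) ≤ X + 1 ∧ ¬ Normal x (numCells x) p) →
      (S.card : ℝ) ≤ epsN x * X / Real.log X)
    (hAb : ∑ q ∈ abnormalBig x, (1 : ℝ) / ((q - 1 : ℕ) : ℝ) ≤ ((numCells x : ℝ) + 1) * epsN x) :
    (totCount Y : ℝ) ≤ mainTerm x Y + Y / Real.exp (llx x) * (120 * mass (bandVals x))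
      + upErr x Y * (9 + 2 * mass (smallVals x)) := by
  classical
  rw [totCount_eq h.Y_pos.le]
  set T := totals Y
  set E₁ := T.filter (EarlyExcl x Y)
  set E₂ := T.filter (LateExcl x Y)
  set M := T.filter (MainRep x Y)
  set B := T.filter (BandRep x Y)
  have hT : ∀ v ∈ T, 0 < v ∧ (v : ℝ) ≤ Y ∧ ∃ n : ℕ, 0 < n ∧ n.totient = v := fun v hv => by
    simp only [T, totals, mem_filter] at hv
    exact ⟨hv.2.1, (Nat.cast_le.2 (Nat.lt_succ_iff.1 (mem_range.1 hv.1))).trans
      (Nat.floor_le h.Y_pos.le), hv.2.2⟩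
  have hsub : T ⊆ E₁ ∪ E₂ ∪ M ∪ B := by
    intro v hv
    simp only [mem_union]
    obtain ⟨-, hvY, n, hn, hnv⟩ := hT v hv
    by_cases hE : EarlyExcl x Y v
    · exact Or.inl (Or.inl (Or.inl (mem_filter.2 ⟨hv, hE⟩)))
    unfold EarlyExcl at hE
    push Not at hE
    obtain ⟨hbig, hsq, hom, hpre⟩ := hE
    obtain ⟨hsqn, hsm, hdef⟩ := hpre n hn (h.preimage_le hn (hnv ▸ hvY)) hnv
    obtain ⟨p, qs, m, hrep, hval⟩ := exists_upRep h hn (hnv ▸ hvY) (hnv ▸ hbig)
      (fun r hr hc => hsqn r hr ((halfCell_le_cutCell x).trans hc.le)) hsm hdef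
      (fun r hr hc => hnv ▸ hsq r hr hc) (hnv ▸ hom)
    rw [hnv] at hval
    rcases classify h hrep (by rw [hval]; exact hsq) (by rw [hval]; exact hvY) with h' | h' | h'
    · exact Or.inl (Or.inl (Or.inr (mem_filter.2 ⟨hv, by rwa [← hval]⟩)))
    · exact Or.inl (Or.inr (mem_filter.2 ⟨hv, by rwa [← hval]⟩))
    · exact Or.inr (mem_filter.2 ⟨hv, by rwa [← hval]⟩)
  have e1 := card_early_le h hHalf E₁ fun v hv =>
    ⟨(hT v (mem_filter.1 hv).1).1, (hT v (mem_filter.1 hv).1).2.1, (mem_filter.1 hv).2⟩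
  have e2 := card_late_le h hCount hAb E₂ fun v hv => (mem_filter.1 hv).2
  have e3 := card_main_le (x := x) (Y := Y) M fun v hv => (mem_filter.1 hv).2
  have e4 := card_band_le h B fun v hv => (mem_filter.1 hv).2
  have hc : (T.card : ℝ) ≤ (E₁.card : ℝ) + E₂.card + M.card + B.card := by
    have h1 := card_le_card hsub
    have h2 := card_union_le (E₁ ∪ E₂ ∪ M) B
    have h3 := card_union_le (E₁ ∪ E₂) M
    have h4 := card_union_le E₁ E₂
    exact_mod_cast (show T.card ≤ E₁.card + E₂.card + M.card + B.card by omega)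
  linarith

open scoped Classical in
theorem abnormalBig_mass_le {x : ℝ}
    (hAM : ∀ ℓ : ℕ, cutCell x < ℓ → ℓ ≤ numCells x →
      (∑ q ∈ (cellPrimes x ℓ).filter (fun q => ¬ Normal x ℓ q), (1 : ℝ) / ((q - 1 : ℕ) : ℝ))
        ≤ epsN x) :
    ∑ q ∈ abnormalBig x, (1 : ℝ) / ((q - 1 : ℕ) : ℝ) ≤ ((numCells x : ℝ) + 1) * epsN x := by
  rw [← sum_fiberwise_of_maps_to (g := cell x) (t := Finset.range (numCells x + 1))
    (fun r _ => mem_range.2 (Nat.lt_succ_of_le (cell_le_numCells x r)))]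
  refine (sum_le_sum (g := fun _ => epsN x) fun ℓ hℓ => ?_).trans (le_of_eq ?_)
  · by_cases hc : cutCell x < ℓ
    · refine le_trans ?_ (hAM ℓ hc (Nat.lt_succ_iff.1 (mem_range.1 hℓ)))
      refine sum_le_sum_of_subset_of_nonneg ?_ fun q _ _ => by positivity
      intro q hq
      simp only [abnormalBig, bigPrimes, mem_filter] at hq
      rw [mem_filter, ← allPrimes_filter_cell, mem_filter]
      exact ⟨⟨hq.1.1.1, hq.2⟩, hq.2 ▸ hq.1.2⟩
    · rw [sum_eq_zero fun q hq => ?_]
      · exact (Real.exp_pos _).le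
      · simp only [abnormalBig, bigPrimes, mem_filter] at hq
        exact absurd (hq.2 ▸ hq.1.1.2) hc
  · simp

/-- The upper bound, from Mertens in cells, normality and the mass of safe values. -/
theorem upperPin (hCell : CellMassPin) (hMass : AbnormalMassPin) (hCount : AbnormalCountPin)
    (hHalf : HalfDevPin) (hSafe : SafeMassPin) : UpperPin := by
  classical
  intro c hc
  refine ⟨120, fun δ hδ => ?_⟩
  obtain ⟨C₀, hC₀⟩ := hCell
  have hgain := ((tendsto_rpow_atTop (show (0 : ℝ) < 1 / 10 by norm_num)).comp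
    tendsto_llx).eventually_ge_atTop (11 / δ)
  filter_upwards [hC₀, hMass, hCount, hHalf, hSafe, eventually_upperRoom (max C₀ 0) (le_max_right _ _),
    tendsto_llx.eventually_ge_atTop (Real.log c), eventually_ge_atTop c, hgain]
    with x hC hM hN hH hS hR hlogc hcx hg Y hxY hYc
  have h : UpperCtx x c (max C₀ 0) Y :=
    { room := hR
      C_nonneg := le_max_right _ _
      cells := ⟨fun j hj => (hC.1 j hj).trans (le_max_left _ _), hC.2.trans (le_max_left _ _)⟩
      one_le_c := hc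
      c_le := hcx
      log_c := hlogc
      Y_ge := hxY
      Y_le := hYc }
  have hH' := hH (deficient x) fun q hq => by
    simp only [deficient, mem_filter] at hq
    exact ⟨allPrimes_prime hq.1, hq.2.1, (mem_filter.1 hq.1).2.2, hq.2.2⟩
  have hmain := total_count_le h hH' hN (abnormalBig_mass_le hM)
  have hg' : Real.exp (-upGain x) ≤ δ / 11 := by
    rw [Real.exp_neg, ← one_div, div_le_div_iff₀ (Real.exp_pos _) (by norm_num)]
    have := Real.add_one_le_exp (upGain x)
    have h1 : 11 / δ ≤ upGain x := hg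
    rw [div_le_iff₀ hδ] at h1
    nlinarith
  have hE : 0 ≤ Y / Real.exp (llx x) := div_nonneg h.Y_pos.le (Real.exp_pos _).le
  have herr : upErr x Y * (9 + 2 * mass (smallVals x))
      ≤ Y / Real.exp (llx x) * (δ * mass (safeVals x)) := by
    have h0 : 0 ≤ mass (smallVals x) := sum_nonneg fun w _ => by positivity
    rw [upErr, mul_assoc]
    refine mul_le_mul_of_nonneg_left ?_ hE
    refine (mul_le_mul hg' (show 9 + 2 * mass (smallVals x) ≤ 11 * mass (safeVals x) by
      linarith [hS.1, hS.2]) (by linarith) (by linarith)).trans (le_of_eq (by ring))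
  rw [← hR.exp_L, mul_add]
  linarith

end Vale.Agent.P031
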