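import Vale.Agent.P031.UpperFacts

/-!
# P031: the exclusions X0-X5

Each excluded class of values up to `Y` has at most `Y / exp L * exp (-upGain)` members, up to the
mass of the small parts.
-/

namespace Vale.Agent.P031

open Finset

/-- The standing hypotheses of the upper bound at one `x`. -/
structure UpperCtx (x c C Y : ℝ) : Prop where
  room : UpperRoom x C
  C_nonneg : 0 ≤ C
  cells : CellSum x C
  one_le_c : 1 ≤ c
  c_le : c ≤ x
  log_c : Real.log c ≤ llx x
  Y_ge : x ≤ Y
  Y_le : Y ≤ c * x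

/-- The common error. -/
noncomputable def upErr (x Y : ℝ) : ℝ := Y / Real.exp (llx x) * Real.exp (-upGain x)

/-- The bound for the chosen preimages. -/
noncomputable def preBd (x Y : ℝ) : ℝ := 20 * Y * Real.exp (llx x)

section basic

variable {x c C Y : ℝ}

theorem UpperCtx.Y_pos (h : UpperCtx x c C Y) : 0 < Y :=
  lt_of_lt_of_le (by linarith [h.room.one_lt]) h.Y_ge

theorem UpperCtx.width_one (h : UpperCtx x c C Y) : 1 ≤ width x := by
  have := h.room.dev_width
  have := Real.rpow_nonneg (show (0 : ℝ) ≤ llx x by linarith [h.room.L_ge]) (1 / 2 : ℝ)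
  rw [devBd] at *
  linarith

theorem UpperCtx.exp_big (h : UpperCtx x c C Y) : 100 * llx x ≤ Real.exp (llx x) := by
  have := Real.quadratic_le_exp_of_nonneg (show 0 ≤ llx x by linarith [h.room.L_ge])
  nlinarith [h.room.L_ge]

theorem UpperCtx.log_Y (h : UpperCtx x c C Y) :
    Real.exp (llx x) ≤ Real.log Y ∧ Real.log Y ≤ Real.exp (llx x) + llx x := by
  rw [h.room.exp_L]
  have hx : 0 < x := by linarith [h.room.one_lt]
  refine ⟨Real.log_le_log hx h.Y_ge, (Real.log_le_log h.Y_pos h.Y_le).trans ?_⟩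
  rw [Real.log_mul (by linarith [h.one_le_c]) hx.ne']
  linarith [h.log_c]

theorem UpperCtx.preimage_le (h : UpperCtx x c C Y) {n : ℕ} (hn : 0 < n)
    (hv : (n.totient : ℝ) ≤ Y) : (n : ℝ) ≤ preBd x Y := by
  have hv1 : (1 : ℝ) ≤ n.totient := by exact_mod_cast Nat.totient_pos.2 hn
  have hl := Real.log_le_log (show (0 : ℝ) < n.totient by linarith) hv
  have := h.log_Y
  have := h.exp_big
  refine (le_totient_mul_log hn).trans ?_
  rw [preBd]
  calc (n.totient : ℝ) * (3 * Real.log n.totient + 6) ≤ Y * (20 * Real.exp (llx x)) :=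
        mul_le_mul hv (by linarith [h.room.L_ge])
          (by linarith [Real.log_nonneg hv1]) h.Y_pos.le
    _ = 20 * Y * Real.exp (llx x) := by ring

theorem UpperCtx.mem_allPrimes_of_le (h : UpperCtx x c C Y) {r : ℕ} (hr : r.Prime)
    (hle : (r : ℝ) ≤ preBd x Y) : r ∈ allPrimes x := by
  refine mem_allPrimes hr ?_
  have hL := h.room.L_ge
  have hY := h.log_Y
  have hE := h.exp_big
  have h1 := Real.log_le_log (show (0 : ℝ) < r by exact_mod_cast hr.pos) hle
  rw [preBd, Real.log_mul (by linarith [h.Y_pos]) (Real.exp_pos _).ne', Real.log_exp,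
    Real.log_mul (by norm_num) h.Y_pos.ne'] at h1
  have h20 := Real.log_le_sub_one_of_pos (show (0 : ℝ) < 20 by norm_num)
  have he : 2 * Real.exp (llx x) ≤ Real.exp (llx x + 1) := by
    rw [Real.exp_add, mul_comm]
    exact mul_le_mul_of_nonneg_left (by linarith [Real.add_one_le_exp (1 : ℝ)]) (Real.exp_pos _).le
  linarith

theorem UpperCtx.Y_le_preBd (h : UpperCtx x c C Y) : Y ≤ preBd x Y := by
  have := h.exp_big
  have := h.Y_pos
  rw [preBd]
  nlinarith [h.room.L_ge]

/-- A bound `Y * exp a` with `a ≤ -L - gain` is an error. -/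
theorem UpperCtx.le_upErr (h : UpperCtx x c C Y) {A a : ℝ} (hA : A ≤ Y * Real.exp a)
    (ha : a ≤ -llx x - upGain x) : A ≤ upErr x Y := by
  refine hA.trans ?_
  rw [upErr, div_eq_mul_inv, ← Real.exp_neg, mul_assoc, ← Real.exp_add]
  exact mul_le_mul_of_nonneg_left (Real.exp_le_exp.2 (by linarith)) h.Y_pos.le

/-- A bound `K * Y / exp L * exp a` with `K ≤ L ^ n` is an error. -/
theorem UpperCtx.le_upErr' (h : UpperCtx x c C Y) {A K a : ℝ} {n : ℕ} (_ : 0 ≤ K)
    (hK : K ≤ llx x ^ n) (hA : A ≤ K * (Y / Real.exp (llx x)) * Real.exp a)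
    (ha : a + n * Real.log (llx x) ≤ -upGain x) : A ≤ upErr x Y := by
  refine hA.trans ?_
  have hE : 0 ≤ Y / Real.exp (llx x) := div_nonneg h.Y_pos.le (Real.exp_pos _).le
  have hK' : K ≤ Real.exp (n * Real.log (llx x)) := by
    rwa [Real.exp_nat_mul, Real.exp_log (by linarith [h.room.L_ge])]
  calc K * (Y / Real.exp (llx x)) * Real.exp a
      ≤ Real.exp (n * Real.log (llx x)) * (Y / Real.exp (llx x)) * Real.exp a :=
        mul_le_mul_of_nonneg_right (mul_le_mul_of_nonneg_right hK' hE) (Real.exp_pos _).le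
    _ = Y / Real.exp (llx x) * Real.exp (a + n * Real.log (llx x)) := by rw [Real.exp_add]; ring
    _ ≤ upErr x Y := by
        rw [upErr]
        exact mul_le_mul_of_nonneg_left (Real.exp_le_exp.2 ha) hE

end basic

/-! ### X0 and X1 -/

section crude

variable {x c C Y : ℝ}

theorem excl_tiny (h : UpperCtx x c C Y) (V : Finset ℕ)
    (hV : ∀ v ∈ V, 0 < v ∧ (v : ℝ) ≤ Real.exp (Real.exp (llx x) / 2)) :
    (V.card : ℝ) ≤ upErr x Y := by
  have h1 : V ⊆ Finset.Ioc 0 ⌊Real.exp (Real.exp (llx x) / 2)⌋₊ := fun v hv =>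
    mem_Ioc.2 ⟨(hV v hv).1, Nat.le_floor (hV v hv).2⟩
  have h2 : (V.card : ℝ) ≤ Real.exp (Real.exp (llx x) / 2) := by
    refine le_trans ?_ (Nat.floor_le (Real.exp_pos _).le)
    have := card_le_card h1
    rw [Nat.card_Ioc, Nat.sub_zero] at this
    exact_mod_cast this
  refine h.le_upErr (a := -llx x - upGain x) (h2.trans ?_) le_rfl
  have hY : Real.exp (Real.exp (llx x)) ≤ Y := by
    rw [h.room.exp_L, Real.exp_log (by linarith [h.room.one_lt])]
    exact h.Y_ge
  refine le_trans ?_ (mul_le_mul_of_nonneg_right hY (Real.exp_pos _).le)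
  rw [← Real.exp_add]
  have := h.exp_big
  have := h.room.gain_le
  exact Real.exp_le_exp.2 (by linarith [h.room.L_ge])

theorem half_pos' {x C : ℝ} (hR : UpperRoom x C) : 1 ≤ halfCell x := by
  have := hR.cut_ge
  unfold halfCell
  omega

theorem six_le_log {x C : ℝ} (hR : UpperRoom x C) {r : ℕ} (hr : r.Prime)
    (hc : halfCell x ≤ cell x r) : 6 * llx x ≤ Real.log r :=
  hR.half_huge.trans (exp_le_log_of_le_ll hr.two_le (le_ll_of_cell hR.width_pos (half_pos' hR) hc))

/-- Values or preimages with the square of a prime in a big cell. -/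
theorem excl_square (h : UpperCtx x c C Y) (V : Finset ℕ)
    (hV : ∀ v ∈ V, 0 < v ∧ (v : ℝ) ≤ preBd x Y ∧
      ∃ r : ℕ, r.Prime ∧ halfCell x ≤ cell x r ∧ r ^ 2 ∣ v) :
    (V.card : ℝ) ≤ upErr x Y := by
  have hL := h.room.L_ge
  have h1 := card_sq_le (V := V) (N := preBd x Y) (Q := Real.exp (6 * llx x))
    (Real.one_le_exp (by linarith)) (le_trans h.Y_pos.le h.Y_le_preBd) (fun v hv => by
      obtain ⟨h0, hle, r, hr, hc, hd⟩ := hV v hv
      refine ⟨h0, hle, r, ?_, hd⟩
      rw [← Real.exp_log (show (0 : ℝ) < r by exact_mod_cast hr.pos)]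
      exact Real.exp_le_exp.2 (six_le_log h.room hr hc))
  refine h.le_upErr (a := -4 * llx x) (h1.trans ?_) (by linarith [h.room.gain_le])
  rw [preBd, div_eq_mul_inv, ← Real.exp_neg]
  have h40 : (40 : ℝ) ≤ Real.exp (llx x) := by linarith [Real.add_one_le_exp (llx x)]
  calc 2 * (20 * Y * Real.exp (llx x)) * Real.exp (-(6 * llx x))
      = Y * (40 * (Real.exp (llx x) * Real.exp (-(6 * llx x)))) := by ring
    _ ≤ Y * (Real.exp (llx x) * (Real.exp (llx x) * Real.exp (-(6 * llx x)))) :=
        mul_le_mul_of_nonneg_left (mul_le_mul_of_nonneg_right h40 (by positivity)) h.Y_pos.le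
    _ = Y * Real.exp (-4 * llx x) := by
        rw [← Real.exp_add, ← Real.exp_add]
        ring_nf

/-- Values with too many prime factors. -/
theorem excl_omega (h : UpperCtx x c C Y) (V : Finset ℕ)
    (hV : ∀ v ∈ V, 0 < v ∧ (v : ℝ) ≤ Y ∧ 8 * llx x ≤ (v.primeFactors.card : ℝ)) :
    (V.card : ℝ) ≤ upErr x Y := by
  have hL := h.room.L_ge
  have hW := card_mul_le_weight (V := V) (N := Y)
    (W := Real.exp (8 * llx x * (13 / 10))) (f := fun v => ∏ _r ∈ v.primeFactors, (4 : ℝ))
    h.Y_pos.le (Real.exp_pos _).le (fun v hv => by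
      obtain ⟨h0, hle, hom⟩ := hV v hv
      refine ⟨h0, hle, ?_⟩
      rw [prod_const, ← Real.exp_log (show (0 : ℝ) < 4 by norm_num), ← Real.exp_nat_mul]
      refine Real.exp_le_exp.2 (mul_le_mul hom ?_ (by norm_num) (Nat.cast_nonneg _))
      rw [show (4 : ℝ) = 2 ^ 2 by norm_num, Real.log_pow]
      have := Real.log_two_gt_d9
      push_cast
      linarith)
  have hS := rankin_omega (fun _ => (4 : ℝ)) (fun _ => by norm_num) (allPrimes x) V
    (fun r hr => allPrimes_prime hr) (fun v hv => ⟨(hV v hv).1, fun r hr =>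
      h.mem_allPrimes_of_le (Nat.prime_of_mem_primeFactors hr) (by
        have := Nat.le_of_dvd (hV v hv).1 (Nat.dvd_of_mem_primeFactors hr)
        exact ((Nat.cast_le.2 this).trans (hV v hv).2.1).trans h.Y_le_preBd)⟩)
  have hP : ∑ r ∈ allPrimes x, (4 : ℝ) / ((r : ℝ) - 1) ≤ 4 * (11 / 10 * llx x + 1) := by
    refine le_trans (le_of_eq ?_)
      (mul_le_mul_of_nonneg_left (h.cells.sub_one_total_le h.room) (by norm_num))
    rw [mul_sum]
    simp only [mul_one_div]
  refine h.le_upErr (a := 4 * (11 / 10 * llx x + 1) - 8 * llx x * (13 / 10)) ?_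
    (by linarith [h.room.gain_le])
  rw [Real.exp_sub, mul_div_assoc', le_div_iff₀ (Real.exp_pos _)]
  exact hW.trans (mul_le_mul_of_nonneg_left (hS.trans (Real.exp_le_exp.2 hP)) h.Y_pos.le)

/-- `Ω` over the small cells. -/
noncomputable def bigOmegaSmall (x : ℝ) (n : ℕ) : ℕ :=
  n.primeFactorsList.countP (fun r => decide (cell x r ≤ cutCell x))

theorem wprod_eq_pow (x : ℝ) (n : ℕ) :
    wprod (fun r => if cell x r ≤ cutCell x then (3 / 2 : ℝ) else 1) n
      = (3 / 2 : ℝ) ^ bigOmegaSmall x n := by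
  unfold wprod bigOmegaSmall
  generalize n.primeFactorsList = l
  induction l with
  | nil => simp
  | cons a l ih =>
    rw [List.map_cons, List.prod_cons, ih, List.countP_cons]
    by_cases h : cell x a ≤ cutCell x <;> simp [h, pow_succ, mul_comm]

theorem exp_le_pow_three_half {t : ℝ} {k : ℕ} (h : t ≤ k / 3) :
    Real.exp t ≤ (3 / 2 : ℝ) ^ k := by
  rw [← Real.exp_log (show (0 : ℝ) < 3 / 2 by norm_num), ← Real.exp_nat_mul]
  refine Real.exp_le_exp.2 (h.trans ?_)
  rw [div_eq_mul_one_div]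
  refine mul_le_mul_of_nonneg_left ?_ (Nat.cast_nonneg _)
  have := Real.one_sub_inv_le_log_of_pos (show (0 : ℝ) < 3 / 2 by norm_num)
  norm_num at this ⊢
  linarith

/-- Preimages with many small prime factors. -/
theorem excl_smooth (h : UpperCtx x c C Y) (V : Finset ℕ)
    (hV : ∀ n ∈ V, 0 < n ∧ (n : ℝ) ≤ preBd x Y ∧ 20 * llx x ≤ (bigOmegaSmall x n : ℝ)) :
    (V.card : ℝ) ≤ upErr x Y := by
  have hL := h.room.L_ge
  set w := fun r => if cell x r ≤ cutCell x then (3 / 2 : ℝ) else 1 with hw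
  have hw0 : ∀ r, 0 ≤ w r := fun r => by simp only [hw]; split_ifs <;> norm_num
  have hw1 : ∀ r, w r ≤ 3 / 2 := fun r => by simp only [hw]; split_ifs <;> norm_num
  have hW := card_mul_le_weight (V := V) (N := preBd x Y)
    (W := Real.exp (20 * llx x / 3)) (f := wprod w)
    (le_trans h.Y_pos.le h.Y_le_preBd) (Real.exp_pos _).le (fun v hv => by
      obtain ⟨h0, hle, hom⟩ := hV v hv
      refine ⟨h0, hle, ?_⟩
      rw [hw, wprod_eq_pow]
      exact exp_le_pow_three_half (div_le_div_of_nonneg_right hom (by norm_num)))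
  have hS := rankin_Omega w hw0 hw1 (allPrimes x) V
    (fun r hr => allPrimes_prime hr) (fun v hv => ⟨(hV v hv).1, fun r hr =>
      h.mem_allPrimes_of_le (Nat.prime_of_mem_primeFactors hr) (by
        have := Nat.le_of_dvd (hV v hv).1 (Nat.dvd_of_mem_primeFactors hr)
        exact (Nat.cast_le.2 this).trans (hV v hv).2.1)⟩)
  have hP : ∑ r ∈ allPrimes x, w r / r ≤ 3 / 2 * (11 / 10 * llx x) := by
    refine le_trans ?_ (mul_le_mul_of_nonneg_left (h.cells.total_le h.room) (by norm_num))
    rw [mul_sum]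
    refine sum_le_sum fun r _ => ?_
    rw [mul_one_div]
    exact div_le_div_of_nonneg_right (hw1 r) (Nat.cast_nonneg _)
  have h20 : (20 : ℝ) ≤ Real.exp (llx x) := by linarith [Real.add_one_le_exp (llx x)]
  refine h.le_upErr (a := 2 * llx x + 3 / 2 * (11 / 10 * llx x) + 9 - 20 * llx x / 3) ?_
    (by linarith [h.room.gain_le])
  rw [Real.exp_sub, mul_div_assoc', le_div_iff₀ (Real.exp_pos _)]
  refine hW.trans ?_
  calc preBd x Y * ∑ v ∈ V, wdiv w v
      ≤ 20 * Y * Real.exp (llx x) * Real.exp (3 / 2 * (11 / 10 * llx x) + 9) :=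
        mul_le_mul_of_nonneg_left (hS.trans (Real.exp_le_exp.2 (by linarith)))
          (le_trans h.Y_pos.le h.Y_le_preBd)
    _ ≤ Y * Real.exp (llx x) * Real.exp (llx x) * Real.exp (3 / 2 * (11 / 10 * llx x) + 9) := by
        have := mul_le_mul_of_nonneg_left h20 h.Y_pos.le
        gcongr ?_ * _
        linarith [mul_le_mul_of_nonneg_right (this) (Real.exp_pos (llx x)).le]
    _ = Y * Real.exp (2 * llx x + 3 / 2 * (11 / 10 * llx x) + 9) := by
        rw [mul_assoc, mul_assoc, ← Real.exp_add, ← Real.exp_add]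
        ring_nf

/-- The primes with few prime factors of `q - 1` in the middle cells. -/
noncomputable def deficient (x : ℝ) : Finset ℕ :=
  (allPrimes x).filter (fun q => cutCell x < cell x q ∧
    ((∑ j ∈ Finset.Ico (halfCell x) (cutCell x), omegaIn x j (q - 1) : ℕ) : ℝ)
      < (1 / 2 : ℝ) * ((cutCell x : ℝ) - halfCell x) * width x)

theorem cut_sub_half {x C : ℝ} (hR : UpperRoom x C) :
    2 / 5 * (cutCell x : ℝ) ≤ (cutCell x : ℝ) - halfCell x := by
  have h1 : 5 * halfCell x ≤ 3 * cutCell x := by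
    have := hR.cut_ge
    unfold halfCell
    omega
  have h2 : 5 * (halfCell x : ℝ) ≤ 3 * cutCell x := by exact_mod_cast h1
  linarith

theorem half_len_mul {x C : ℝ} (hR : UpperRoom x C) :
    40 * llx x ≤ (maxLen x : ℝ) / 2 * (((cutCell x : ℝ) - halfCell x) * width x) := by
  have h1 := mul_le_mul_of_nonneg_right hR.len_cut hR.width_pos.le
  rw [mul_assoc, hR.J_width] at h1
  have h2 := cut_sub_half hR
  have h3 : 0 ≤ (maxLen x : ℝ) * width x := mul_nonneg (Nat.cast_nonneg _) hR.width_pos.le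
  nlinarith [mul_le_mul_of_nonneg_left h2 h3]

/-- Preimages with many deficient primes. -/
theorem excl_deficient (h : UpperCtx x c C Y)
    (hHalf : (∑ q ∈ deficient x, (1 : ℝ) / q)
      ≤ Real.exp (-(((cutCell x : ℝ) - halfCell x) * width x / 8)))
    (V : Finset ℕ) (hV : ∀ n ∈ V, 0 < n ∧ (n : ℝ) ≤ preBd x Y ∧
      (maxLen x : ℝ) / 2 ≤ ((n.primeFactors.filter (fun q => q ∈ deficient x)).card : ℝ)) :
    (V.card : ℝ) ≤ upErr x Y := by
  have hL := h.room.L_ge
  set G := ((cutCell x : ℝ) - halfCell x) * width x / 8 with hG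
  have hG0 : 0 ≤ G := by
    have := cut_sub_half h.room
    have : 0 ≤ (cutCell x : ℝ) - halfCell x := by
      linarith [(cutCell x).cast_nonneg (α := ℝ)]
    have := h.room.width_pos
    positivity
  set z := fun r => if r ∈ deficient x then Real.exp G else 1 with hz
  have hz0 : ∀ r, 0 ≤ z r := fun r => by
    simp only [hz]
    split_ifs <;> [exact (Real.exp_pos _).le; exact zero_le_one]
  have hW := card_mul_le_weight (V := V) (N := preBd x Y)
    (W := Real.exp ((maxLen x : ℝ) / 2 * G)) (f := fun v => ∏ r ∈ v.primeFactors, z r)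
    (le_trans h.Y_pos.le h.Y_le_preBd) (Real.exp_pos _).le (fun v hv => by
      obtain ⟨h0, hle, hom⟩ := hV v hv
      refine ⟨h0, hle, ?_⟩
      simp only [hz]
      rw [prod_ite, prod_const, prod_const_one, mul_one, ← Real.exp_nat_mul]
      exact Real.exp_le_exp.2 (mul_le_mul_of_nonneg_right hom hG0))
  have hS := rankin_omega z hz0 (allPrimes x) V
    (fun r hr => allPrimes_prime hr) (fun v hv => ⟨(hV v hv).1, fun r hr =>
      h.mem_allPrimes_of_le (Nat.prime_of_mem_primeFactors hr) (by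
        have := Nat.le_of_dvd (hV v hv).1 (Nat.dvd_of_mem_primeFactors hr)
        exact (Nat.cast_le.2 this).trans (hV v hv).2.1)⟩)
  have hP : ∑ r ∈ allPrimes x, z r / ((r : ℝ) - 1) ≤ 11 / 10 * llx x + 3 := by
    have hterm : ∀ r ∈ allPrimes x, z r / ((r : ℝ) - 1)
        ≤ 1 / ((r : ℝ) - 1) + (if r ∈ deficient x then 2 * Real.exp G * (1 / (r : ℝ)) else 0) := by
      intro r hr
      have h2 : (2 : ℝ) ≤ r := by exact_mod_cast (allPrimes_prime hr).two_le
      have h1 : 0 ≤ 1 / ((r : ℝ) - 1) := div_nonneg zero_le_one (by linarith)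
      simp only [hz]
      split_ifs
      · have : Real.exp G / ((r : ℝ) - 1) ≤ 2 * Real.exp G * (1 / (r : ℝ)) := by
          rw [mul_one_div, div_le_div_iff₀ (by linarith) (by linarith)]
          nlinarith [Real.exp_pos G]
        linarith
      · simp
    refine (sum_le_sum hterm).trans ?_
    rw [sum_add_distrib, ← sum_filter]
    have hf : (allPrimes x).filter (fun r => r ∈ deficient x) = deficient x := by
      ext r
      simp only [deficient, mem_filter]
      tauto
    rw [hf, ← mul_sum]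
    have h1 := mul_le_mul_of_nonneg_left hHalf (show (0 : ℝ) ≤ 2 * Real.exp G by positivity)
    rw [mul_assoc 2 (Real.exp G) (Real.exp (-G)), ← Real.exp_add, add_neg_cancel, Real.exp_zero] at h1
    linarith [h.cells.sub_one_total_le h.room]
  have h20 : (20 : ℝ) ≤ Real.exp (llx x) := by linarith [Real.add_one_le_exp (llx x)]
  have hGN : 5 * llx x ≤ (maxLen x : ℝ) / 2 * G := by
    have := half_len_mul h.room
    rw [hG, ← mul_div_assoc]
    linarith
  refine h.le_upErr (a := 2 * llx x + (11 / 10 * llx x + 3) - (maxLen x : ℝ) / 2 * G) ?_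
    (by linarith [h.room.gain_le])
  rw [Real.exp_sub, mul_div_assoc', le_div_iff₀ (Real.exp_pos _)]
  refine hW.trans ?_
  calc preBd x Y * ∑ v ∈ V, (∏ r ∈ v.primeFactors, z r) / v
      ≤ 20 * Y * Real.exp (llx x) * Real.exp (11 / 10 * llx x + 3) :=
        mul_le_mul_of_nonneg_left (hS.trans (Real.exp_le_exp.2 hP))
          (le_trans h.Y_pos.le h.Y_le_preBd)
    _ ≤ Y * Real.exp (llx x) * Real.exp (llx x) * Real.exp (11 / 10 * llx x + 3) := by
        have := mul_le_mul_of_nonneg_left h20 h.Y_pos.le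
        gcongr ?_ * _
        linarith [mul_le_mul_of_nonneg_right (this) (Real.exp_pos (llx x)).le]
    _ = Y * Real.exp (2 * llx x + (11 / 10 * llx x + 3)) := by
        rw [mul_assoc, mul_assoc, ← Real.exp_add, ← Real.exp_add]
        ring_nf

end crude

/-! ### X2 to X5 -/

/-- Primes in the cells above `j₀`. -/
noncomputable def bigPrimes (x : ℝ) : Finset ℕ :=
  (allPrimes x).filter (fun q => cutCell x < cell x q)

/-- Sets that may serve as the big primes below the largest. -/
noncomputable def prefixes (x : ℝ) : Finset (Finset ℕ) :=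
  (bigPrimes x).powerset.filter (fun S => S.card ≤ maxLen x)

/-- `∏ (a - 1)`. -/
def setValue (S : Finset ℕ) : ℕ := ∏ a ∈ S, (a - 1)

theorem setValue_toFinset {l : List ℕ} (h : l.Nodup) : setValue l.toFinset = confValue l 1 := by
  simp [setValue, confValue, List.prod_toFinset _ h]

theorem setValue_pos {x : ℝ} {S : Finset ℕ} (h : S ∈ prefixes x) : 0 < setValue S :=
  prod_pos fun a ha => by
    have := (allPrimes_prime (mem_filter.1 (mem_powerset.1 (mem_filter.1 h).1 ha)).1).two_le
    omega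

theorem inv_setValue (S : Finset ℕ) :
    (1 : ℝ) / (setValue S : ℝ) = ∏ a ∈ S, (1 : ℝ) / ((a - 1 : ℕ) : ℝ) := by
  rw [setValue, Nat.cast_prod, prod_div_distrib, prod_const_one]

section prefixSums

variable {x c C Y : ℝ}

theorem sum_bigPrimes_le (h : UpperCtx x c C Y) :
    1 + ∑ a ∈ bigPrimes x, (1 : ℝ) / ((a - 1 : ℕ) : ℝ) ≤ 3 * llx x := by
  have h1 : ∑ a ∈ bigPrimes x, (1 : ℝ) / ((a - 1 : ℕ) : ℝ)
      ≤ ∑ a ∈ allPrimes x, (1 : ℝ) / ((a - 1 : ℕ) : ℝ) :=
    sum_le_sum_of_subset_of_nonneg (filter_subset _ _) fun a _ _ => by positivity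
  have h2 : ∑ a ∈ allPrimes x, (1 : ℝ) / ((a - 1 : ℕ) : ℝ)
      = ∑ a ∈ allPrimes x, 1 / ((a : ℝ) - 1) :=
    sum_congr rfl fun a ha => by rw [Nat.cast_pred (allPrimes_prime ha).pos]
  have := h.cells.sub_one_total_le h.room
  linarith [h.room.L_ge]

theorem pow_bigPrimes_le (h : UpperCtx x c C Y) :
    (1 + ∑ a ∈ bigPrimes x, (1 : ℝ) / ((a - 1 : ℕ) : ℝ)) ^ maxLen x
      ≤ Real.exp ((maxLen x : ℝ) * Real.log (3 * llx x)) := by
  rw [Real.exp_nat_mul, Real.exp_log (by linarith [h.room.L_ge])]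
  exact pow_le_pow_left₀ (add_nonneg zero_le_one (sum_nonneg fun a _ => by positivity))
    (sum_bigPrimes_le h) _

theorem sum_prefixes_le (h : UpperCtx x c C Y) :
    ∑ S ∈ prefixes x, (1 : ℝ) / (setValue S : ℝ)
      ≤ Real.exp ((maxLen x : ℝ) * Real.log (3 * llx x)) := by
  simp only [inv_setValue]
  exact (sum_subsets_le _ (fun a => by positivity) _ _).trans (pow_bigPrimes_le h)

/-- Values `(p - 1) w_S w` with `p` large. -/
theorem card_prefixed_le (h : UpperCtx x c C Y) (T : Finset ℕ) (hT : ∀ t ∈ T, 0 < t)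
    (g : ℕ → Finset ℕ × ℕ → ℕ) {lp K : ℝ} (hlp : 4 ≤ lp) (hK : Real.exp (llx x) ≤ K * lp)
    (V : Finset ℕ) (hV : ∀ v ∈ V, ∃ t ∈ prefixes x ×ˢ T,
      ∃ p ∈ primesTo Y ((setValue t.1 : ℝ) * t.2) lp, g p t = v) :
    (V.card : ℝ) ≤ 24 * K * (Y / Real.exp (llx x))
      * Real.exp ((maxLen x : ℝ) * Real.log (3 * llx x)) * ∑ t ∈ T, (1 : ℝ) / t := by
  have hlp0 : 0 < lp := by linarith
  have hK0 : 0 < K := by
    by_contra hK'
    nlinarith [Real.exp_pos (llx x)]
  have hb := card_le_reps (prefixes x ×ˢ T) (fun t => primesTo Y ((setValue t.1 : ℝ) * t.2) lp) g V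
    (fun t => 24 * K * (Y / Real.exp (llx x)) * ((1 : ℝ) / setValue t.1 * ((1 : ℝ) / t.2))) hV ?_
  · refine hb.trans ?_
    rw [sum_product]
    simp only [← mul_sum]
    rw [← sum_mul, mul_comm (∑ i ∈ prefixes x, _), mul_assoc (24 * K * (Y / Real.exp (llx x)))]
    refine mul_le_mul_of_nonneg_left ?_
      (mul_nonneg (by linarith) (div_nonneg h.Y_pos.le (Real.exp_pos _).le))
    rw [mul_comm]
    exact mul_le_mul_of_nonneg_right (sum_prefixes_le h)
      (sum_nonneg fun t _ => by positivity)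
  · intro t ht
    rw [mem_product] at ht
    have h1 : (0 : ℝ) < setValue t.1 := by exact_mod_cast setValue_pos ht.1
    have h2 : (0 : ℝ) < t.2 := by exact_mod_cast hT t.2 ht.2
    refine (card_primesTo_le (mul_pos h1 h2) h.Y_pos.le hlp).trans ?_
    calc 24 * Y / ((setValue t.1 : ℝ) * t.2 * lp)
        = 24 * Y * ((1 : ℝ) / setValue t.1 * ((1 : ℝ) / t.2)) * (1 / lp) := by field_simp
      _ ≤ 24 * Y * ((1 : ℝ) / setValue t.1 * ((1 : ℝ) / t.2)) * (K / Real.exp (llx x)) := by
          refine mul_le_mul_of_nonneg_left ?_ (by have := h.Y_pos; positivity)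
          rw [div_le_div_iff₀ hlp0 (Real.exp_pos _), one_mul]
          exact hK
      _ = _ := by ring

end prefixSums

section late

variable {x c C Y : ℝ}

/-- The largest prime has at least this logarithm. -/
noncomputable def topLog (x : ℝ) : ℝ := Real.exp (llx x) / (4 * maxLen x)

theorem len_pos (h : UpperCtx x c C Y) : (2 : ℝ) ≤ maxLen x := by exact_mod_cast h.room.len_two

theorem topLog_ge (h : UpperCtx x c C Y) : 4 * llx x ≤ topLog x := by
  have h2 := len_pos h
  rw [topLog, le_div_iff₀ (by linarith)]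
  have := Real.quadratic_le_exp_of_nonneg (show 0 ≤ llx x by linarith [h.room.L_ge])
  nlinarith [h.room.len_le, h.room.L_ge]

theorem topLog_mul (h : UpperCtx x c C Y) :
    4 * (maxLen x : ℝ) * topLog x = Real.exp (llx x) := by
  have h2 := len_pos h
  rw [topLog]
  field_simp

/-- Small parts with too many prime factors. -/
noncomputable def badSmall (x Y : ℝ) : Finset ℕ :=
  (Finset.range (⌊Y⌋₊ + 1)).filter (fun m => 0 < m ∧
    (∀ r ∈ m.primeFactors, r ∈ allPrimes x ∧ cell x r ≤ cutCell x) ∧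
    smallOmega x < (m.primeFactorsList.length : ℝ))

theorem sum_badSmall_le (h : UpperCtx x c C Y) :
    ∑ m ∈ badSmall x Y, (1 : ℝ) / m
      ≤ Real.exp (3 / 2 * ((cutCell x : ℝ) + 1) * (width x + C + 1) + 9
          - llx x ^ (24 / 25 : ℝ) / 3) := by
  set P := (allPrimes x).filter (fun r => cell x r ≤ cutCell x) with hP
  have hS := rankin_Omega (fun _ => (3 / 2 : ℝ)) (fun _ => by norm_num) (fun _ => le_rfl) P
    (badSmall x Y) (fun r hr => allPrimes_prime (mem_filter.1 hr).1) (fun m hm => by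
      simp only [badSmall, mem_filter] at hm
      exact ⟨hm.2.1, fun r hr => mem_filter.2 (hm.2.2.1 r hr)⟩)
  have hsum : ∑ r ∈ P, (3 / 2 : ℝ) / r ≤ 3 / 2 * ((cutCell x : ℝ) + 1) * (width x + C + 1) := by
    have e : ∑ r ∈ P, (3 / 2 : ℝ) / r = 3 / 2 * ∑ r ∈ P, (1 : ℝ) / r := by
      rw [mul_sum]
      simp only [mul_one_div]
    rw [e, mul_assoc]
    refine mul_le_mul_of_nonneg_left ?_ (by norm_num)
    rw [← sum_fiberwise_of_maps_to (g := cell x) (t := Finset.range (cutCell x + 1))
      (fun r hr => mem_range.2 (Nat.lt_succ_of_le (mem_filter.1 hr).2))]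
    have hcut := h.room.cut_lt
    refine (sum_le_sum (g := fun _ => width x + C + 1) fun j hj => ?_).trans (le_of_eq ?_)
    · have hj' : j ≤ numCells x := by
        have := mem_range.1 hj
        omega
      refine le_trans ?_ ((h.cells.le h.room.width_pos.le hj').trans (by linarith))
      rw [← allPrimes_filter_cell]
      exact sum_le_sum_of_subset_of_nonneg (filter_subset_filter _ (filter_subset _ _))
        fun r _ _ => by positivity
    · simp
      ring
  have hW : ∀ m ∈ badSmall x Y, Real.exp (llx x ^ (24 / 25 : ℝ) / 3) * ((1 : ℝ) / m)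
      ≤ wdiv (fun _ => (3 / 2 : ℝ)) m := by
    intro m hm
    simp only [badSmall, mem_filter] at hm
    rw [wdiv, List.map_const', List.prod_replicate, mul_one_div]
    refine div_le_div_of_nonneg_right ?_ (Nat.cast_nonneg _)
    refine exp_le_pow_three_half (div_le_div_of_nonneg_right ?_ (by norm_num))
    exact hm.2.2.2.le
  rw [Real.exp_sub, le_div_iff₀' (Real.exp_pos _), mul_sum]
  exact (sum_le_sum hW).trans (hS.trans (Real.exp_le_exp.2 (by linarith)))

theorem excl_smallOmega (h : UpperCtx x c C Y) (V : Finset ℕ)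
    (hV : ∀ v ∈ V, ∃ t ∈ prefixes x ×ˢ badSmall x Y,
      ∃ p ∈ primesTo Y ((setValue t.1 : ℝ) * t.2) (topLog x), (p - 1) * setValue t.1 * t.2 = v) :
    (V.card : ℝ) ≤ upErr x Y := by
  have hL := h.room.L_ge
  have h1 := card_prefixed_le h (badSmall x Y) (fun m hm => (mem_filter.1 hm).2.1)
    (fun p t => (p - 1) * setValue t.1 * t.2) (K := 4 * maxLen x)
    (by linarith [topLog_ge h]) (le_of_eq (topLog_mul h).symm) V hV
  have h2 := h1.trans (mul_le_mul_of_nonneg_left (sum_badSmall_le h)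
    (by have := h.Y_pos; positivity))
  rw [mul_assoc, ← Real.exp_add] at h2
  refine h.le_upErr' (n := 1) (K := 24 * (4 * maxLen x)) (by positivity)
    (by rw [pow_one]; linarith [h.room.len_le]) h2 ?_
  have hb := h.room.big
  have hprof : 0 ≤ profErr x C := by
    have := h.room.width_pos
    have := h.C_nonneg
    have := Real.rpow_nonneg (show (0 : ℝ) ≤ llx x by linarith) (1 / 2 : ℝ)
    have := Real.log_nonneg (show (1 : ℝ) ≤ (maxLen x : ℝ) + 2 by linarith [len_pos h])
    rw [profErr, devBd]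
    positivity
  have hlogL := Real.log_nonneg (show (1 : ℝ) ≤ llx x by linarith)
  have hJl : 0 ≤ (numCells x : ℝ) * Real.log (llx x) := mul_nonneg (Nat.cast_nonneg _) hlogL
  have hB := Real.rpow_nonneg (show (0 : ℝ) ≤ llx x by linarith) (24 / 25 : ℝ)
  rw [preLoss] at hb
  push_cast
  linarith

/-- The abnormal candidates for the top prime. -/
noncomputable def abnormalTop (x Y w : ℝ) : Finset ℕ :=
  open scoped Classical in
  (primesTo Y w (topLog x)).filter (fun p => ¬ Normal x (numCells x) p)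

theorem excl_abnormalTop (h : UpperCtx x c C Y)
    (hCount : ∀ X : ℝ, x ^ (1 / llx x) ≤ X → X ≤ x ^ (2 : ℝ) → ∀ S : Finset ℕ,
      (∀ p ∈ S, p.Prime ∧ (p : ℝ) ≤ X + 1 ∧ ¬ Normal x (numCells x) p) →
      (S.card : ℝ) ≤ epsN x * X / Real.log X)
    (V : Finset ℕ) (hV : ∀ v ∈ V, ∃ t ∈ prefixes x ×ˢ smallVals x,
      ∃ p ∈ abnormalTop x Y ((setValue t.1 : ℝ) * t.2), (p - 1) * setValue t.1 * t.2 = v) :
    (V.card : ℝ) ≤ upErr x Y * mass (smallVals x) := by
  classical
  have hL := h.room.L_ge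
  have hx : 0 < x := by linarith [h.room.one_lt]
  have hm0 : ∀ m ∈ smallVals x, 0 < m := by
    intro m hm
    simp only [smallVals, mem_filter] at hm
    obtain ⟨n, hn, rfl, -⟩ := hm.2.isTot
    exact Nat.totient_pos.2 hn
  have hb := card_le_reps (prefixes x ×ˢ smallVals x)
    (fun t => abnormalTop x Y ((setValue t.1 : ℝ) * t.2)) (fun p t => (p - 1) * setValue t.1 * t.2) V
    (fun t => epsN x * llx x * (Y / Real.exp (llx x))
      * ((1 : ℝ) / setValue t.1 * ((1 : ℝ) / t.2))) hV ?_
  · refine hb.trans ?_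
    rw [sum_product]
    simp only [← mul_sum]
    rw [← sum_mul, ← mul_assoc]
    refine mul_le_mul_of_nonneg_right ?_ (sum_nonneg fun t _ => by positivity)
    refine (mul_le_mul_of_nonneg_left (sum_prefixes_le h) ?_).trans ?_
    · have := h.Y_pos
      have := Real.exp_pos (llx x)
      rw [epsN]
      positivity
    rw [epsN, show Real.exp (-(llx x ^ (3 / 20 : ℝ))) * llx x * (Y / Real.exp (llx x))
      * Real.exp ((maxLen x : ℝ) * Real.log (3 * llx x)) = llx x * (Y / Real.exp (llx x))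
      * Real.exp (-(llx x ^ (3 / 20 : ℝ)) + (maxLen x : ℝ) * Real.log (3 * llx x)) by
        rw [Real.exp_add]; ring]
    refine h.le_upErr' (n := 1) (by linarith) (le_of_eq (pow_one _).symm) le_rfl ?_
    have := h.room.pre_le
    have hlogL := Real.log_nonneg (show (1 : ℝ) ≤ llx x by linarith)
    rw [preLoss] at this
    push_cast
    linarith
  · intro t ht
    rw [mem_product] at ht
    have h1 : (1 : ℝ) ≤ setValue t.1 := by exact_mod_cast setValue_pos ht.1
    have h2 : (1 : ℝ) ≤ t.2 := by exact_mod_cast hm0 t.2 ht.2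
    set w := (setValue t.1 : ℝ) * t.2 with hw
    have hw1 : 1 ≤ w := one_le_mul_of_one_le_of_one_le h1 h2
    rcases (abnormalTop x Y w).eq_empty_or_nonempty with he | ⟨p, hp⟩
    · rw [he]
      simp only [card_empty, Nat.cast_zero]
      have := h.Y_pos
      rw [epsN]
      positivity
    · have hX0 : 0 ≤ Y / w := div_nonneg h.Y_pos.le (by linarith)
      obtain ⟨h4, hlog⟩ := primesTo_log (lp := topLog x) (by linarith [topLog_ge h]) hX0
        (mem_filter.1 hp).1
      have hlog' : Real.exp (llx x) / llx x ≤ Real.log (Y / w) := by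
        refine le_trans ?_ hlog
        rw [topLog, div_div]
        refine div_le_div_of_nonneg_left (Real.exp_pos _).le (by linarith [len_pos h]) ?_
        linarith [h.room.len_le]
      have hlo : x ^ (1 / llx x) ≤ Y / w := by
        rw [Real.rpow_def_of_pos hx, ← h.room.exp_L, mul_one_div,
          ← Real.exp_log (show 0 < Y / w by linarith)]
        exact Real.exp_le_exp.2 hlog'
      have hhi : Y / w ≤ x ^ (2 : ℝ) := by
        refine (div_le_self h.Y_pos.le hw1).trans (h.Y_le.trans ?_)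
        rw [Real.rpow_two, pow_two]
        exact mul_le_mul_of_nonneg_right h.c_le hx.le
      refine (hCount (Y / w) hlo hhi (abnormalTop x Y w) fun p hp => ?_).trans ?_
      · obtain ⟨hp1, hp2⟩ := mem_filter.1 hp
        obtain ⟨hple, hpp⟩ := Nat.mem_primesLE.1 (mem_filter.1 hp1).1
        refine ⟨hpp, ?_, hp2⟩
        exact (Nat.cast_le.2 hple).trans (Nat.floor_le (by linarith))
      · have he : 0 ≤ epsN x * (Y / w) := mul_nonneg (Real.exp_pos _).le hX0
        refine (div_le_div_of_nonneg_left he (by positivity) hlog').trans (le_of_eq ?_)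
        rw [hw]
        field_simp

/-- The abnormal big primes. -/
noncomputable def abnormalBig (x : ℝ) : Finset ℕ :=
  open scoped Classical in
  (bigPrimes x).filter (fun q => ¬ Normal x (cell x q) q)

theorem sum_abnormal_prefixes_le (h : UpperCtx x c C Y)
    (hAb : ∑ q ∈ abnormalBig x, (1 : ℝ) / ((q - 1 : ℕ) : ℝ) ≤ ((numCells x : ℝ) + 1) * epsN x) :
    ∑ S ∈ (prefixes x).filter (fun S => ∃ a ∈ S, a ∈ abnormalBig x), (1 : ℝ) / (setValue S : ℝ)
      ≤ ((numCells x : ℝ) + 1) * epsN x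
        * Real.exp ((maxLen x : ℝ) * Real.log (3 * llx x)) := by
  have hf : ∀ a : ℕ, (0 : ℝ) ≤ (1 : ℝ) / ((a - 1 : ℕ) : ℝ) := fun a => by positivity
  have h1 := sum_subsets_meet_le (fun a : ℕ => (1 : ℝ) / ((a - 1 : ℕ) : ℝ)) hf
    (bigPrimes x) (abnormalBig x) (maxLen x)
  have h2 : ((numCells x : ℝ) + 1) * epsN x ≥ 0 :=
    mul_nonneg (by positivity) (Real.exp_pos _).le
  have h3 := mul_le_mul hAb (pow_bigPrimes_le h)
    (pow_nonneg (add_nonneg zero_le_one (sum_nonneg fun a _ => hf a)) _) h2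
  refine le_trans ?_ (h1.trans h3)
  refine le_of_eq (Finset.sum_congr ?_ fun S _ => inv_setValue S)
  rw [prefixes, filter_filter]

theorem abnormal_arith (h : UpperCtx x c C Y) :
    24 * (4 * (maxLen x : ℝ)) * (Y / Real.exp (llx x))
      * (((numCells x : ℝ) + 1) * epsN x * Real.exp ((maxLen x : ℝ) * Real.log (3 * llx x)))
      ≤ upErr x Y := by
  have hL := h.room.L_ge
  rw [show 24 * (4 * (maxLen x : ℝ)) * (Y / Real.exp (llx x))
      * (((numCells x : ℝ) + 1) * epsN x * Real.exp ((maxLen x : ℝ) * Real.log (3 * llx x)))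
    = 96 * (maxLen x : ℝ) * ((numCells x : ℝ) + 1) * (Y / Real.exp (llx x))
      * Real.exp (-(llx x ^ (3 / 20 : ℝ)) + (maxLen x : ℝ) * Real.log (3 * llx x)) by
    rw [epsN, Real.exp_add]; ring]
  refine h.le_upErr' (n := 2) (K := 96 * (maxLen x : ℝ) * ((numCells x : ℝ) + 1))
    (a := -(llx x ^ (3 / 20 : ℝ)) + (maxLen x : ℝ) * Real.log (3 * llx x))
    (mul_nonneg (mul_nonneg (by norm_num) (Nat.cast_nonneg _)) (by positivity)) ?_ le_rfl ?_
  · rw [pow_two]
    have hJ : (numCells x : ℝ) + 1 ≤ llx x := by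
      nlinarith [h.room.totmass, h.C_nonneg]
    exact mul_le_mul (by linarith [h.room.len_le]) hJ (by positivity) (by linarith)
  · have := h.room.pre_le
    have hlogL := Real.log_nonneg (show (1 : ℝ) ≤ llx x by linarith)
    rw [preLoss] at this
    push_cast
    linarith

theorem excl_abnormalBig (h : UpperCtx x c C Y)
    (hAb : ∑ q ∈ abnormalBig x, (1 : ℝ) / ((q - 1 : ℕ) : ℝ) ≤ ((numCells x : ℝ) + 1) * epsN x)
    (V : Finset ℕ) (hV : ∀ v ∈ V,
      ∃ t ∈ (prefixes x).filter (fun S => ∃ a ∈ S, a ∈ abnormalBig x) ×ˢ smallVals x,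
        ∃ p ∈ primesTo Y ((setValue t.1 : ℝ) * t.2) (topLog x),
          (p - 1) * setValue t.1 * t.2 = v) :
    (V.card : ℝ) ≤ upErr x Y * mass (smallVals x) := by
  classical
  have hL := h.room.L_ge
  have hm0 : ∀ m ∈ smallVals x, 0 < m := by
    intro m hm
    simp only [smallVals, mem_filter] at hm
    obtain ⟨n, hn, rfl, -⟩ := hm.2.isTot
    exact Nat.totient_pos.2 hn
  have hlp : 4 ≤ topLog x := by linarith [topLog_ge h]
  have hb := card_le_reps ((prefixes x).filter (fun S => ∃ a ∈ S, a ∈ abnormalBig x) ×ˢ smallVals x)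
    (fun t => primesTo Y ((setValue t.1 : ℝ) * t.2) (topLog x))
    (fun p t => (p - 1) * setValue t.1 * t.2) V
    (fun t => 24 * (4 * maxLen x) * (Y / Real.exp (llx x))
      * ((1 : ℝ) / setValue t.1 * ((1 : ℝ) / t.2))) hV ?_
  · refine hb.trans ?_
    rw [sum_product]
    simp only [← mul_sum]
    rw [← sum_mul, ← mul_assoc]
    refine mul_le_mul_of_nonneg_right ?_ (sum_nonneg fun t _ => by positivity)
    refine (mul_le_mul_of_nonneg_left (sum_abnormal_prefixes_le h hAb)
      (mul_nonneg (mul_nonneg (by norm_num) (by positivity))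
        (div_nonneg h.Y_pos.le (Real.exp_pos _).le))).trans (abnormal_arith h)
  · intro t ht
    rw [mem_product] at ht
    have h1 : (0 : ℝ) < setValue t.1 := by exact_mod_cast setValue_pos (mem_filter.1 ht.1).1
    have h2 : (0 : ℝ) < t.2 := by exact_mod_cast hm0 t.2 ht.2
    refine (card_primesTo_le (mul_pos h1 h2) h.Y_pos.le hlp).trans (le_of_eq ?_)
    rw [← topLog_mul h]
    have := topLog_ge h
    have := len_pos h
    field_simp

/-- Values of bad profile. -/
noncomputable def badValues (x Y : ℝ) : Finset ℕ :=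
  open scoped Classical in
  (Finset.range (⌊Y⌋₊ + 1)).filter (fun v => 0 < v ∧ BadProf x v)

theorem excl_profile (h : UpperCtx x c C Y) (g : ℕ → Finset ℕ × ℕ → ℕ) {lp : ℝ} (hlp4 : 4 ≤ lp)
    (hlp : topLog x ≤ llx x * lp) (V : Finset ℕ)
    (hV : ∀ v ∈ V, ∃ t ∈ prefixes x ×ˢ badValues x Y,
      ∃ p ∈ primesTo Y ((setValue t.1 : ℝ) * t.2) lp, g p t = v) :
    (V.card : ℝ) ≤ upErr x Y := by
  classical
  have hL := h.room.L_ge
  have hK : Real.exp (llx x) ≤ 4 * maxLen x * llx x * lp := by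
    calc Real.exp (llx x) = 4 * maxLen x * topLog x := (topLog_mul h).symm
      _ ≤ 4 * maxLen x * (llx x * lp) := mul_le_mul_of_nonneg_left hlp (by positivity)
      _ = 4 * maxLen x * llx x * lp := by ring
  have h1 := card_prefixed_le h (badValues x Y) (fun v hv => (mem_filter.1 hv).2.1) g hlp4 hK V hV
  have h2 := h1.trans (mul_le_mul_of_nonneg_left
    (rankin_bad h.room h.C_nonneg h.cells (badValues x Y) fun v hv => (mem_filter.1 hv).2)
    (by have := h.Y_pos; positivity))
  rw [mul_assoc, ← Real.exp_add] at h2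
  refine h.le_upErr' (n := 2) (K := 24 * (4 * maxLen x * llx x)) (by positivity) ?_ h2 ?_
  · rw [pow_two]
    have := mul_le_mul_of_nonneg_right (show 96 * (maxLen x : ℝ) ≤ llx x by
      linarith [h.room.len_le]) (show 0 ≤ llx x by linarith)
    linarith
  · have hb := h.room.big
    have hlogL := Real.log_nonneg (show (1 : ℝ) ≤ llx x by linarith)
    have hw := h.room.width_pos
    have hC := h.C_nonneg
    have h32 : 0 ≤ 3 / 2 * ((cutCell x : ℝ) + 1) * (width x + C + 1) := by positivity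
    have hB := Real.rpow_nonneg (show (0 : ℝ) ≤ llx x by linarith) (24 / 25 : ℝ)
    rw [preLoss] at hb
    push_cast
    linarith

end late

end Vale.Agent.P031
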