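import Vale.Agent.P031.UpperProfile

/-!
# P031: facts about values of configurations, for the upper bound
-/

namespace Vale.Agent.P031

open Finset

theorem SqOK.of_dvd {x : ℝ} {a b : ℕ} (h : SqOK x b) (hd : a ∣ b) : SqOK x a :=
  fun r hr hc hda => h r hr hc (hda.trans hd)

theorem upper_omegaIn_mul {x : ℝ} {j a b : ℕ} (ha : a ≠ 0) (hb : b ≠ 0) (hsq : SqOK x (a * b))
    (hj : halfCell x ≤ j) : omegaIn x j (a * b) = omegaIn x j a + omegaIn x j b := by
  unfold omegaIn
  rw [Nat.primeFactors_mul ha hb, filter_union, card_union_of_disjoint]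
  rw [disjoint_left]
  intro r h1 h2
  rw [mem_filter] at h1 h2
  refine hsq r (Nat.prime_of_mem_primeFactors h1.1) (h1.2 ▸ hj) ?_
  rw [pow_two]
  exact Nat.mul_dvd_mul (Nat.dvd_of_mem_primeFactors h1.1) (Nat.dvd_of_mem_primeFactors h2.1)

theorem confValue_cons' (q : ℕ) (qs : List ℕ) (m : ℕ) :
    confValue (q :: qs) m = (q - 1) * confValue qs m := by
  simp [confValue, mul_assoc]

theorem confValue_pos' {qs : List ℕ} (h : ∀ q ∈ qs, 2 ≤ q) {m : ℕ} (hm : 0 < m) :
    0 < confValue qs m := by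
  induction qs with
  | nil => simpa [confValue] using hm
  | cons q qs ih =>
    rw [confValue_cons']
    have := h q List.mem_cons_self
    exact Nat.mul_pos (by omega) (ih fun a ha => h a (List.mem_cons_of_mem _ ha))

theorem confValue_append' (a b : List ℕ) (m : ℕ) :
    confValue (a ++ b) m = confValue a 1 * confValue b m := by
  simp [confValue, mul_assoc]

theorem prime_dvd_confValue {qs : List ℕ} {m r : ℕ} (hr : r.Prime) (h : r ∣ confValue qs m) :
    (∃ q ∈ qs, r ∣ q - 1) ∨ r ∣ m := by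
  induction qs with
  | nil => exact Or.inr (by simpa [confValue] using h)
  | cons q qs ih =>
    rw [confValue_cons'] at h
    rcases hr.dvd_mul.1 h with h | h
    · exact Or.inl ⟨q, List.mem_cons_self, h⟩
    · rcases ih h with ⟨a, ha, hd⟩ | h
      · exact Or.inl ⟨a, List.mem_cons_of_mem _ ha, hd⟩
      · exact Or.inr h

theorem omegaIn_confValue {x : ℝ} {j : ℕ} (hj : halfCell x ≤ j) {qs : List ℕ}
    (h : ∀ q ∈ qs, 2 ≤ q) {m : ℕ} (hm : 0 < m) (hsq : SqOK x (confValue qs m)) :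
    omegaIn x j (confValue qs m)
      = (qs.map (fun q => omegaIn x j (q - 1))).sum + omegaIn x j m := by
  induction qs with
  | nil => simp [confValue]
  | cons q qs ih =>
    have h' : ∀ a ∈ qs, 2 ≤ a := fun a ha => h a (List.mem_cons_of_mem _ ha)
    rw [confValue_cons'] at hsq ⊢
    have hq := h q List.mem_cons_self
    rw [upper_omegaIn_mul (by omega) (confValue_pos' h' hm).ne' hsq hj,
      ih h' (hsq.of_dvd (dvd_mul_left _ _)), List.map_cons, List.sum_cons, add_assoc]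

/-- Each prime above cell `j` contributes at least `Δ - D`. -/
theorem count_mul_le_sum {x : ℝ} {j : ℕ} (hj : halfCell x ≤ j) {qs : List ℕ}
    (h : ∀ q ∈ qs, Normal x (cell x q) q) :
    (above x qs j : ℝ) * (width x - devBd x)
      ≤ ((qs.map (fun q => omegaIn x j (q - 1))).sum : ℕ) := by
  induction qs with
  | nil => simp [above]
  | cons q qs ih =>
    have h' := ih fun a ha => h a (List.mem_cons_of_mem _ ha)
    simp only [List.map_cons, List.sum_cons, Nat.cast_add, above, List.countP_cons] at h' ⊢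
    by_cases hlt : j < cell x q
    · have := (abs_le.1 ((h q List.mem_cons_self).dev j hj hlt)).1
      simp only [hlt, decide_true, if_true, Nat.cast_one]
      linarith
    · simp only [hlt, decide_false, Bool.false_eq_true, if_false, Nat.cast_zero, add_zero]
      linarith [(omegaIn x j (q - 1)).cast_nonneg (α := ℝ)]

theorem sum_omegaIn_le {x : ℝ} (a b v : ℕ) :
    ∑ j ∈ Finset.Ico a b, omegaIn x j v ≤ v.primeFactors.card := by
  unfold omegaIn
  rw [← card_biUnion]
  · exact card_le_card (biUnion_subset.2 fun j _ => filter_subset _ _)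
  · intro i _ j _ hij
    show Disjoint (v.primeFactors.filter (fun r => cell x r = i))
      (v.primeFactors.filter (fun r => cell x r = j))
    rw [disjoint_left]
    intro r h1 h2
    exact hij ((mem_filter.1 h1).2.symm.trans (mem_filter.1 h2).2)

theorem totient_list {s : ℕ} : ∀ {qs : List ℕ}, qs.Pairwise (fun a b => b < a) →
    (∀ q ∈ qs, q.Prime ∧ ¬ q ∣ s) → (qs.prod * s).totient = confValue qs s.totient := by
  intro qs
  induction qs with
  | nil => intro _ _; simp [confValue]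
  | cons q qs ih =>
    intro hp h
    obtain ⟨h1, h2⟩ := List.pairwise_cons.1 hp
    obtain ⟨hq, hqs⟩ := h q List.mem_cons_self
    have hnot : ¬ q ∣ qs.prod * s := by
      intro hd
      rcases hq.dvd_mul.1 hd with hd | hd
      · obtain ⟨a, ha, hda⟩ := (Prime.dvd_prod_iff hq.prime).1 hd
        have := (Nat.prime_dvd_prime_iff_eq hq (h a (List.mem_cons_of_mem _ ha)).1).1 hda
        have := h1 a ha
        omega
      · exact hqs hd
    rw [List.prod_cons, mul_assoc, Nat.totient_mul ((hq.coprime_iff_not_dvd).2 hnot),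
      Nat.totient_prime hq, ih h2 fun a ha => h a (List.mem_cons_of_mem _ ha), confValue_cons']

theorem le_ll_of_cell {x : ℝ} (hw : 0 < width x) {j r : ℕ} (hj : 1 ≤ j) (h : j ≤ cell x r) :
    (j : ℝ) * width x ≤ ll r := by
  have h1 : j ≤ ⌊ll r / width x⌋₊ := h.trans (min_le_right _ _)
  exact (le_div_iff₀ hw).1 ((Nat.le_floor_iff' (by omega)).1 h1)

theorem ll_lt_of_cell {x : ℝ} (hw : 0 < width x) {j r : ℕ} (hj : j < numCells x)
    (h : cell x r ≤ j) : ll r < ((j : ℝ) + 1) * width x := by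
  have h1 : ⌊ll r / width x⌋₊ ≤ j := by
    unfold cell at h
    rcases min_le_iff.1 h with h | h
    · omega
    · exact h
  have h2 : ll r / width x < (j : ℝ) + 1 := by
    have := Nat.lt_floor_add_one (ll r / width x)
    have h3 : (⌊ll r / width x⌋₊ : ℝ) ≤ j := by exact_mod_cast h1
    linarith
  exact (div_lt_iff₀ hw).1 h2

theorem exp_le_log_of_le_ll {r : ℕ} (hr : 2 ≤ r) {t : ℝ} (h : t ≤ ll r) :
    Real.exp t ≤ Real.log r := by
  refine (Real.exp_le_exp.2 h).trans (le_of_eq ?_)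
  exact Real.exp_log (Real.log_pos (by exact_mod_cast hr))

theorem log_le_exp_of_ll_le {r : ℕ} (hr : 2 ≤ r) {t : ℝ} (h : ll r ≤ t) :
    Real.log r ≤ Real.exp t := by
  refine le_trans (le_of_eq ?_) (Real.exp_le_exp.2 h)
  exact (Real.exp_log (Real.log_pos (by exact_mod_cast hr))).symm

theorem sum_inv_sq_ge {a : ℕ} (ha : 1 ≤ a) (S : Finset ℕ) (hS : ∀ r ∈ S, a ≤ r) :
    ∑ r ∈ S, (1 : ℝ) / (r : ℝ) ^ 2 ≤ 2 / a := by
  have key : ∀ N : ℕ, ∑ r ∈ Finset.Ico a (a + N), (1 : ℝ) / (r : ℝ) ^ 2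
      ≤ 2 / a - 2 / ((a + N : ℕ) : ℝ) := by
    intro N
    induction N with
    | zero => simp
    | succ N ih =>
      rw [show a + (N + 1) = a + N + 1 by omega, Finset.sum_Ico_succ_top (by omega)]
      push_cast at ih ⊢
      have h1 : (1 : ℝ) ≤ (a : ℝ) + N := by
        have : (1 : ℝ) ≤ a := by exact_mod_cast ha
        linarith [N.cast_nonneg (α := ℝ)]
      have h2 : 1 / ((a : ℝ) + N) ^ 2 ≤ 2 / ((a : ℝ) + N) - 2 / ((a : ℝ) + N + 1) := by
        rw [div_sub_div _ _ (by linarith) (by linarith),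
          div_le_div_iff₀ (by positivity) (by positivity)]
        nlinarith
      linarith
  have hsub : S ⊆ Finset.Ico a (a + (S.sup id + 1)) := fun r hr => by
    simp only [mem_Ico]
    have : r ≤ S.sup id := le_sup (f := id) hr
    exact ⟨hS r hr, by omega⟩
  refine (sum_le_sum_of_subset_of_nonneg hsub fun r _ _ => by positivity).trans
    ((key _).trans ?_)
  have : (0 : ℝ) ≤ 2 / ((a + (S.sup id + 1) : ℕ) : ℝ) := by positivity
  linarith

/-- Numbers up to `N` with the square of a prime `≥ Q`. -/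
theorem card_sq_le {V : Finset ℕ} {N Q : ℝ} (hQ : 1 ≤ Q) (hN : 0 ≤ N)
    (hV : ∀ v ∈ V, 0 < v ∧ (v : ℝ) ≤ N ∧ ∃ r : ℕ, Q ≤ (r : ℝ) ∧ r ^ 2 ∣ v) :
    (V.card : ℝ) ≤ 2 * N / Q := by
  set M := ⌊N⌋₊
  set S := (Finset.range (M + 1)).filter (fun r : ℕ => Q ≤ (r : ℝ))
  have hsub : V ⊆ S.biUnion (fun r => (Finset.Ioc 0 M).filter (fun v => r ^ 2 ∣ v)) := by
    intro v hv
    obtain ⟨h0, hle, r, hr, hd⟩ := hV v hv
    have hvM : v ≤ M := Nat.le_floor hle
    have hrv : r ≤ v := (Nat.le_self_pow two_ne_zero r).trans (Nat.le_of_dvd h0 hd)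
    refine mem_biUnion.2 ⟨r, mem_filter.2 ⟨mem_range.2 (by omega), hr⟩, mem_filter.2 ⟨?_, hd⟩⟩
    exact mem_Ioc.2 ⟨h0, hvM⟩
  have h1 : (V.card : ℝ) ≤ ∑ r ∈ S, (((Finset.Ioc 0 M).filter (fun v => r ^ 2 ∣ v)).card : ℝ) := by
    exact_mod_cast (card_le_card hsub).trans card_biUnion_le
  refine h1.trans ?_
  have h2 : ∀ r ∈ S, (((Finset.Ioc 0 M).filter (fun v => r ^ 2 ∣ v)).card : ℝ)
      ≤ N * (1 / (r : ℝ) ^ 2) := by
    intro r _
    rw [Nat.Ioc_filter_dvd_card_eq_div, mul_one_div]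
    refine (Nat.cast_div_le).trans ?_
    push_cast
    exact div_le_div_of_nonneg_right (Nat.floor_le hN) (by positivity)
  refine (sum_le_sum h2).trans ?_
  rw [← mul_sum]
  have ha : 1 ≤ ⌈Q⌉₊ := Nat.ceil_pos.2 (by linarith)
  have h3 := sum_inv_sq_ge ha S fun r hr => Nat.ceil_le.2 (mem_filter.1 hr).2
  refine (mul_le_mul_of_nonneg_left h3 hN).trans ?_
  rw [mul_div_assoc', mul_comm N 2]
  exact div_le_div_of_nonneg_left (by positivity) (by linarith) (Nat.le_ceil Q)

/-- Numbers up to `N` of weight at least `W`. -/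
theorem card_mul_le_weight {V : Finset ℕ} {N W : ℝ} (hN : 0 ≤ N) {f : ℕ → ℝ} (hW : 0 ≤ W)
    (hV : ∀ v ∈ V, 0 < v ∧ (v : ℝ) ≤ N ∧ W ≤ f v) :
    (V.card : ℝ) * W ≤ N * ∑ v ∈ V, f v / v := by
  rw [mul_sum, ← nsmul_eq_mul, ← sum_const]
  refine sum_le_sum fun v hv => ?_
  obtain ⟨h0, hle, hf⟩ := hV v hv
  have h0' : (0 : ℝ) < v := by exact_mod_cast h0
  calc W = (v : ℝ) * (W / v) := by field_simp
    _ ≤ N * (f v / v) := mul_le_mul hle (div_le_div_of_nonneg_right hf h0'.le)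
        (div_nonneg hW h0'.le) hN

/-- Values represented by a family of sets. -/
theorem card_le_reps {ι : Type*} (T : Finset ι) (P : ι → Finset ℕ) (g : ℕ → ι → ℕ)
    (V : Finset ℕ) (B : ι → ℝ) (hV : ∀ v ∈ V, ∃ t ∈ T, ∃ p ∈ P t, g p t = v)
    (hB : ∀ t ∈ T, ((P t).card : ℝ) ≤ B t) : (V.card : ℝ) ≤ ∑ t ∈ T, B t := by
  classical
  have hsub : V ⊆ T.biUnion (fun t => (P t).image (fun p => g p t)) := by
    intro v hv
    obtain ⟨t, ht, p, hp, rfl⟩ := hV v hv
    exact mem_biUnion.2 ⟨t, ht, mem_image_of_mem _ hp⟩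
  refine le_trans ?_ (sum_le_sum hB)
  exact_mod_cast (card_le_card hsub).trans
    (card_biUnion_le.trans (sum_le_sum fun t _ => card_image_le))

/-- Primes `p ≤ Y / w + 1` with `lp ≤ log p`. -/
noncomputable def primesTo (Y w lp : ℝ) : Finset ℕ :=
  (Nat.primesLE ⌊Y / w + 1⌋₊).filter (fun p : ℕ => lp ≤ Real.log p)

theorem mem_primesTo {Y w lp : ℝ} (hw : 0 < w) {p : ℕ} (hp : p.Prime) (hlp : lp ≤ Real.log p)
    (h : ((p : ℝ) - 1) * w ≤ Y) : p ∈ primesTo Y w lp := by
  refine mem_filter.2 ⟨Nat.mem_primesLE.2 ⟨Nat.le_floor ?_, hp⟩, hlp⟩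
  have := (le_div_iff₀ hw).2 h
  linarith

theorem primesTo_log {Y w lp : ℝ} (hlp : 4 ≤ lp) (hY : 0 ≤ Y / w) {p : ℕ}
    (hp : p ∈ primesTo Y w lp) : 4 ≤ Y / w ∧ lp / 2 ≤ Real.log (Y / w) := by
  obtain ⟨hp1, hp2⟩ := mem_filter.1 hp
  obtain ⟨hple, hpp⟩ := Nat.mem_primesLE.1 hp1
  have hp0 : (0 : ℝ) < p := by exact_mod_cast hpp.pos
  have hX : (p : ℝ) - 1 ≤ Y / w := by
    have h1 : (p : ℝ) ≤ ⌊Y / w + 1⌋₊ := by exact_mod_cast hple
    have h2 := Nat.floor_le (show (0 : ℝ) ≤ Y / w + 1 by linarith)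
    linarith
  have hp5 : (5 : ℝ) ≤ p := by
    rw [← Real.exp_log hp0]
    have := Real.add_one_le_exp (Real.log p)
    linarith
  refine ⟨by linarith, ?_⟩
  have hlogp : lp ≤ 2 * Real.log ((p : ℝ) - 1) := by
    refine hp2.trans ?_
    rw [← Real.log_rpow (by linarith), Real.rpow_two]
    exact Real.log_le_log hp0 (by nlinarith)
  have := Real.log_le_log (show (0 : ℝ) < (p : ℝ) - 1 by linarith) hX
  linarith

theorem card_primesTo_le {Y w lp : ℝ} (hw : 0 < w) (hY : 0 ≤ Y) (hlp : 4 ≤ lp) :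
    ((primesTo Y w lp).card : ℝ) ≤ 24 * Y / (w * lp) := by
  rcases (primesTo Y w lp).eq_empty_or_nonempty with h | ⟨p, hp⟩
  · rw [h]
    simp only [card_empty, Nat.cast_zero]
    positivity
  · obtain ⟨h4, hl⟩ := primesTo_log hlp (div_nonneg hY hw.le) hp
    have h1 : ((primesTo Y w lp).card : ℝ) ≤ Nat.primeCounting ⌊Y / w + 1⌋₊ := by
      rw [← Nat.primesLE_card_eq_primeCounting]
      exact_mod_cast card_le_card (filter_subset _ _)
    refine (h1.trans (primeCounting_succ_le h4)).trans ?_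
    calc 12 * (Y / w) / Real.log (Y / w) ≤ 12 * (Y / w) / (lp / 2) :=
          div_le_div_of_nonneg_left (by positivity) (by linarith) hl
      _ = 24 * Y / (w * lp) := by field_simp; ring

end Vale.Agent.P031
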