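import Mathlib

/-!
# P031: elementary tools for the upper bound

Finite Euler products, the crude bound `n ≤ φ(n) (log n + O(1))`, subset sums and a Chebyshev bound.
-/

namespace Vale.Agent.P031

open Finset

/-- `∑ 1 / n` over naturals supported on a set of primes. -/
theorem sum_inv_supported_le (S T : Finset ℕ) (hS : ∀ r ∈ S, r.Prime)
    (hT : ∀ n ∈ T, 0 < n ∧ n.primeFactors ⊆ S) :
    ∑ n ∈ T, (1 : ℝ) / n ≤ ∏ r ∈ S, (1 - (1 : ℝ) / r)⁻¹ := by
  let f : ℕ →* ℝ :=
    { toFun := fun n => (1 : ℝ) / n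
      map_one' := by simp
      map_mul' := fun a b => by push_cast; rw [one_div_mul_one_div] }
  have hlt : ∀ {p : ℕ}, p.Prime → ‖f p‖ < 1 := fun {p} hp => by
    show ‖(1 : ℝ) / p‖ < 1
    rw [Real.norm_eq_abs, abs_of_nonneg (by positivity), div_lt_one (by exact_mod_cast hp.pos)]
    exact_mod_cast hp.one_lt
  obtain ⟨-, hs⟩ := EulerProduct.summable_and_hasSum_factoredNumbers_prod_filter_prime_geometric
    (f := f) hlt S
  have hmem : ∀ n ∈ T, n ∈ Nat.factoredNumbers S := fun n hn =>
    Nat.mem_factoredNumbers_of_primeFactors_subset (hT n hn).1.ne' (hT n hn).2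
  have h := sum_le_hasSum (T.subtype (· ∈ Nat.factoredNumbers S))
    (fun m _ => (by positivity : (0 : ℝ) ≤ 1 / ((m : ℕ) : ℝ))) hs
  rw [filter_true_of_mem hS] at h
  refine le_trans (le_of_eq ?_) h
  rw [← filter_true_of_mem hmem, ← sum_subtype_eq_sum_filter]
  exact sum_congr (by rw [filter_true_of_mem hmem]) fun _ _ => rfl

/-- Euler product for weights of distinct prime factors. -/
theorem rankin_omega (z : ℕ → ℝ) (hz : ∀ r, 0 ≤ z r) (P T : Finset ℕ) (hP : ∀ r ∈ P, r.Prime)
    (hT : ∀ n ∈ T, 0 < n ∧ n.primeFactors ⊆ P) :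
    ∑ n ∈ T, (∏ r ∈ n.primeFactors, z r) / n ≤ Real.exp (∑ r ∈ P, z r / ((r : ℝ) - 1)) := by
  rw [← sum_fiberwise_of_maps_to (g := Nat.primeFactors) (t := P.powerset)
    (fun n hn => mem_powerset.2 (hT n hn).2)]
  have hfib : ∀ S ∈ P.powerset,
      ∑ n ∈ T with n.primeFactors = S, (∏ r ∈ n.primeFactors, z r) / n
        ≤ ∏ r ∈ S, z r / ((r : ℝ) - 1) := by
    intro S hS
    have hSp : ∀ r ∈ S, r.Prime := fun r hr => hP r (mem_powerset.1 hS hr)
    set d := ∏ r ∈ S, r with hd
    have hdpos : 0 < d := prod_pos fun r hr => (hSp r hr).pos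
    have hdiv : ∀ n ∈ T.filter (fun n => n.primeFactors = S), d ∣ n := by
      intro n hn
      rw [hd, ← (mem_filter.1 hn).2]
      exact Nat.prod_primeFactors_dvd n
    have hrw : ∀ n ∈ T.filter (fun n => n.primeFactors = S),
        (∏ r ∈ n.primeFactors, z r) / (n : ℝ)
          = ((∏ r ∈ S, z r) / d) * (1 / ((n / d : ℕ) : ℝ)) := by
      intro n hn
      have e : (n : ℝ) = (d : ℝ) * ((n / d : ℕ) : ℝ) := by
        exact_mod_cast (Nat.mul_div_cancel' (hdiv n hn)).symm
      rw [(mem_filter.1 hn).2]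
      conv_lhs => rw [e]
      rw [mul_one_div, div_div]
    rw [sum_congr rfl hrw, ← mul_sum]
    have hinj : Set.InjOn (fun n => n / d)
        (T.filter (fun n => n.primeFactors = S) : Set ℕ) := by
      intro a ha b hb h
      simp only at h
      rw [← Nat.mul_div_cancel' (hdiv a (mem_coe.1 ha)), h,
        Nat.mul_div_cancel' (hdiv b (mem_coe.1 hb))]
    have hb : ∑ n ∈ T.filter (fun n => n.primeFactors = S), (1 : ℝ) / ((n / d : ℕ) : ℝ)
        ≤ ∏ r ∈ S, (1 - (1 : ℝ) / r)⁻¹ := by
      rw [← sum_image (f := fun b : ℕ => (1 : ℝ) / b) hinj]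
      refine sum_inv_supported_le S _ hSp fun b hb => ?_
      obtain ⟨n, hn, rfl⟩ := mem_image.1 hb
      have hn0 := (hT n (mem_filter.1 hn).1).1
      refine ⟨Nat.div_pos (Nat.le_of_dvd hn0 (hdiv n hn)) hdpos, fun r hr => ?_⟩
      rw [← (mem_filter.1 hn).2]
      exact Nat.primeFactors_mono (Nat.div_dvd_of_dvd (hdiv n hn)) hn0.ne' hr
    refine (mul_le_mul_of_nonneg_left hb
      (div_nonneg (prod_nonneg fun r _ => hz r) (Nat.cast_nonneg _))).trans (le_of_eq ?_)
    rw [hd, Nat.cast_prod, ← prod_div_distrib, ← prod_mul_distrib]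
    refine prod_congr rfl fun r hr => ?_
    have h2 : (2 : ℝ) ≤ r := by exact_mod_cast (hSp r hr).two_le
    rw [one_sub_div (by linarith), inv_div]
    field_simp
  refine (sum_le_sum hfib).trans ?_
  rw [← prod_one_add, Real.exp_sum]
  refine prod_le_prod (fun r hr => ?_) fun r _ => by linarith [Real.add_one_le_exp (z r / ((r : ℝ) - 1))]
  have h2 : (2 : ℝ) ≤ r := by exact_mod_cast (hP r hr).two_le
  have := div_nonneg (hz r) (show (0 : ℝ) ≤ (r : ℝ) - 1 by linarith)
  linarith

/-- The crude bound `n ≤ φ(n) (ω(n) + 1)`. -/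
theorem le_totient_mul_card (n : ℕ) : n ≤ n.totient * (n.primeFactors.card + 1) := by
  have key : ∀ S : Finset ℕ, (∀ p ∈ S, p.Prime) →
      ∏ p ∈ S, p ≤ (S.card + 1) * ∏ p ∈ S, (p - 1) := by
    intro S
    induction S using Finset.induction_on_max with
    | empty => simp
    | insert a s hlt ih =>
      intro hp
      have ha : a ∉ s := fun h => lt_irrefl a (hlt a h)
      have hcard : s.card ≤ a - 2 := by
        have : s ⊆ Finset.Ico 2 a := fun p hps =>
          mem_Ico.2 ⟨(hp p (mem_insert_of_mem hps)).two_le, hlt p hps⟩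
        simpa using card_le_card this
      have h2 := (hp a (mem_insert_self a s)).two_le
      have ih' := ih fun p hps => hp p (mem_insert_of_mem hps)
      rw [prod_insert ha, prod_insert ha, card_insert_of_notMem ha]
      calc a * ∏ p ∈ s, p ≤ a * ((s.card + 1) * ∏ p ∈ s, (p - 1)) := Nat.mul_le_mul_left a ih'
        _ = (a * (s.card + 1)) * ∏ p ∈ s, (p - 1) := by ring
        _ ≤ ((s.card + 1 + 1) * (a - 1)) * ∏ p ∈ s, (p - 1) := by
            refine Nat.mul_le_mul_right _ ?_
            obtain ⟨b, rfl⟩ := Nat.exists_eq_add_of_le h2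
            simp only [Nat.add_sub_cancel_left] at hcard
            rw [show 2 + b - 1 = b + 1 by omega]
            nlinarith
        _ = (s.card + 1 + 1) * ((a - 1) * ∏ p ∈ s, (p - 1)) := by ring
  have hpos : 0 < ∏ p ∈ n.primeFactors, p :=
    prod_pos fun p hp => (Nat.prime_of_mem_primeFactors hp).pos
  have h := Nat.totient_mul_prod_primeFactors n
  have hk := key n.primeFactors fun p hp => Nat.prime_of_mem_primeFactors hp
  refine Nat.le_of_mul_le_mul_right ?_ hpos
  calc n * ∏ p ∈ n.primeFactors, p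
      ≤ n * ((n.primeFactors.card + 1) * ∏ p ∈ n.primeFactors, (p - 1)) := Nat.mul_le_mul_left n hk
    _ = (n * ∏ p ∈ n.primeFactors, (p - 1)) * (n.primeFactors.card + 1) := by ring
    _ = n.totient * (n.primeFactors.card + 1) * ∏ p ∈ n.primeFactors, p := by rw [← h]; ring

theorem le_totient_mul_log {n : ℕ} (hn : 0 < n) :
    (n : ℝ) ≤ n.totient * (3 * Real.log n.totient + 6) := by
  have hv : (1 : ℝ) ≤ n.totient := by exact_mod_cast Nat.totient_pos.2 hn
  have hn' : (0 : ℝ) < n := by exact_mod_cast hn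
  have h := le_totient_mul_card n
  have h1 : (n : ℝ) ≤ n.totient * ((n.primeFactors.card : ℝ) + 1) := by exact_mod_cast h
  have h2 : (n.primeFactors.card : ℝ) * Real.log 2 ≤ Real.log n := by
    rw [← Real.log_pow]
    refine Real.log_le_log (by positivity) ?_
    have : 2 ^ n.primeFactors.card ≤ n :=
      (pow_card_le_prod _ _ _ fun p hp => (Nat.prime_of_mem_primeFactors hp).two_le).trans
        (Nat.le_of_dvd hn (Nat.prod_primeFactors_dvd n))
    exact_mod_cast this
  have hl2 := Real.log_two_gt_d9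
  have hln : 0 ≤ Real.log (n : ℝ) := Real.log_nonneg (by exact_mod_cast hn)
  have h3 : (n.primeFactors.card : ℝ) + 1 ≤ 3 / 2 * Real.log n + 1 := by nlinarith
  have h4 : Real.log (n : ℝ) ≤ 2 * Real.sqrt n := by
    have := Real.log_le_sub_one_of_pos (Real.sqrt_pos.2 hn')
    rw [Real.log_sqrt hn'.le] at this
    linarith
  have hs1 : 1 ≤ Real.sqrt n := Real.one_le_sqrt.2 (by exact_mod_cast hn)
  have h5 : (n : ℝ) ≤ n.totient * (4 * Real.sqrt n) :=
    h1.trans (mul_le_mul_of_nonneg_left (by linarith) (by linarith))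
  have h6 : Real.sqrt n ≤ 4 * n.totient := by
    have := Real.mul_self_sqrt hn'.le
    nlinarith
  have h7 : Real.log (n : ℝ) ≤ Real.log 16 + 2 * Real.log n.totient := by
    rw [show (2 : ℝ) * Real.log n.totient = Real.log ((n.totient : ℝ) ^ 2) by
      rw [Real.log_pow]; norm_num, ← Real.log_mul (by norm_num) (by positivity)]
    refine Real.log_le_log hn' ?_
    have := Real.mul_self_sqrt hn'.le
    nlinarith
  have h16 : Real.log 16 < 3 := by
    rw [show (16 : ℝ) = 2 ^ 4 by norm_num, Real.log_pow]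
    have := Real.log_two_lt_d9
    norm_num
    linarith
  exact h1.trans (mul_le_mul_of_nonneg_left (by linarith) (by linarith))

/-- Subsets of size at most `N`. -/
theorem sum_subsets_le (f : ℕ → ℝ) (hf : ∀ a, 0 ≤ f a) (P : Finset ℕ) (N : ℕ) :
    ∑ S ∈ P.powerset.filter (fun S => S.card ≤ N), ∏ a ∈ S, f a
      ≤ (1 + ∑ a ∈ P, f a) ^ N := by
  induction P using Finset.induction generalizing N with
  | empty => simp [filter_singleton]
  | insert a P ha ih =>
    have hs : 0 ≤ ∑ b ∈ P, f b := sum_nonneg fun b _ => hf b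
    rw [sum_filter, powerset_insert, sum_union, sum_image]
    · rw [sum_insert ha, ← sum_filter]
      cases N with
      | zero =>
        have hz : ∑ S ∈ P.powerset,
            (if (insert a S).card ≤ 0 then ∏ b ∈ insert a S, f b else 0) = 0 :=
          sum_eq_zero fun S _ => if_neg (by simp)
        rw [hz]
        simpa using ih 0
      | succ N =>
        have e : ∑ S ∈ P.powerset,
            (if (insert a S).card ≤ N + 1 then ∏ b ∈ insert a S, f b else 0)
            = f a * ∑ S ∈ P.powerset.filter (fun S => S.card ≤ N), ∏ b ∈ S, f b := by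
          rw [mul_sum, sum_filter]
          refine sum_congr rfl fun S hS => ?_
          have hnot : a ∉ S := fun h => ha (mem_powerset.1 hS h)
          rw [card_insert_of_notMem hnot, prod_insert hnot]
          simp only [Nat.succ_le_succ_iff]
        rw [e]
        have h1 := ih (N + 1)
        have h2 := mul_le_mul_of_nonneg_left (ih N) (hf a)
        have h3 : (1 + ∑ b ∈ P, f b) ^ N * (1 + (f a + ∑ b ∈ P, f b))
            ≤ (1 + (f a + ∑ b ∈ P, f b)) ^ N * (1 + (f a + ∑ b ∈ P, f b)) := by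
          refine mul_le_mul_of_nonneg_right (pow_le_pow_left₀ (by linarith) ?_ N) ?_ <;>
            linarith [hf a]
        rw [pow_succ] at h1 ⊢
        nlinarith
    · intro S hS T hT h
      have hS' : a ∉ S := fun h' => ha (mem_powerset.1 hS h')
      have hT' : a ∉ T := fun h' => ha (mem_powerset.1 hT h')
      rw [← erase_insert hS', ← erase_insert hT', h]
    · rw [disjoint_left]
      intro S hS hS'
      obtain ⟨T, -, rfl⟩ := mem_image.1 hS'
      exact ha (mem_powerset.1 hS (mem_insert_self a T))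

/-- Subsets of size at most `N` meeting `A`. -/
theorem sum_subsets_meet_le (f : ℕ → ℝ) (hf : ∀ a, 0 ≤ f a) (P A : Finset ℕ) (N : ℕ) :
    ∑ S ∈ P.powerset.filter (fun S => S.card ≤ N ∧ ∃ a ∈ S, a ∈ A), ∏ a ∈ S, f a
      ≤ (∑ a ∈ A, f a) * (1 + ∑ a ∈ P, f a) ^ N := by
  classical
  calc ∑ S ∈ P.powerset.filter (fun S => S.card ≤ N ∧ ∃ a ∈ S, a ∈ A), ∏ a ∈ S, f a
      ≤ ∑ S ∈ P.powerset.filter (fun S => S.card ≤ N),
          ∑ a ∈ A, if a ∈ S then ∏ b ∈ S, f b else 0 := by
        refine le_trans ?_ (sum_le_sum_of_subset_of_nonneg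
          (s := P.powerset.filter (fun S => S.card ≤ N ∧ ∃ a ∈ S, a ∈ A)) ?_ fun S _ _ =>
          sum_nonneg fun a _ => ?_)
        · refine sum_le_sum fun S hS => ?_
          obtain ⟨-, -, a, haS, haA⟩ := mem_filter.1 hS
          refine le_trans ?_ (single_le_sum
            (f := fun a => if a ∈ S then ∏ b ∈ S, f b else 0) (fun b _ => ?_) haA)
          · rw [if_pos haS]
          show (0 : ℝ) ≤ if b ∈ S then ∏ c ∈ S, f c else 0
          split_ifs
          · exact prod_nonneg fun c _ => hf c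
          · exact le_rfl
        · exact fun S hS => mem_filter.2 ⟨(mem_filter.1 hS).1, (mem_filter.1 hS).2.1⟩
        · split_ifs
          · exact prod_nonneg fun c _ => hf c
          · exact le_rfl
    _ = ∑ a ∈ A, ∑ S ∈ P.powerset.filter (fun S => S.card ≤ N ∧ a ∈ S), ∏ b ∈ S, f b := by
        rw [sum_comm]
        refine sum_congr rfl fun a _ => ?_
        rw [← sum_filter, filter_filter]
    _ ≤ ∑ a ∈ A, f a * (1 + ∑ b ∈ P, f b) ^ N := by
        refine sum_le_sum fun a _ => ?_
        refine le_trans ?_ (mul_le_mul_of_nonneg_left (sum_subsets_le f hf P N) (hf a))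
        rw [mul_sum]
        have hsub : ∀ S ∈ P.powerset.filter (fun S => S.card ≤ N ∧ a ∈ S),
            ∏ b ∈ S, f b = f a * ∏ b ∈ S.erase a, f b :=
          fun S hS => (mul_prod_erase S f (mem_filter.1 hS).2.2).symm
        rw [sum_congr rfl hsub, ← sum_image (f := fun S => f a * ∏ b ∈ S, f b)
          (g := fun S : Finset ℕ => S.erase a)]
        · refine sum_le_sum_of_subset_of_nonneg ?_ fun S _ _ =>
            mul_nonneg (hf a) (prod_nonneg fun c _ => hf c)
          intro S hS
          obtain ⟨T, hT, rfl⟩ := mem_image.1 hS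
          rw [mem_filter] at hT ⊢
          exact ⟨mem_powerset.2 ((erase_subset a T).trans (mem_powerset.1 hT.1)),
            card_erase_le.trans hT.2.1⟩
        · intro S hS T hT h
          simp only at h
          rw [← insert_erase (mem_filter.1 hS).2.2, h, insert_erase (mem_filter.1 hT).2.2]
    _ = (∑ a ∈ A, f a) * (1 + ∑ a ∈ P, f a) ^ N := by rw [sum_mul]

/-- Chebyshev: `π(⌊X + 1⌋) ≤ 12 X / log X`. -/
theorem primeCounting_succ_le {X : ℝ} (hX : 4 ≤ X) :
    (Nat.primeCounting ⌊X + 1⌋₊ : ℝ) ≤ 12 * X / Real.log X := by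
  have hlX : 0 < Real.log X := Real.log_pos (by linarith)
  have ht : 1 < X + 1 := by linarith
  refine (Chebyshev.pi_le_log4_mul_div ht).trans ?_
  have hlt : Real.log X ≤ Real.log (X + 1) := Real.log_le_log (by linarith) (by linarith)
  rw [Real.log_sqrt (by linarith)]
  have hl4 : Real.log 4 ≤ 2 := by
    rw [show (4 : ℝ) = 2 ^ 2 by norm_num, Real.log_pow]
    have := Real.log_two_lt_d9
    norm_num
    linarith
  have h1 : Real.log 4 * (X + 1) / (Real.log (X + 1) / 2) ≤ 8 * X / Real.log X := by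
    rw [div_div_eq_mul_div]
    refine div_le_div₀ (by linarith) ?_ hlX hlt
    nlinarith
  have h2 : Real.sqrt (X + 1) ≤ 4 * X / Real.log X := by
    rw [le_div_iff₀ hlX]
    have hs : Real.log X ≤ 2 * Real.sqrt X := by
      have := Real.log_le_sub_one_of_pos (Real.sqrt_pos.2 (show 0 < X by linarith))
      rw [Real.log_sqrt (by linarith)] at this
      linarith
    have h3 : Real.sqrt (X + 1) * Real.sqrt X ≤ X + 1 := by
      have := Real.sqrt_le_sqrt (show X ≤ X + 1 by linarith)
      nlinarith [Real.mul_self_sqrt (show (0 : ℝ) ≤ X + 1 by linarith), Real.sqrt_nonneg (X + 1)]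
    nlinarith [Real.sqrt_nonneg (X + 1)]
  calc Real.log 4 * (X + 1) / (Real.log (X + 1) / 2) + Real.sqrt (X + 1)
      ≤ 8 * X / Real.log X + 4 * X / Real.log X := add_le_add h1 h2
    _ = 12 * X / Real.log X := by ring

end Vale.Agent.P031
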