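import Vale.Agent.P031.UpperRoom
import Vale.Agent.P031.UpperTools
import Vale.Agent.P031.MajorantTools
import Vale.Agent.P031.Pins

/-!
# P031: Rankin bounds for the exclusions
-/

namespace Vale.Agent.P031

open Finset

/-- All primes `r` with `ll r ≤ L + 1`. -/
noncomputable def allPrimes (x : ℝ) : Finset ℕ :=
  (Finset.range (⌈Real.exp (Real.exp (llx x + 1))⌉₊ + 1)).filter
    (fun r => r.Prime ∧ ll r ≤ llx x + 1)

theorem allPrimes_prime {x : ℝ} {r : ℕ} (h : r ∈ allPrimes x) : r.Prime := (mem_filter.1 h).2.1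

theorem allPrimes_filter_cell (x : ℝ) (j : ℕ) :
    (allPrimes x).filter (fun r => cell x r = j) = cellPrimes x j := by
  ext r
  simp only [allPrimes, cellPrimes, mem_filter]
  tauto

theorem mem_allPrimes {x : ℝ} {r : ℕ} (hr : r.Prime)
    (h : Real.log r ≤ Real.exp (llx x + 1)) : r ∈ allPrimes x := by
  have hr1 : (1 : ℝ) < r := by exact_mod_cast hr.one_lt
  refine mem_filter.2 ⟨mem_range.2 (Nat.lt_succ_of_le ?_), hr, ?_⟩
  · have h1 : (r : ℝ) ≤ Real.exp (Real.exp (llx x + 1)) := by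
      rw [← Real.exp_log (show (0 : ℝ) < r by linarith)]
      exact Real.exp_le_exp.2 h
    exact_mod_cast h1.trans (Nat.le_ceil _)
  · rw [ll, ← Real.log_exp (llx x + 1)]
    exact Real.log_le_log (Real.log_pos hr1) h

/-- The two clauses of `CellMassPin` at one `x`. -/
def CellSum (x C : ℝ) : Prop :=
  (∀ j < numCells x, |(∑ r ∈ cellPrimes x j, (1 : ℝ) / r) - width x| ≤ C) ∧
    (∑ r ∈ cellPrimes x (numCells x), (1 : ℝ) / r) ≤ C

theorem CellSum.le {x C : ℝ} (h : CellSum x C) (hw : 0 ≤ width x) {j : ℕ} (hj : j ≤ numCells x) :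
    (∑ r ∈ cellPrimes x j, (1 : ℝ) / r) ≤ width x + C := by
  rcases lt_or_eq_of_le hj with hj | rfl
  · have := (abs_le.1 (h.1 j hj)).2
    linarith
  · linarith [h.2]

theorem sum_inv_sub_one_le (S : Finset ℕ) (hS : ∀ r ∈ S, r.Prime) :
    ∑ r ∈ S, 1 / ((r : ℝ) - 1) ≤ (∑ r ∈ S, (1 : ℝ) / r) + 1 := by
  have key : ∀ N : ℕ, ∑ r ∈ Finset.Icc 2 (N + 1), (1 / ((r : ℝ) - 1) - 1 / (r : ℝ))
      ≤ 1 - 1 / ((N : ℝ) + 1) := by
    intro N
    induction N with
    | zero => simp
    | succ N ih =>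
      rw [Finset.sum_Icc_succ_top (by omega)]
      push_cast
      rw [add_sub_cancel_right]
      linarith
  have hsub : S ⊆ Finset.Icc 2 (S.sup id + 1) := fun r hr => by
    simp only [mem_Icc]
    exact ⟨(hS r hr).two_le, (le_sup (f := id) hr).trans (Nat.le_succ _)⟩
  have h1 : ∑ r ∈ S, (1 / ((r : ℝ) - 1) - 1 / (r : ℝ))
      ≤ ∑ r ∈ Finset.Icc 2 (S.sup id + 1), (1 / ((r : ℝ) - 1) - 1 / (r : ℝ)) := by
    refine sum_le_sum_of_subset_of_nonneg hsub fun r hr _ => ?_
    have h2 : (2 : ℝ) ≤ r := by exact_mod_cast (mem_Icc.1 hr).1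
    have := one_div_le_one_div_of_le (show (0 : ℝ) < (r : ℝ) - 1 by linarith)
      (show (r : ℝ) - 1 ≤ r by linarith)
    linarith
  have h2 : 0 ≤ 1 / (((S.sup id : ℕ) : ℝ) + 1) := by positivity
  have h3 := key (S.sup id)
  rw [sum_sub_distrib] at h1
  linarith

theorem CellSum.inv_sub_one_le {x C : ℝ} (h : CellSum x C) (hw : 0 ≤ width x) {j : ℕ}
    (hj : j ≤ numCells x) :
    ∑ r ∈ cellPrimes x j, 1 / ((r : ℝ) - 1) ≤ width x + C + 1 := by
  have h1 := sum_inv_sub_one_le (cellPrimes x j) fun r hr => (mem_filter.1 hr).2.1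
  linarith [h.le hw hj]

theorem CellSum.total_le {x C : ℝ} (hR : UpperRoom x C) (h : CellSum x C) :
    ∑ r ∈ allPrimes x, (1 : ℝ) / r ≤ 11 / 10 * llx x := by
  rw [← sum_fiberwise_of_maps_to (g := cell x) (t := Finset.range (numCells x + 1))
    (fun r _ => mem_range.2 (Nat.lt_succ_of_le (cell_le_numCells x r)))]
  simp only [allPrimes_filter_cell]
  rw [Finset.sum_range_succ]
  have h1 : ∑ j ∈ Finset.range (numCells x), ∑ r ∈ cellPrimes x j, (1 : ℝ) / r
      ≤ ∑ _j ∈ Finset.range (numCells x), (width x + C) :=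
    sum_le_sum fun j hj => h.le hR.width_pos.le (mem_range.1 hj).le
  rw [sum_const, card_range, nsmul_eq_mul] at h1
  have := h.2
  have := hR.totmass
  have := hR.J_width
  nlinarith

theorem CellSum.sub_one_total_le {x C : ℝ} (hR : UpperRoom x C) (h : CellSum x C) :
    ∑ r ∈ allPrimes x, 1 / ((r : ℝ) - 1) ≤ 11 / 10 * llx x + 1 := by
  have h1 := sum_inv_sub_one_le (allPrimes x) fun r hr => allPrimes_prime hr
  linarith [h.total_le hR]

/-- A profile below cell `ℓ`. -/
structure Prof (x : ℝ) (ℓ : ℕ) (k : ℕ → ℕ) (v : ℕ) : Prop where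
  supp : ∀ r ∈ v.primeFactors, cell x r ≤ ℓ ∧ r ∈ allPrimes x
  many : ∀ j ∈ Finset.Ico (halfCell x) ℓ,
    ((k j : ℝ) + 1) * (width x - devBd x - 1) ≤ omegaIn x j v

/-- The slack of a profile. -/
noncomputable def profSlack (x : ℝ) (ℓ : ℕ) (k : ℕ → ℕ) : ℝ :=
  ∑ j ∈ Finset.Ico (halfCell x) ℓ, (1 - ent (k j))

/-- A profile with slack below `-η₁`. -/
def BadProf (x : ℝ) (v : ℕ) : Prop :=
  ∃ ℓ ≤ numCells x, ∃ k : ℕ → ℕ,
    (∀ j, k j ≤ maxLen x + 1) ∧ profSlack x ℓ k < -eta1 x ∧ Prof x ℓ k v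

theorem rankin_profile {x C : ℝ} (hR : UpperRoom x C) (hC0 : 0 ≤ C) (h : CellSum x C) {ℓ : ℕ}
    (hℓ : ℓ ≤ numCells x) {k : ℕ → ℕ} (hk : ∀ j, k j ≤ maxLen x + 1) (V : Finset ℕ)
    (hV : ∀ v ∈ V, 0 < v ∧ Prof x ℓ k v) :
    ∑ v ∈ V, (1 : ℝ) / v ≤ Real.exp (profSlack x ℓ k * width x + profErr x C) := by
  set I := Finset.Ico (halfCell x) ℓ with hI
  set z : ℕ → ℝ := fun j => if j ∈ I then (k j : ℝ) + 1 else 1 with hz
  have hz1 : ∀ j, 1 ≤ z j := fun j => by
    simp only [hz]
    split_ifs <;> simp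
  have hz0 : ∀ j, 0 < z j := fun j => lt_of_lt_of_le one_pos (hz1 j)
  set P := (allPrimes x).filter (fun r => cell x r ≤ ℓ) with hP
  have h1 := rankin_omega (fun r => z (cell x r)) (fun r => (hz0 _).le) P V
    (fun r hr => allPrimes_prime (mem_filter.1 hr).1)
    (fun v hv => ⟨(hV v hv).1, fun r hr =>
      mem_filter.2 ⟨((hV v hv).2.supp r hr).2, ((hV v hv).2.supp r hr).1⟩⟩)
  set W := ∑ j ∈ I, ((k j : ℝ) + 1) * (width x - devBd x - 1) * Real.log ((k j : ℝ) + 1) with hW
  have hlow : ∀ v ∈ V, Real.exp W * ((1 : ℝ) / v)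
      ≤ (∏ r ∈ v.primeFactors, z (cell x r)) / v := by
    intro v hv
    rw [mul_one_div]
    refine div_le_div_of_nonneg_right ?_ (Nat.cast_nonneg _)
    rw [← Real.exp_log (prod_pos fun r _ => hz0 (cell x r)),
      Real.log_prod fun r _ => (hz0 (cell x r)).ne']
    refine Real.exp_le_exp.2 ?_
    have hmap : ∀ r ∈ v.primeFactors, cell x r ∈ Finset.range (ℓ + 1) := fun r hr =>
      mem_range.2 (Nat.lt_succ_of_le ((hV v hv).2.supp r hr).1)
    rw [← sum_fiberwise_of_maps_to hmap]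
    have hsub : I ⊆ Finset.range (ℓ + 1) := fun j hj => by
      simp only [hI, mem_Ico] at hj
      simp only [mem_range]
      omega
    refine le_trans ?_ (sum_le_sum_of_subset_of_nonneg hsub fun j _ _ =>
      sum_nonneg fun r _ => Real.log_nonneg (hz1 _))
    refine sum_le_sum fun j hj => ?_
    have e : ∀ r ∈ v.primeFactors.filter (fun r => cell x r = j),
        Real.log (z (cell x r)) = Real.log ((k j : ℝ) + 1) := by
      intro r hr
      rw [(mem_filter.1 hr).2]
      simp [hz, hj]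
    rw [sum_congr rfl e, sum_const, nsmul_eq_mul]
    exact mul_le_mul_of_nonneg_right ((hV v hv).2.many j hj)
      (Real.log_nonneg (by simp))
  have h2 : Real.exp W * ∑ v ∈ V, (1 : ℝ) / v
      ≤ Real.exp (∑ r ∈ P, z (cell x r) / ((r : ℝ) - 1)) := by
    rw [mul_sum]
    exact (sum_le_sum hlow).trans h1
  have h3 : ∑ r ∈ P, z (cell x r) / ((r : ℝ) - 1)
      ≤ (∑ j ∈ I, ((k j : ℝ) + 1) * (width x + C + 1))
        + ((halfCell x : ℝ) + 1) * (width x + C + 1) := by
    rw [← sum_fiberwise_of_maps_to (g := cell x) (t := Finset.range (ℓ + 1))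
      (fun r hr => mem_range.2 (Nat.lt_succ_of_le (mem_filter.1 hr).2))]
    have hcell : ∀ j ∈ Finset.range (ℓ + 1),
        ∑ r ∈ P.filter (fun r => cell x r = j), z (cell x r) / ((r : ℝ) - 1)
          ≤ z j * (width x + C + 1) := by
      intro j hj
      have hjJ : j ≤ numCells x := (Nat.lt_succ_iff.1 (mem_range.1 hj)).trans hℓ
      refine le_trans ?_ (mul_le_mul_of_nonneg_left (h.inv_sub_one_le hR.width_pos.le hjJ) (hz0 j).le)
      rw [mul_sum, ← allPrimes_filter_cell]
      refine le_trans (le_of_eq (sum_congr rfl fun r hr => ?_))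
        (sum_le_sum_of_subset_of_nonneg (filter_subset_filter _ (filter_subset _ _)) fun r hr _ => ?_)
      · rw [(mem_filter.1 hr).2, mul_one_div]
      · have : (2 : ℝ) ≤ r := by exact_mod_cast (allPrimes_prime (mem_filter.1 hr).1).two_le
        exact mul_nonneg (hz0 j).le (div_nonneg zero_le_one (by linarith))
    refine (sum_le_sum hcell).trans ?_
    have hsub : I ⊆ Finset.range (ℓ + 1) := fun j hj => by
      simp only [hI, mem_Ico] at hj
      simp only [mem_range]
      omega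
    rw [← sum_sdiff hsub, add_comm]
    refine add_le_add (le_of_eq (sum_congr rfl fun j hj => by simp [hz, hj])) ?_
    have e : ∀ j ∈ Finset.range (ℓ + 1) \ I, z j * (width x + C + 1) = width x + C + 1 :=
      fun j hj => by simp [hz, (mem_sdiff.1 hj).2]
    rw [sum_congr rfl e, sum_const, nsmul_eq_mul]
    refine mul_le_mul_of_nonneg_right ?_ (by have := hR.width_pos; linarith)
    have hc : (Finset.range (ℓ + 1) \ I).card ≤ halfCell x + 1 := by
      rw [card_sdiff_of_subset hsub, card_range, hI, Nat.card_Ico]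
      omega
    exact_mod_cast hc
  have h4 : (∑ j ∈ I, ((k j : ℝ) + 1) * (width x + C + 1)) - W
      ≤ profSlack x ℓ k * width x + (numCells x : ℝ) * ((maxLen x : ℝ) + 2)
        * (C + 1 + (devBd x + 1) * Real.log ((maxLen x : ℝ) + 2)) := by
    rw [hW, ← sum_sub_distrib, profSlack, sum_mul]
    have hB : ∀ j ∈ I, ((k j : ℝ) + 1) * (width x + C + 1)
        - ((k j : ℝ) + 1) * (width x - devBd x - 1) * Real.log ((k j : ℝ) + 1)
        ≤ (1 - ent (k j)) * width x + ((maxLen x : ℝ) + 2)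
          * (C + 1 + (devBd x + 1) * Real.log ((maxLen x : ℝ) + 2)) := by
      intro j _
      have hkj : (k j : ℝ) + 1 ≤ (maxLen x : ℝ) + 2 := by
        have : (k j : ℝ) ≤ ((maxLen x + 1 : ℕ) : ℝ) := by exact_mod_cast hk j
        push_cast at this
        linarith
      have hk1 : (1 : ℝ) ≤ (k j : ℝ) + 1 := by simp
      have hlg := Real.log_nonneg hk1
      have hlg2 := Real.log_le_log (by linarith) hkj
      have hD : 0 ≤ devBd x := Real.rpow_nonneg (by linarith [hR.L_ge]) _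
      have key : ((k j : ℝ) + 1) * (C + 1 + (devBd x + 1) * Real.log ((k j : ℝ) + 1))
          ≤ ((maxLen x : ℝ) + 2) * (C + 1 + (devBd x + 1) * Real.log ((maxLen x : ℝ) + 2)) :=
        mul_le_mul hkj (add_le_add le_rfl (mul_le_mul_of_nonneg_left hlg2 (by linarith)))
          (by positivity) (by linarith)
      refine le_trans (le_of_eq ?_) (add_le_add le_rfl key)
      rw [ent]
      ring
    refine (sum_le_sum hB).trans ?_
    rw [sum_add_distrib, sum_const, nsmul_eq_mul, ← mul_assoc]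
    refine add_le_add le_rfl (mul_le_mul_of_nonneg_right (mul_le_mul_of_nonneg_right ?_ (by positivity)) ?_)
    · have : I.card ≤ numCells x := by rw [hI, Nat.card_Ico]; omega
      exact_mod_cast this
    · have := mul_nonneg (show (0 : ℝ) ≤ devBd x + 1 by
        linarith [Real.rpow_nonneg (show (0 : ℝ) ≤ llx x by linarith [hR.L_ge]) (1 / 2 : ℝ),
          show devBd x = llx x ^ (1 / 2 : ℝ) from rfl])
        (Real.log_nonneg (show (1 : ℝ) ≤ (maxLen x : ℝ) + 2 by
          linarith [(maxLen x).cast_nonneg (α := ℝ)]))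
      linarith
  rw [← le_div_iff₀' (Real.exp_pos W), ← Real.exp_sub] at h2
  refine h2.trans (Real.exp_le_exp.2 ?_)
  rw [profErr]
  linarith

/-- Rankin for all bad profiles at once. -/
theorem rankin_bad {x C : ℝ} (hR : UpperRoom x C) (hC0 : 0 ≤ C) (h : CellSum x C) (V : Finset ℕ)
    (hV : ∀ v ∈ V, 0 < v ∧ BadProf x v) :
    ∑ v ∈ V, (1 : ℝ) / v
      ≤ Real.exp (((numCells x : ℝ) + 1) * Real.log (llx x) + profErr x C
        - llx x ^ (24 / 25 : ℝ)) := by
  classical
  set codes := Finset.range (numCells x + 1)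
    ×ˢ Fintype.piFinset (fun _ : Fin (numCells x) => Finset.range (maxLen x + 2)) with hcodes
  set ext' : (Fin (numCells x) → ℕ) → ℕ → ℕ := fun f j => if hj : j < numCells x then f ⟨j, hj⟩ else 0
    with hext
  have hcov : V ⊆ codes.biUnion (fun c => V.filter (fun v =>
      profSlack x c.1 (ext' c.2) < -eta1 x ∧ Prof x c.1 (ext' c.2) v)) := by
    intro v hv
    obtain ⟨ℓ, hℓ, k, hk, hs, hp⟩ := (hV v hv).2
    refine mem_biUnion.2 ⟨(ℓ, fun j => k j), ?_, mem_filter.2 ⟨hv, ?_, ?_⟩⟩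
    · simp only [hcodes, mem_product, mem_range, Fintype.mem_piFinset]
      exact ⟨Nat.lt_succ_of_le hℓ, fun j => Nat.lt_succ_of_le (hk j)⟩
    · refine lt_of_eq_of_lt ?_ hs
      refine sum_congr rfl fun j hj => ?_
      have hjJ : j < numCells x := lt_of_lt_of_le (mem_Ico.1 hj).2 hℓ
      simp [hext, hjJ]
    · refine ⟨hp.supp, fun j hj => ?_⟩
      have hjJ : j < numCells x := lt_of_lt_of_le (mem_Ico.1 hj).2 hℓ
      simpa [hext, hjJ] using hp.many j hj
  have hfib : ∀ c ∈ codes, ∑ v ∈ V.filter (fun v =>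
      profSlack x c.1 (ext' c.2) < -eta1 x ∧ Prof x c.1 (ext' c.2) v), (1 : ℝ) / v
      ≤ Real.exp (profErr x C - llx x ^ (24 / 25 : ℝ)) := by
    intro c hc
    simp only [hcodes, mem_product, mem_range, Fintype.mem_piFinset] at hc
    by_cases hs : profSlack x c.1 (ext' c.2) < -eta1 x
    · refine (rankin_profile hR hC0 h (Nat.lt_succ_iff.1 hc.1) (k := ext' c.2) ?_ _
        fun v hv => ⟨(hV v (mem_filter.1 hv).1).1, (mem_filter.1 hv).2.2⟩).trans ?_
      · intro j
        simp only [hext]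
        split_ifs with hj
        · exact Nat.lt_succ_iff.1 (hc.2 _)
        · exact Nat.zero_le _
      · refine Real.exp_le_exp.2 ?_
        have := mul_le_mul_of_nonneg_right hs.le hR.width_pos.le
        rw [neg_mul, hR.eta_width] at this
        linarith
    · rw [filter_false_of_mem fun v _ hv => hs hv.1, sum_empty]
      exact (Real.exp_pos _).le
  refine (sum_le_sum_of_subset_of_nonneg hcov fun v _ _ => by positivity).trans ?_
  have hbi : ∀ S : Finset (ℕ × (Fin (numCells x) → ℕ)), ∀ F : _ → Finset ℕ,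
      ∑ v ∈ S.biUnion F, (1 : ℝ) / v ≤ ∑ c ∈ S, ∑ v ∈ F c, (1 : ℝ) / v := by
    intro S F
    induction S using Finset.induction with
    | empty => simp
    | insert a S ha ih =>
      rw [biUnion_insert, sum_insert ha]
      have := sum_union_inter (s₁ := F a) (s₂ := S.biUnion F) (f := fun v : ℕ => (1 : ℝ) / v)
      have hpos : 0 ≤ ∑ v ∈ F a ∩ S.biUnion F, (1 : ℝ) / v := sum_nonneg fun v _ => by positivity
      linarith
  refine (hbi _ _).trans ((sum_le_sum hfib).trans ?_)
  rw [sum_const, nsmul_eq_mul, hcodes, card_product, card_range, Fintype.card_piFinset]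
  simp only [card_range, prod_const, card_univ, Fintype.card_fin]
  have hL := hR.L_ge
  have hN : (maxLen x : ℝ) + 2 ≤ llx x := by linarith [hR.len_le]
  have hJ : (numCells x : ℝ) + 1 ≤ llx x := by nlinarith [hR.totmass]
  push_cast
  calc ((numCells x : ℝ) + 1) * ((maxLen x : ℝ) + 2) ^ numCells x
        * Real.exp (profErr x C - llx x ^ (24 / 25 : ℝ))
      ≤ llx x * llx x ^ numCells x * Real.exp (profErr x C - llx x ^ (24 / 25 : ℝ)) := by
        refine mul_le_mul_of_nonneg_right ?_ (Real.exp_pos _).le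
        exact mul_le_mul hJ (pow_le_pow_left₀ (by positivity) hN _) (by positivity) (by linarith)
    _ = Real.exp (((numCells x : ℝ) + 1) * Real.log (llx x))
        * Real.exp (profErr x C - llx x ^ (24 / 25 : ℝ)) := by
        congr 1
        rw [← pow_succ', show ((numCells x : ℝ) + 1) = ((numCells x + 1 : ℕ) : ℝ) by push_cast; rfl,
          Real.exp_nat_mul, Real.exp_log (by linarith)]
    _ = _ := by rw [← Real.exp_add]; congr 1; ring

/-- Euler product for weights of `Ω` that are at most `3 / 2`. -/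
theorem rankin_Omega (w : ℕ → ℝ) (hw : ∀ r, 0 ≤ w r) (hw1 : ∀ r, w r ≤ 3 / 2) (P T : Finset ℕ)
    (hP : ∀ r ∈ P, r.Prime) (hT : ∀ n ∈ T, 0 < n ∧ n.primeFactors ⊆ P) :
    ∑ n ∈ T, wdiv w n ≤ Real.exp ((∑ r ∈ P, w r / r) + 9) := by
  have hmul : ∀ a b : ℕ, wdiv w (a * b) = wdiv w a * wdiv w b := by
    intro a b
    rcases eq_or_ne a 0 with rfl | ha
    · simp [wdiv]
    rcases eq_or_ne b 0 with rfl | hb
    · simp [wdiv]
    have e := wprod_mul w ha hb
    simp only [wprod] at e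
    simp only [wdiv, e, Nat.cast_mul]
    rw [mul_div_mul_comm]
  let f : ℕ →* ℝ :=
    { toFun := wdiv w
      map_one' := by simp [wdiv]
      map_mul' := hmul }
  have hfp : ∀ p : ℕ, p.Prime → f p = w p / p := fun p hp => by
    show wdiv w p = _
    simp [wdiv, Nat.primeFactorsList_prime hp]
  have hlt : ∀ {p : ℕ}, p.Prime → ‖f p‖ < 1 := fun {p} hp => by
    rw [hfp p hp, Real.norm_eq_abs, abs_of_nonneg (div_nonneg (hw p) (Nat.cast_nonneg p)),
      div_lt_one (by exact_mod_cast hp.pos)]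
    have : (2 : ℝ) ≤ p := by exact_mod_cast hp.two_le
    linarith [hw1 p]
  obtain ⟨-, hs⟩ := EulerProduct.summable_and_hasSum_factoredNumbers_prod_filter_prime_geometric
    (f := f) hlt P
  have hnn : ∀ n, 0 ≤ wdiv w n := fun n =>
    div_nonneg (List.prod_nonneg fun y hy => by
      obtain ⟨r, _, rfl⟩ := List.mem_map.mp hy
      exact hw r) (Nat.cast_nonneg n)
  have hmem : ∀ n ∈ T, n ∈ Nat.factoredNumbers P := fun n hn =>
    Nat.mem_factoredNumbers_of_primeFactors_subset (hT n hn).1.ne' (hT n hn).2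
  have h1 : ∑ n ∈ T, wdiv w n ≤ ∏ p ∈ P with p.Prime, (1 - f p)⁻¹ := by
    have h := sum_le_hasSum (T.subtype (· ∈ Nat.factoredNumbers P)) (fun m _ => hnn m) hs
    rw [sum_subtype_eq_sum_filter, filter_true_of_mem hmem] at h
    exact h
  refine h1.trans ?_
  rw [filter_true_of_mem hP]
  have hstep : ∀ p ∈ P, (1 - f p)⁻¹ ≤ Real.exp (w p / p + 9 * (1 / ((p : ℝ) - 1) - 1 / p)) := by
    intro p hp
    rw [hfp p (hP p hp)]
    have h2 : (2 : ℝ) ≤ p := by exact_mod_cast (hP p hp).two_le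
    have hw0 := hw p
    have hy : w p / p ≤ 3 / 4 := by
      rw [div_le_iff₀ (by linarith)]
      linarith [hw1 p]
    have hy0 : 0 ≤ w p / p := div_nonneg hw0 (by linarith)
    have hinv : (1 - w p / p)⁻¹ = 1 + w p / p / (1 - w p / p) := by
      rw [inv_eq_one_div, one_add_div (by linarith), sub_add_cancel]
    rw [hinv, add_comm (1 : ℝ)]
    refine (Real.add_one_le_exp _).trans (Real.exp_le_exp.2 ?_)
    have hsq : (w p / p) ^ 2 * 4 ≤ 9 / ((p : ℝ) * p) := by
      rw [div_pow, div_mul_eq_mul_div, ← pow_two (p : ℝ)]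
      exact div_le_div_of_nonneg_right (by nlinarith [hw1 p]) (by positivity)
    have h9 : 9 / ((p : ℝ) * p) ≤ 9 * (1 / ((p : ℝ) - 1) - 1 / p) := by
      rw [div_sub_div _ _ (by linarith) (by linarith), ← mul_div_assoc]
      refine div_le_div₀ (by linarith) (by linarith) (by nlinarith) (by nlinarith)
    have hdiv : w p / p / (1 - w p / p) ≤ w p / p + (w p / p) ^ 2 * 4 := by
      rw [div_le_iff₀ (by linarith)]
      nlinarith [sq_nonneg (w p / p)]
    linarith
  calc ∏ p ∈ P, (1 - f p)⁻¹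
      ≤ ∏ p ∈ P, Real.exp (w p / p + 9 * (1 / ((p : ℝ) - 1) - 1 / p)) :=
        prod_le_prod (fun p hp => inv_nonneg.mpr (by
          have := hlt (hP p hp)
          rw [Real.norm_eq_abs] at this
          linarith [le_abs_self (f p)])) hstep
    _ = Real.exp (∑ p ∈ P, (w p / p + 9 * (1 / ((p : ℝ) - 1) - 1 / p))) := (Real.exp_sum _ _).symm
    _ ≤ Real.exp ((∑ r ∈ P, w r / r) + 9) := by
        rw [sum_add_distrib, ← mul_sum, sum_sub_distrib]
        have := sum_inv_sub_one_le P hP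
        exact Real.exp_le_exp.mpr (by linarith)

end Vale.Agent.P031
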