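import Vale.Agent.P031.Geometry

/-!
# P031: room between the parameters, for the upper bound
-/

namespace Vale.Agent.P031

open Filter Finset

/-- The error exponent in the Rankin bound for a profile. -/
noncomputable def profErr (x C : ℝ) : ℝ :=
  ((halfCell x : ℝ) + 1) * (width x + C + 1)
    + numCells x * ((maxLen x : ℝ) + 2) * (C + 1 + (devBd x + 1) * Real.log ((maxLen x : ℝ) + 2))

/-- The logarithm of the prefix losses. -/
noncomputable def preLoss (x : ℝ) : ℝ :=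
  (maxLen x : ℝ) * Real.log (3 * llx x) + 5 * Real.log (llx x) + 20

/-- The common gain of all exclusions. -/
noncomputable def upGain (x : ℝ) : ℝ := llx x ^ (1 / 10 : ℝ)

/-- What the upper bound needs from the parameters. -/
structure UpperRoom (x C : ℝ) : Prop where
  one_lt : 1 < x
  exp_L : Real.exp (llx x) = Real.log x
  L_ge : 1000 ≤ llx x
  J_ge : 20 ≤ numCells x
  width_pos : 0 < width x
  J_width : (numCells x : ℝ) * width x = llx x
  cut_ge : 10 ≤ cutCell x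
  cut_lt : 4 * (cutCell x + 1) ≤ numCells x
  len_two : 2 ≤ maxLen x
  len_le : 100 * (maxLen x : ℝ) ≤ llx x
  len_cut : 200 * (numCells x : ℝ) ≤ maxLen x * cutCell x
  gain_le : upGain x ≤ llx x / 10
  eta_le : eta1 x ≤ numCells x / 4
  eta_width : eta1 x * width x = llx x ^ (24 / 25 : ℝ)
  totmass : ((numCells x : ℝ) + 1) * (C + 1) ≤ llx x / 10
  small_part : Real.exp (2 * cutCell x * width x) * (100 * llx x) ≤ Real.exp (llx x)
  top_cell : Real.exp (-(width x)) * (100 * maxLen x) ≤ 1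
  half_huge : 6 * llx x ≤ Real.exp (halfCell x * width x)
  dev_width : devBd x + 1 ≤ width x
  pre_le : preLoss x + upGain x ≤ llx x ^ (3 / 20 : ℝ)
  big : 4 * (profErr x C + 3 / 2 * ((cutCell x : ℝ) + 1) * (width x + C + 1) + preLoss x
      + (numCells x : ℝ) * Real.log (llx x) + upGain x + 20) ≤ llx x ^ (24 / 25 : ℝ)

theorem eventually_const_mul_rpow_le (K : ℝ) {a b : ℝ} (hab : a < b) :
    ∀ᶠ x : ℝ in atTop, K * llx x ^ a ≤ llx x ^ b := by
  have h := (tendsto_rpow_atTop (sub_pos.2 hab)).comp tendsto_llx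
  filter_upwards [h.eventually_ge_atTop K, tendsto_llx.eventually_gt_atTop 0] with x hx hL
  calc K * llx x ^ a ≤ llx x ^ (b - a) * llx x ^ a :=
        mul_le_mul_of_nonneg_right hx (Real.rpow_nonneg hL.le _)
    _ = llx x ^ b := by rw [← Real.rpow_add hL, sub_add_cancel]

theorem profile_room {x C : ℝ} (hC : 0 ≤ C) (hL1 : 1 ≤ llx x)
    (hwhi : width x ≤ llx x ^ (4 / 5 : ℝ))
    (hJhi : (numCells x : ℝ) ≤ 2 * llx x ^ (1 / 5 : ℝ))
    (hlenhi : (maxLen x : ℝ) ≤ 401 * llx x ^ (3 / 50 : ℝ))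
    (hcuthi : (cutCell x : ℝ) ≤ 3 * llx x ^ (7 / 50 : ℝ))
    (hlogL : Real.log (llx x) ≤ 100 * llx x ^ (1 / 100 : ℝ))
    (hloglen : Real.log ((maxLen x : ℝ) + 2) ≤ 100 * llx x ^ (1 / 100 : ℝ)) :
    profErr x C + 3 / 2 * ((cutCell x : ℝ) + 1) * (width x + C + 1)
      + (numCells x : ℝ) * Real.log (llx x) + 81020 * llx x ^ (1 / 10 : ℝ)
      ≤ 2000000 * (C + 2) * llx x ^ (19 / 20 : ℝ) := by
  have hL0 : (0 : ℝ) < llx x := by linarith
  have hw0 : 0 ≤ width x := div_nonneg hL0.le (Nat.cast_nonneg _)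
  have hlogL0 : 0 ≤ Real.log (llx x) := Real.log_nonneg hL1
  set L := llx x with hLdef
  have hmono : ∀ {a b : ℝ}, a ≤ b → L ^ a ≤ L ^ b := fun h =>
    Real.rpow_le_rpow_of_exponent_le hL1 h
  have hone : ∀ {a : ℝ}, 0 ≤ a → (1 : ℝ) ≤ L ^ a := fun h => Real.one_le_rpow hL1 h
  have hC1 : (1 : ℝ) ≤ C + 1 := by linarith
  have hA : L ^ (47 / 50 : ℝ) ≤ L ^ (19 / 20 : ℝ) := hmono (by norm_num)
  have hwC : width x + C + 1 ≤ (C + 2) * L ^ (4 / 5 : ℝ) := by
    have := hone (show (0 : ℝ) ≤ 4 / 5 by norm_num)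
    nlinarith
  have h1 : ((cutCell x : ℝ) + 1) * (width x + C + 1) ≤ 4 * (C + 2) * L ^ (19 / 20 : ℝ) := by
    calc ((cutCell x : ℝ) + 1) * (width x + C + 1)
        ≤ (4 * L ^ (7 / 50 : ℝ)) * ((C + 2) * L ^ (4 / 5 : ℝ)) :=
          mul_le_mul (by linarith [hone (show (0 : ℝ) ≤ 7 / 50 by norm_num)]) hwC
            (by positivity) (by positivity)
      _ = 4 * (C + 2) * L ^ (47 / 50 : ℝ) := by
          rw [show (47 / 50 : ℝ) = 7 / 50 + 4 / 5 by norm_num, Real.rpow_add hL0]; ring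
      _ ≤ _ := mul_le_mul_of_nonneg_left hA (by positivity)
  have h2 : ((halfCell x : ℝ) + 1) * (width x + C + 1) ≤ 4 * (C + 2) * L ^ (19 / 20 : ℝ) :=
    le_trans (mul_le_mul_of_nonneg_right (by
      have : (halfCell x : ℝ) ≤ cutCell x := by exact_mod_cast halfCell_le_cutCell x
      linarith) (by positivity)) h1
  have h3 : (numCells x : ℝ) * ((maxLen x : ℝ) + 2)
      * (C + 1 + (devBd x + 1) * Real.log ((maxLen x : ℝ) + 2))
        ≤ 806 * (201 * (C + 2)) * L ^ (19 / 20 : ℝ) := by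
    have ha : (devBd x + 1) * Real.log ((maxLen x : ℝ) + 2) ≤ 200 * L ^ (51 / 100 : ℝ) := by
      calc (devBd x + 1) * Real.log ((maxLen x : ℝ) + 2)
          ≤ (2 * L ^ (1 / 2 : ℝ)) * (100 * L ^ (1 / 100 : ℝ)) := by
            refine mul_le_mul ?_ hloglen (Real.log_nonneg (by linarith [(maxLen x).cast_nonneg (α := ℝ)])) (by positivity)
            rw [devBd, ← hLdef]
            linarith [hone (show (0 : ℝ) ≤ 1 / 2 by norm_num)]
        _ = 200 * L ^ (51 / 100 : ℝ) := by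
            rw [show (51 / 100 : ℝ) = 1 / 2 + 1 / 100 by norm_num, Real.rpow_add hL0]; ring
    have hb : C + 1 + (devBd x + 1) * Real.log ((maxLen x : ℝ) + 2)
        ≤ 201 * (C + 2) * L ^ (51 / 100 : ℝ) := by
      have := hone (show (0 : ℝ) ≤ 51 / 100 by norm_num)
      nlinarith
    have hc : (numCells x : ℝ) * ((maxLen x : ℝ) + 2) ≤ 806 * L ^ (13 / 50 : ℝ) := by
      calc (numCells x : ℝ) * ((maxLen x : ℝ) + 2)
          ≤ (2 * L ^ (1 / 5 : ℝ)) * (403 * L ^ (3 / 50 : ℝ)) := by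
            refine mul_le_mul hJhi ?_ (by positivity) (by positivity)
            linarith [hone (show (0 : ℝ) ≤ 3 / 50 by norm_num)]
        _ = 806 * L ^ (13 / 50 : ℝ) := by
            rw [show (13 / 50 : ℝ) = 1 / 5 + 3 / 50 by norm_num, Real.rpow_add hL0]; ring
    have h0 : 0 ≤ C + 1 + (devBd x + 1) * Real.log ((maxLen x : ℝ) + 2) := by
      have := mul_nonneg (show (0 : ℝ) ≤ devBd x + 1 by rw [devBd]; positivity)
        (Real.log_nonneg (show (1 : ℝ) ≤ (maxLen x : ℝ) + 2 by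
          linarith [(maxLen x).cast_nonneg (α := ℝ)]))
      linarith
    calc _ ≤ 806 * L ^ (13 / 50 : ℝ) * (201 * (C + 2) * L ^ (51 / 100 : ℝ)) :=
          mul_le_mul hc hb h0 (by positivity)
      _ = 806 * (201 * (C + 2)) * L ^ (77 / 100 : ℝ) := by
          rw [show (77 / 100 : ℝ) = 13 / 50 + 51 / 100 by norm_num, Real.rpow_add hL0]; ring
      _ ≤ _ := mul_le_mul_of_nonneg_left (hmono (by norm_num)) (by positivity)
  have h4 : (numCells x : ℝ) * Real.log L ≤ 200 * L ^ (19 / 20 : ℝ) := by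
    calc (numCells x : ℝ) * Real.log L ≤ (2 * L ^ (1 / 5 : ℝ)) * (100 * L ^ (1 / 100 : ℝ)) :=
          mul_le_mul hJhi hlogL hlogL0 (by positivity)
      _ = 200 * L ^ (21 / 100 : ℝ) := by
          rw [show (21 / 100 : ℝ) = 1 / 5 + 1 / 100 by norm_num, Real.rpow_add hL0]; ring
      _ ≤ _ := mul_le_mul_of_nonneg_left (hmono (by norm_num)) (by norm_num)
  have h5 := hone (show (0 : ℝ) ≤ 19 / 20 by norm_num)
  have h6 : L ^ (1 / 10 : ℝ) ≤ L ^ (19 / 20 : ℝ) := hmono (by norm_num)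
  have h7 : 0 ≤ C * L ^ (19 / 20 : ℝ) := mul_nonneg hC (by linarith)
  rw [profErr]
  linarith

theorem small_part_room {x L : ℝ} (hL0 : 0 < L) (hL : 1000 ≤ L)
    (hwpos : 0 < width x) (hwhi : width x ≤ L ^ (4 / 5 : ℝ))
    (hcuthi : (cutCell x : ℝ) ≤ 3 * L ^ (7 / 50 : ℝ)) (hsmall : 12 * L ^ (47 / 50 : ℝ) ≤ L) :
    Real.exp (2 * cutCell x * width x) * (100 * L) ≤ Real.exp L := by
  have h1 : 2 * (cutCell x : ℝ) * width x ≤ L / 2 := by
    calc 2 * (cutCell x : ℝ) * width x ≤ 2 * (3 * L ^ (7 / 50 : ℝ)) * L ^ (4 / 5 : ℝ) :=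
          mul_le_mul (by linarith) hwhi hwpos.le (by positivity)
      _ = 6 * L ^ (47 / 50 : ℝ) := by
          rw [show (47 / 50 : ℝ) = 7 / 50 + 4 / 5 by norm_num, Real.rpow_add hL0]; ring
      _ ≤ L / 2 := by linarith
  have h2 : 100 * L ≤ Real.exp (L / 2) := by
    have := Real.quadratic_le_exp_of_nonneg (show 0 ≤ L / 2 by linarith)
    nlinarith
  calc Real.exp (2 * cutCell x * width x) * (100 * L)
      ≤ Real.exp (L / 2) * Real.exp (L / 2) :=
        mul_le_mul (Real.exp_le_exp.2 h1) h2 (by linarith) (Real.exp_pos _).le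
    _ = Real.exp L := by rw [← Real.exp_add]; congr 1; ring

theorem top_cell_room {x L : ℝ} (hL0 : 0 < L) (hwpos : 0 < width x)
    (hwlo : L ^ (4 / 5 : ℝ) / 2 ≤ width x) (hdev : 4 * L ^ (1 / 2 : ℝ) ≤ L ^ (4 / 5 : ℝ))
    (hlen : (maxLen x : ℝ) * 200 ≤ L) :
    Real.exp (-(width x)) * (100 * maxLen x) ≤ 1 := by
  rw [Real.exp_neg, inv_mul_le_iff₀ (Real.exp_pos _), mul_one]
  have h1 : L ^ (1 / 2 : ℝ) ≤ width x := by
    linarith [Real.rpow_nonneg hL0.le (1 / 2 : ℝ)]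
  have h2 := Real.quadratic_le_exp_of_nonneg hwpos.le
  have h3 : L ≤ width x ^ 2 := by
    calc L = (L ^ (1 / 2 : ℝ)) ^ 2 := by
          rw [← Real.rpow_natCast, ← Real.rpow_mul hL0.le]; norm_num
      _ ≤ width x ^ 2 := pow_le_pow_left₀ (by positivity) h1 2
  have h4 : (200 : ℝ) * maxLen x ≤ L := by linarith only [hlen]
  nlinarith

theorem half_huge_room {x L : ℝ} (hL0 : 0 < L) (hL : 1000 ≤ L)
    (hwlo : L ^ (4 / 5 : ℝ) / 2 ≤ width x) (hcutlo : L ^ (7 / 50 : ℝ) ≤ cutCell x) :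
    6 * L ≤ Real.exp (halfCell x * width x) := by
  have hw0 : 0 ≤ width x := le_trans (by positivity) hwlo
  have h1 : L ^ (47 / 50 : ℝ) / 4 ≤ halfCell x * width x := by
    have hh : (cutCell x : ℝ) / 2 ≤ halfCell x := by
      have : (cutCell x : ℝ) ≤ 2 * halfCell x := by
        exact_mod_cast (show cutCell x ≤ 2 * halfCell x by unfold halfCell; omega)
      linarith
    calc L ^ (47 / 50 : ℝ) / 4 = L ^ (7 / 50 : ℝ) / 2 * (L ^ (4 / 5 : ℝ) / 2) := by
          rw [show (47 / 50 : ℝ) = 7 / 50 + 4 / 5 by norm_num, Real.rpow_add hL0]; ring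
      _ ≤ halfCell x * width x := mul_le_mul (by linarith) hwlo (by positivity) (by positivity)
  refine le_trans ?_ (Real.exp_le_exp.2 h1)
  have h2 := Real.quadratic_le_exp_of_nonneg (show 0 ≤ L ^ (47 / 50 : ℝ) / 4 by positivity)
  have h3 : L ^ (47 / 50 : ℝ) * L ^ (47 / 50 : ℝ) = L * L ^ (22 / 25 : ℝ) := by
    rw [← Real.rpow_add hL0]
    nth_rewrite 2 [← Real.rpow_one L]
    rw [← Real.rpow_add hL0]
    norm_num
  have h4 : (200 : ℝ) ≤ L ^ (22 / 25 : ℝ) := by
    calc (200 : ℝ) ≤ (1000 : ℝ) ^ (22 / 25 : ℝ) := by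
          calc (200 : ℝ) = 200 := rfl
            _ ≤ (1000 : ℝ) ^ (4 / 5 : ℝ) := by
              rw [← Real.rpow_le_rpow_iff (by norm_num) (by positivity)
                (show (0 : ℝ) < 5 by norm_num), ← Real.rpow_mul (by norm_num)]
              norm_num
            _ ≤ _ := Real.rpow_le_rpow_of_exponent_le (by norm_num) (by norm_num)
      _ ≤ L ^ (22 / 25 : ℝ) := Real.rpow_le_rpow (by norm_num) hL (by norm_num)
  have h5 : L * 200 ≤ L * L ^ (22 / 25 : ℝ) := mul_le_mul_of_nonneg_left h4 hL0.le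
  nlinarith only [h2, h3, h5, hL]

theorem eventually_upperRoom (C : ℝ) (hC : 0 ≤ C) : ∀ᶠ x : ℝ in atTop, UpperRoom x C := by
  filter_upwards [eventually_gt_atTop 1, Real.tendsto_log_atTop.eventually_gt_atTop 0,
    tendsto_llx.eventually_ge_atTop 1000,
    eventually_const_mul_rpow_le 20 (show (0 : ℝ) < 1 / 5 by norm_num),
    eventually_const_mul_rpow_le 10 (show (0 : ℝ) < 7 / 50 by norm_num),
    eventually_const_mul_rpow_le 4 (show (0 : ℝ) < 1 / 25 by norm_num),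
    eventually_const_mul_rpow_le 20 (show (7 / 50 : ℝ) < 1 / 5 by norm_num),
    eventually_const_mul_rpow_le 81000 (show (3 / 50 : ℝ) < 1 by norm_num),
    eventually_const_mul_rpow_le 10 (show (1 / 10 : ℝ) < 1 by norm_num),
    eventually_const_mul_rpow_le (30 * (C + 1)) (show (1 / 5 : ℝ) < 1 by norm_num),
    eventually_const_mul_rpow_le 12 (show (47 / 50 : ℝ) < 1 by norm_num),
    eventually_const_mul_rpow_le 40 (show (1 / 10 : ℝ) < 47 / 50 by norm_num),
    eventually_const_mul_rpow_le 20 (show (1 / 100 : ℝ) < 1 / 10 by norm_num),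
    eventually_const_mul_rpow_le 4 (show (1 / 2 : ℝ) < 4 / 5 by norm_num),
    eventually_const_mul_rpow_le 810000 (show (1 / 10 : ℝ) < 3 / 20 by norm_num),
    eventually_const_mul_rpow_le (4 * (2000000 * (C + 2)))
      (show (19 / 20 : ℝ) < 24 / 25 by norm_num)]
    with x hx1 hlx hL hJ20 hcut10 heta hcut hlen hgain hmass hsmall htop hlog4 hdev hpre hbig
  have hL0 : (0 : ℝ) < llx x := by linarith
  have hL1 : (1 : ℝ) ≤ llx x := by linarith
  rw [Real.rpow_zero, mul_one] at hJ20 hcut10 heta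
  rw [Real.rpow_one] at hlen hgain hmass hsmall
  set L := llx x with hLdef
  have hmono : ∀ {a b : ℝ}, a ≤ b → L ^ a ≤ L ^ b := fun h =>
    Real.rpow_le_rpow_of_exponent_le hL1 h
  have hone : ∀ {a : ℝ}, 0 ≤ a → (1 : ℝ) ≤ L ^ a := fun h => Real.one_le_rpow hL1 h
  have hexpL : Real.exp L = Real.log x := by rw [hLdef, llx, Real.exp_log hlx]
  have hJlo : L ^ (1 / 5 : ℝ) ≤ numCells x := Nat.le_ceil _
  have hJhi : (numCells x : ℝ) ≤ 2 * L ^ (1 / 5 : ℝ) := by
    have h1 : (numCells x : ℝ) ≤ L ^ (1 / 5 : ℝ) + 1 :=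
      (Nat.ceil_lt_add_one (Real.rpow_nonneg hL0.le _)).le
    linarith only [h1, hone (show (0 : ℝ) ≤ 1 / 5 by norm_num)]
  have hJpos : (0 : ℝ) < numCells x := lt_of_lt_of_le (Real.rpow_pos_of_pos hL0 _) hJlo
  have hwid : width x = L / numCells x := rfl
  have hJw : (numCells x : ℝ) * width x = L := by rw [hwid]; field_simp
  have hwpos : 0 < width x := by rw [hwid]; positivity
  have hwhi : width x ≤ L ^ (4 / 5 : ℝ) := by
    rw [hwid, div_le_iff₀ hJpos]
    calc L = L ^ (4 / 5 : ℝ) * L ^ (1 / 5 : ℝ) := by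
          rw [← Real.rpow_add hL0]; norm_num
      _ ≤ L ^ (4 / 5 : ℝ) * numCells x :=
          mul_le_mul_of_nonneg_left hJlo (Real.rpow_nonneg hL0.le _)
  have hwlo : L ^ (4 / 5 : ℝ) / 2 ≤ width x := by
    rw [hwid, le_div_iff₀ hJpos]
    calc L ^ (4 / 5 : ℝ) / 2 * numCells x ≤ L ^ (4 / 5 : ℝ) / 2 * (2 * L ^ (1 / 5 : ℝ)) :=
          mul_le_mul_of_nonneg_left hJhi (by positivity)
      _ = L ^ (4 / 5 : ℝ) * L ^ (1 / 5 : ℝ) := by ring
      _ = L := by rw [← Real.rpow_add hL0]; norm_num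
  have hcutlo : L ^ (7 / 50 : ℝ) ≤ cutCell x := by
    refine le_trans ?_ (Nat.le_ceil _)
    calc L ^ (7 / 50 : ℝ) = L ^ (1 / 5 : ℝ) * L ^ (-(3 / 50) : ℝ) := by
          rw [← Real.rpow_add hL0]; norm_num
      _ ≤ numCells x * llx x ^ (-(3 / 50) : ℝ) :=
          mul_le_mul_of_nonneg_right hJlo (Real.rpow_nonneg hL0.le _)
  have hcuthi : (cutCell x : ℝ) ≤ 3 * L ^ (7 / 50 : ℝ) := by
    have h1 : (cutCell x : ℝ) ≤ numCells x * L ^ (-(3 / 50) : ℝ) + 1 :=
      (Nat.ceil_lt_add_one (by positivity)).le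
    have h2 : (numCells x : ℝ) * L ^ (-(3 / 50) : ℝ) ≤ 2 * L ^ (7 / 50 : ℝ) := by
      calc (numCells x : ℝ) * L ^ (-(3 / 50) : ℝ)
          ≤ 2 * L ^ (1 / 5 : ℝ) * L ^ (-(3 / 50) : ℝ) :=
            mul_le_mul_of_nonneg_right hJhi (Real.rpow_nonneg hL0.le _)
        _ = 2 * L ^ (7 / 50 : ℝ) := by rw [mul_assoc, ← Real.rpow_add hL0]; norm_num
    linarith only [h1, h2, hone (show (0 : ℝ) ≤ 7 / 50 by norm_num)]
  have hcutpos : (0 : ℝ) < cutCell x := lt_of_lt_of_le (Real.rpow_pos_of_pos hL0 _) hcutlo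
  have hlenlo : 200 * (numCells x : ℝ) ≤ maxLen x * cutCell x := by
    rw [← div_le_iff₀ hcutpos]
    exact Nat.le_ceil _
  have hlenhi : (maxLen x : ℝ) ≤ 401 * L ^ (3 / 50 : ℝ) := by
    have h1 : (maxLen x : ℝ) ≤ 200 * numCells x / cutCell x + 1 :=
      (Nat.ceil_lt_add_one (by positivity)).le
    have h2 : 200 * (numCells x : ℝ) / cutCell x ≤ 400 * L ^ (3 / 50 : ℝ) := by
      rw [div_le_iff₀ hcutpos]
      calc 200 * (numCells x : ℝ) ≤ 400 * (L ^ (3 / 50 : ℝ) * L ^ (7 / 50 : ℝ)) := by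
            rw [← Real.rpow_add hL0]; norm_num; linarith only [hJhi]
        _ = 400 * L ^ (3 / 50 : ℝ) * L ^ (7 / 50 : ℝ) := by ring
        _ ≤ 400 * L ^ (3 / 50 : ℝ) * cutCell x :=
            mul_le_mul_of_nonneg_left hcutlo (by positivity)
    linarith only [h1, h2, hone (show (0 : ℝ) ≤ 3 / 50 by norm_num)]
  have hlogL : Real.log L ≤ 100 * L ^ (1 / 100 : ℝ) := by
    have := Real.log_le_rpow_div hL0.le (show (0 : ℝ) < 1 / 100 by norm_num)
    linarith
  have hlogL0 : 0 ≤ Real.log L := Real.log_nonneg hL1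
  have hlog3 : Real.log (3 * L) ≤ 200 * L ^ (1 / 100 : ℝ) := by
    rw [Real.log_mul (by norm_num) hL0.ne']
    have h3 : Real.log 3 ≤ 2 := by
      have := Real.log_le_sub_one_of_pos (show (0 : ℝ) < 3 by norm_num)
      linarith
    linarith only [h3, hlogL, hone (show (0 : ℝ) ≤ 1 / 100 by norm_num)]
  have hlen2 : (maxLen x : ℝ) + 2 ≤ L := by linarith only [hlenhi, hlen, hL]
  have hloglen : Real.log ((maxLen x : ℝ) + 2) ≤ 100 * L ^ (1 / 100 : ℝ) :=
    (Real.log_le_log (by positivity) hlen2).trans hlogL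
  have hpreloss : preLoss x + upGain x ≤ 81000 * L ^ (1 / 10 : ℝ) := by
    have h1 : (maxLen x : ℝ) * Real.log (3 * L) ≤ 80200 * L ^ (1 / 10 : ℝ) := by
      calc (maxLen x : ℝ) * Real.log (3 * L)
          ≤ 401 * L ^ (3 / 50 : ℝ) * (200 * L ^ (1 / 100 : ℝ)) :=
            mul_le_mul hlenhi hlog3 (Real.log_nonneg (by linarith)) (by positivity)
        _ = 80200 * L ^ (7 / 100 : ℝ) := by
            rw [show (7 / 100 : ℝ) = 3 / 50 + 1 / 100 by norm_num, Real.rpow_add hL0]; ring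
        _ ≤ 80200 * L ^ (1 / 10 : ℝ) := by
            linarith [hmono (show (7 / 100 : ℝ) ≤ 1 / 10 by norm_num)]
    rw [preLoss, upGain, ← hLdef]
    linarith [hmono (show (1 / 100 : ℝ) ≤ 1 / 10 by norm_num),
      hone (show (0 : ℝ) ≤ 1 / 10 by norm_num)]
  refine
    { one_lt := hx1
      exp_L := hexpL
      L_ge := hL
      J_ge := by exact_mod_cast hJ20.trans hJlo
      width_pos := hwpos
      J_width := hJw
      cut_ge := by exact_mod_cast hcut10.trans hcutlo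
      cut_lt := ?_
      len_two := ?_
      len_le := by linarith only [hlenhi, hlen, hL0]
      len_cut := hlenlo
      gain_le := by rw [upGain, ← hLdef]; linarith only [hgain]
      eta_le := ?_
      eta_width := ?_
      totmass := ?_
      small_part := ?_
      top_cell := ?_
      half_huge := ?_
      dev_width := ?_
      pre_le := ?_
      big := ?_ }
  · have h : 4 * ((cutCell x : ℝ) + 1) ≤ numCells x := by
      linarith only [hcuthi, hcut, hJlo, hone (show (0 : ℝ) ≤ 7 / 50 by norm_num)]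
    exact_mod_cast h
  · have h : (2 : ℝ) ≤ maxLen x := by
      have h1 : (cutCell x : ℝ) ≤ numCells x := by
        linarith only [hcuthi, hcut, hJlo, hone (show (0 : ℝ) ≤ 7 / 50 by norm_num)]
      by_contra hlt
      have h2 : (maxLen x : ℝ) * cutCell x ≤ 2 * cutCell x :=
        mul_le_mul_of_nonneg_right (not_le.1 hlt).le hcutpos.le
      linarith only [h1, h2, hlenlo, hJpos]
    exact_mod_cast h
  · rw [eta1, ← hLdef, Real.rpow_neg hL0.le, div_eq_mul_inv]
    refine mul_le_mul_of_nonneg_left ?_ hJpos.le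
    exact inv_anti₀ (by norm_num) heta
  · rw [eta1, ← hLdef, mul_right_comm, hJw]
    nth_rewrite 1 [← Real.rpow_one L]
    rw [← Real.rpow_add hL0]
    norm_num
  · have h1 := hone (show (0 : ℝ) ≤ 1 / 5 by norm_num)
    have h2 := mul_le_mul_of_nonneg_right (show (numCells x : ℝ) + 1 ≤ 3 * L ^ (1 / 5 : ℝ) by
      linarith only [h1, hJhi]) (show 0 ≤ C + 1 by linarith only [hC])
    linarith only [h2, hmass]
  · exact small_part_room hL0 hL hwpos hwhi hcuthi hsmall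
  · exact top_cell_room hL0 hwpos hwlo hdev (by linarith only [hlenhi, hlen, hmono (show (3 / 50 : ℝ) ≤ 3 / 50 from le_rfl), hL])
  · exact half_huge_room hL0 hL hwlo hcutlo
  · rw [devBd, ← hLdef]
    linarith only [hdev, hwlo, hone (show (0 : ℝ) ≤ 1 / 2 by norm_num)]
  · linarith only [hpreloss, hpre, hone (show (0 : ℝ) ≤ 1 / 10 by norm_num)]
  · have h := profile_room hC hL1 hwhi hJhi hlenhi hcuthi hlogL hloglen
    linarith only [h, hpreloss, hbig, hone (show (0 : ℝ) ≤ 1 / 10 by norm_num)]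

end Vale.Agent.P031
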